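import Vale.Agent.P236KE.Main
import Vale.Agent.P236EL.Sm

/-!
# P236KE / Sph : a resolution of the unit from checked data
-/

noncomputable section

namespace Vale.Agent.P236KE

open MvPolynomial Vale.Agent.P236EL Vale.Agent.P236K2

/-- the data of a resolution of the unit -/
structure Sq : Type where
  /-- packed numbers of generators -/
  nn : ℕ
  /-- packed degrees of the generators -/
  dl : List ℕ
  /-- the matrices -/
  Dl : List DLL
  s3 : ℕ
  s4 : ℕ
  h0 : dl.getD 0 0 = 0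

namespace Sq

variable (S : Sq)

/-- the number of generators in homological degree `q` -/
def n (q : ℕ) : ℕ := byte S.nn q
/-- the packed degrees of the generators in homological degree `q` -/
def d (q : ℕ) : ℕ := S.dl.getD q 0
/-- the matrix number `q` -/
def D (q : ℕ) : DLL := S.Dl.getD q DLL.nil

/-- one cell, then the generators -/
def gn : ℕ → ℕ
  | 0 => 1
  | q + 1 => S.n q

/-- the index sets -/
abbrev G (q : ℕ) : Type := Fin (S.gn q)

instance : Unique (S.G 0) := inferInstanceAs (Unique (Fin 1))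

/-- the degrees -/
def dg : (q : ℕ) → S.G q → ℕ
  | 0, _ => 0
  | q + 1, w => byte (S.d q) w

theorem dg_one (w : S.G 1) : S.dg 1 w = 0 := by
  change byte (S.dl.getD 0 0) w = 0
  rw [S.h0]
  simp [byte]

variable [Fact (Nat.Prime 3)]

/-- the resolution -/
def rs (L : Type) [CommRing L] : Rs 3 L S.G where
  deg q w := S.dg q w
  th _ _ := 1
  e _ _ := 1
  y q w w' := yOf L (S.D q) (S.d q) (S.d (q + 1)) S.s3 S.s4 w w'
  hth _ _ := SetLike.one_mem_graded (ext 3 (WA 3 L))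
  he _ w := by
    rw [S.dg_one]
    exact SetLike.one_mem_graded (ext 3 (WA 3 L))
  hy _ _ _ := homR_yOf _ _ _ _ _ _ _
  coc _ _ := by simp

omit [Fact (Nat.Prime 3)] in
/-- the data of the group checks belong to the matrix number `q` -/
structure Lo (a : Bs) (T q : ℕ) : Prop where
  lo : a.lo = S.D q
  dlo : a.dlo = S.d q
  s3 : a.s3 = S.s3
  s4 : a.s4 = S.s4
  tt : a.tt = T
  ok : BsOk a (S.d (q + 1)) (S.n (q + 1))

omit [Fact (Nat.Prime 3)] in
/-- the checks of the curvature -/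
def KQ (T q : ℕ) : Prop := ∃ a gs, S.Lo a T q ∧ a.up = S.D (q + 1) ∧ a.dup = S.d (q + 2) ∧
  AllB (okK a) gs ∧ cov gs 15 (S.n q) (S.n (q + 2)) cf3.dv a.dlo a.dup a.tt = true

omit [Fact (Nat.Prime 3)] in
/-- the checks of the leading terms -/
def GQ (T q : ℕ) (z : Gb) (dz nG : ℕ) : Prop := ∃ a gs, S.Lo a T q ∧ a.dup = dz ∧
  AllB (okG a z) gs ∧ cov gs 1 (S.n q) nG cf3.dv a.dlo a.dup a.tt = true ∧
  gbOk z a.dlo a.dup nG a.tt = true

variable {S} {L : Type} [CommRing L]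

theorem k1 (h9 : (9 : L) = 0) {T Q : ℕ} (h1 : ∀ w < S.n 1, 0 < byte (S.d 1) w)
    (hK : ∀ q, q + 1 < Q → S.KQ T q) : (S.rs L).K1 (II 3 L ^ 3) Q T := by
  refine ⟨fun c w' => Ideal.sum_mem _ fun w _ => ?_, fun q hq w w'' E hE => ?_⟩
  · have h2 : (S.rs L).e c w = monomial 0 1 := rfl
    have h3 : (S.rs L).y 0 w w' 0 = 0 := by
      change yOf L (S.D 0) (S.d 0) (S.d 1) S.s3 S.s4 w w' 0 = 0
      have h4 := h1 w' w'.2
      have h5 : byte (S.d 0) w = 0 := S.dg_one w
      rw [yOf]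
      exact Finset.sum_eq_zero fun U _ => if_neg (by rw [map_zero, h5]; omega)
    rw [h2, rAp_monomial, h3, map_zero, mul_zero]
    exact zero_mem _
  · obtain ⟨a, gs, ⟨a1, a2, a3, a4, a5, a6⟩, a7, a8, a9, a10⟩ := hK q hq
    have h2 := cv_mem h9 a6 a9 a10 w.2 w''.2 E (by
      change _ + (byte (S.d q) w : ℤ) ≤ _ at hE
      rw [show wz 3 = fun i => (wt 3 i : ℤ) from rfl, weight_cast] at hE
      rw [a2, a5]
      omega)
    rw [cv, a1, a2, a3, a4, a7, a8] at h2
    exact h2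

omit [Fact (Nat.Prime 3)] in
/-- the packed numbers of standard monomials -/
def pn (n dd : ℕ) (lts : ℕ → List (List ℕ)) : ℕ :=
  ((List.range n).map fun w => (2 ^ 28) ^ byte dd w * pk (2 ^ 28) ds12 (lts w)).sum

omit [Fact (Nat.Prime 3)] in
theorem pn_eq (q : ℕ) (lts : ℕ → List (List ℕ)) :
    PN (2 ^ 28) (S.dg (q + 1)) (fun w => lts w) = pn (S.n q) (S.d q) lts := by
  rw [pn, sum_list_range, Finset.sum_range]
  rfl

omit [Fact (Nat.Prime 3)] in
theorem gn_le (q : ℕ) : S.gn q ≤ 255 := by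
  rcases q with _ | q
  · exact (by decide : 1 ≤ 255)
  · exact Nat.and_le_right

omit [Fact (Nat.Prime 3)] in
/-- the checks of the leading terms and of the numbers of standard monomials; `c q` is the packed
number of standard monomials -/
structure CQ (S : Sq) (T : ℕ) (z : ℕ → Gb) (dz nG c : ℕ → ℕ) (q : ℕ) : Prop where
  gq : S.GQ T q (z q) (dz q) (nG q)
  pn : pn (S.n q) (S.d q) (ltsOf (z q) (S.d q) (dz q) (nG q)) = c q

/-- **The data give a resolution.** -/
theorem ok (h9 : (9 : L) = 0) {F : Type} [Field F] [CharP F 3] {π : L →+* F}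
    (hs : Function.Surjective π) (hk : RingHom.ker π ≤ Ideal.span {((3 : ℕ) : L)}) {T Q : ℕ}
    (hT : T < 117) (hQ : 0 < Q) (h0 : 0 < S.n 0) (h1 : ∀ w < S.n 1, 0 < byte (S.d 1) w)
    (hK : ∀ q, q + 1 < Q → S.KQ T q) {z : ℕ → Gb} {dz nG c : ℕ → ℕ}
    (hG : ∀ q < Q, S.CQ T z dz nG c q) (hc0 : ckD (2 ^ 28) (c 0) 0 1 (T + 1) = true)
    (hc : ∀ q, q + 1 < Q → ckD (2 ^ 28) (c (q + 1)) (c q) (pn (S.n q) (S.d q) fun _ => [])
      (T + 1) = true) : (S.rs L).Ok π 3 Q T := by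
  refine ⟨hs, hk, k1 h9 h1 hK, K2_of_GB (dg := S.dg) (fun _ _ => rfl) (r := 3) (T := T + 1)
    (by omega) (by omega) (by omega) (by simpa using k1 h9 h1 hK) (κ := fun q w => (z q).kap w)
    (lam := fun _ => lamF) (fun _ => lamF_lt)
    (lts := fun q w => ltsOf (z q) (S.d q) (dz q) (nG q) w) (fun q hq w => ?_) (B := 2 ^ 28)
    (fun q => ?_) (fun b hb => ?_) ?_ fun q hq => ?_⟩
  · obtain ⟨a, gs, ⟨a1, a2, a3, a4, a5, a6⟩, a7, a8, a9, a10⟩ := (hG q (by omega)).gq
    have h2 := gb_of h9 π a6 a8 a9 a10 w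
    rw [a1, a2, a3, a4, a7] at h2
    exact h2
  · have := S.gn_le q
    rw [Fintype.card_fin]
    omega
  · funext c
    have h2 := hb ⟨0, h0⟩
    rw [Fintype.sum_unique, show (S.rs L).e _ _ = 1 from rfl, map_one, mul_one, C_eq_zero] at h2
    rw [Unique.eq_default c]
    exact h2
  · rw [pn_eq 0 (ltsOf _ _ _ _), (hG 0 hQ).pn, Fintype.sum_unique]
    exact hc0
  · rw [pn_eq (q + 1) (ltsOf _ _ _ _), pn_eq q (ltsOf _ _ _ _), pn_eq q fun _ => [],
      (hG q (by omega)).pn, (hG (q + 1) hq).pn]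
    exact hc q hq

end Sq

end Vale.Agent.P236KE

end
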