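import Vale.Agent.P236KE.Blk
import Vale.Agent.P236K2.Dig
import Vale.Agent.P236EL.Ops

/-!
# P236KE / Y : the differentials read off the data, and the structure maps as lists of terms
-/

noncomputable section

namespace Vale.Agent.P236KE

open MvPolynomial Vale.Agent.P236EL

/-- the weight of a vector of four exponents -/
def wt4 (e : Q4) : ℕ := e.1 + 4 * e.2.1 + 13 * e.2.2.1 + 40 * e.2.2.2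

/-- the length of a vector of four exponents -/
def len4 (e : Q4) : ℕ := e.1 + e.2.1 + e.2.2.1 + e.2.2.2

/-- the monomial with four exponents -/
def m4 (e : Q4) : ℕ →₀ ℕ := Vale.Agent.P236K2.mk4 e.1 e.2.1 e.2.2.1 e.2.2.2

/-- the fifteen monomials of length less than three -/
def vl : List Q4 :=
  [(0, 0, 0, 0), (1, 0, 0, 0), (0, 1, 0, 0), (0, 0, 1, 0), (0, 0, 0, 1), (2, 0, 0, 0),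
   (1, 1, 0, 0), (0, 2, 0, 0), (1, 0, 1, 0), (0, 1, 1, 0), (0, 0, 2, 0), (1, 0, 0, 1),
   (0, 1, 0, 1), (0, 0, 1, 1), (0, 0, 0, 2)]

/-- the monomial number `U` -/
def vm (U : ℕ) : Q4 := vl.getD U 0

/-- the matrix of functionals given by the data `D`, the packed degrees `dl`, `du` and the
strides `s3`, `s4` -/
def yOf (L : Type) [CommRing L] (D : DLL) (dl du s3 s4 w w' : ℕ) (E : ℕ →₀ ℕ) : AA L :=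
  ∑ U ∈ Finset.range 15,
    if Finsupp.weight (wt 3) E + byte dl w = wt4 (vm U) + byte du w' then
      monomial (m4 (vm U)) (yc D w U w' (E 1 + (s3 * E 2 + s4 * E 3)) : L) else 0

/-- a term: coefficient, exponents of the `v`, of the first arrow, of the second arrow -/
structure DT : Type where
  c : ℕ
  v : Q4
  x : Q4
  y : Q4

/-- the value of a term in the functions of one arrow -/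
def DT.ev1 (L : Type) [CommRing L] (τ : DT) : GG L :=
  monomial (m4 τ.x) (monomial (m4 τ.v) (τ.c : L))

/-- the value of a term in the functions of two arrows -/
def DT.ev2 (L : Type) [CommRing L] (τ : DT) : MvPolynomial ℕ (GG L) :=
  monomial (m4 τ.y) (τ.ev1 L)

/-- the diagonal of `t_1` modulo the cube of the ideal -/
def dl1 : List DT :=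
  [⟨1, (0, 0, 0, 0), (0, 0, 0, 0), (1, 0, 0, 0)⟩, ⟨1, (0, 0, 0, 0), (1, 0, 0, 0), (0, 0, 0, 0)⟩]

/-- the diagonal of `t_2` modulo the cube of the ideal -/
def dl2 : List DT :=
  [⟨1, (0, 0, 0, 0), (0, 0, 0, 0), (0, 1, 0, 0)⟩, ⟨1, (0, 0, 0, 0), (1, 0, 0, 0), (3, 0, 0, 0)⟩,
   ⟨1, (0, 0, 0, 0), (0, 1, 0, 0), (0, 0, 0, 0)⟩, ⟨8, (1, 0, 0, 0), (1, 0, 0, 0), (2, 0, 0, 0)⟩,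
   ⟨8, (1, 0, 0, 0), (2, 0, 0, 0), (1, 0, 0, 0)⟩]

/-- the diagonal of `t_3` modulo the cube of the ideal -/
def dl3 : List DT :=
  [⟨1, (0, 0, 0, 0), (0, 0, 0, 0), (0, 0, 1, 0)⟩, ⟨1, (0, 0, 0, 0), (1, 0, 0, 0), (0, 3, 0, 0)⟩,
   ⟨1, (0, 0, 0, 0), (0, 1, 0, 0), (9, 0, 0, 0)⟩, ⟨1, (0, 0, 0, 0), (0, 0, 1, 0), (0, 0, 0, 0)⟩,
   ⟨8, (1, 0, 0, 0), (1, 0, 0, 0), (3, 2, 0, 0)⟩, ⟨8, (1, 0, 0, 0), (0, 1, 0, 0), (0, 2, 0, 0)⟩,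
   ⟨1, (2, 0, 0, 0), (1, 0, 0, 0), (2, 2, 0, 0)⟩, ⟨1, (2, 0, 0, 0), (2, 0, 0, 0), (1, 2, 0, 0)⟩,
   ⟨8, (1, 0, 0, 0), (2, 0, 0, 0), (6, 1, 0, 0)⟩, ⟨7, (1, 0, 0, 0), (1, 1, 0, 0), (3, 1, 0, 0)⟩,
   ⟨2, (2, 0, 0, 0), (2, 0, 0, 0), (5, 1, 0, 0)⟩, ⟨2, (2, 0, 0, 0), (3, 0, 0, 0), (4, 1, 0, 0)⟩,
   ⟨8, (1, 0, 0, 0), (0, 2, 0, 0), (0, 1, 0, 0)⟩, ⟨2, (2, 0, 0, 0), (1, 1, 0, 0), (2, 1, 0, 0)⟩,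
   ⟨2, (2, 0, 0, 0), (2, 1, 0, 0), (1, 1, 0, 0)⟩, ⟨8, (1, 0, 0, 0), (2, 1, 0, 0), (6, 0, 0, 0)⟩,
   ⟨1, (2, 0, 0, 0), (3, 0, 0, 0), (8, 0, 0, 0)⟩, ⟨1, (2, 0, 0, 0), (4, 0, 0, 0), (7, 0, 0, 0)⟩,
   ⟨8, (1, 0, 0, 0), (1, 2, 0, 0), (3, 0, 0, 0)⟩, ⟨2, (2, 0, 0, 0), (2, 1, 0, 0), (5, 0, 0, 0)⟩,
   ⟨2, (2, 0, 0, 0), (3, 1, 0, 0), (4, 0, 0, 0)⟩, ⟨1, (2, 0, 0, 0), (1, 2, 0, 0), (2, 0, 0, 0)⟩,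
   ⟨1, (2, 0, 0, 0), (2, 2, 0, 0), (1, 0, 0, 0)⟩, ⟨6, (0, 1, 0, 0), (1, 0, 0, 0), (8, 0, 0, 0)⟩,
   ⟨6, (0, 1, 0, 0), (2, 0, 0, 0), (7, 0, 0, 0)⟩, ⟨8, (0, 1, 0, 0), (3, 0, 0, 0), (6, 0, 0, 0)⟩,
   ⟨3, (0, 1, 0, 0), (4, 0, 0, 0), (5, 0, 0, 0)⟩, ⟨3, (0, 1, 0, 0), (5, 0, 0, 0), (4, 0, 0, 0)⟩,
   ⟨8, (0, 1, 0, 0), (6, 0, 0, 0), (3, 0, 0, 0)⟩, ⟨6, (0, 1, 0, 0), (7, 0, 0, 0), (2, 0, 0, 0)⟩,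
   ⟨6, (0, 1, 0, 0), (8, 0, 0, 0), (1, 0, 0, 0)⟩]

/-- the diagonal of `t_4` modulo the cube of the ideal -/
def dl4 : List DT :=
  [⟨1, (0, 0, 0, 0), (0, 0, 0, 0), (0, 0, 0, 1)⟩, ⟨1, (0, 0, 0, 0), (1, 0, 0, 0), (0, 0, 3, 0)⟩,
   ⟨1, (0, 0, 0, 0), (0, 1, 0, 0), (0, 9, 0, 0)⟩, ⟨1, (0, 0, 0, 0), (0, 0, 1, 0), (27, 0, 0, 0)⟩,
   ⟨1, (0, 0, 0, 0), (0, 0, 0, 1), (0, 0, 0, 0)⟩, ⟨8, (1, 0, 0, 0), (1, 0, 0, 0), (0, 3, 2, 0)⟩,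
   ⟨8, (1, 0, 0, 0), (0, 1, 0, 0), (9, 0, 2, 0)⟩, ⟨8, (1, 0, 0, 0), (0, 0, 1, 0), (0, 0, 2, 0)⟩,
   ⟨1, (2, 0, 0, 0), (1, 0, 0, 0), (3, 2, 2, 0)⟩, ⟨1, (2, 0, 0, 0), (0, 1, 0, 0), (0, 2, 2, 0)⟩,
   ⟨1, (2, 0, 0, 0), (2, 0, 0, 0), (6, 1, 2, 0)⟩, ⟨2, (2, 0, 0, 0), (1, 1, 0, 0), (3, 1, 2, 0)⟩,
   ⟨1, (2, 0, 0, 0), (0, 2, 0, 0), (0, 1, 2, 0)⟩, ⟨1, (2, 0, 0, 0), (2, 1, 0, 0), (6, 0, 2, 0)⟩,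
   ⟨1, (2, 0, 0, 0), (1, 2, 0, 0), (3, 0, 2, 0)⟩, ⟨1, (1, 1, 0, 0), (3, 0, 0, 0), (6, 0, 2, 0)⟩,
   ⟨1, (1, 1, 0, 0), (6, 0, 0, 0), (3, 0, 2, 0)⟩, ⟨8, (1, 0, 0, 0), (2, 0, 0, 0), (0, 6, 1, 0)⟩,
   ⟨7, (1, 0, 0, 0), (1, 1, 0, 0), (9, 3, 1, 0)⟩, ⟨7, (1, 0, 0, 0), (1, 0, 1, 0), (0, 3, 1, 0)⟩,
   ⟨2, (2, 0, 0, 0), (2, 0, 0, 0), (3, 5, 1, 0)⟩, ⟨2, (2, 0, 0, 0), (1, 1, 0, 0), (0, 5, 1, 0)⟩,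
   ⟨2, (2, 0, 0, 0), (3, 0, 0, 0), (6, 4, 1, 0)⟩, ⟨1, (2, 0, 0, 0), (2, 1, 0, 0), (3, 4, 1, 0)⟩,
   ⟨2, (2, 0, 0, 0), (1, 2, 0, 0), (0, 4, 1, 0)⟩, ⟨2, (2, 0, 0, 0), (3, 1, 0, 0), (6, 3, 1, 0)⟩,
   ⟨2, (2, 0, 0, 0), (2, 2, 0, 0), (3, 3, 1, 0)⟩, ⟨2, (1, 1, 0, 0), (4, 0, 0, 0), (6, 3, 1, 0)⟩,
   ⟨2, (1, 1, 0, 0), (7, 0, 0, 0), (3, 3, 1, 0)⟩, ⟨8, (1, 0, 0, 0), (0, 2, 0, 0), (18, 0, 1, 0)⟩,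
   ⟨7, (1, 0, 0, 0), (0, 1, 1, 0), (9, 0, 1, 0)⟩, ⟨2, (2, 0, 0, 0), (1, 1, 0, 0), (12, 2, 1, 0)⟩,
   ⟨2, (2, 0, 0, 0), (0, 2, 0, 0), (9, 2, 1, 0)⟩, ⟨2, (2, 0, 0, 0), (2, 1, 0, 0), (15, 1, 1, 0)⟩,
   ⟨1, (2, 0, 0, 0), (1, 2, 0, 0), (12, 1, 1, 0)⟩, ⟨2, (2, 0, 0, 0), (0, 3, 0, 0), (9, 1, 1, 0)⟩,
   ⟨2, (2, 0, 0, 0), (2, 2, 0, 0), (15, 0, 1, 0)⟩, ⟨2, (2, 0, 0, 0), (1, 3, 0, 0), (12, 0, 1, 0)⟩,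
   ⟨2, (1, 1, 0, 0), (3, 1, 0, 0), (15, 0, 1, 0)⟩, ⟨2, (1, 1, 0, 0), (6, 1, 0, 0), (12, 0, 1, 0)⟩,
   ⟨8, (1, 0, 0, 0), (0, 0, 2, 0), (0, 0, 1, 0)⟩, ⟨2, (2, 0, 0, 0), (1, 0, 1, 0), (3, 2, 1, 0)⟩,
   ⟨2, (2, 0, 0, 0), (0, 1, 1, 0), (0, 2, 1, 0)⟩, ⟨2, (2, 0, 0, 0), (2, 0, 1, 0), (6, 1, 1, 0)⟩,
   ⟨1, (2, 0, 0, 0), (1, 1, 1, 0), (3, 1, 1, 0)⟩, ⟨2, (2, 0, 0, 0), (0, 2, 1, 0), (0, 1, 1, 0)⟩,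
   ⟨2, (2, 0, 0, 0), (2, 1, 1, 0), (6, 0, 1, 0)⟩, ⟨2, (2, 0, 0, 0), (1, 2, 1, 0), (3, 0, 1, 0)⟩,
   ⟨2, (1, 1, 0, 0), (3, 0, 1, 0), (6, 0, 1, 0)⟩, ⟨2, (1, 1, 0, 0), (6, 0, 1, 0), (3, 0, 1, 0)⟩,
   ⟨8, (1, 0, 0, 0), (2, 1, 0, 0), (9, 6, 0, 0)⟩, ⟨8, (1, 0, 0, 0), (2, 0, 1, 0), (0, 6, 0, 0)⟩,
   ⟨1, (2, 0, 0, 0), (3, 0, 0, 0), (3, 8, 0, 0)⟩, ⟨1, (2, 0, 0, 0), (2, 1, 0, 0), (0, 8, 0, 0)⟩,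
   ⟨1, (2, 0, 0, 0), (4, 0, 0, 0), (6, 7, 0, 0)⟩, ⟨2, (2, 0, 0, 0), (3, 1, 0, 0), (3, 7, 0, 0)⟩,
   ⟨1, (2, 0, 0, 0), (2, 2, 0, 0), (0, 7, 0, 0)⟩, ⟨1, (2, 0, 0, 0), (4, 1, 0, 0), (6, 6, 0, 0)⟩,
   ⟨1, (2, 0, 0, 0), (3, 2, 0, 0), (3, 6, 0, 0)⟩, ⟨1, (1, 1, 0, 0), (5, 0, 0, 0), (6, 6, 0, 0)⟩,
   ⟨1, (1, 1, 0, 0), (8, 0, 0, 0), (3, 6, 0, 0)⟩, ⟨8, (1, 0, 0, 0), (1, 2, 0, 0), (18, 3, 0, 0)⟩,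
   ⟨7, (1, 0, 0, 0), (1, 1, 1, 0), (9, 3, 0, 0)⟩, ⟨2, (2, 0, 0, 0), (2, 1, 0, 0), (12, 5, 0, 0)⟩,
   ⟨2, (2, 0, 0, 0), (1, 2, 0, 0), (9, 5, 0, 0)⟩, ⟨2, (2, 0, 0, 0), (3, 1, 0, 0), (15, 4, 0, 0)⟩,
   ⟨1, (2, 0, 0, 0), (2, 2, 0, 0), (12, 4, 0, 0)⟩, ⟨2, (2, 0, 0, 0), (1, 3, 0, 0), (9, 4, 0, 0)⟩,
   ⟨2, (2, 0, 0, 0), (3, 2, 0, 0), (15, 3, 0, 0)⟩, ⟨2, (2, 0, 0, 0), (2, 3, 0, 0), (12, 3, 0, 0)⟩,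
   ⟨2, (1, 1, 0, 0), (4, 1, 0, 0), (15, 3, 0, 0)⟩, ⟨2, (1, 1, 0, 0), (7, 1, 0, 0), (12, 3, 0, 0)⟩,
   ⟨8, (1, 0, 0, 0), (1, 0, 2, 0), (0, 3, 0, 0)⟩, ⟨2, (2, 0, 0, 0), (2, 0, 1, 0), (3, 5, 0, 0)⟩,
   ⟨2, (2, 0, 0, 0), (1, 1, 1, 0), (0, 5, 0, 0)⟩, ⟨2, (2, 0, 0, 0), (3, 0, 1, 0), (6, 4, 0, 0)⟩,
   ⟨1, (2, 0, 0, 0), (2, 1, 1, 0), (3, 4, 0, 0)⟩, ⟨2, (2, 0, 0, 0), (1, 2, 1, 0), (0, 4, 0, 0)⟩,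
   ⟨2, (2, 0, 0, 0), (3, 1, 1, 0), (6, 3, 0, 0)⟩, ⟨2, (2, 0, 0, 0), (2, 2, 1, 0), (3, 3, 0, 0)⟩,
   ⟨2, (1, 1, 0, 0), (4, 0, 1, 0), (6, 3, 0, 0)⟩, ⟨2, (1, 1, 0, 0), (7, 0, 1, 0), (3, 3, 0, 0)⟩,
   ⟨8, (1, 0, 0, 0), (0, 2, 1, 0), (18, 0, 0, 0)⟩, ⟨1, (2, 0, 0, 0), (1, 2, 0, 0), (21, 2, 0, 0)⟩,
   ⟨1, (2, 0, 0, 0), (0, 3, 0, 0), (18, 2, 0, 0)⟩, ⟨1, (2, 0, 0, 0), (2, 2, 0, 0), (24, 1, 0, 0)⟩,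
   ⟨2, (2, 0, 0, 0), (1, 3, 0, 0), (21, 1, 0, 0)⟩, ⟨1, (2, 0, 0, 0), (0, 4, 0, 0), (18, 1, 0, 0)⟩,
   ⟨1, (2, 0, 0, 0), (2, 3, 0, 0), (24, 0, 0, 0)⟩, ⟨1, (2, 0, 0, 0), (1, 4, 0, 0), (21, 0, 0, 0)⟩,
   ⟨1, (1, 1, 0, 0), (3, 2, 0, 0), (24, 0, 0, 0)⟩, ⟨1, (1, 1, 0, 0), (6, 2, 0, 0), (21, 0, 0, 0)⟩,
   ⟨8, (1, 0, 0, 0), (0, 1, 2, 0), (9, 0, 0, 0)⟩, ⟨2, (2, 0, 0, 0), (1, 1, 1, 0), (12, 2, 0, 0)⟩,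
   ⟨2, (2, 0, 0, 0), (0, 2, 1, 0), (9, 2, 0, 0)⟩, ⟨2, (2, 0, 0, 0), (2, 1, 1, 0), (15, 1, 0, 0)⟩,
   ⟨1, (2, 0, 0, 0), (1, 2, 1, 0), (12, 1, 0, 0)⟩, ⟨2, (2, 0, 0, 0), (0, 3, 1, 0), (9, 1, 0, 0)⟩,
   ⟨2, (2, 0, 0, 0), (2, 2, 1, 0), (15, 0, 0, 0)⟩, ⟨2, (2, 0, 0, 0), (1, 3, 1, 0), (12, 0, 0, 0)⟩,
   ⟨2, (1, 1, 0, 0), (3, 1, 1, 0), (15, 0, 0, 0)⟩, ⟨2, (1, 1, 0, 0), (6, 1, 1, 0), (12, 0, 0, 0)⟩,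
   ⟨1, (2, 0, 0, 0), (1, 0, 2, 0), (3, 2, 0, 0)⟩, ⟨1, (2, 0, 0, 0), (0, 1, 2, 0), (0, 2, 0, 0)⟩,
   ⟨1, (2, 0, 0, 0), (2, 0, 2, 0), (6, 1, 0, 0)⟩, ⟨2, (2, 0, 0, 0), (1, 1, 2, 0), (3, 1, 0, 0)⟩,
   ⟨1, (2, 0, 0, 0), (0, 2, 2, 0), (0, 1, 0, 0)⟩, ⟨1, (2, 0, 0, 0), (2, 1, 2, 0), (6, 0, 0, 0)⟩,
   ⟨1, (2, 0, 0, 0), (1, 2, 2, 0), (3, 0, 0, 0)⟩, ⟨1, (1, 1, 0, 0), (3, 0, 2, 0), (6, 0, 0, 0)⟩,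
   ⟨1, (1, 1, 0, 0), (6, 0, 2, 0), (3, 0, 0, 0)⟩, ⟨6, (0, 1, 0, 0), (1, 0, 0, 0), (3, 8, 0, 0)⟩,
   ⟨6, (0, 1, 0, 0), (0, 1, 0, 0), (0, 8, 0, 0)⟩, ⟨6, (0, 1, 0, 0), (2, 0, 0, 0), (6, 7, 0, 0)⟩,
   ⟨3, (0, 1, 0, 0), (1, 1, 0, 0), (3, 7, 0, 0)⟩, ⟨6, (0, 1, 0, 0), (0, 2, 0, 0), (0, 7, 0, 0)⟩,
   ⟨8, (0, 1, 0, 0), (3, 0, 0, 0), (9, 6, 0, 0)⟩, ⟨6, (0, 1, 0, 0), (2, 1, 0, 0), (6, 6, 0, 0)⟩,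
   ⟨6, (0, 1, 0, 0), (1, 2, 0, 0), (3, 6, 0, 0)⟩, ⟨8, (0, 1, 0, 0), (0, 3, 0, 0), (0, 6, 0, 0)⟩,
   ⟨3, (0, 1, 0, 0), (4, 0, 0, 0), (12, 5, 0, 0)⟩, ⟨3, (0, 1, 0, 0), (3, 1, 0, 0), (9, 5, 0, 0)⟩,
   ⟨3, (0, 1, 0, 0), (1, 3, 0, 0), (3, 5, 0, 0)⟩, ⟨3, (0, 1, 0, 0), (0, 4, 0, 0), (0, 5, 0, 0)⟩,
   ⟨3, (0, 1, 0, 0), (5, 0, 0, 0), (15, 4, 0, 0)⟩, ⟨6, (0, 1, 0, 0), (4, 1, 0, 0), (12, 4, 0, 0)⟩,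
   ⟨3, (0, 1, 0, 0), (3, 2, 0, 0), (9, 4, 0, 0)⟩, ⟨3, (0, 1, 0, 0), (2, 3, 0, 0), (6, 4, 0, 0)⟩,
   ⟨6, (0, 1, 0, 0), (1, 4, 0, 0), (3, 4, 0, 0)⟩, ⟨3, (0, 1, 0, 0), (0, 5, 0, 0), (0, 4, 0, 0)⟩,
   ⟨8, (0, 1, 0, 0), (6, 0, 0, 0), (18, 3, 0, 0)⟩, ⟨3, (0, 1, 0, 0), (5, 1, 0, 0), (15, 3, 0, 0)⟩,
   ⟨3, (0, 1, 0, 0), (4, 2, 0, 0), (12, 3, 0, 0)⟩, ⟨7, (0, 1, 0, 0), (3, 3, 0, 0), (9, 3, 0, 0)⟩,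
   ⟨3, (0, 1, 0, 0), (2, 4, 0, 0), (6, 3, 0, 0)⟩, ⟨3, (0, 1, 0, 0), (1, 5, 0, 0), (3, 3, 0, 0)⟩,
   ⟨8, (0, 1, 0, 0), (0, 6, 0, 0), (0, 3, 0, 0)⟩, ⟨6, (0, 1, 0, 0), (7, 0, 0, 0), (21, 2, 0, 0)⟩,
   ⟨6, (0, 1, 0, 0), (6, 1, 0, 0), (18, 2, 0, 0)⟩, ⟨3, (0, 1, 0, 0), (4, 3, 0, 0), (12, 2, 0, 0)⟩,
   ⟨3, (0, 1, 0, 0), (3, 4, 0, 0), (9, 2, 0, 0)⟩, ⟨6, (0, 1, 0, 0), (1, 6, 0, 0), (3, 2, 0, 0)⟩,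
   ⟨6, (0, 1, 0, 0), (0, 7, 0, 0), (0, 2, 0, 0)⟩, ⟨6, (0, 1, 0, 0), (8, 0, 0, 0), (24, 1, 0, 0)⟩,
   ⟨3, (0, 1, 0, 0), (7, 1, 0, 0), (21, 1, 0, 0)⟩, ⟨6, (0, 1, 0, 0), (6, 2, 0, 0), (18, 1, 0, 0)⟩,
   ⟨3, (0, 1, 0, 0), (5, 3, 0, 0), (15, 1, 0, 0)⟩, ⟨6, (0, 1, 0, 0), (4, 4, 0, 0), (12, 1, 0, 0)⟩,
   ⟨3, (0, 1, 0, 0), (3, 5, 0, 0), (9, 1, 0, 0)⟩, ⟨6, (0, 1, 0, 0), (2, 6, 0, 0), (6, 1, 0, 0)⟩,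
   ⟨3, (0, 1, 0, 0), (1, 7, 0, 0), (3, 1, 0, 0)⟩, ⟨6, (0, 1, 0, 0), (0, 8, 0, 0), (0, 1, 0, 0)⟩,
   ⟨6, (0, 1, 0, 0), (8, 1, 0, 0), (24, 0, 0, 0)⟩, ⟨6, (0, 1, 0, 0), (7, 2, 0, 0), (21, 0, 0, 0)⟩,
   ⟨8, (0, 1, 0, 0), (6, 3, 0, 0), (18, 0, 0, 0)⟩, ⟨3, (0, 1, 0, 0), (5, 4, 0, 0), (15, 0, 0, 0)⟩,
   ⟨3, (0, 1, 0, 0), (4, 5, 0, 0), (12, 0, 0, 0)⟩, ⟨8, (0, 1, 0, 0), (3, 6, 0, 0), (9, 0, 0, 0)⟩,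
   ⟨6, (0, 1, 0, 0), (2, 7, 0, 0), (6, 0, 0, 0)⟩, ⟨6, (0, 1, 0, 0), (1, 8, 0, 0), (3, 0, 0, 0)⟩,
   ⟨6, (0, 0, 1, 0), (3, 0, 0, 0), (24, 0, 0, 0)⟩, ⟨6, (0, 0, 1, 0), (6, 0, 0, 0), (21, 0, 0, 0)⟩,
   ⟨8, (0, 0, 1, 0), (9, 0, 0, 0), (18, 0, 0, 0)⟩,
   ⟨3, (0, 0, 1, 0), (12, 0, 0, 0), (15, 0, 0, 0)⟩,
   ⟨3, (0, 0, 1, 0), (15, 0, 0, 0), (12, 0, 0, 0)⟩,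
   ⟨8, (0, 0, 1, 0), (18, 0, 0, 0), (9, 0, 0, 0)⟩, ⟨6, (0, 0, 1, 0), (21, 0, 0, 0), (6, 0, 0, 0)⟩,
   ⟨6, (0, 0, 1, 0), (24, 0, 0, 0), (3, 0, 0, 0)⟩]

/-- the right unit of `v_1` modulo the cube of the ideal -/
def el1 : List DT :=
  [⟨3, (0, 0, 0, 0), (1, 0, 0, 0), (0, 0, 0, 0)⟩, ⟨1, (1, 0, 0, 0), (0, 0, 0, 0), (0, 0, 0, 0)⟩]

/-- the right unit of `v_2` modulo the cube of the ideal -/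
def el2 : List DT :=
  [⟨3, (0, 0, 0, 0), (0, 1, 0, 0), (0, 0, 0, 0)⟩, ⟨1, (1, 0, 0, 0), (3, 0, 0, 0), (0, 0, 0, 0)⟩,
   ⟨1, (0, 1, 0, 0), (0, 0, 0, 0), (0, 0, 0, 0)⟩]

/-- the right unit of `v_3` modulo the cube of the ideal -/
def el3 : List DT :=
  [⟨3, (0, 0, 0, 0), (0, 0, 1, 0), (0, 0, 0, 0)⟩, ⟨1, (1, 0, 0, 0), (0, 3, 0, 0), (0, 0, 0, 0)⟩,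
   ⟨1, (0, 1, 0, 0), (9, 0, 0, 0), (0, 0, 0, 0)⟩, ⟨1, (0, 0, 1, 0), (0, 0, 0, 0), (0, 0, 0, 0)⟩]

/-- the right unit of `v_4` modulo the cube of the ideal -/
def el4 : List DT :=
  [⟨3, (0, 0, 0, 0), (0, 0, 0, 1), (0, 0, 0, 0)⟩, ⟨1, (1, 0, 0, 0), (0, 0, 3, 0), (0, 0, 0, 0)⟩,
   ⟨1, (0, 1, 0, 0), (0, 9, 0, 0), (0, 0, 0, 0)⟩, ⟨1, (0, 0, 1, 0), (27, 0, 0, 0), (0, 0, 0, 0)⟩,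
   ⟨1, (0, 0, 0, 1), (0, 0, 0, 0), (0, 0, 0, 0)⟩]

/-- the lists of the diagonals -/
def dls (n : ℕ) : List DT := [dl1, dl2, dl3, dl4].getD n []

/-- the lists of the right units -/
def els (n : ℕ) : List DT := [el1, el2, el3, el4].getD n []

/-- the lists give the structure maps modulo the cube of the ideal -/
structure Form [Fact (Nat.Prime 3)] (L : Type) [CommRing L] : Prop where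
  del : ∀ n < 4, ∀ F E,
    coeff E (coeff F (Del 3 L (X n) - ((dls n).map (DT.ev2 L)).sum)) ∈ II 3 L ^ 3
  eta : ∀ n < 4, ∀ E, coeff E (etaR 3 L (X n) - ((els n).map (DT.ev1 L)).sum) ∈ II 3 L ^ 3

end Vale.Agent.P236KE

end
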