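import Vale.Agent.P236KE.Cfg

/-!
# P236KE / Eng2 : the kernel program for sums of composites of matrices
-/

noncomputable section

namespace Vale.Agent.P236KE

/-- a composite of two matrices with a coefficient -/
structure Tc : Type where
  c : Nat
  lo : DLL
  up : DLL
  mid : TL
  dm : Nat
  n : Nat

/-- the data common to all terms -/
structure Cb : Type where
  dlo : Nat
  dup : Nat
  s3 : Nat
  s4 : Nat
  tt : Nat
  md : Nat

def mkB (k : Cb) (t : Tc) : Bs := ⟨cf3, t.lo, t.up, t.mid, k.dlo, k.dup, k.s3, k.s4, k.tt⟩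

def tc0 : Tc := ⟨nat_lit 0, DLL.nil, DLL.nil, TL.nil, nat_lit 0, nat_lit 0⟩

/-- the sum of the values -/
def blkS (k : Cb) (g : Gp) (V w b : Nat) (l : List Tc) : Nat :=
  List.rec (motive := fun _ => Nat) (nat_lit 0)
    (fun t _ ih => Nat.add (Nat.mul t.c (blk (mkP (mkB k t) g) V w b)) ih) l

def chkS1 (k : Cb) (l : List Tc) (g : Gp) (V w b : Nat) : Nat :=
  grd (Nat.succ k.tt) (Nat.add (byte cf3.dv V) (byte k.dup (Nat.add g.b0 b)))
    (grd (Nat.succ (Nat.add (byte cf3.dv V) (byte k.dup (Nat.add g.b0 b))))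
      (byte k.dlo (Nat.add g.w0 w))
      (Nat.add (side (mkP (mkB k tc0) g) V w b)
        (ndiv (mkP (mkB k tc0) g) (byte k.md V) (blkS k g V w b l))))

/-- zero if the check succeeds -/
def chkS (k : Cb) (l : List Tc) (g : Gp) : Nat :=
  Nat.add (pre (mkP (mkB k tc0) g)) ((TL.get cf3.rng (nat_lit 15)).f fun V _ _ =>
    grd (Nat.land (Nat.shiftRight g.mask V) (nat_lit 1)) (nat_lit 0)
      ((TL.get cf3.rng g.nw).f fun w _ _ => (TL.get cf3.rng g.nb).f fun b _ _ => chkS1 k l g V w b))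

def okS (k : Cb) (l : List Tc) (g : Gp) : Bool := Nat.beq (chkS k l g) (nat_lit 0)

end Vale.Agent.P236KE

end
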