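import Vale.Agent.P236KE.Sph
import Vale.Agent.P236KE.Eng2
import Vale.Agent.P236EL.Yon

/-!
# P236KE / Chm : chain maps from checked data
-/

noncomputable section

namespace Vale.Agent.P236KE

open MvPolynomial Vale.Agent.P236EL Vale.Agent.P236K2

theorem acc_le (p : Pm) (V n i : ℕ) : dig (acc p V n) i ≤ 1086 := by
  rcases n with _ | u
  · exact (dig_zero i).trans_le (Nat.zero_le _)
  rcases h : lenV p V - u with _ | m
  · rw [acc_succ_zero h]
    exact (dig_zero i).trans_le (Nat.zero_le _)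
  · have h1 := lenV_eq (p := p) V
    rw [acc_succ h, dig_red1 (by omega)]
    have := dig_lt (acc p V u + acc p V u >>> sk16 p + ins p V u) i
    split_ifs <;> omega

theorem blk_le (p : Pm) (V w b i : ℕ) : dig (blk p V w b) i ≤ 1086 := by
  rw [blk_eq, dig_land, dig_shr]
  exact Nat.and_le_left.trans (acc_le _ _ _ _)

theorem dig_blkS (k : Cb) (g : Gp) (V w b : ℕ) : ∀ l : List Tc, (l.map Tc.c).sum ≤ 60 → ∀ i,
    dig (blkS k g V w b l) i = (l.map fun t => t.c * dig (blk (mkP (mkB k t) g) V w b) i).sum ∧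
      dig (blkS k g V w b l) i ≤ 1086 * (l.map Tc.c).sum
  | [], _, i => ⟨dig_zero i, (dig_zero i).le⟩
  | t :: l, h, i => by
    rw [List.map_cons, List.sum_cons] at h
    have h1 := dig_blkS k g V w b l (by omega)
    have h2 := blk_le (mkP (mkB k t) g) V w b
    have h3 : ∀ j, t.c * dig (blk (mkP (mkB k t) g) V w b) j ≤ 1086 * t.c := fun j => by
      rw [mul_comm]
      exact Nat.mul_le_mul_right _ (h2 j)
    have h4 := dig_mulc (a := blk (mkP (mkB k t) g) V w b) t.c fun j => by have := h3 j; omega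
    change dig (t.c * blk (mkP (mkB k t) g) V w b + blkS k g V w b l) i = _ ∧
      dig (t.c * blk (mkP (mkB k t) g) V w b + blkS k g V w b l) i ≤ _
    rw [dig_add fun j => by have := h3 j; have := (h1 j).2; rw [h4]; omega, h4, List.map_cons,
      List.sum_cons, List.map_cons, List.sum_cons]
    have := h3 i
    have := h1 i
    omega

theorem of_chkS {k : Cb} {l : List Tc} {g : Gp} (h : chkS k l g = 0) (hl : (l.map Tc.c).sum ≤ 60)
    {V w b : ℕ} (hV : V < 15) (hm : 0 < (g.mask >>> V) &&& 1) (hw : w < g.nw) (hb : b < g.nb)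
    (hd : byte k.md V ≤ 16) (ht : byte cf3.dv V + byte k.dup (g.b0 + b) ≤ k.tt)
    (h1 : byte k.dlo (g.w0 + w) ≤ byte cf3.dv V + byte k.dup (g.b0 + b)) :
    (∀ t, WF (mkP (mkB k t) g)) ∧ (∀ t, side (mkP (mkB k t) g) V w b = 0) ∧
      ∀ i, byte k.md V ∣ (l.map fun t => t.c * dig (blk (mkP (mkB k t) g) V w b) i).sum := by
  obtain ⟨h2, h3⟩ := Nat.add_eq_zero_iff.1 h
  have hp : ∀ t, WF (mkP (mkB k t) g) := fun t => wf_of_pre cf3_rngT h2
  rw [cf3_rngT _ (by decide), Finset.sum_eq_zero_iff] at h3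
  have h4 := of_sum2 (hp tc0) (grd_zero (h3 V (Finset.mem_range.2 hV)) hm) hw hb
  obtain ⟨h5, h6⟩ := Nat.add_eq_zero_iff.1
    (grd_zero (grd_zero h4 (Nat.lt_succ_of_le ht)) (Nat.lt_succ_of_le h1))
  refine ⟨hp, fun t => h5, fun i => ?_⟩
  rw [← (dig_blkS k g V w b l hl i).1]
  refine dvd_dig (top := topM (mkP (mkB k tc0) g)) (n := g.bb * g.sf) hd
    (dig_crep1 (by norm_num) _) (fun j hj => ?_) h6 i
  rw [(dig_blkS k g V w b l hl j).1]
  refine List.sum_eq_zero fun y hy => ?_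
  obtain ⟨t, -, rfl⟩ := List.mem_map.1 hy
  rw [blk_zero (hp t) V w b j hj, mul_zero]

variable [Fact (Nat.Prime 3)] {L : Type} [CommRing L]

/-- the moduli are admissible for the ring `L` and the exponent `r` -/
def MdOk (L : Type) [CommRing L] (r md : ℕ) : Prop :=
  ∀ V < 15, byte md V ≤ 16 ∧ (3 : L) ^ (r - len4 (vm V)) ∣ (byte md V : ℕ)

omit [Fact (Nat.Prime 3)] in
theorem pow_dvd_mdv (h9 : (9 : L) = 0) {r : ℕ} (hr : r ≤ 3) (V : ℕ) :
    (3 : L) ^ (r - len4 (vm V)) ∣ (mdv V : ℕ) := by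
  rw [mdv, Nat.cast_pow, Nat.cast_ofNat]
  rcases le_total 2 (3 - len4 (vm V)) with h | h
  · rw [min_eq_left h, show (3 : L) ^ 2 = 9 by norm_num, h9]
    exact dvd_zero _
  · rw [min_eq_right h]
    exact pow_dvd_pow _ (by omega)

omit [Fact (Nat.Prime 3)] in
theorem mdOk_nine (h9 : (9 : L) = 0) {r : ℕ} (hr : r ≤ 3) : MdOk L r cf3.md := fun V hV => by
  rw [(cf3_dv V hV).2]
  exact ⟨(Nat.pow_le_pow_right (by omega) (min_le_left _ _)).trans (by omega), pow_dvd_mdv h9 hr V⟩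

/-- the number of monomials of length less than `r` -/
def nv (r : ℕ) : ℕ := [0, 1, 5].getD r 15

omit [Fact (Nat.Prime 3)] in
theorem lt_nv : ∀ r ≤ 3, ∀ V < 15, len4 (vm V) < r → V < nv r := by decide +kernel

omit [Fact (Nat.Prime 3)] in
theorem nv_le (r : ℕ) : nv r ≤ 15 := by
  rcases r with _ | _ | _ | r <;> simp [nv]

omit [Fact (Nat.Prime 3)] in
theorem mem_pow {r : ℕ} (hr : r ≤ 3) {a : AA L} {n : ℕ} (hn : n < 121)
    (hw : ∀ m, coeff m a ≠ 0 → Finsupp.weight (wt 3) m = n)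
    (h : ∀ V < nv r, wt4 (vm V) = n → (3 : L) ^ (r - len4 (vm V)) ∣ coeff (m4 (vm V)) a) :
    a ∈ II 3 L ^ r := by
  rw [a.as_sum]
  refine Ideal.sum_mem _ fun m hm => monomial_mem_pow ?_
  have h1 := hw m (mem_support_iff.1 hm)
  obtain ⟨e, rfl⟩ : ∃ e, m = m4 e := ⟨(m 0, m 1, m 2, m 3), eq_mk4 (by omega)⟩
  rw [len_m4]
  rw [wt_m4] at h1
  by_cases h2 : len4 e < r
  · obtain ⟨h3, h4⟩ := vm_idx (h2.trans_le hr)
    have h5 := h _ (lt_nv r hr _ h3 (by rwa [h4])) (by rw [h4, h1])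
    rwa [h4] at h5
  · rw [show r - len4 e = 0 by omega, pow_zero]
    exact one_dvd _

/-- fifteen threes -/
def md3 : ℕ := 15637976420999010269456553650356995

omit [Fact (Nat.Prime 3)] in
theorem mdOk_three (h3 : (3 : L) = 0) (r : ℕ) : MdOk L r md3 := fun V hV => by
  have h : ∀ V < 15, byte md3 V = 3 := by decide +kernel
  rw [h V hV, Nat.cast_ofNat, h3]
  exact ⟨by omega, dvd_zero _⟩

omit [Fact (Nat.Prime 3)] in
theorem dvd_sum_sub {α : Type} {d : L} {f g : α → L} : ∀ {l : List α},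
    (∀ t ∈ l, d ∣ f t - g t) → d ∣ (l.map f).sum - (l.map g).sum
  | [], _ => by simp
  | t :: l, h => by
    rw [List.map_cons, List.map_cons, List.sum_cons, List.sum_cons, add_sub_add_comm]
    exact dvd_add (h t List.mem_cons_self) (dvd_sum_sub fun t ht => h t (List.mem_cons_of_mem _ ht))

/-- **A sum of composites lies in a power of the ideal.** -/
theorem cvs_mem (h9 : (9 : L) = 0) {r : ℕ} (hr : r ≤ 3) {k : Cb} {l : List Tc} {n n'' : ℕ}
    (hm : MdOk L r k.md)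
    (hl : (l.map Tc.c).sum ≤ 60) (ha : ∀ t ∈ l, BsOk (mkB k t) t.dm t.n) (ht : k.tt < 117)
    {gs : List Gp} (h : AllB (okS k l) gs) 
    (hc : cov gs (nv r) n n'' cf3.dv k.dlo k.dup k.tt = true) {w b : ℕ} (hw : w < n) (hb : b < n'') (E : ℕ →₀ ℕ)
    (hE : Finsupp.weight (wt 3) E + byte k.dlo w ≤ k.tt) :
    (l.map fun t => t.c • cv L (mkB k t) t.dm t.n w b E).sum ∈ II 3 L ^ r := by
  obtain ⟨G, rfl⟩ : ∃ G, E = m4 G := ⟨(E 0, E 1, E 2, E 3), eq_mk4 (by omega)⟩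
  have key : ∀ m, coeff m (l.map fun t => t.c • cv L (mkB k t) t.dm t.n w b (m4 G)).sum =
      (l.map fun t => t.c * coeff m (cv L (mkB k t) t.dm t.n w b (m4 G))).sum := fun m => by
    refine (map_list_sum (coeffAddMonoidHom m) _).trans ?_
    rw [List.map_map]
    refine congrArg List.sum (List.map_congr_left fun t _ => ?_)
    rw [Function.comp_apply, map_nsmul, nsmul_eq_mul]
    rfl
  have hwt : ∀ m, coeff m (l.map fun t => t.c • cv L (mkB k t) t.dm t.n w b (m4 G)).sum ≠ 0 →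
      Finsupp.weight (wt 3) m + byte k.dup b = wt4 G + byte k.dlo w := fun m h0 => by
    rw [key] at h0
    obtain ⟨y, hy, h1⟩ := List.exists_mem_ne_zero_of_sum_ne_zero h0
    obtain ⟨t, -, rfl⟩ := List.mem_map.1 hy
    rw [← wt_m4]
    exact cv_wt (right_ne_zero_of_mul h1)
  rw [wt_m4] at hE
  by_cases h0 : (l.map fun t => t.c • cv L (mkB k t) t.dm t.n w b (m4 G)).sum = 0
  · rw [h0]
    exact zero_mem _
  obtain ⟨m, hm'⟩ := ne_zero_iff.1 h0
  have h1 := hwt m hm'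
  refine mem_pow hr (n := wt4 G + byte k.dlo w - byte k.dup b) (by omega) (fun m hm => ?_)
    fun V hV' e => ?_
  · have h2 := hwt m hm
    omega
  · have hV := hV'.trans_le (nv_le r)
    obtain ⟨d1, -⟩ := cf3_dv V hV
    obtain ⟨g, hg, g1, w', g2, b', g3, rfl, rfl⟩ := of_cov hc hV' hw hb (by omega) (by omega)
    obtain ⟨k1, k2, k3⟩ := of_chkS (Nat.eq_of_beq_eq_true (h.mem g hg)) hl hV g1 g2 g3
      (hm V hV).1 (by omega) (by omega)
    have k4 := (hm V hV).2.trans (Nat.cast_dvd_cast (α := L)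
      (k3 (g.sf * (3 * G.2.2.1 + 10 * G.2.2.2) + G.2.1)))
    rw [Nat.cast_list_sum, List.map_map] at k4
    rw [key, ← dvd_sub_right k4]
    refine dvd_sum_sub fun t ht' => ?_
    rw [Function.comp_apply, Nat.cast_mul, ← mul_sub]
    exact ((pow_dvd_mdv h9 hr V).trans (blk_cv h9 (ha t ht') (k1 t) hV g2 g3 (k2 t) G
      (by change _ + byte k.dup (g.b0 + b') = byte k.dlo (g.w0 + w') + _; omega)
      (by change _ + byte k.dup (g.b0 + b') ≤ k.tt; omega))).mul_left _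

variable (L) in
/-- the functional given by the data `D` and the degrees `a`, `b` -/
def yOs (D : DLL) (a b s3 s4 w w' : ℕ) (E : ℕ →₀ ℕ) : AA L :=
  ∑ U ∈ Finset.range 15,
    if Finsupp.weight (wt 3) E + a = wt4 (vm U) + b then
      monomial (m4 (vm U)) (yc D w U w' (E 1 + (s3 * E 2 + s4 * E 3)) : L) else 0

omit [Fact (Nat.Prime 3)] in
theorem yOf_eq (D : DLL) (dl du s3 s4 w w' : ℕ) :
    yOf L D dl du s3 s4 w w' = yOs L D (byte dl w) (byte du w') s3 s4 w w' := rfl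

omit [Fact (Nat.Prime 3)] in
theorem yOs_add (D : DLL) (a b c s3 s4 w w' : ℕ) :
    yOs L D (a + c) (b + c) s3 s4 w w' = yOs L D a b s3 s4 w w' :=
  funext fun _ => Finset.sum_congr rfl fun _ _ => if_congr (by omega) rfl rfl

omit [Fact (Nat.Prime 3)] in
theorem homR_yOs (D : DLL) (a b s3 s4 w w' : ℕ) :
    HomR 3 ((a : ℤ) - b) (yOs L D a b s3 s4 w w') := fun E => by
  refine AddSubgroup.sum_mem _ fun U _ => ?_
  split_ifs with h
  · refine isWeightedHomogeneous_monomial _ _ _ ?_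
    rw [show wz 3 = fun i => (wt 3 i : ℤ) from rfl, weight_cast, weight_cast, wt_m4]
    omega
  · exact zero_mem _

/-- the degrees `d'` are the degrees `d` plus `ω` -/
def shOk (d d' n ω : ℕ) : Bool := (List.range n).all fun w => Nat.beq (byte d' w) (byte d w + ω)

omit [Fact (Nat.Prime 3)] in
theorem of_shOk {d d' n ω w : ℕ} (h : shOk d d' n ω = true) (hw : w < n) :
    byte d' w = byte d w + ω :=
  Nat.eq_of_beq_eq_true (List.all_eq_true.1 h w (List.mem_range.2 hw))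

namespace Sq

variable (S : Sq)

variable (L) in
/-- the chain map of degree `m` and weight `ω` given by the matrices `Z` -/
def zf (Z : List DLL) (m ω q : ℕ) (w : S.G (q + 1)) (w' : S.G (m + q + 1)) : (ℕ →₀ ℕ) → AA L :=
  yOs L (Z.getD q DLL.nil) (byte (S.d q) w + ω) (byte (S.d (m + q)) w') S.s3 S.s4 w w'

omit [Fact (Nat.Prime 3)] in
theorem zf_eq {Z : List DLL} {m ω q ds : ℕ} (h : shOk (S.d q) ds (S.n q) ω = true)
    (w : S.G (q + 1)) (w' : S.G (m + q + 1)) :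
    S.zf L Z m ω q w w' = yOf L (Z.getD q DLL.nil) ds (S.d (m + q)) S.s3 S.s4 w w' := by
  rw [yOf_eq, of_shOk h w.2]
  rfl

omit [Fact (Nat.Prime 3)] in
/-- the checks of one square -/
structure CS (Z : List DLL) (m ω T md r q : ℕ) (k : Cb) (t t' : Tc) (gs : List Gp) : Prop where
  s3 : k.s3 = S.s3
  s4 : k.s4 = S.s4
  md : k.md = md
  tt : k.tt = T + ω
  dup : k.dup = S.d (m + q + 1)
  c : t.c = 1
  lo : t.lo = Z.getD q DLL.nil
  up : t.up = S.D (m + q)
  dm : t.dm = S.d (m + q)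
  n : t.n = S.n (m + q)
  c' : t'.c = 8
  lo' : t'.lo = S.D q
  up' : t'.up = Z.getD (q + 1) DLL.nil
  n' : t'.n = S.n (q + 1)
  ok : BsOk (mkB k t) t.dm t.n
  ok' : BsOk (mkB k t') t'.dm t'.n
  sh : shOk (S.d q) k.dlo (S.n q) ω = true
  sh' : shOk (S.d (q + 1)) t'.dm (S.n (q + 1)) ω = true
  all : AllB (okS k [t, t']) gs
  cov : cov gs (nv r) (S.n q) (S.n (m + q + 1)) cf3.dv k.dlo k.dup k.tt = true

omit [Fact (Nat.Prime 3)] in
/-- the checks of the square number `q` -/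
def CX (Z : List DLL) (m ω T md r q : ℕ) : Prop := ∃ k t t' gs, S.CS Z m ω T md r q k t t' gs

variable {S}

/-- **The data give a chain map.** -/
theorem cf (h9 : (9 : L) = 0) {Z : List DLL} {m ω T md r Q : ℕ} (hr : r ≤ 3) (hm : MdOk L r md)
    (h : ∀ q < Q, S.CX Z m ω T md r q) :
    P236EL.Cf (S.rs L) (S.rs L) m ω (S.zf L Z m ω) 0 r Q T := by
  refine ⟨fun q w w' => ?_, fun _ _ _ _ => by simp, fun q hq w w'' E hE => ?_⟩
  · have h1 := homR_yOs (L := L) (Z.getD q DLL.nil) (byte (S.d q) w + ω) (byte (S.d (m + q)) w')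
      S.s3 S.s4 w w'
    rw [Nat.cast_add] at h1
    exact h1
  obtain ⟨⟨k1, k2, k3, k4, k5, k6⟩, ⟨a1, a2, a3, a4, a5, a6⟩, ⟨b1, b2, b3, b4, b5, b6⟩, gs,
    e1, e2, e3, e4, e5, e6, e7, e8, e9, e10, e11, e12, e13, e14, o1, o2, s1, s2, c1, c2⟩ := h q hq
  dsimp only at e1 e2 e3 e4 e5 e6 e7 e8 e9 e10 e11 e12 e13 e14 s1 s2
  subst e1 e2 e3 e4 e5 e6 e7 e8 e9 e10 e11 e12 e13 e14
  have h2 := cvs_mem (L := L) h9 hr hm
    (by exact (show 1 + (8 + 0) ≤ 60 by omega)) (by simpa using ⟨o1, o2⟩) o1.tt c1 c2 w.2 w''.2 E (by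
    change _ + (byte (S.d q) w : ℤ) ≤ _ at hE
    rw [show wz 3 = fun i => (wt 3 i : ℤ) from rfl, weight_cast] at hE
    change _ + byte k1 w ≤ T + ω
    rw [of_shOk s1 w.2]
    omega)
  simp only [List.map_cons, List.map_nil, List.sum_cons, List.sum_nil, add_zero, one_smul] at h2
  have h8 : ((8 : ℕ) : AA L) = -1 := by
    rw [eq_neg_iff_add_eq_zero, ← Nat.cast_succ, ← map_natCast C,
      show ((Nat.succ 8 : ℕ) : L) = 9 from Nat.cast_ofNat (n := 9), h9, map_zero]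
  rw [nsmul_eq_mul, h8, neg_one_mul, ← sub_eq_add_neg] at h2
  refine (congrArg (· ∈ II 3 L ^ r) (congrArg₂ (· - ·) ?_ ?_)).mpr h2
  · refine Finset.sum_congr rfl fun w' _ => ?_
    rw [S.zf_eq s1]
    rfl
  · refine Finset.sum_congr rfl fun v _ => ?_
    rw [S.zf_eq (q := q + 1) s2]
    change _ = conv 3 _ (yOf L (S.D q) k1 b5 S.s3 S.s4 w v) E
    rw [yOf_eq (dl := k1), of_shOk s1 w.2, of_shOk s2 v.2, yOs_add]
    rfl

end Sq

end Vale.Agent.P236KE

end
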