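import Vale.Agent.P236KE.Idl

/-!
# P236KE / Alg : the values computed by the program are coefficients of convolutions
-/

noncomputable section

namespace Vale.Agent.P236KE

open MvPolynomial Vale.Agent.P236EL Vale.Agent.P236K2

variable [Fact (Nat.Prime 3)] {L : Type} [CommRing L] {n : ℕ}

/-- the pairing of two rows of functionals with a function of two arrows -/
def Zf (r' r : Fin n → (ℕ →₀ ℕ) → AA L) : MvPolynomial ℕ (GG L) →+ AA L :=
  ∑ w, (rAp (RingHom.id _) (r' w)).toAddMonoidHom.comp (rAp (etaR 3 L) (r w)).toAddMonoidHom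

variable (r' r : Fin n → (ℕ →₀ ℕ) → AA L)

theorem Zf_apply (P : MvPolynomial ℕ (GG L)) :
    Zf r' r P = ∑ w, rAp (RingHom.id _) (r' w) (rAp (etaR 3 L) (r w) P) := by
  rw [Zf, AddMonoidHom.finsetSum_apply]
  rfl

theorem Zf_C (a : AA L) (P : MvPolynomial ℕ (GG L)) : Zf r' r (C (C a) * P) = a * Zf r' r P := by
  simp only [Zf_apply, rAp_C_mul, Finset.mul_sum]

theorem Zf_mem {K : Ideal (AA L)} {P : MvPolynomial ℕ (GG L)} (h : P ∈ (K.map C).map C) :
    Zf r' r P ∈ K := by
  rw [Zf_apply]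
  exact Ideal.sum_mem _ fun w _ =>
    rAp_mem (mem_map_C_iff.1 (rAp_mem (J := K.map C) (mem_map_C_iff.1 h)))

variable (L) in
/-- a monomial in two arrows -/
def mon2 (E F : Q4) : MvPolynomial ℕ (GG L) := monomial (m4 F) (monomial (m4 E) 1)

omit [Fact (Nat.Prime 3)] in
theorem ev2_mul (τ : DT) (E F : Q4) : τ.ev2 L * mon2 L E F =
    C (C (monomial (m4 τ.v) (τ.c : L))) * mon2 L (E + τ.x) (F + τ.y) := by
  simp only [DT.ev2, DT.ev1, mon2, monomial_mul, C_mul_monomial, m4_add, mul_one, add_comm]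

/-- the values -/
def valT (G : Q4) (V : ℕ) (E F : Q4) : L :=
  coeff (m4 (vm V)) (Zf r' r (Del 3 L (monomial (m4 G) 1) * mon2 L E F))

theorem valT_step (hF : Form L) {i : ℕ} (hi : i < 4) {G G' : Q4}
    (e : m4 G' = Finsupp.single i 1 + m4 G) {V : ℕ} (hV : V < 15) (E F : Q4) :
    (mdv V : L) ∣ valT r' r G' V E F -
      ((pick V (dls i)).map fun τ => (τ.c : L) * valT r' r G τ.s (E + τ.x) (F + τ.y)).sum := by
  set D := Del 3 L (monomial (m4 G) 1) with hD
  have h1 : Del 3 L (monomial (m4 G') 1) * mon2 L E F =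
      (Del 3 L (X i) - ((dls i).map (DT.ev2 L)).sum) * (D * mon2 L E F) +
        ((dls i).map fun τ => C (C (monomial (m4 τ.v) (τ.c : L))) *
          (D * mon2 L (E + τ.x) (F + τ.y))).sum := by
    have h0 : (monomial (m4 G') 1 : GG L) = X i * monomial (m4 G) 1 := by
      rw [e, X, monomial_mul, one_mul]
    have h00 : ∀ τ : DT, C (C (monomial (m4 τ.v) (τ.c : L))) * (D * mon2 L (E + τ.x) (F + τ.y)) =
        τ.ev2 L * (D * mon2 L E F) := fun τ => by
      rw [mul_left_comm, ← ev2_mul, mul_left_comm]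
    simp only [h00]
    rw [List.sum_map_mul_right, ← add_mul, sub_add_cancel, h0, map_mul, mul_assoc]
  have h2 := mdv_dvd (V := V) (Zf_mem r' r (Ideal.mul_mem_right (D * mon2 L E F) _
    (mem_map_C_iff.2 fun F => mem_map_C_iff.2 fun E => hF.del i hi F E)))
  have h3 := pick_dvd hV (fun x y => Zf r' r (D * mon2 L (E + x) (F + y))) (dls i)
  rw [valT, h1, map_add, coeff_add, map_list_sum, List.map_map, add_sub_assoc]
  refine dvd_add h2 ?_
  simp only [Function.comp_def, Zf_C]
  exact h3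

theorem val_valT (hF : Form L) : Val cf3 15 (fun V => pick V dl2) (fun V => pick V dl3)
    (fun V => pick V dl4) (valT r' r) := by
  refine ⟨fun V hV g1 g2 g3 g4 e f => ?_, fun g2 g3 g4 V hV E F => ?_, fun g3 g4 V hV E F => ?_,
    fun g4 V hV E F => ?_⟩ <;> rw [(cf3_dv V hV).2]
  · have h := valT_step r' r hF (i := 0) (by omega) (G := (g1, g2, g3, g4))
      (G' := (g1 + 1, g2, g3, g4)) (by simp only [m4, mk4, Finsupp.single_add]; abel) hV
      (e, 0, 0, 0) (f, 0, 0, 0)
    rw [show dls 0 = dl1 from rfl, pick_one V hV] at h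
    simpa using h
  · exact valT_step r' r hF (i := 1) (by omega)
      (by simp only [m4, mk4, Finsupp.single_add]; abel) hV E F
  · exact valT_step r' r hF (i := 2) (by omega)
      (by simp only [m4, mk4, Finsupp.single_add]; abel) hV E F
  · exact valT_step r' r hF (i := 3) (by omega)
      (by simp only [m4, mk4, Finsupp.single_add]; abel) hV E F

variable (L) in
/-- the sum of a list of terms -/
def ev1L (l : List DT) : GG L := (l.map (DT.ev1 L)).sum

omit [Fact (Nat.Prime 3)] in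
theorem ev1L_mul (l l' : List DT) : ev1L L (mulL l l') = ev1L L l * ev1L L l' := by
  induction l with
  | nil => simp [ev1L, mulL]
  | cons a l ih =>
    have h : ev1L L (l'.map a.mul) = a.ev1 L * ev1L L l' := by
      rw [ev1L, ev1L, List.map_map, ← List.sum_map_mul_left]
      refine congrArg List.sum (List.map_congr_left fun b _ => ?_)
      simp only [Function.comp_apply, DT.ev1, DT.mul, monomial_mul, m4_add, Nat.cast_mul]
    have h1 : ev1L L (mulL (a :: l) l') = ev1L L (l'.map a.mul) + ev1L L (mulL l l') := by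
      rw [ev1L, mulL, List.flatMap_cons, List.map_append, List.sum_append]
      rfl
    rw [h1, h, ih, ← add_mul]
    rfl

omit [Fact (Nat.Prime 3)] in
theorem ev1L_pow (l : List DT) (k : ℕ) : ev1L L (powL l k) = ev1L L l ^ k := by
  induction k with
  | zero => simp [powL, ev1L, DT.ev1, m4_zero]
  | succ k ih => rw [powL, ev1L_mul, ih, pow_succ]

theorem eta_sub (hF : Form L) (e : Q4) :
    etaR 3 L (monomial (m4 e) 1) - ev1L L (eL e) ∈ (II 3 L ^ 3).map (C : AA L →+* GG L) := by
  have h : ∀ i < 4, Ideal.Quotient.mk ((II 3 L ^ 3).map (C : AA L →+* GG L)) (etaR 3 L (X i)) =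
      Ideal.Quotient.mk _ (ev1L L (els i)) := fun i hi =>
    Ideal.Quotient.eq.2 (mem_map_C_iff.2 (hF.eta i hi))
  have h1 : (monomial (m4 e) 1 : AA L) =
      X 0 ^ e.1 * X 1 ^ e.2.1 * X 2 ^ e.2.2.1 * X 3 ^ e.2.2.2 := by
    simp only [X_pow_eq_monomial, monomial_mul, mul_one]
    rfl
  rw [← Ideal.Quotient.eq, h1, eL]
  simp only [map_mul, map_pow, ev1L_mul, ev1L_pow, h 0 (by omega), h 1 (by omega), h 2 (by omega),
    h 3 (by omega)]
  rfl

theorem eta_dvd (hF : Form L) (s : (ℕ →₀ ℕ) → AA L) (U : ℕ) {V : ℕ} (hV : V < 15) (E : Q4) :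
    (mdv V : L) ∣ coeff (m4 (vm V)) (rAp (RingHom.id _) s
      (monomial (m4 E) 1 * etaR 3 L (monomial (m4 (vm U)) 1))) -
      ((etT U V).map fun τ => (τ.c : L) * coeff (m4 (vm τ.s)) (s (m4 (E + τ.x)))).sum := by
  have h1 := mdv_dvd (V := V) (rAp_mem (x := RingHom.id _) (r := s) (mem_map_C_iff.1
    (Ideal.mul_mem_left _ (monomial (m4 E) 1) (eta_sub hF (vm U)))))
  have h2 := pick_dvd hV (fun x _ => s (m4 (E + x))) (eL (vm U))
  have h3 : rAp (RingHom.id _) s (monomial (m4 E) 1 * ev1L L (eL (vm U))) =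
      ((eL (vm U)).map fun τ => monomial (m4 τ.v) (τ.c : L) * s (m4 (E + τ.x))).sum := by
    rw [ev1L, ← List.sum_map_mul_left, map_list_sum, List.map_map]
    refine congrArg List.sum (List.map_congr_left fun τ _ => ?_)
    rw [Function.comp_apply, DT.ev1, monomial_mul, one_mul, rAp_monomial, m4_add]
    rfl
  rw [mul_sub, map_sub, coeff_sub, h3] at h1
  convert dvd_add h1 h2 using 1
  rw [sub_add_sub_cancel, etT]

omit [Fact (Nat.Prime 3)] in
theorem sum_mlT {M : Type*} [AddCommMonoid M] (f : ℕ × ℕ → M) (dm n : ℕ) {T j : ℕ} (hj : j ≤ T) :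
    ((mlT dm n T j).map f).sum = ∑ w : Fin n, ∑ U ∈ Finset.range 15,
      if j = wt4 (vm U) + byte dm w then f (w, U) else 0 := by
  have h0 : ∀ (l : List ℕ) (g : ℕ → List M), (l.flatMap g).sum = (l.map fun a => (g a).sum).sum :=
    fun l g => by induction l <;> simp [*]
  rw [mlT, Nat.ble_eq_true_of_le hj, cond_true, List.map_flatMap, h0, sum_list_range,
    Finset.sum_comm]
  refine Finset.sum_congr rfl fun U _ => ?_
  rw [← Finset.sum_range fun w => if j = wt4 (vm U) + byte dm w then f (w, U) else 0]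
  rcases h5 : Nat.ble (wt4 (vm U)) j with _ | _
  · rw [← Bool.not_eq_true, Nat.ble_eq] at h5
    exact (Finset.sum_eq_zero fun w _ => if_neg (by omega)).symm
  rw [Nat.ble_eq] at h5
  rw [cond_true, force_eq, byD, List.map_map, ← sum_list_range]
  generalize List.range n = l
  induction l with
  | nil => rfl
  | cons w l ih =>
    rw [List.filter_cons, List.map_cons, List.sum_cons, ← ih]
    by_cases h : j = wt4 (vm U) + byte dm w
    · rw [if_pos (by rw [Nat.beq_eq]; omega), if_pos h, List.map_cons, List.sum_cons]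
      rfl
    · rw [if_neg (by rw [Nat.beq_eq]; omega), if_neg h, zero_add]

theorem val0_dvd (hF : Form L) (p : Pm) (dm w b : ℕ) {V : ℕ} (hV : V < 15) {E F : Q4}
    (ht : wt4 (vm V) + byte p.dup b ≤ p.tt) (hT : p.tt < 117) (h3 : p.s3 ≤ 32) (h4 : p.s4 ≤ 300)
    (he : wt4 (vm V) + byte p.dup b = byte p.dlo w + wt4 E + wt4 F) :
    (mdv V : L) ∣ (val0 p etT (mlT dm n p.tt) w b (byte p.dlo w + wt4 F) V E F : L) -
      valT (fun w' : Fin n => yOf L p.up dm p.dup p.s3 p.s4 w' b)
        (fun w' : Fin n => yOf L p.lo p.dlo dm p.s3 p.s4 w w') 0 V E F := by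
  have hp : ∀ e : Q4, wt4 e < 117 → plc p e < 1024 := fun e he => by
    simp only [wt4] at he
    have a1 := Nat.mul_le_mul h3 (show e.2.2.1 ≤ 8 by omega)
    have a2 := Nat.mul_le_mul h4 (show e.2.2.2 ≤ 2 by omega)
    rw [plc]
    omega
  rw [valT, m4_zero, monomial_zero', map_one, map_one, one_mul, Zf_apply, coeff_sum, val0,
    Nat.cast_list_sum, List.map_map, sum_mlT _ _ _ (by omega), ← Finset.sum_sub_distrib]
  refine Finset.dvd_sum fun w' _ => ?_
  rw [mon2, rAp_monomial, yOf, map_sum, Finset.mul_sum, map_sum, coeff_sum,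
    ← Finset.sum_sub_distrib, wt_m4, m4_1, m4_2, m4_3]
  refine Finset.dvd_sum fun U hU => ?_
  rw [add_comm (byte p.dlo w)]
  split_ifs with h
  · have h1 := eta_dvd hF (yOf L p.up dm p.dup p.s3 p.s4 w' b) U hV E
    have h2 : ∀ c : L, (monomial (m4 E) 1 : GG L) * etaR 3 L (monomial (m4 (vm U)) c) =
        C (C c) * (monomial (m4 E) 1 * etaR 3 L (monomial (m4 (vm U)) 1)) := fun c => by
      rw [← mul_one c, ← C_mul_monomial, map_mul, mul_left_comm, mul_one]
      congr 1
      exact tgt_C _ _ _ _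
    rw [h2, rAp_C_mul, coeff_C_mul, Function.comp_apply, Nat.cast_mul,
      yb_eq _ _ _ _ (hp F (by omega)), plc, ← mul_sub, Nat.cast_list_sum, List.map_map]
    refine Dvd.dvd.mul_left (dvd_sub_comm.1 (h1.trans (dvd_of_eq ?_))) _
    refine congrArg (fun l => _ - List.sum l) (List.map_congr_left fun τ hτ => ?_)
    obtain ⟨h5, h6, h8⟩ := etT_wt U (Finset.mem_range.1 hU) V hV τ hτ
    have h7 := wt4_add E τ.x
    rw [coeff_yOf _ _ _ _ _ _ _ h5, if_pos (by omega), Function.comp_apply, Nat.cast_mul,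
      yb_eq _ _ _ _ (hp _ (by omega))]
    rfl
  · simp

end Vale.Agent.P236KE

end
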