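/-!
# P236KE / Eng : the kernel program (packed arrays of 16-bit digits)

Only primitive operations on natural numbers and recursors are used. Repeated calls with
the same arguments are shared by the cache of the type checker.
-/

noncomputable section

namespace Vale.Agent.P236KE

/-- evaluate a small number before using it -/
def force {α : Type} (x : Nat) (k : Nat → α) : α :=
  Nat.rec (motive := fun _ => α) (k (nat_lit 0)) (fun m _ => k m) (Nat.succ x)

/-- a sum with coefficients, as a function of the evaluation of its leaves -/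
structure TE : Type where
  f : (Nat → Nat → Nat → Nat) → Nat

/-- lists of such sums -/
inductive TL : Type
  | nil : TL
  | cons : TE → TL → TL

/-- lists of lists of such sums -/
inductive TLL : Type
  | nil : TLL
  | cons : TL → TLL → TLL

/-- lists of pairs of numbers -/
inductive DL : Type
  | nil : DL
  | cons : Nat → Nat → DL → DL

/-- lists of lists of pairs of numbers -/
inductive DLL : Type
  | nil : DLL
  | cons : DL → DLL → DLL

def TL.tail (l : TL) : TL := TL.rec (motive := fun _ => TL) TL.nil (fun _ t _ => t) l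
def TL.drop (l : TL) (i : Nat) : TL :=
  Nat.rec (motive := fun _ => TL) l (fun _ ih => TL.tail ih) i
def TL.get (l : TL) (i : Nat) : TE :=
  TL.rec (motive := fun _ => TE) ⟨fun _ => nat_lit 0⟩ (fun h _ _ => h) (TL.drop l i)

def TLL.tail (l : TLL) : TLL := TLL.rec (motive := fun _ => TLL) TLL.nil (fun _ t _ => t) l
def TLL.drop (l : TLL) (i : Nat) : TLL :=
  Nat.rec (motive := fun _ => TLL) l (fun _ ih => TLL.tail ih) i
def TLL.get (l : TLL) (i : Nat) : TL :=
  TLL.rec (motive := fun _ => TL) TL.nil (fun h _ _ => h) (TLL.drop l i)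

def DL.tail (l : DL) : DL := DL.rec (motive := fun _ => DL) DL.nil (fun _ _ t _ => t) l
def DL.drop (l : DL) (i : Nat) : DL :=
  Nat.rec (motive := fun _ => DL) l (fun _ ih => DL.tail ih) i
def DLL.tail (l : DLL) : DLL := DLL.rec (motive := fun _ => DLL) DLL.nil (fun _ t _ => t) l
def DLL.drop (l : DLL) (i : Nat) : DLL :=
  Nat.rec (motive := fun _ => DLL) l (fun _ ih => DLL.tail ih) i
def DLL.get (l : DLL) (i : Nat) : DL :=
  DLL.rec (motive := fun _ => DL) DL.nil (fun h _ _ => h) (DLL.drop l i)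

/-- the digits attached to a lower generator and a coefficient monomial -/
def dN (L : DLL) (w U : Nat) : Nat :=
  DL.rec (motive := fun _ => Nat) (nat_lit 0) (fun a _ _ _ => a) (DL.drop (DLL.get L w) U)
/-- the offsets attached to a lower generator and a coefficient monomial -/
def dO (L : DLL) (w U : Nat) : Nat :=
  DL.rec (motive := fun _ => Nat) (nat_lit 0) (fun _ b _ _ => b) (DL.drop (DLL.get L w) U)

/-- `2 ^ m` ones at distance `s` bits -/
def repD (s m : Nat) : Nat :=
  Nat.rec (motive := fun _ => Nat) (nat_lit 1)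
    (fun i ih => Nat.add ih (Nat.shiftLeft ih (Nat.shiftLeft s i))) m

/-- `n` ones at distance `s` bits -/
def repN (s n : Nat) : Nat :=
  Nat.shiftRight (repD s (Nat.succ (Nat.log2 n)))
    (Nat.mul s (Nat.sub (Nat.shiftLeft (nat_lit 1) (Nat.succ (Nat.log2 n))) n))

/-- byte `i` of `D` -/
def byte (D i : Nat) : Nat :=
  Nat.land (Nat.shiftRight D (Nat.mul (nat_lit 8) i)) (nat_lit 255)

/-- the configuration: tables of the structure maps -/
structure Cf : Type where
  t2 : TL
  t3 : TL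
  t4 : TL
  eta : TLL
  nodes : TL
  rng : TL
  dv : Nat
  md : Nat

/-- the parameters of one group -/
structure Pm : Type where
  cf : Cf
  lo : DLL
  up : DLL
  mid : TL
  dlo : Nat
  dup : Nat
  s3 : Nat
  s4 : Nat
  w0 : Nat
  nw : Nat
  b0 : Nat
  nb : Nat
  c1 : Nat
  d2 : Nat
  bb : Nat
  sf : Nat
  lm : Nat
  tt : Nat

variable (p : Pm)

def b16 : Nat := Nat.mul (nat_lit 16) p.bb
def sf16 : Nat := Nat.mul (nat_lit 16) p.sf
def sw16 : Nat := Nat.mul p.bb (sf16 p)
def sk16 : Nat := Nat.mul p.nw (sw16 p)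
def rowM : Nat := Nat.mul (nat_lit 15) (repN (nat_lit 16) p.bb)
def spR : Nat := repN (Nat.sub (sf16 p) (nat_lit 16)) (Nat.mul p.nw p.bb)
def spM : Nat := Nat.mul (nat_lit 15) (repN (sf16 p) (Nat.mul p.nw p.bb))
def onesM : Nat := repN (nat_lit 16) (Nat.mul p.lm (Nat.mul p.nw (Nat.mul p.bb p.sf)))
def loMax : Nat := Nat.mul (nat_lit 63) (onesM p)
def hiMax : Nat := Nat.mul (nat_lit 1023) (onesM p)
def loM (m : Nat) : Nat :=
  Nat.shiftRight (loMax p) (Nat.mul (sk16 p) (Nat.sub p.lm (Nat.succ m)))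
def hiM (m : Nat) : Nat :=
  Nat.shiftRight (hiMax p) (Nat.mul (sk16 p) (Nat.sub p.lm (Nat.succ m)))
/-- one round of reduction modulo nine, keeping `m + 1` slabs -/
def red1 (m x : Nat) : Nat :=
  Nat.add (Nat.land x (loM p m)) (Nat.land (Nat.shiftRight x (nat_lit 6)) (hiM p m))
def red2 (m x : Nat) : Nat := red1 p m (red1 p m x)

/-- the first digits of a block of the data -/
def cut (N O i : Nat) : Nat :=
  Nat.land (Nat.shiftRight N (Nat.land (Nat.shiftRight O (Nat.mul (nat_lit 24) i))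
    (nat_lit 16777215))) (Nat.mul (nat_lit 15) (repN (nat_lit 16) (nat_lit 1024)))

/-- a row of digits -/
def row (N O i off : Nat) : Nat := Nat.land (Nat.shiftRight (cut N O i) off) (rowM p)

def offs (x3 x4 : Nat) : Nat :=
  Nat.mul (nat_lit 16) (Nat.add (Nat.mul p.s3 x3) (Nat.mul p.s4 x4))

/-- the right factor, spread out -/
def blkA (w' U off : Nat) : Nat :=
  Nat.land (Nat.mul (spR p) ((TL.get p.cf.rng p.nw).f fun i _ _ =>
    Nat.shiftLeft (row p (dN p.lo (Nat.add p.w0 i) U) (dO p.lo (Nat.add p.w0 i) U) w' off)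
      (Nat.mul (b16 p) i))) (spM p)

/-- the left factor -/
def blkB (w' h V low : Nat) : Nat :=
  (TL.get p.cf.rng p.nb).f fun i _ _ =>
    Nat.shiftLeft (row p (dN p.up w' V) (dO p.up w' V) (Nat.add p.b0 i)
      (Nat.add h (offs p (Nat.land low (nat_lit 15))
        (Nat.land (Nat.shiftRight low (nat_lit 8)) (nat_lit 3)))))
      (Nat.mul (b16 p) i)

/-- call with an evaluated index -/
def pw (f : Nat → Nat → Nat) (s low d : Nat) : Nat := force (Nat.add low d) (f s)

/-- the twisted left factor -/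
def blkT (w' U V low : Nat) : Nat :=
  (TL.get (TLL.get p.cf.eta U) V).f fun s d h => pw (blkB p w' h) s low d

/-- one slab of the initial array -/
def slab (V lowE off j : Nat) : Nat :=
  (TL.get p.mid j).f fun w' U _ => Nat.mul (blkA p w' U off) (blkT p w' U V lowE)

def cmb (f : Nat → Nat) (s d k : Nat) : Nat :=
  Nat.add (Nat.add (f k) (Nat.shiftLeft (f (Nat.add k d)) s))
    (Nat.shiftLeft (Nat.add (f (Nat.add k (Nat.mul (nat_lit 2) d)))
      (Nat.shiftLeft (f (Nat.add k (Nat.mul (nat_lit 3) d))) s)) (Nat.mul (nat_lit 2) s))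

/-- zero if `n ≤ k` -/
def grd (n k x : Nat) : Nat := Bool.rec (motive := fun _ => Nat) x (nat_lit 0) (Nat.ble n k)

def cat4 (f : Nat → Nat) (s n k : Nat) : Nat := grd n k (cmb f s (nat_lit 1) k)
def cat16 (f : Nat → Nat) (s n k : Nat) : Nat :=
  grd n k (cmb (cat4 f s n) (Nat.mul (nat_lit 4) s) (nat_lit 4) k)
def cat64 (f : Nat → Nat) (s n k : Nat) : Nat :=
  grd n k (cmb (cat16 f s n) (Nat.mul (nat_lit 16) s) (nat_lit 16) k)
def cat (f : Nat → Nat) (s n : Nat) : Nat :=
  Nat.add (cat64 f s n (nat_lit 0))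
    (Nat.shiftLeft (cat64 f s n (nat_lit 64)) (Nat.mul (nat_lit 64) s))

/-- the number of slabs needed for the monomial `V` -/
def lenV (V : Nat) : Nat :=
  Bool.rec (motive := fun _ => Nat) p.lm
    (Nat.sub (Nat.succ (Nat.add p.d2 (byte p.cf.dv V))) p.c1)
    (Nat.ble (Nat.sub (Nat.succ (Nat.add p.d2 (byte p.cf.dv V))) p.c1) p.lm)

def slabK (V lowE off jb k : Nat) : Nat := force (Nat.sub jb k) (slab p V lowE off)

def init2 (V m f3 f4 low : Nat) : Nat :=
  force (Nat.sub low (Nat.add (Nat.mul (nat_lit 53264) f3) (Nat.mul (nat_lit 164864) f4)))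
    fun lowE => force (offs p f3 f4) fun off =>
      force (Nat.sub (Nat.add p.d2 (byte p.cf.dv V)) (Nat.shiftRight lowE (nat_lit 12))) fun jb =>
        red2 p m (cat (slabK p V lowE off jb) (sk16 p) (Nat.succ m))

/-- the initial arrays -/
def init (V low : Nat) : Nat :=
  Nat.rec (motive := fun _ => Nat) (nat_lit 0)
    (fun m _ => init2 p V m (Nat.land (Nat.shiftRight low (nat_lit 4)) (nat_lit 15))
      (Nat.land (Nat.shiftRight low (nat_lit 10)) (nat_lit 3)) low)
    (Nat.sub (lenV p V) (Nat.shiftRight low (nat_lit 12)))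

/-- the shift belonging to a code -/
def shf (h : Nat) : Nat :=
  Nat.add (Nat.add (Nat.mul (sk16 p) (Nat.shiftRight h (nat_lit 12)))
    (Nat.mul (sf16 p) (Nat.land (Nat.shiftRight h (nat_lit 6)) (nat_lit 63))))
    (Nat.mul (nat_lit 16) (Nat.land h (nat_lit 63)))

/-- transposed multiplication by the diagonal of a generator -/
def lev (red : Nat → Nat → Nat) (t : TL) (prev : Nat → Nat → Nat) (u V low : Nat) : Nat :=
  Nat.rec (motive := fun _ => Nat) (nat_lit 0)
    (fun m _ => red m ((TL.get t V).f fun s d h => Nat.shiftRight (pw prev s low d) (shf p h)))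
    (Nat.sub (lenV p V) (Nat.add u (Nat.shiftRight low (nat_lit 12))))

def iter (red : Nat → Nat → Nat) (t : TL) (x : Nat → Nat → Nat) (u w g : Nat) : Nat → Nat → Nat :=
  Nat.rec (motive := fun _ => Nat → Nat → Nat) x
    (fun n ih => lev p red t ih (Nat.add u (Nat.mul w (Nat.succ n)))) g

def x4 (g4 : Nat) : Nat → Nat → Nat :=
  iter p (red2 p) p.cf.t4 (init p) (nat_lit 0) (nat_lit 40) g4
def x3 (g4 g3 : Nat) : Nat → Nat → Nat :=
  iter p (red2 p) p.cf.t3 (x4 p g4) (Nat.mul (nat_lit 40) g4) (nat_lit 13) g3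
def x2 (g4 g3 g2 : Nat) : Nat → Nat → Nat :=
  iter p (red1 p) p.cf.t2 (x3 p g4 g3)
    (Nat.add (Nat.mul (nat_lit 40) g4) (Nat.mul (nat_lit 13) g3)) (nat_lit 4) g2

def colM : Nat :=
  Nat.mul (Nat.mul (nat_lit 65535) (repN (b16 p) p.nb)) (repN (sw16 p) (Nat.mul p.nw p.lm))

def slot (g4 g3 g2 : Nat) : Nat :=
  Nat.add (Nat.mul (sf16 p) (Nat.add (Nat.mul (nat_lit 3) g3) (Nat.mul (nat_lit 10) g4)))
    (Nat.mul (nat_lit 16) g2)

def ins (V u : Nat) : Nat :=
  (TL.get p.cf.nodes u).f fun g4 g3 g2 =>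
    Nat.shiftLeft (Nat.land (x2 p g4 g3 g2 V (nat_lit 0)) (colM p)) (slot p g4 g3 g2)

def stepC (V u ih : Nat) : Nat :=
  Nat.rec (motive := fun _ => Nat) (nat_lit 0)
    (fun m _ => red1 p m (Nat.add (Nat.add ih (Nat.shiftRight ih (sk16 p))) (ins p V u)))
    (Nat.sub (lenV p V) u)

/-- the collected values after `n` steps -/
def acc (V n : Nat) : Nat :=
  Nat.rec (motive := fun _ => Nat) (nat_lit 0) (fun u ih => stepC p V u ih) n

def slotM : Nat :=
  Nat.mul (Nat.mul (nat_lit 65535) (repN (nat_lit 16) p.bb)) (repN (sf16 p) p.bb)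

/-- the values for the monomial `V`, the lower generator `w0 + w`, the upper one `b0 + b` -/
def blk (V w b : Nat) : Nat :=
  force (Nat.sub (Nat.succ (Nat.add (byte p.cf.dv V) (byte p.dup (Nat.add p.b0 b))))
      (byte p.dlo (Nat.add p.w0 w))) fun n =>
    Nat.land (Nat.shiftRight (acc p V n)
      (Nat.add (Nat.add (Nat.mul (sk16 p) (Nat.sub p.d2 (byte p.dup (Nat.add p.b0 b))))
        (Nat.mul (sw16 p) w)) (Nat.mul (b16 p) b))) (slotM p)

def topM : Nat := Nat.mul (nat_lit 61440) (repN (nat_lit 16) (Nat.mul p.bb p.sf))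

/-- zero if all digits are divisible by `m` -/
def ndiv (m x : Nat) : Nat := Nat.add (Nat.mod x m) (Nat.land (Nat.div x m) (topM p))

/-- zero if the side conditions hold -/
def side (V w b : Nat) : Nat :=
  Nat.add (Nat.add (Nat.sub p.c1 (byte p.dlo (Nat.add p.w0 w)))
      (Nat.sub (byte p.dup (Nat.add p.b0 b)) p.d2))
    (Nat.add (Nat.sub (Nat.succ (Nat.add (byte p.cf.dv V) (byte p.dup (Nat.add p.b0 b))))
        (Nat.add (byte p.dlo (Nat.add p.w0 w)) (Nat.mul (nat_lit 4) p.bb)))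
      (Nat.sub (Nat.succ (Nat.add (byte p.cf.dv V) p.d2))
        (Nat.add (byte p.dlo (Nat.add p.w0 w)) p.lm)))

def chk1 (V w b : Nat) : Nat :=
  grd (Nat.succ p.tt) (Nat.add (byte p.cf.dv V) (byte p.dup (Nat.add p.b0 b)))
    (grd (Nat.succ (Nat.add (byte p.cf.dv V) (byte p.dup (Nat.add p.b0 b))))
      (byte p.dlo (Nat.add p.w0 w))
      (Nat.add (side p V w b) (ndiv p (byte p.cf.md V) (blk p V w b))))

/-- zero if the parameters are admissible -/
def pre : Nat :=
  Nat.add (Nat.add (Nat.add (Nat.sub (nat_lit 1) p.bb) (Nat.sub (nat_lit 1) p.nw))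
      (Nat.add (Nat.sub (Nat.mul p.nb p.bb) p.sf) (Nat.sub (Nat.succ (Nat.mul p.nw p.bb)) p.sf)))
    (Nat.add (Nat.add (Nat.sub p.bb (nat_lit 30)) (Nat.sub p.lm (nat_lit 128)))
      (Nat.add (Nat.sub p.nw (nat_lit 120)) (Nat.sub p.nb (nat_lit 120))))

/-- zero if the check succeeds for all monomials in `mask` -/
def chk (mask : Nat) : Nat :=
  Nat.add (pre p) ((TL.get p.cf.rng (nat_lit 15)).f fun V _ _ =>
    grd (Nat.land (Nat.shiftRight mask V) (nat_lit 1)) (nat_lit 0)
      ((TL.get p.cf.rng p.nw).f fun w _ _ => (TL.get p.cf.rng p.nb).f fun b _ _ => chk1 p V w b))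

/-- weights of the lower generators and of the variables, leading terms -/
structure Gb : Type where
  ka : Nat
  l1 : Nat
  l2 : Nat
  l3 : Nat
  l4 : Nat
  ld : Nat

/-- the weight of the lower generator `w` -/
def Gb.kap (z : Gb) (w : Nat) : Nat :=
  Nat.land (Nat.shiftRight z.ka (Nat.mul (nat_lit 64) w)) (nat_lit 18446744073709551615)

/-- entry `i` of the leading term number `b` -/
def Gb.lt (z : Gb) (b i : Nat) : Nat := byte z.ld (Nat.add (Nat.mul (nat_lit 4) b) i)

/-- the weight of a term -/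
def Gb.key (z : Gb) (w g1 g2 g3 g4 : Nat) : Nat :=
  Nat.add (Nat.add (z.kap w) (Nat.mul g1 z.l1))
    (Nat.add (Nat.add (Nat.mul g2 z.l2) (Nat.mul g3 z.l3)) (Nat.mul g4 z.l4))

/-- the weight of the leading term without its first exponent -/
def Gb.u0 (z : Gb) (dlo b : Nat) : Nat :=
  Nat.add (Nat.add (byte dlo (z.lt b (nat_lit 0))) (Nat.mul (nat_lit 4) (z.lt b (nat_lit 1))))
    (Nat.add (Nat.mul (nat_lit 13) (z.lt b (nat_lit 2)))
      (Nat.mul (nat_lit 40) (z.lt b (nat_lit 3))))

/-- the weight of the leading term number `b` -/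
def Gb.th (z : Gb) (dlo dup b : Nat) : Nat :=
  z.key (z.lt b (nat_lit 0)) (Nat.sub (byte dup b) (z.u0 dlo b)) (z.lt b (nat_lit 1))
    (z.lt b (nat_lit 2)) (z.lt b (nat_lit 3))

def dist (a b : Nat) : Nat := Nat.add (Nat.sub a b) (Nat.sub b a)

/-- the residue modulo three of a digit -/
def res (x g4 g3 g2 : Nat) : Nat :=
  Nat.mod (Nat.land (Nat.shiftRight x (slot p g4 g3 g2)) (nat_lit 65535)) (nat_lit 3)

def gbN (z : Gb) (x w b g1 g4 g3 g2 : Nat) : Nat :=
  grd (res p x g4 g3 g2) (nat_lit 0)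
    (grd (Nat.succ (z.key w g1 g2 g3 g4)) (z.th p.dlo p.dup b)
      (Nat.add (Nat.add (dist w (z.lt b (nat_lit 0))) (dist g2 (z.lt b (nat_lit 1))))
        (Nat.add (dist g3 (z.lt b (nat_lit 2))) (dist g4 (z.lt b (nat_lit 3))))))

def gbL (z : Gb) (x w b : Nat) : Nat :=
  grd (nat_lit 1) (dist w (z.lt b (nat_lit 0)))
    (Nat.sub (nat_lit 1)
      (res p x (z.lt b (nat_lit 3)) (z.lt b (nat_lit 2)) (z.lt b (nat_lit 1))))

def gbX (z : Gb) (x w b d : Nat) : Nat :=
  Nat.add (gbL p z x w b) ((TL.get p.cf.rng (Nat.succ d)).f fun u _ _ =>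
    force (Nat.sub d u) fun g1 => (TL.get p.cf.nodes u).f (gbN p z x w b g1))

def gb1 (z : Gb) (w b : Nat) : Nat :=
  grd (Nat.succ (byte p.dup (Nat.add p.b0 b))) (byte p.dlo (Nat.add p.w0 w))
    (Nat.add (side p (nat_lit 0) w b)
      (force (Nat.sub (byte p.dup (Nat.add p.b0 b)) (byte p.dlo (Nat.add p.w0 w))) fun d =>
        force (Nat.add p.w0 w) fun w' => force (Nat.add p.b0 b) fun b' =>
          gbX p z (blk p (nat_lit 0) w b) w' b' d))

/-- zero if the leading terms are as stated -/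
def chkG (z : Gb) : Nat :=
  Nat.add (pre p)
    ((TL.get p.cf.rng p.nw).f fun w _ _ => (TL.get p.cf.rng p.nb).f fun b _ _ => gb1 p z w b)

/-- the data of two consecutive matrices -/
structure Bs : Type where
  cf : Cf
  lo : DLL
  up : DLL
  mid : TL
  dlo : Nat
  dup : Nat
  s3 : Nat
  s4 : Nat
  tt : Nat

/-- a group of generators and monomials with the shape of its arrays -/
structure Gp : Type where
  w0 : Nat
  nw : Nat
  b0 : Nat
  nb : Nat
  mask : Nat
  c1 : Nat
  d2 : Nat
  bb : Nat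
  sf : Nat
  lm : Nat

def mkP (a : Bs) (g : Gp) : Pm :=
  ⟨a.cf, a.lo, a.up, a.mid, a.dlo, a.dup, a.s3, a.s4, g.w0, g.nw, g.b0, g.nb, g.c1, g.d2, g.bb,
    g.sf, g.lm, a.tt⟩

def okK (a : Bs) (g : Gp) : Bool := Nat.beq (chk (mkP a g) g.mask) (nat_lit 0)
def okG (a : Bs) (z : Gb) (g : Gp) : Bool := Nat.beq (chkG (mkP a g) z) (nat_lit 0)

/-- sums with coefficients as trees -/
inductive TT : Type
  | zero : TT
  | leaf : Nat → Nat → Nat → TT
  | add : TT → TT → TT
  | mul : Nat → TT → TT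

/-- the value of a tree -/
def TT.ev : TT → (Nat → Nat → Nat → Nat) → Nat
  | .zero, _ => nat_lit 0
  | .leaf a b c, x => x a b c
  | .add s t, x => Nat.add (s.ev x) (t.ev x)
  | .mul c t, x => Nat.mul c (t.ev x)

/-- the table given by a list of trees -/
def ofL : List TT → TL
  | [] => TL.nil
  | t :: l => TL.cons ⟨t.ev⟩ (ofL l)

/-- the table given by a list of lists of trees -/
def ofLL : List (List TT) → TLL
  | [] => TLL.nil
  | t :: l => TLL.cons (ofL t) (ofLL l)

/-- all groups of a list pass the check -/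
def AllB (f : Gp → Bool) : List Gp → Prop
  | [] => True
  | g :: l => f g = true ∧ AllB f l

end Vale.Agent.P236KE

end
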