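import Vale.Agent.P236KE.Chk

/-!
# P236KE / Tab : tables from lists of terms
-/

namespace Vale.Agent.P236KE

/-- the leaves of a tree -/
def TT.lv : TT → List Q4
  | .zero => []
  | .leaf a b c => [(1, a, b, c)]
  | .add s t => s.lv ++ t.lv
  | .mul c t => t.lv.map fun a => (c * a.1, a.2)

theorem TT.ev_eq (x : ℕ → ℕ → ℕ → ℕ) : ∀ t : TT, t.ev x = lsum t.lv x
  | .zero => rfl
  | .leaf a b c => by simp [TT.ev, TT.lv, lsum]
  | .add s t => by
    rw [TT.ev, TT.ev_eq x s, TT.ev_eq x t, TT.lv, lsum, lsum, lsum, List.map_append,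
      List.sum_append]
    rfl
  | .mul c t => by
    rw [TT.ev, TT.ev_eq x t, TT.lv, lsum, lsum, List.map_map]
    change c * _ = _
    rw [← List.sum_map_mul_left]
    exact congrArg List.sum (List.map_congr_left fun a _ => (mul_assoc _ _ _).symm)

theorem drop_ofL (l : List TT) (i : ℕ) : TL.drop (ofL l) i = ofL (l.drop i) := by
  induction i with
  | zero => rfl
  | succ i ih =>
    change TL.tail (TL.drop (ofL l) i) = _
    rw [ih, ← List.tail_drop]
    cases l.drop i <;> rfl

theorem lin_ofL (l : List TT) (i : ℕ) : Lin (TL.get (ofL l) i) (l.getD i .zero).lv := by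
  rw [TL.get, drop_ofL, List.getD_eq_getElem?_getD, ← List.head?_drop]
  cases l.drop i with
  | nil => exact fun _ => rfl
  | cons t _ => exact fun x => TT.ev_eq x t

theorem get_ofLL (l : List (List TT)) (i : ℕ) : TLL.get (ofLL l) i = ofL (l.getD i []) := by
  have h : TLL.drop (ofLL l) i = ofLL (l.drop i) := by
    induction i with
    | zero => rfl
    | succ i ih =>
      change TLL.tail (TLL.drop (ofLL l) i) = _
      rw [ih, ← List.tail_drop]
      cases l.drop i <;> rfl
  rw [TLL.get, h, List.getD_eq_getElem?_getD, ← List.head?_drop]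
  cases l.drop i <;> rfl

theorem Lin.perm {e : TE} {l l' : List Q4} (h : Lin e l) (hp : l.isPerm l' = true) : Lin e l' :=
  fun x => (h x).trans ((List.isPerm_iff.1 hp).map _).sum_eq

/-- the modulus for the monomial number `V` -/
def mdv (V : ℕ) : ℕ := 3 ^ min 2 (3 - len4 (vm V))

/-- the number of a monomial -/
def idx (e : Q4) : ℕ := vl.idxOf e

/-- divisibility of monomials -/
def le4 (a b : Q4) : Bool :=
  Nat.ble a.1 b.1 && Nat.ble a.2.1 b.2.1 && Nat.ble a.2.2.1 b.2.2.1 && Nat.ble a.2.2.2 b.2.2.2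

/-- the terms which contribute to the coefficient of the monomial number `V` -/
def pick (V : ℕ) : List DT → List Tm
  | [] => []
  | τ :: l => bif le4 τ.v (vm V) && Nat.blt 0 (τ.c % mdv V) then
      ⟨τ.c % mdv V, idx (vm V - τ.v), τ.x, τ.y⟩ :: pick V l else pick V l

/-- the product of two terms -/
def DT.mul (a b : DT) : DT := ⟨a.c * b.c, a.v + b.v, a.x + b.x, a.y + b.y⟩

/-- the product of two lists of terms -/
def mulL (l l' : List DT) : List DT := l.flatMap fun a => l'.map a.mul

/-- the powers of a list of terms -/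
def powL (l : List DT) : ℕ → List DT
  | 0 => [⟨1, 0, 0, 0⟩]
  | n + 1 => mulL (powL l n) l

/-- the right unit of a monomial -/
def eL (e : Q4) : List DT :=
  mulL (mulL (mulL (powL el1 e.1) (powL el2 e.2.1)) (powL el3 e.2.2.1)) (powL el4 e.2.2.2)

/-- the table of right units -/
def etT (U V : ℕ) : List Tm := pick V (eL (vm U))

/-- the generators of degree `d` -/
def byD (dm n d : ℕ) : List ℕ := (List.range n).filter fun w => Nat.beq (byte dm w) d

/-- pairs of a middle generator and a monomial with total weight `j` -/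
noncomputable def mlT (dm n T j : ℕ) : List (ℕ × ℕ) :=
  bif Nat.ble j T then (List.range 15).flatMap fun U =>
    bif Nat.ble (wt4 (vm U)) j then (force (j - wt4 (vm U)) (byD dm n)).map fun w => (w, U) else []
  else []

/-- the check of a table of a diagonal -/
def levOk (cf : Cf) (t : List TT) (l : List DT) (n β : ℕ) : Bool :=
  (List.range 15).all fun V => (t.getD V .zero).lv.isPerm ((pick V l).map Tm.code) &&
    Nat.ble (lwt ((pick V l).map Tm.code)) β && (pick V l).all fun τ => Nat.blt τ.s 15 &&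
      Nat.beq (byte cf.dv V + wt4 τ.x + wt4 τ.y) (byte cf.dv τ.s + n) &&
      Nat.ble (byte cf.dv τ.s) (byte cf.dv V) && Nat.beq (byte cf.md τ.s % byte cf.md V) 0 &&
      Nat.blt τ.x.2.1 64 && Nat.blt τ.y.2.1 64

theorem levT_of {cf : Cf} {t' : TL} {t : List TT} {l : List DT} {n β : ℕ} (e : t' = ofL t)
    (h : levOk cf t l n β = true) : LevT cf 15 t' (fun V => pick V l) n β := fun V hV => by
  subst e
  simp only [levOk, List.all_eq_true, List.mem_range, Bool.and_eq_true, Nat.ble_eq, Nat.blt_eq,
    Nat.beq_eq] at h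
  obtain ⟨⟨h1, h2⟩, h3⟩ := h V hV
  refine ⟨(lin_ofL t V).perm h1, h2, fun τ hτ => ?_⟩
  obtain ⟨⟨⟨⟨⟨a1, a2⟩, a3⟩, a4⟩, a5⟩, a6⟩ := h3 τ hτ
  exact ⟨a1, a2, a3, Nat.dvd_of_mod_eq_zero a4, a5, a6⟩

/-- the check of the table of monomials -/
def nodOk (t : List TT) : Bool :=
  ((List.range 120).all fun u => Nat.ble (lwt (t.getD u .zero).lv) 30 &&
    (t.getD u .zero).lv.all fun a => Nat.beq (40 * a.2.1 + 13 * a.2.2.1 + 4 * a.2.2.2) u) &&
  (List.range 3).all fun g4 => (List.range 10).all fun g3 => (List.range 30).all fun g2 =>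
    Nat.ble 120 (40 * g4 + 13 * g3 + 4 * g2) ||
      Nat.beq (lsum (t.getD (40 * g4 + 13 * g3 + 4 * g2) .zero).lv
        fun a b c => if a = g4 ∧ b = g3 ∧ c = g2 then 1 else 0) 1

theorem nodT_of {cf : Cf} {t : List TT} (e : cf.nodes = ofL t) (h : nodOk t = true) : NodT cf := by
  simp only [nodOk, List.all_eq_true, List.mem_range, Bool.and_eq_true, Nat.ble_eq,
    Nat.beq_eq, Bool.or_eq_true] at h
  intro u hu
  refine ⟨_, e ▸ lin_ofL t u, (h.1 u hu).1, (h.1 u hu).2, fun g4 g3 g2 e' => ?_⟩
  rw [← e']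
  exact (h.2 g4 (by omega) g3 (by omega) g2 (by omega)).resolve_left (by omega)

theorem sum_list_range {M : Type*} [AddCommMonoid M] (f : ℕ → M) (n : ℕ) :
    ((List.range n).map f).sum = ∑ i ∈ Finset.range n, f i := rfl

/-- the check of the table of ranges -/
def rngOk (t : List TT) : Bool :=
  (List.range 121).all fun n => (t.getD n .zero).lv == (List.range n).map fun i => (1, i, 0, 0)

theorem rngT_of {cf : Cf} {t : List TT} (e : cf.rng = ofL t) (h : rngOk t = true) : RngT cf := by
  simp only [rngOk, List.all_eq_true, List.mem_range, beq_iff_eq] at h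
  intro n hn x
  rw [e, lin_ofL t n x, h n (by omega), lsum, List.map_map, ← sum_list_range]
  exact congrArg List.sum (List.map_congr_left fun i _ => one_mul _)

/-- the check of the table of right units -/
def etaOk (t : List (List TT)) : Bool :=
  (List.range 15).all fun U => (List.range 15).all fun V =>
    ((t.getD U []).getD V .zero).lv.isPerm ((etT U V).map Tm.codeE) &&
    Nat.ble (lwt ((etT U V).map Tm.codeE)) 6 &&
    (etT U V).all fun τ => Nat.ble τ.x.2.2.1 6 && Nat.ble τ.x.2.2.2 1

/-- the check of the table of middle generators -/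
noncomputable def midOk (t : List TT) (dm n T : ℕ) : Bool :=
  Nat.ble t.length (T + 1) && (List.range (T + 1)).all fun j =>
    (t.getD j .zero).lv.isPerm ((mlT dm n T j).map fun a => (1, a.1, a.2, 0)) &&
    Nat.ble (mlT dm n T j).length 48

theorem iniT_of {p : Pm} {t : List (List TT)} {m : List TT} {dm n : ℕ} (e : p.cf.eta = ofLL t)
    (h : etaOk t = true) (e' : p.mid = ofL m) (h' : midOk m dm n p.tt = true) :
    IniT p 15 etT (mlT dm n p.tt) := by
  simp only [etaOk, midOk, List.all_eq_true, List.mem_range, Bool.and_eq_true, Nat.ble_eq] at h h'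
  refine ⟨fun U hU V hV => ?_, fun j => ?_⟩
  · obtain ⟨⟨h1, h2⟩, h3⟩ := h U hU V hV
    rw [e, get_ofLL]
    exact ⟨(lin_ofL _ V).perm h1, h2, h3⟩
  · rw [e']
    by_cases hj : j ≤ p.tt
    · obtain ⟨h1, h2⟩ := h'.2 j (by omega)
      refine ⟨(lin_ofL _ j).perm h1, h2, fun a ha => ?_⟩
      simp only [mlT, Nat.ble_eq_true_of_le hj, cond_true, List.mem_flatMap,
        List.mem_range] at ha
      obtain ⟨U, h3, h4⟩ := ha
      rcases h5 : Nat.ble (wt4 (vm U)) j with _ | _
      · rw [h5] at h4
        exact absurd h4 List.not_mem_nil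
      · rw [h5, cond_true, List.mem_map] at h4
        obtain ⟨w, -, rfl⟩ := h4
        exact h3
    · have h1 : mlT dm n p.tt j = [] := by
        rw [mlT, show Nat.ble j p.tt = false from by
          rw [← Bool.not_eq_true, Nat.ble_eq]; exact hj, cond_false]
      have h2 := lin_ofL m j
      rw [List.getD_eq_default _ _ (by omega)] at h2
      rw [h1]
      exact ⟨h2, by simp, by simp⟩

end Vale.Agent.P236KE
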