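import Vale.Agent.P236KE.Chm
import Vale.Agent.P236EL.Line
import Vale.Agent.P236F.Facts
import Vale.Agent.P236R.Alg

/-!
# P236KE / Yr : a resolution of the three cell complex from checked data
-/

noncomputable section

namespace Vale.Agent.P236KE

open MvPolynomial Vale.Agent.P236EL Vale.Agent.P236K2 Vale.Agent.P236SY Vale.Agent.P236F
open Vale.Agent.P251.F Vale.Agent.P251.I

theorem three_pt : ∀ a b c : ZMod 3, (∀ x, a + b * (2 * x) + c * (2 * x ^ 2) = 0) →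
    a = 0 ∧ b = 0 ∧ c = 0 := by decide

variable [Fact (Nat.Prime 3)]

/-- a resolution which stops is a resolution of every length -/
theorem ok_ext {L F : Type} [CommRing L] [Field F] {π : L →+* F} {G : ℕ → Type}
    [∀ q, Fintype (G q)] {R : Rs 3 L G} {r Q : ℕ} {T : ℤ} (h : R.Ok π r Q T)
    (he : ∀ q, Q ≤ q → G (q + 1) → False) (Q' : ℕ) : R.Ok π r Q' T := by
  refine ⟨h.surj, h.ker, ⟨h.k1.aug, fun q _ w w'' E hE => ?_⟩, h.k2.inj, h.k2.aug,
    fun q _ e he' a ha h0 => ?_⟩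
  · by_cases hq : q + 1 < Q
    · exact h.k1.sq q hq w w'' E hE
    · exact (he (q + 2) (by omega) w'').elim
  · by_cases hq : q + 1 < Q
    · exact h.k2.ex q hq e he' a ha h0
    · exact ⟨0, zero_mem _, funext fun w => (he (q + 1) (by omega) w).elim⟩

/-- the comodule with three cells -/
abbrev cY3 : Cm 3 (ZMod 3) (Fin 3) := (Ga.three 2 2 2 rfl).cm 3

namespace Sq

variable (S : Sq)

omit [Fact (Nat.Prime 3)] in
/-- three cells, then the generators -/
def gy : ℕ → ℕ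
  | 0 => 3
  | q + 1 => S.n q

omit [Fact (Nat.Prime 3)] in
/-- the index sets -/
abbrev GY (q : ℕ) : Type := Fin (S.gy q)

omit [Fact (Nat.Prime 3)] in
/-- the degrees -/
def dy : (q : ℕ) → S.GY q → ℕ
  | 0, c => c
  | q + 1, w => byte (S.d q) w

omit [Fact (Nat.Prime 3)] in
theorem dy_one (w : S.GY 1) : S.dy 1 w = 0 := S.dg_one w

/-- the resolution -/
def ry : Rs 3 (ZMod 3) S.GY where
  deg q w := S.dy q w
  th := cY3.th
  e c _ := cY3.th c 0
  y q w w' := yOf (ZMod 3) (S.D q) (S.d q) (S.d (q + 1)) S.s3 S.s4 w w'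
  hth := cY3.hth
  he c w := by
    rw [S.dy_one]
    exact cY3.hth c 0
  hy _ _ _ := homR_yOf _ _ _ _ _ _ _
  coc c _ := cY3.coc c 0

omit [Fact (Nat.Prime 3)] in
/-- the checks of the composite of two matrices modulo the ideal -/
structure KY (T q : ℕ) (k : Cb) (t : Tc) (gs : List Gp) : Prop where
  lo : S.Lo (mkB k t) T q
  md : k.md = md3
  c : t.c = 1
  up : t.up = S.D (q + 1)
  dup : k.dup = S.d (q + 2)
  dm : t.dm = S.d (q + 1)
  n : t.n = S.n (q + 1)
  all : AllB (okS k [t]) gs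
  cov : cov gs 1 (S.n q) (S.n (q + 2)) cf3.dv k.dlo k.dup k.tt = true

variable {S}

theorem ky {T Q : ℕ} (h1 : ∀ w < S.n 1, 2 < byte (S.d 1) w)
    (hK : ∀ q, q + 1 < Q → ∃ k t gs, S.KY T q k t gs) : S.ry.K1 (II 3 _ ^ 1) Q T := by
  refine ⟨fun c w' => Ideal.sum_mem _ fun w _ => ?_, fun q hq w w'' E hE => ?_⟩
  · have h3 := rAp_mem_mul (x := RingHom.id _) (J := ⊤) (K := II 3 (ZMod 3) ^ 1)
      (r := S.ry.y 0 w w') (G := S.ry.e c w) (fun _ => trivial) fun E hE => by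
        have h4 := weight_le_of_coeff (fun _ hn _ hb => WA_neg hn hb) (S.ry.he c w) hE
        change _ ≤ ((c : ℕ) : ℤ) - (S.dy 1 w : ℕ) at h4
        have h5 : byte (S.d 0) w = 0 := S.dg_one w
        have h6 := h1 w' w'.2
        have h7 : (c : ℕ) < 3 := c.2
        rw [show wz 3 = fun i => (wt 3 i : ℤ) from rfl, weight_cast] at h4
        change yOf _ (S.D 0) (S.d 0) (S.d 1) S.s3 S.s4 w w' E ∈ _
        rw [yOf, Finset.sum_eq_zero fun U _ => if_neg (by omega)]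
        exact zero_mem _
    rwa [Ideal.top_mul, Ideal.map_id] at h3
  · obtain ⟨⟨k1, k2, k3, k4, k5, k6⟩, ⟨a1, a2, a3, a4, a5, a6⟩, gs, ⟨e1, e2, e3, e4, e5, e6⟩,
      e7, e8, e9, e10, e11, e12, c1, c2⟩ := hK q hq
    dsimp only [mkB] at e1 e2 e3 e4 e5 e7 e8 e9 e10 e11 e12
    subst e1 e2 e3 e4 e5 e7 e8 e9 e10 e11 e12
    have h2 := cvs_mem (L := ZMod 3) (r := 1) (by decide) (by omega) (mdOk_three (by decide) _)
      (by exact (show 1 + 0 ≤ 60 by omega)) (by simpa using e6) e6.tt c1 c2 w.2 w''.2 E (by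
        change _ + (byte (S.d q) w : ℤ) ≤ _ at hE
        rw [show wz 3 = fun i => (wt 3 i : ℤ) from rfl, weight_cast] at hE
        change _ + byte (S.d q) w ≤ k5
        omega)
    simp only [List.map_cons, List.map_nil, List.sum_cons, List.sum_nil, add_zero, one_smul] at h2
    exact h2

/-- **The data give a resolution.** -/
theorem oky {T Q : ℕ} (hT : T < 117) (hQ : 0 < Q) (h0 : 0 < S.n 0)
    (h1 : ∀ w < S.n 1, 2 < byte (S.d 1) w) (hK : ∀ q, q + 1 < Q → ∃ k t gs, S.KY T q k t gs)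
    {z : ℕ → Gb} {dz nG c : ℕ → ℕ} (hG : ∀ q < Q, S.CQ T z dz nG c q)
    (hc0 : ckD (2 ^ 28) (c 0) 0 (1 + 2 ^ 28 + 2 ^ 56) (T + 1) = true)
    (hc : ∀ q, q + 1 < Q → ckD (2 ^ 28) (c (q + 1)) (c q) (pn (S.n q) (S.d q) fun _ => [])
      (T + 1) = true) : S.ry.Ok (RingHom.id _) 1 Q T := by
  have e : ∀ q (lts : ℕ → List (List ℕ)),
      PN (2 ^ 28) (S.dy (q + 1)) (fun w => lts w) = pn (S.n q) (S.d q) lts := fun q => pn_eq q
  refine ⟨Function.surjective_id, fun x hx => by rw [show x = 0 from hx]; exact zero_mem _,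
    ky h1 hK, K2_of_GB (dg := S.dy) (fun _ _ => rfl) (r := 1) (T := T + 1)
    le_rfl (by omega) (by omega) (by simpa using ky h1 hK) (κ := fun q w => (z q).kap w)
    (lam := fun _ => lamF) (fun _ => lamF_lt)
    (lts := fun q w => ltsOf (z q) (S.d q) (dz q) (nG q) w) (fun q hq w => ?_) (B := 2 ^ 28)
    (fun q => ?_) (fun b hb => ?_) ?_ fun q hq => ?_⟩
  · obtain ⟨a, gs, ⟨a1, a2, a3, a4, a5, a6⟩, a7, a8, a9, a10⟩ := (hG q (by omega)).gq
    have h2 := gb_of (L := ZMod 3) (by decide) (RingHom.id _) a6 a8 a9 a10 w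
    rw [a1, a2, a3, a4, a7] at h2
    exact h2
  · have : S.gy q ≤ 255 := by
      rcases q with _ | q
      · exact (by decide : 3 ≤ 255)
      · exact Nat.and_le_right
    rw [Fintype.card_fin]
    omega
  · have h2 : ∑ c : Fin 3, C (b c) * map (red (RingHom.id _)) (cY3.th c 0) = 0 := hb ⟨0, h0⟩
    obtain ⟨h3, h4, h5⟩ := three_pt (b (0 : Fin 3)) (b (1 : Fin 3)) (b (2 : Fin 3)) fun x => by
      simpa [Fin.sum_univ_three, Ga.cm, Ga.ent, Ga.three, red] using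
        congrArg (eval fun _ => x) h2
    funext c
    fin_cases c
    exacts [h3, h4, h5]
  · rw [e 0 (ltsOf _ _ _ _), (hG 0 hQ).pn]
    exact (congrArg (ckD _ _ _ · _) (Fin.sum_univ_three _)).trans hc0
  · rw [e (q + 1) (ltsOf _ _ _ _), e q (ltsOf _ _ _ _), e q fun _ => [],
      (hG q (by omega)).pn, (hG (q + 1) hq).pn]
    exact hc q hq

theorem icy {t : Cob Laz 1} (ht : IsT1 3 t) : IC p3 S.ry (θY t) :=
  have h := IC.ga (hQ := p3) (S.rs (ZMod 3)) rfl rfl (Ga.three 2 2 2 rfl) rfl ht (d_t ht) (wt_t ht)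
    (P236R.wt_Y ht) (rq_Y p3 rfl)
  ⟨⟨h.cell.mc, h.cell.lk, h.cell.wt⟩, h.wt⟩

/-- **The cohomology vanishes below the generators.** -/
theorem vy {T Q : ℕ} (h : S.ry.Ok (RingHom.id _) 1 Q T) (hn : S.nn < 2 ^ (8 * Q))
    {t : Cob Laz 1} (ht : IsT1 3 t) {w : ℤ} {s : ℕ} (hw : w ≤ T)
    (hs : ∀ g < S.n s, w < byte (S.d s) g) : VY t w s :=
  (icy ht).van (ok_ext h (fun q hq g => by
      have h1 : (g : ℕ) < (S.nn >>> (8 * q)) &&& 255 := g.2
      rw [Nat.shiftRight_eq_zero _ _ (hn.trans_le (Nat.pow_le_pow_right (by omega) (by omega))),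
        Nat.zero_and] at h1
      omega) _) le_rfl hw (m := 1) (j := T + 1) rfl
    (fun c => by
      change w - ((c : ℕ) : ℤ) < _
      omega) fun _ _ => Rs.K3s_of_lt (fun g => hs g g.2) _

end Sq

end Vale.Agent.P236KE

end
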