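import Vale.Agent.P236KE.Eng
import Mathlib.Tactic.Ring
import Mathlib.Tactic.Linarith
import Mathlib.Data.Nat.Bitwise
import Mathlib.Data.Nat.ModEq

/-!
# P236KE / Dig : digits in base `2 ^ 16`
-/

namespace Vale.Agent.P236KE

theorem force_eq {α : Type} (x : ℕ) (k : ℕ → α) : force x k = k x := rfl

/-- digit `i` of `N` in base `2 ^ 16` -/
def dig (N i : ℕ) : ℕ := N / 2 ^ (16 * i) % 65536

theorem dig_lt (N i : ℕ) : dig N i < 65536 := Nat.mod_lt _ (by norm_num)

@[simp] theorem dig_zero (i : ℕ) : dig 0 i = 0 := by simp [dig]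

theorem dig_at_zero (N : ℕ) : dig N 0 = N % 65536 := by simp [dig]

theorem dig_succ (N i : ℕ) : dig N (i + 1) = dig (N / 65536) i := by
  unfold dig
  rw [Nat.div_div_eq_div_mul, show 65536 * 2 ^ (16 * i) = 2 ^ (16 * (i + 1)) by ring]

theorem dig_shr (N k i : ℕ) : dig (N >>> (16 * k)) i = dig N (i + k) := by
  unfold dig
  rw [Nat.shiftRight_eq_div_pow, Nat.div_div_eq_div_mul, ← pow_add,
    show 16 * k + 16 * i = 16 * (i + k) by ring]

theorem dig_small {a : ℕ} (h : a < 65536) (i : ℕ) : dig a i = if i = 0 then a else 0 := by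
  rcases i with _ | i
  · simp [dig_at_zero, Nat.mod_eq_of_lt h]
  · rw [dig_succ, Nat.div_eq_of_lt h]; simp

theorem dig_shl (N k i : ℕ) : dig (N <<< (16 * k)) i = if k ≤ i then dig N (i - k) else 0 := by
  induction k generalizing i with
  | zero => simp
  | succ k ih =>
    have h : N <<< (16 * (k + 1)) = 65536 * (N <<< (16 * k)) := by
      rw [Nat.shiftLeft_eq, Nat.shiftLeft_eq]; ring
    rw [h]
    rcases i with _ | i
    · simp [dig_at_zero]
    · rw [dig_succ, Nat.mul_div_cancel_left _ (by norm_num), ih]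
      simp

theorem dig_add {a b : ℕ} (h : ∀ i, dig a i + dig b i < 65536) (i : ℕ) :
    dig (a + b) i = dig a i + dig b i := by
  induction i generalizing a b with
  | zero =>
    have := h 0
    simp only [dig_at_zero] at this ⊢
    omega
  | succ i ih =>
    have h0 := h 0
    simp only [dig_at_zero] at h0
    have h1 : (a + b) / 65536 = a / 65536 + b / 65536 := by omega
    rw [dig_succ, dig_succ, dig_succ, h1]
    exact ih fun j => by rw [← dig_succ, ← dig_succ]; exact h _

theorem dig_mulc {a : ℕ} (c : ℕ) (h : ∀ i, c * dig a i < 65536) (i : ℕ) :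
    dig (c * a) i = c * dig a i := by
  induction c generalizing i with
  | zero => simp
  | succ c ih =>
    have h' : ∀ i, c * dig a i < 65536 := fun i => by have := h i; nlinarith
    rw [Nat.succ_mul, dig_add (fun j => by rw [ih h']; have := h j; nlinarith), ih h']
    ring

theorem dig_land (a b i : ℕ) : dig (a &&& b) i = dig a i &&& dig b i := by
  unfold dig
  rw [Nat.and_div_two_pow, show 65536 = 2 ^ 16 by norm_num, Nat.and_mod_two_pow]

theorem dig_ext {a b : ℕ} (h : ∀ i, dig a i = dig b i) : a = b := by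
  induction hn : a + b using Nat.strong_induction_on generalizing a b with
  | _ n ih =>
    have h0 := h 0
    simp only [dig_at_zero] at h0
    rcases Nat.eq_zero_or_pos n with rfl | ha
    · omega
    · have := ih (a / 65536 + b / 65536) (by omega) (a := a / 65536) (b := b / 65536)
        (fun i => by rw [← dig_succ, ← dig_succ, h]) rfl
      omega

/-- concatenation -/
theorem dig_cat {a : ℕ} (b : ℕ) {s : ℕ} (h : ∀ i, s ≤ i → dig a i = 0) (i : ℕ) :
    dig (a + b <<< (16 * s)) i = if i < s then dig a i else dig b (i - s) := by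
  rw [dig_add, dig_shl]
  · split_ifs with h1 h2 h2
    · omega
    · rw [h i h1, zero_add]
    · rfl
    · omega
  · intro j
    rw [dig_shl]
    split_ifs with h1
    · rw [h j h1, zero_add]; exact dig_lt _ _
    · exact dig_lt _ _

/-- outer product: `A` has digits only at multiples of `S`, `B` has at most `S` digits -/
theorem dig_outer {S : ℕ} (hS : 0 < S) {B α β : ℕ} (hB : ∀ i, S ≤ i → dig B i = 0)
    (hβ : ∀ i, dig B i ≤ β) (hαβ : α * β < 65536) (r : ℕ) : ∀ {A : ℕ},
    (∀ i, ¬ S ∣ i → dig A i = 0) → (∀ i, dig A i ≤ α) → ∀ s < S,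
    dig (A * B) (S * r + s) = dig A (S * r) * dig B s := by
  have key : ∀ {A : ℕ}, (∀ i, ¬ S ∣ i → dig A i = 0) → (∀ i, dig A i ≤ α) → ∀ i,
      dig (A * B) i = if i < S then dig A 0 * dig B i else dig ((A >>> (16 * S)) * B) (i - S) := by
    intro A hA hα i
    have h1 : A = dig A 0 + (A >>> (16 * S)) <<< (16 * S) := by
      refine dig_ext fun j => ?_
      rw [dig_cat _ (fun k hk => by rw [dig_small (dig_lt _ _), if_neg (by omega)])]
      split_ifs with hj
      · rw [dig_small (dig_lt _ _)]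
        split_ifs with h0
        · rw [h0]
        · exact hA j fun hd => by have := Nat.le_of_dvd (by omega) hd; omega
      · rw [dig_shr, Nat.sub_add_cancel (by omega)]
    have h2 : A * B = dig A 0 * B + ((A >>> (16 * S)) * B) <<< (16 * S) := by
      conv_lhs => rw [h1]
      rw [Nat.shiftLeft_eq, Nat.shiftLeft_eq]; ring
    have h3 : ∀ j, dig A 0 * dig B j < 65536 := fun j =>
      lt_of_le_of_lt (Nat.mul_le_mul (hα 0) (hβ j)) hαβ
    rw [h2, dig_cat _ (fun k hk => by rw [dig_mulc _ h3, hB k hk, mul_zero]), dig_mulc _ h3]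
  induction r with
  | zero => intro A hA hα s hs; rw [key hA hα, if_pos (by simpa using hs)]; simp
  | succ r ih =>
    intro A hA hα s hs
    rw [key hA hα, if_neg (by nlinarith), show S * (r + 1) + s - S = S * r + s by
      rw [Nat.mul_succ]; omega, ih _ _ s hs, dig_shr, Nat.mul_succ]
    · intro i hi
      rw [dig_shr]
      exact hA _ fun hd => hi ((Nat.dvd_add_left dvd_rfl).1 hd)
    · intro i
      rw [dig_shr]; exact hα _

theorem dig_outer' {S : ℕ} (hS : 0 < S) {A B α β : ℕ} (hB : ∀ i, S ≤ i → dig B i = 0)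
    (hβ : ∀ i, dig B i ≤ β) (hαβ : α * β < 65536) (hA : ∀ i, ¬ S ∣ i → dig A i = 0)
    (hα : ∀ i, dig A i ≤ α) (i : ℕ) : dig (A * B) i = dig A (S * (i / S)) * dig B (i % S) := by
  conv_lhs => rw [← Nat.div_add_mod i S]
  exact dig_outer hS hB hβ hαβ _ hA hα _ (Nat.mod_lt _ hS)

theorem dig_repD {s : ℕ} (hs : 0 < s) (m i : ℕ) :
    dig (repD (16 * s) m) i = if s ∣ i ∧ i < s * 2 ^ m then 1 else 0 := by
  induction m generalizing i with
  | zero =>
    change dig 1 i = _
    rw [dig_small (by norm_num)]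
    refine if_congr ⟨fun h => by simp [h, hs], fun h => ?_⟩ rfl rfl
    exact Nat.eq_zero_of_dvd_of_lt h.1 (by simpa using h.2)
  | succ m ih =>
    have h : repD (16 * s) (m + 1) =
        repD (16 * s) m + repD (16 * s) m <<< (16 * (s * 2 ^ m)) := by
      change repD (16 * s) m + repD (16 * s) m <<< ((16 * s) <<< m) = _
      rw [Nat.shiftLeft_eq (16 * s), mul_assoc]
    rw [h, dig_cat _ (fun k hk => by rw [ih, if_neg (by omega)])]
    have h2 : s * 2 ^ (m + 1) = s * 2 ^ m + s * 2 ^ m := by ring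
    split_ifs with h1 h3 h3
    · rw [ih, if_pos ⟨h3.1, h1⟩]
    · rw [ih, if_neg fun h4 => h3 ⟨h4.1, by omega⟩]
    · rw [ih, if_pos ⟨Nat.dvd_sub h3.1 (dvd_mul_right _ _), by omega⟩]
    · rw [ih, if_neg]
      rintro ⟨h4, h5⟩
      refine h3 ⟨?_, by omega⟩
      rw [← Nat.sub_add_cancel (Nat.le_of_not_lt h1)]
      exact Nat.dvd_add h4 (dvd_mul_right _ _)

theorem dig_repN {s : ℕ} (hs : 0 < s) (n i : ℕ) :
    dig (repN (16 * s) n) i = if s ∣ i ∧ i < s * n then 1 else 0 := by
  have h : repN (16 * s) n = repD (16 * s) (n.log2 + 1) >>> (16 * (s * (2 ^ (n.log2 + 1) - n))) := by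
    change repD (16 * s) (n.log2 + 1) >>> (16 * s * (1 <<< (n.log2 + 1) - n)) = _
    rw [Nat.one_shiftLeft, mul_assoc]
  have h1 : n < 2 ^ (n.log2 + 1) := Nat.lt_log2_self
  obtain ⟨e, he⟩ := Nat.exists_eq_add_of_le h1.le
  rw [h, dig_shr, dig_repD hs, he, Nat.add_sub_cancel_left, mul_add]
  refine if_congr (and_congr (Nat.dvd_add_left (dvd_mul_right _ _)) (by omega)) rfl rfl

theorem dig_rep1 (n i : ℕ) : dig (repN 16 n) i = if i < n then 1 else 0 := by
  have := dig_repN (s := 1) Nat.one_pos n i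
  simpa using this

theorem dig_crep {s c : ℕ} (hs : 0 < s) (hc : c < 65536) (n i : ℕ) :
    dig (c * repN (16 * s) n) i = if s ∣ i ∧ i < s * n then c else 0 := by
  rw [dig_mulc _ fun j => by rw [dig_repN hs]; split_ifs <;> omega, dig_repN hs]
  split_ifs <;> simp

theorem dig_crep1 {c : ℕ} (hc : c < 65536) (n i : ℕ) :
    dig (c * repN 16 n) i = if i < n then c else 0 := by
  have := dig_crep (s := 1) Nat.one_pos hc n i
  simpa using this

theorem and_ones (x k : ℕ) : x &&& (2 ^ k - 1) = x % 2 ^ k := Nat.and_two_pow_sub_one_eq_mod x k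

theorem dig_shr6 (x i : ℕ) : dig (x >>> 6) i % 1024 = dig x i / 64 := by
  unfold dig
  rw [Nat.shiftRight_eq_div_pow, Nat.div_div_eq_div_mul, mul_comm, ← Nat.div_div_eq_div_mul]
  generalize x / 2 ^ (16 * i) = y
  omega

/-- one round of reduction -/
theorem dig_red {lo hi n : ℕ} (hlo : ∀ i, dig lo i = if i < n then 63 else 0)
    (hhi : ∀ i, dig hi i = if i < n then 1023 else 0) (x i : ℕ) :
    dig ((x &&& lo) + ((x >>> 6) &&& hi)) i =
      if i < n then dig x i % 64 + dig x i / 64 else 0 := by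
  have h1 : ∀ j, dig (x &&& lo) j = if j < n then dig x j % 64 else 0 := fun j => by
    rw [dig_land, hlo]
    split_ifs
    · exact and_ones _ 6
    · simp
  have h2 : ∀ j, dig ((x >>> 6) &&& hi) j = if j < n then dig x j / 64 else 0 := fun j => by
    rw [dig_land, hhi]
    split_ifs
    · rw [← dig_shr6]; exact and_ones _ 10
    · simp
  rw [dig_add, h1, h2]
  · split_ifs <;> rfl
  · intro j
    have := dig_lt x j
    rw [h1, h2]
    split_ifs <;> omega

/-- the divisibility test -/
theorem dvd_dig {m x top n : ℕ} (hm : m ≤ 16) (htop : ∀ i, dig top i = if i < n then 61440 else 0)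
    (hx : ∀ i, n ≤ i → dig x i = 0) (h : x % m + ((x / m) &&& top) = 0) (i : ℕ) :
    m ∣ dig x i := by
  have h1 : x = m * (x / m) := by have := Nat.div_add_mod x m; omega
  have h2 : ∀ j, j < n → dig (x / m) j < 4096 := fun j hj => by
    have h3 : dig (x / m) j &&& 61440 = 0 := by
      have := congrArg (dig · j) (show (x / m) &&& top = 0 by omega)
      simpa [dig_land, htop, hj] using this
    have h4 := dig_lt (x / m) j
    generalize dig (x / m) j = y at h3 h4
    have h5 := congrArg (· / 2 ^ 12) h3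
    simp only [Nat.and_div_two_pow] at h5
    have h6 := and_ones (y / 2 ^ 12) 4
    norm_num at h5 h6
    omega
  have hxlt : x < 2 ^ (16 * n) := by
    have h7 : x >>> (16 * n) = 0 := dig_ext fun j => by rw [dig_shr, hx _ (by omega), dig_zero]
    rw [Nat.shiftRight_eq_div_pow, Nat.div_eq_zero_iff] at h7
    exact h7.resolve_left (by positivity)
  have h8 : ∀ j, dig (x / m) j < 4096 := fun j => by
    by_cases hj : j < n
    · exact h2 j hj
    · have h9 : x / m < 2 ^ (16 * j) := lt_of_le_of_lt (Nat.div_le_self _ _)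
        (hxlt.trans_le (Nat.pow_le_pow_right (by norm_num) (by omega)))
      simp [dig, Nat.div_eq_of_lt h9]
  rw [h1, dig_mulc _ fun j => by have := h8 j; nlinarith]
  exact dvd_mul_right _ _

end Vale.Agent.P236KE
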