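import Vale.Agent.P236KE.Sph
import Vale.Agent.P236EL.Bc

/-!
# P236KE / Bc9 : change of coefficients for the resolutions given by data
-/

noncomputable section

namespace Vale.Agent.P236KE

open MvPolynomial Vale.Agent.P236EL

variable {L L' : Type} [CommRing L] [CommRing L'] (ψ : L →+* L')

theorem map_yOf (D : DLL) (dl du s3 s4 w w' : ℕ) (E : ℕ →₀ ℕ) :
    map ψ (yOf L D dl du s3 s4 w w' E) = yOf L' D dl du s3 s4 w w' E := by
  rw [yOf, yOf, map_sum]
  refine Finset.sum_congr rfl fun U _ => ?_
  split_ifs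
  · rw [map_monomial, map_natCast]
  · exact map_zero _

variable [Fact (Nat.Prime 3)]

/-- the resolutions over two rings correspond to each other -/
theorem Sq.bc (S : Sq) : Bc ψ (S.rs L) (S.rs L') :=
  ⟨rfl, fun _ _ => (map_one _).symm, fun _ _ _ _ => (map_yOf ψ _ _ _ _ _ _ _ _).symm⟩

end Vale.Agent.P236KE

end
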