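import Vale.Agent.P236KE.CfgT
import Vale.Agent.P236EL.Wt

/-!
# P236KE / Idl : coefficients of elements of the powers of the augmentation ideal
-/

noncomputable section

namespace Vale.Agent.P236KE

open MvPolynomial Vale.Agent.P236EL Vale.Agent.P236K2

variable {L : Type} [CommRing L]

/-- the length of a monomial -/
abbrev lenM (m : ℕ →₀ ℕ) : ℕ := Finsupp.weight (fun _ : ℕ => 1) m

theorem three_mem : (3 : AA L) ∈ II 3 L := Ideal.subset_span (Set.mem_insert _ _)

theorem X_mem (i : ℕ) : (X i : AA L) ∈ II 3 L :=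
  Ideal.subset_span (Set.mem_insert_of_mem _ (Set.mem_range_self i))

theorem pow_dvd_coeff (r : ℕ) : ∀ a ∈ II 3 L ^ r, ∀ m, (3 : L) ^ (r - lenM m) ∣ coeff m a := by
  classical
  induction r with
  | zero => intro a _ m; simp
  | succ r ih =>
    intro a ha
    rw [pow_succ'] at ha
    refine Submodule.mul_induction_on ha (fun x hx y hy => ?_) fun x y hx hy m => ?_
    · refine Submodule.span_induction (p := fun x _ => ∀ y ∈ II 3 L ^ r, ∀ m,
        (3 : L) ^ (r + 1 - lenM m) ∣ coeff m (x * y)) ?_ ?_ ?_ ?_ hx y hy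
      · rintro _ (rfl | ⟨i, rfl⟩) y hy m
        · rw [← map_natCast C, coeff_C_mul, Nat.cast_ofNat]
          refine (pow_dvd_pow _ (show _ ≤ r - lenM m + 1 by omega)).trans ?_
          rw [pow_succ']
          exact mul_dvd_mul_left _ (ih y hy m)
        · rw [coeff_X_mul']
          split_ifs with h
          · refine (pow_dvd_pow _ ?_).trans (ih y hy _)
            have h1 : m - Finsupp.single i 1 + Finsupp.single i 1 = m :=
              tsub_add_cancel_of_le (Finsupp.single_le_iff.2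
                (Nat.pos_of_ne_zero (Finsupp.mem_support_iff.1 h)))
            have h2 := congrArg lenM h1
            rw [lenM, map_add, Finsupp.weight_single] at h2
            simp only [lenM, smul_eq_mul] at h2 ⊢
            omega
          · exact dvd_zero _
      · intro y _ m
        simp
      · intro x x' _ _ h h' y hy m
        rw [add_mul, coeff_add]
        exact dvd_add (h y hy m) (h' y hy m)
      · intro b x _ h y hy m
        rw [smul_eq_mul, mul_assoc, mul_left_comm]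
        exact h _ (Ideal.mul_mem_left _ _ hy) m
    · rw [coeff_add]
      exact dvd_add (hx m) (hy m)

theorem monomial_one_mem_pow (m : ℕ →₀ ℕ) : (monomial m 1 : AA L) ∈ II 3 L ^ lenM m := by
  induction m using Finsupp.induction_linear with
  | zero => simp
  | add a b ha hb =>
    rw [lenM, map_add, pow_add, ← one_mul (1 : L), ← monomial_mul]
    exact Ideal.mul_mem_mul ha hb
  | single i n =>
    rw [lenM, Finsupp.weight_single, ← X_pow_eq_monomial, smul_eq_mul, mul_one]
    exact Ideal.pow_mem_pow (X_mem i) n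

theorem monomial_mem_pow {r : ℕ} {m : ℕ →₀ ℕ} {c : L} (h : (3 : L) ^ (r - lenM m) ∣ c) :
    (monomial m c : AA L) ∈ II 3 L ^ r := by
  obtain ⟨d, rfl⟩ := h
  have h1 : (monomial m (3 ^ (r - lenM m) * d) : AA L) =
      C d * (3 ^ (r - lenM m) * monomial m 1) := by
    rw [show (3 : AA L) = C 3 from rfl, ← map_pow, C_mul_monomial, C_mul_monomial, mul_one,
      mul_comm]
  rw [h1]
  refine Ideal.mul_mem_left _ _ (Ideal.pow_le_pow_right (show r ≤ r - lenM m + lenM m by omega) ?_)
  rw [pow_add]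
  exact Ideal.mul_mem_mul (Ideal.pow_mem_pow three_mem _) (monomial_one_mem_pow m)

theorem m4_0 (e : Q4) : m4 e 0 = e.1 := mk4_0 _ _ _ _
theorem m4_1 (e : Q4) : m4 e 1 = e.2.1 := mk4_1 _ _ _ _
theorem m4_2 (e : Q4) : m4 e 2 = e.2.2.1 := mk4_2 _ _ _ _
theorem m4_3 (e : Q4) : m4 e 3 = e.2.2.2 := mk4_3 _ _ _ _
theorem m4_4 (e : Q4) (i : ℕ) : m4 e (i + 4) = 0 := mk4_4 _ _ _ _ _

theorem m4_add (a b : Q4) : m4 (a + b) = m4 a + m4 b := by
  simp only [m4, mk4, Prod.fst_add, Prod.snd_add, Finsupp.single_add]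
  abel

theorem m4_zero : m4 0 = 0 := by simp [m4, mk4]

theorem wt_m4 (e : Q4) : Finsupp.weight (wt 3) (m4 e) = wt4 e := weight_wt_mk4 _ _ _ _

theorem len_m4 (e : Q4) : lenM (m4 e) = len4 e := by
  rw [lenM, m4, weight_mk4, len4]
  omega

theorem m4_inj {a b : Q4} (h : m4 a = m4 b) : a = b := by
  have h0 := DFunLike.congr_fun h 0
  have h1 := DFunLike.congr_fun h 1
  have h2 := DFunLike.congr_fun h 2
  have h3 := DFunLike.congr_fun h 3
  rw [m4_0, m4_0] at h0
  rw [m4_1, m4_1] at h1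
  rw [m4_2, m4_2] at h2
  rw [m4_3, m4_3] at h3
  exact Prod.ext h0 (Prod.ext h1 (Prod.ext h2 h3))

theorem le4_of_le {a b : Q4} (h : m4 a ≤ m4 b) : le4 a b = true := by
  have h0 := h 0
  have h1 := h 1
  have h2 := h 2
  have h3 := h 3
  rw [m4_0, m4_0] at h0
  rw [m4_1, m4_1] at h1
  rw [m4_2, m4_2] at h2
  rw [m4_3, m4_3] at h3
  simp only [le4, Bool.and_eq_true, Nat.ble_eq]
  exact ⟨⟨⟨h0, h1⟩, h2⟩, h3⟩

theorem sub_add_of_le4 {a b : Q4} (h : le4 a b = true) : a + (b - a) = b := by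
  simp only [le4, Bool.and_eq_true, Nat.ble_eq] at h
  refine Prod.ext ?_ (Prod.ext ?_ (Prod.ext ?_ ?_)) <;>
    simp only [Prod.fst_add, Prod.snd_add, Prod.fst_sub, Prod.snd_sub] <;> omega

theorem mdv_dvd {V : ℕ} {a : AA L} (ha : a ∈ II 3 L ^ 3) : (mdv V : L) ∣ coeff (m4 (vm V)) a := by
  refine Dvd.dvd.trans ?_ (pow_dvd_coeff 3 a ha _)
  rw [mdv, len_m4, Nat.cast_pow, Nat.cast_ofNat]
  exact pow_dvd_pow _ (min_le_right _ _)

theorem mem_cube (h9 : (9 : L) = 0) {a : AA L} {n : ℕ} (hn : n < 121)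
    (hw : ∀ m, coeff m a ≠ 0 → Finsupp.weight (wt 3) m = n)
    (h : ∀ V < 15, wt4 (vm V) = n → (mdv V : L) ∣ coeff (m4 (vm V)) a) : a ∈ II 3 L ^ 3 := by
  rw [a.as_sum]
  refine Ideal.sum_mem _ fun m hm => monomial_mem_pow ?_
  have h1 := hw m (mem_support_iff.1 hm)
  obtain ⟨e, rfl⟩ : ∃ e, m = m4 e := ⟨(m 0, m 1, m 2, m 3), eq_mk4 (by omega)⟩
  rw [len_m4]
  rw [wt_m4] at h1
  by_cases h2 : len4 e < 3
  · obtain ⟨h3, h4⟩ := vm_idx h2
    have h5 := h _ h3 (by rw [h4, h1])
    rw [mdv, h4, Nat.cast_pow, Nat.cast_ofNat] at h5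
    rcases le_total 2 (3 - len4 e) with h6 | h6
    · rcases h6.eq_or_lt with h7 | h7
      · rwa [min_eq_right h7.ge] at h5
      · rw [min_eq_left h6, show (3 : L) ^ 2 = 9 by norm_num, h9, zero_dvd_iff] at h5
        rw [h5]
        exact dvd_zero _
    · rwa [min_eq_right h6] at h5
  · rw [show 3 - len4 e = 0 by omega, pow_zero]
    exact one_dvd _

theorem pick_dvd {V : ℕ} (hV : V < 15) (A : Q4 → Q4 → AA L) : ∀ l : List DT,
    (mdv V : L) ∣ coeff (m4 (vm V)) (l.map fun τ => monomial (m4 τ.v) (τ.c : L) * A τ.x τ.y).sum -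
      ((pick V l).map fun τ => (τ.c : L) * coeff (m4 (vm τ.s)) (A τ.x τ.y)).sum
  | [] => by simp [pick]
  | τ :: l => by
    classical
    have ih := pick_dvd hV A l
    have h0 : (mdv V : L) ∣ (τ.c : L) - (τ.c % mdv V : ℕ) := by
      conv_rhs => rw [← Nat.mod_add_div τ.c (mdv V)]
      rw [Nat.cast_add, Nat.mod_add_div, add_sub_cancel_left, Nat.cast_mul]
      exact dvd_mul_right _ _
    rw [List.map_cons, List.sum_cons, coeff_add, pick]
    by_cases h1 : le4 τ.v (vm V) = true
    · have h2 := sub_add_of_le4 h1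
      have h3 : len4 (vm V - τ.v) < 3 := by
        have h4 := (vm_len V hV).1
        rw [← h2] at h4
        simp only [len4, Prod.fst_add, Prod.snd_add] at h4 ⊢
        omega
      have h4 : coeff (m4 (vm V)) (monomial (m4 τ.v) (τ.c : L) * A τ.x τ.y) =
          τ.c * coeff (m4 (vm (idx (vm V - τ.v)))) (A τ.x τ.y) := by
        rw [(vm_idx h3).2]
        conv_lhs => rw [← h2, m4_add, coeff_monomial_mul]
      rw [h4, h1, Bool.true_and]
      rcases h5 : Nat.blt 0 (τ.c % mdv V) with _ | _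
      · have h6 : τ.c % mdv V = 0 := by
          rw [← Bool.not_eq_true, Nat.blt_eq] at h5
          omega
        rw [h6, Nat.cast_zero, sub_zero] at h0
        rw [cond_false, add_sub_assoc]
        exact dvd_add (h0.mul_right _) ih
      · rw [cond_true, List.map_cons, List.sum_cons]
        convert dvd_add (h0.mul_right (coeff (m4 (vm (idx (vm V - τ.v)))) (A τ.x τ.y))) ih using 1
        ring
    · rw [coeff_monomial_mul', if_neg fun h => h1 (le4_of_le h), zero_add,
        Bool.eq_false_iff.2 h1, Bool.false_and, cond_false]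
      exact ih

theorem coeff_yOf (D : DLL) (dl du s3 s4 w w' : ℕ) {s : ℕ} (hs : s < 15) (E : Q4) :
    coeff (m4 (vm s)) (yOf L D dl du s3 s4 w w' (m4 E)) =
      if wt4 E + byte dl w = wt4 (vm s) + byte du w' then
        (yc D w s w' (E.2.1 + (s3 * E.2.2.1 + s4 * E.2.2.2)) : L) else 0 := by
  classical
  rw [yOf, coeff_sum, Finset.sum_eq_single s, wt_m4, m4_1, m4_2, m4_3]
  · split_ifs
    · rw [coeff_monomial, if_pos rfl]
    · rfl
  · intro U hU hne
    split_ifs
    · rw [coeff_monomial, if_neg]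
      intro h
      rw [← (vm_len U (Finset.mem_range.1 hU)).2, m4_inj h, (vm_len s hs).2] at hne
      exact hne rfl
    · rfl
  · exact fun h => absurd (Finset.mem_range.2 hs) h

theorem homR_yOf (D : DLL) (dl du s3 s4 w w' : ℕ) :
    HomR 3 ((byte dl w : ℤ) - byte du w') (yOf L D dl du s3 s4 w w') := fun E => by
  refine AddSubgroup.sum_mem _ fun U _ => ?_
  split_ifs with h
  · refine isWeightedHomogeneous_monomial _ _ _ ?_
    rw [show wz 3 = fun i => (wt 3 i : ℤ) from rfl, weight_cast, weight_cast, wt_m4]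
    omega
  · exact zero_mem _

end Vale.Agent.P236KE

end
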