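import Vale.Agent.P236KE.Lev

/-!
# P236KE / Acc : the collected values
-/

namespace Vale.Agent.P236KE

variable {L : Type*} [CommRing L] {p : Pm} {NV w b dw db : ℕ}

theorem mix_inj {a x y r s : ℕ} (hr : r < a) (hs : s < a) (h : a * x + r = a * y + s) :
    x = y ∧ r = s := by
  have h1 := congrArg (· / a) h
  have h2 := congrArg (· % a) h
  simp only [Nat.mul_add_div (show 0 < a by omega), Nat.mul_add_mod, Nat.div_eq_of_lt hr,
    Nat.div_eq_of_lt hs, Nat.mod_eq_of_lt hr, Nat.mod_eq_of_lt hs, add_zero] at h1 h2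
  exact ⟨h1, h2⟩

theorem pos_eq (k w f b e : ℕ) :
    pos p k w f b e = p.sf * (p.bb * (p.nw * k + w) + f) + (p.bb * b + e) := by
  rw [pos, sk]; ring

theorem dig_colM (h : WF p) (i : ℕ) : dig (colM p) i =
    (if i / (p.bb * p.sf) < p.nw * p.lm then 1 else 0) *
      if p.bb ∣ i % (p.bb * p.sf) ∧ i % (p.bb * p.sf) < p.bb * p.nb then 65535 else 0 := by
  have h0 : 0 < p.bb * p.sf := Nat.mul_pos h.bb (by have := h.sf; omega)
  have h1 : colM p = repN (16 * (p.bb * p.sf)) (p.nw * p.lm) *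
      (65535 * repN (16 * p.bb) p.nb) := by
    rw [mul_comm, ← sw16_eq]
    rfl
  have h2 : p.bb * p.nb ≤ p.bb * p.sf := by have := h.nb; have := h.bb; nlinarith
  rw [h1, dig_outer' (α := 1) (β := 65535) h0
    (fun k hk => by rw [dig_crep h.bb (by norm_num), if_neg fun h3 => by omega])
    (fun k => by rw [dig_crep h.bb (by norm_num)]; split_ifs <;> omega) (by norm_num)
    (fun k hk => by rw [dig_repN h0, if_neg fun h3 => hk h3.1])
    (fun k => by rw [dig_repN h0]; split_ifs <;> omega), dig_repN h0,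
    dig_crep h.bb (by norm_num)]
  congr 1
  exact if_congr ⟨fun h3 => Nat.lt_of_mul_lt_mul_left h3.2,
    fun h3 => ⟨dvd_mul_right _ _, Nat.mul_lt_mul_of_pos_left h3 h0⟩⟩ rfl rfl

theorem dig_col (h : WF p) (X : ℕ) {w b k f e f0 e0 : ℕ} (hw : w < p.nw) (hb : b < p.nb)
    (hk : k < p.lm) (hf : f < p.bb) (he : e < p.bb) (hf0 : f0 < p.bb) (he0 : e0 < p.bb) :
    dig ((X &&& colM p) <<< (16 * (p.sf * f0 + e0))) (pos p k w f b e) =
      if f0 = f ∧ e0 = e then dig X (pos p k w 0 b 0) else 0 := by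
  obtain ⟨i1, -, -⟩ := inner_lt h hw hf hb he
  rw [dig_shl]
  by_cases hc : f0 = f ∧ e0 = e
  · obtain ⟨rfl, rfl⟩ := hc
    have h1 : pos p k w f0 b e0 = pos p k w 0 b 0 + (p.sf * f0 + e0) := by
      rw [pos, pos]; ring
    have h2 : pos p k w 0 b 0 = p.bb * p.sf * (p.nw * k + w) + p.bb * b := by
      rw [pos, sk]; ring
    have h3 : p.bb * b < p.bb * p.sf := by have := h.bb; nlinarith
    rw [if_pos (by omega), if_pos ⟨rfl, rfl⟩, h1, Nat.add_sub_cancel, dig_land, dig_colM h]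
    rw [h2, Nat.mul_add_div (by omega), Nat.mul_add_mod, Nat.div_eq_of_lt h3, Nat.mod_eq_of_lt h3,
      if_pos (by nlinarith), if_pos ⟨dvd_mul_right _ _, Nat.mul_lt_mul_of_pos_left hb h.bb⟩,
      one_mul]
    exact (and_ones _ 16).trans (Nat.mod_eq_of_lt (dig_lt _ _))
  · rw [if_neg hc]
    split_ifs with h1
    · obtain ⟨i, hi⟩ := Nat.exists_eq_add_of_le h1
      rw [hi, Nat.add_sub_cancel_left, dig_land, dig_colM h, if_neg (c := _ ∧ _)]
      · simp
      · rintro ⟨⟨b', h2⟩, h3⟩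
        rw [h2] at h3
        have h4 := Nat.lt_of_mul_lt_mul_left h3
        obtain ⟨i2, -, -⟩ := inner_lt h hw hf h4 he0
        have h5 : p.sf * (p.bb * (p.nw * k + w) + f) + (p.bb * b + e) =
            p.sf * (p.bb * (i / (p.bb * p.sf)) + f0) + (p.bb * b' + e0) := by
          rw [← pos_eq, hi]
          conv_lhs => rw [← Nat.div_add_mod i (p.bb * p.sf), h2]
          ring
        obtain ⟨h6, h7⟩ := mix_inj (by rwa [mul_comm]) (by rwa [mul_comm]) h5
        exact hc ⟨(mix_inj hf hf0 h6).2.symm, (mix_inj he he0 h7).2.symm⟩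
    · rfl

/-- the table of the monomials in the second, third and fourth generator -/
def NodT (cf : Cf) : Prop :=
  ∀ u < 120, ∃ nd, Lin (TL.get cf.nodes u) nd ∧ lwt nd ≤ 30 ∧
    (∀ t ∈ nd, 40 * t.2.1 + 13 * t.2.2.1 + 4 * t.2.2.2 = u) ∧
    ∀ g4 g3 g2, 40 * g4 + 13 * g3 + 4 * g2 = u →
      lsum nd (fun a b c => if a = g4 ∧ b = g3 ∧ c = g2 then 1 else 0) = 1

theorem slot_eq (g4 g3 g2 : ℕ) : slot p g4 g3 g2 = 16 * (p.sf * (3 * g3 + 10 * g4) + g2) := by
  change 16 * p.sf * (3 * g3 + 10 * g4) + 16 * g2 = _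
  ring

theorem dig_ins (h : WF p) (hn : NodT p.cf) {V u : ℕ} (hu : u < 4 * p.bb)
    (hX : ∀ g4 g3 g2 i, dig (x2 p g4 g3 g2 V 0) i ≤ 127) :
    (∀ i, dig (ins p V u) i ≤ 3810) ∧ ∀ g4 g3 g2, 40 * g4 + 13 * g3 + 4 * g2 < 4 * p.bb →
      ∀ k < p.lm, ∀ w < p.nw, ∀ b < p.nb, dig (ins p V u) (pos p k w (3 * g3 + 10 * g4) b g2) =
        if 40 * g4 + 13 * g3 + 4 * g2 = u then dig (x2 p g4 g3 g2 V 0) (pos p k w 0 b 0)
        else 0 := by
  have hbb := h.bb'
  obtain ⟨nd, h1, h2, h3, h4⟩ := hn u (by omega)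
  have h5 := dig_lsum (β := 127)
    (x := fun g4 g3 g2 => (x2 p g4 g3 g2 V 0 &&& colM p) <<< slot p g4 g3 g2) (l := nd)
    (fun t _ i => by
      rw [slot_eq, dig_shl]
      split_ifs
      · rw [dig_land]
        exact Nat.and_le_left.trans (hX _ _ _ _)
      · exact Nat.zero_le _) (by omega)
  have h6 : ins p V u =
      lsum nd fun g4 g3 g2 => (x2 p g4 g3 g2 V 0 &&& colM p) <<< slot p g4 g3 g2 := h1 _
  rw [h6]
  refine ⟨fun i => (h5 i).2.trans (by omega), fun g4 g3 g2 hg k hk w hw b hb => ?_⟩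
  rw [(h5 _).1]
  have h7 : ∀ t ∈ nd, dig ((x2 p t.2.1 t.2.2.1 t.2.2.2 V 0 &&& colM p) <<<
      slot p t.2.1 t.2.2.1 t.2.2.2) (pos p k w (3 * g3 + 10 * g4) b g2) =
      (if t.2.1 = g4 ∧ t.2.2.1 = g3 ∧ t.2.2.2 = g2 then 1 else 0) *
        dig (x2 p g4 g3 g2 V 0) (pos p k w 0 b 0) := fun t ht => by
    have := h3 t ht
    rw [slot_eq, dig_col h _ hw hb hk (by omega) (by omega) (by omega) (by omega)]
    by_cases hc : t.2.1 = g4 ∧ t.2.2.1 = g3 ∧ t.2.2.2 = g2
    · rw [if_pos hc, hc.1, hc.2.1, hc.2.2, if_pos ⟨rfl, rfl⟩, one_mul]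
    · rw [if_neg hc, if_neg (by omega), zero_mul]
  split_ifs with hc
  · conv_rhs => rw [← one_mul (dig _ _), ← h4 g4 g3 g2 hc, lsum, ← List.sum_map_mul_right]
    refine congrArg List.sum (List.map_congr_left fun t ht => ?_)
    exact (congrArg (t.1 * ·) (h7 t ht)).trans (mul_assoc _ _ _).symm
  · refine lsum_eq_zero fun t ht => ?_
    have := h3 t ht
    rw [h7 t ht, if_neg (by omega), zero_mul]

theorem acc_succ {V u m : ℕ} (h : lenV p V - u = m + 1) :
    acc p V (u + 1) = red1 p m (acc p V u + acc p V u >>> sk16 p + ins p V u) := by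
  change stepC p V u (acc p V u) = _
  unfold stepC
  rw [show Nat.sub (lenV p V) u = m + 1 from h]
  rfl

theorem acc_succ_zero {V u : ℕ} (h : lenV p V - u = 0) : acc p V (u + 1) = 0 := by
  change stepC p V u (acc p V u) = _
  unfold stepC
  rw [show Nat.sub (lenV p V) u = 0 from h]
  rfl

/-- the recurrence for the first generator -/
def Stp1 (cf : Cf) (NV : ℕ) (val : Q4 → ℕ → Q4 → Q4 → L) : Prop :=
  ∀ V < NV, ∀ g1 g2 g3 g4 e f, ((byte cf.md V : ℕ) : L) ∣
    val (g1 + 1, g2, g3, g4) V (e, 0, 0, 0) (f, 0, 0, 0) -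
      (val (g1, g2, g3, g4) V (e, 0, 0, 0) (f + 1, 0, 0, 0) +
        val (g1, g2, g3, g4) V (e + 1, 0, 0, 0) (f, 0, 0, 0))

theorem acc_val (h9 : (9 : L) = 0) (h : WF p) (hs : Sd p w b dw db) (hn : NodT p.cf)
    {val : Q4 → ℕ → Q4 → Q4 → L} (h1 : Stp1 p.cf NV val)
    (hX : ∀ g4 g3 g2, Rep p NV w b dw db (x2 p g4 g3 g2) (40 * g4 + 13 * g3 + 4 * g2)
      (val (0, g2, g3, g4))) {V : ℕ} (hV : V < NV) (hf : Fit p dw db V) (n : ℕ)
    (hn4 : n ≤ 4 * p.bb) : (∀ i, dig (acc p V n) i ≤ 127) ∧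
      ∀ g4 g3 g2, 40 * g4 + 13 * g3 + 4 * g2 < 4 * p.bb →
        (n ≤ 40 * g4 + 13 * g3 + 4 * g2 → ∀ k,
          dig (acc p V n) (pos p k w (3 * g3 + 10 * g4) b g2) = 0) ∧
        ∀ g1 e f, 40 * g4 + 13 * g3 + 4 * g2 + g1 + 1 = n →
          byte p.cf.dv V + db + 1 = dw + n + e + f → ((byte p.cf.md V : ℕ) : L) ∣
            (dig (acc p V n) (pos p (p.d2 - db + e) w (3 * g3 + 10 * g4) b g2) : L) -
              val (g1, g2, g3, g4) V (e, 0, 0, 0) (f, 0, 0, 0) := by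
  induction n with
  | zero =>
    rw [show acc p V 0 = 0 from rfl]
    exact ⟨by simp, fun g4 g3 g2 _ => ⟨by simp, fun g1 e f h2 => by omega⟩⟩
  | succ u ih =>
    obtain ⟨i1, i2⟩ := ih (by omega)
    obtain ⟨j1, j2⟩ := dig_ins h hn (V := V) (u := u) (by omega)
      fun g4 g3 g2 => (hX g4 g3 g2).le V hV 0
    have hl := lenV_eq (p := p) V
    obtain ⟨f1, f2, f3⟩ := hf
    obtain ⟨s1, s2, s3, s4⟩ := hs
    have k1 : ∀ i, dig (acc p V u + acc p V u >>> sk16 p) i =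
        dig (acc p V u) i + dig (acc p V u) (i + sk p) := fun i => by
      rw [sk16_eq, dig_add fun j => by
        have := i1 j; have := i1 (j + sk p); rw [dig_shr]; omega, dig_shr]
    have k2 : ∀ i, dig (acc p V u + acc p V u >>> sk16 p + ins p V u) i =
        dig (acc p V u) i + dig (acc p V u) (i + sk p) + dig (ins p V u) i := fun i => by
      rw [dig_add fun j => by
        have := i1 j; have := i1 (j + sk p); have := j1 j; rw [k1]; omega, k1]
    have k3 : ∀ k f e, pos p k w f b e + sk p = pos p (k + 1) w f b e := fun k f e => by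
      rw [pos, pos]; ring
    rcases hm : lenV p V - u with _ | m
    · rw [acc_succ_zero hm]
      exact ⟨by simp, fun g4 g3 g2 _ => ⟨by simp, fun g1 e f h2 h3 => by omega⟩⟩
    rw [acc_succ hm]
    refine ⟨red1_le (by omega) fun i => by
      have := i1 i; have := i1 (i + sk p); have := j1 i; rw [k2]; omega,
      fun g4 g3 g2 hg => ⟨fun h2 k => ?_, fun g1 e f h2 h3 => ?_⟩⟩
    · rw [dig_red1 (by omega)]
      split_ifs with h3
      · have h4 : k < m + 1 := by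
          rw [pos] at h3
          exact Nat.lt_of_mul_lt_mul_left (a := sk p) (by omega)
        rw [k2, k3, j2 g4 g3 g2 hg _ (by omega) w s1 b s2, if_neg (by omega),
          (i2 g4 g3 g2 hg).1 (by omega), (i2 g4 g3 g2 hg).1 (by omega)]
      · rfl
    · obtain ⟨-, -, i3⟩ := inner_lt h s1 (show 3 * g3 + 10 * g4 < p.bb by omega) s2
        (show g2 < p.bb by omega)
      rw [red1_cast h9 (by omega) _ (pos_lt i3 (by omega)), k2, k3,
        j2 g4 g3 g2 hg _ (by omega) w s1 b s2]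
      rcases g1 with _ | g1
      · rw [if_pos (by omega), (i2 g4 g3 g2 hg).1 (by omega), (i2 g4 g3 g2 hg).1 (by omega),
          zero_add, zero_add]
        have h4 := (hX g4 g3 g2).dvd V hV ⟨f1, f2, f3⟩ (e, 0, 0, 0) (f, 0, 0, 0)
          (by simp only [wt4]; omega)
        rwa [show lowc (e, 0, 0, 0) (f, 0, 0, 0) = 0 by simp [lowc]] at h4
      · rw [if_neg (by omega), add_zero, Nat.cast_add, add_assoc (p.d2 - db)]
        have h4 := (i2 g4 g3 g2 hg).2 g1 e (f + 1) (by omega) (by omega)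
        have h5 := (i2 g4 g3 g2 hg).2 g1 (e + 1) f (by omega) (by omega)
        have h6 := dvd_sub (dvd_add h4 h5) (h1 V hV g1 g2 g3 g4 e f)
        convert h6 using 1
        ring

theorem dig_slotM (h : WF p) (i : ℕ) : dig (slotM p) i =
    (if i / p.sf < p.bb then 1 else 0) * if i % p.sf < p.bb then 65535 else 0 := by
  have h0 : 0 < p.sf := by have := h.sf; omega
  have h1 : slotM p = repN (16 * p.sf) p.bb * (65535 * repN 16 p.bb) := mul_comm _ _
  have h2 : p.bb ≤ p.sf := by have := h.sf; have := h.nw; nlinarith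
  rw [h1, dig_outer' (α := 1) (β := 65535) h0
    (fun k hk => by rw [dig_crep1 (by norm_num), if_neg (by omega)])
    (fun k => by rw [dig_crep1 (by norm_num)]; split_ifs <;> omega) (by norm_num)
    (fun k hk => by rw [dig_repN h0, if_neg fun h3 => hk h3.1])
    (fun k => by rw [dig_repN h0]; split_ifs <;> omega), dig_repN h0, dig_crep1 (by norm_num)]
  congr 1
  exact if_congr ⟨fun h3 => Nat.lt_of_mul_lt_mul_left h3.2,
    fun h3 => ⟨dvd_mul_right _ _, Nat.mul_lt_mul_of_pos_left h3 h0⟩⟩ rfl rfl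

theorem blk_eq (V w b : ℕ) : blk p V w b = (acc p V (byte p.cf.dv V + byte p.dup (p.b0 + b) + 1 -
    byte p.dlo (p.w0 + w)) >>> (16 * pos p (p.d2 - byte p.dup (p.b0 + b)) w 0 b 0)) &&&
      slotM p := by
  have h1 : 16 * pos p (p.d2 - byte p.dup (p.b0 + b)) w 0 b 0 =
      sk16 p * (p.d2 - byte p.dup (p.b0 + b)) + sw16 p * w + 16 * p.bb * b := by
    rw [sk16_eq, sw16_eq, pos]; ring
  rw [h1]
  rfl

theorem blk_zero (h : WF p) (V w b i : ℕ) (hi : p.bb * p.sf ≤ i) : dig (blk p V w b) i = 0 := by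
  rw [blk_eq, dig_land, dig_slotM h, if_neg, zero_mul, Nat.and_zero]
  rw [Nat.div_lt_iff_lt_mul (by have := h.sf; omega)]
  omega

theorem dig_blk (h : WF p) (V w b : ℕ) {f e : ℕ} (hf : f < p.bb) (he : e < p.bb) :
    dig (blk p V w b) (p.sf * f + e) = dig (acc p V (byte p.cf.dv V + byte p.dup (p.b0 + b) + 1 -
      byte p.dlo (p.w0 + w))) (pos p (p.d2 - byte p.dup (p.b0 + b)) w f b e) := by
  have h2 : e < p.sf := by have := h.sf; have := h.nw; nlinarith
  rw [blk_eq, dig_land, dig_slotM h, Nat.mul_add_div (by omega), Nat.mul_add_mod,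
    Nat.div_eq_of_lt h2, Nat.mod_eq_of_lt h2, if_pos (by omega), if_pos he, one_mul, dig_shr]
  refine (and_ones _ 16).trans ((Nat.mod_eq_of_lt (dig_lt _ _)).trans ?_)
  congr 1
  rw [pos, pos]
  ring

/-- all tables of a configuration -/
structure CfT (cf : Cf) (NV : ℕ) (t2 t3 t4 : ℕ → List Tm) : Prop where
  l2 : LevT cf NV cf.t2 t2 4 32
  l3 : LevT cf NV cf.t3 t3 13 516
  l4 : LevT cf NV cf.t4 t4 40 516
  nd : NodT cf

/-- the recurrences of a system of values -/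
structure Val (cf : Cf) (NV : ℕ) (t2 t3 t4 : ℕ → List Tm) (val : Q4 → ℕ → Q4 → Q4 → L) :
    Prop where
  s1 : Stp1 cf NV val
  s2 : ∀ g2 g3 g4, Stp cf NV t2 (val (0, g2, g3, g4)) (val (0, g2 + 1, g3, g4))
  s3 : ∀ g3 g4, Stp cf NV t3 (val (0, 0, g3, g4)) (val (0, 0, g3 + 1, g4))
  s4 : ∀ g4, Stp cf NV t4 (val (0, 0, 0, g4)) (val (0, 0, 0, g4 + 1))

/-- **The program computes the values.** -/
theorem blk_val (h9 : (9 : L) = 0) (h : WF p) {t2 t3 t4 : ℕ → List Tm} (hc : CfT p.cf NV t2 t3 t4)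
    {et : ℕ → ℕ → List Tm} {ml : ℕ → List (ℕ × ℕ)} (hT : IniT p NV et ml)
    (hdw : dw = byte p.dlo (p.w0 + w)) (hdb : db = byte p.dup (p.b0 + b)) (hs : Sd p w b dw db)
    {val : Q4 → ℕ → Q4 → Q4 → L} (hv : Val p.cf NV t2 t3 t4 val)
    (h0 : ∀ V < NV, byte p.cf.dv V + db ≤ p.tt → ∀ E F,
      byte p.cf.dv V + db = dw + wt4 E + wt4 F → ((byte p.cf.md V : ℕ) : L) ∣
        (val0 p et ml (p.w0 + w) (p.b0 + b) (dw + wt4 F) V E F : L) - val 0 V E F)
    {V : ℕ} (hV : V < NV) (hf : Fit p dw db V) (G : Q4) (hG : byte p.cf.dv V + db = dw + wt4 G) :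
    ((byte p.cf.md V : ℕ) : L) ∣
      (dig (blk p V w b) (p.sf * (3 * G.2.2.1 + 10 * G.2.2.2) + G.2.1) : L) - val G V 0 0 := by
  have r0 : Rep p NV w b dw db (init p) 0 (val (0, 0, 0, 0)) :=
    ⟨fun V _ => init_le V, fun V hV hf E F he => by
      rw [init_val h9 h hT hV hs.hw hs.hb hs.hc hs.hd hf.bb hf.lm he]
      exact h0 V hV hf.tt E F he⟩
  have r4 : ∀ g4, Rep p NV w b dw db (x4 p g4) (40 * g4) (val (0, 0, 0, g4)) := fun g4 => by
    have := r0.iter (val := fun g => val (0, 0, 0, g)) h hs (red_two h9) hc.l4 hv.s4 g4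
    rwa [zero_add] at this
  have r3 : ∀ g4 g3, Rep p NV w b dw db (x3 p g4 g3) (40 * g4 + 13 * g3) (val (0, 0, g3, g4)) :=
    fun g4 g3 => (r4 g4).iter (val := fun g => val (0, 0, g, g4)) h hs (red_two h9) hc.l3
      (fun g => hv.s3 g g4) g3
  have r2 : ∀ g4 g3 g2, Rep p NV w b dw db (x2 p g4 g3 g2) (40 * g4 + 13 * g3 + 4 * g2)
      (val (0, g2, g3, g4)) := fun g4 g3 g2 =>
    (r3 g4 g3).iter (val := fun g => val (0, g, g3, g4)) h hs (red_one h9) hc.l2
      (fun g => hv.s2 g g3 g4) g2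
  obtain ⟨g1, g2, g3, g4⟩ := G
  have f1 := hf.bb
  simp only [wt4] at hG
  rw [dig_blk h V w b (by simp only; omega) (by simp only; omega), ← hdw, ← hdb]
  exact ((acc_val h9 h hs hc.nd hv.s1 r2 hV hf (byte p.cf.dv V + db + 1 - dw) (by omega)).2
    g4 g3 g2 (by omega)).2 g1 0 0 (by omega) (by omega)

end Vale.Agent.P236KE
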