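import Vale.Agent.P236KE.Dig
import Mathlib.Algebra.BigOperators.Intervals
import Mathlib.Algebra.BigOperators.Ring.List

/-!
# P236KE / Blk : the digits of the blocks and of the initial arrays
-/

namespace Vale.Agent.P236KE

/-- a coefficient and the three labels of a leaf -/
abbrev Q4 : Type := ℕ × ℕ × ℕ × ℕ

/-- the value of a list of leaves -/
def lsum (l : List Q4) (x : ℕ → ℕ → ℕ → ℕ) : ℕ :=
  (l.map fun t => t.1 * x t.2.1 t.2.2.1 t.2.2.2).sum

/-- the sum of the coefficients -/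
def lwt (l : List Q4) : ℕ := (l.map fun t => t.1).sum

/-- `e` is the sum over the list `l` -/
def Lin (e : TE) (l : List Q4) : Prop := ∀ x, e.f x = lsum l x

theorem dig_lsum {β : ℕ} {x : ℕ → ℕ → ℕ → ℕ} : ∀ {l : List Q4},
    (∀ t ∈ l, ∀ i, dig (x t.2.1 t.2.2.1 t.2.2.2) i ≤ β) → lwt l * β < 65536 → ∀ i,
    dig (lsum l x) i = lsum l (fun a b c => dig (x a b c) i) ∧ dig (lsum l x) i ≤ lwt l * β
  | [], _, _, i => by simp [lsum, lwt]
  | t :: l, h, hw, i => by
    have hw' : lwt (t :: l) = t.1 + lwt l := by simp [lwt]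
    rw [hw', add_mul] at hw
    have ih := dig_lsum (l := l) (fun s hs => h s (List.mem_cons_of_mem _ hs)) (by omega)
    have h1 : ∀ j, t.1 * dig (x t.2.1 t.2.2.1 t.2.2.2) j ≤ t.1 * β := fun j =>
      Nat.mul_le_mul_left _ (h t List.mem_cons_self j)
    have h2 := dig_mulc (a := x t.2.1 t.2.2.1 t.2.2.2) t.1 fun j => by have := h1 j; omega
    have h3 : lsum (t :: l) x = t.1 * x t.2.1 t.2.2.1 t.2.2.2 + lsum l x := by simp [lsum]
    rw [h3, dig_add fun j => by have := h1 j; have := (ih j).2; rw [h2]; omega, h2, hw', add_mul]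
    refine ⟨by rw [(ih i).1]; simp [lsum], ?_⟩
    have := h1 i
    have := (ih i).2
    omega

theorem lsum_eq_zero {l : List Q4} {x : ℕ → ℕ → ℕ → ℕ}
    (h : ∀ t ∈ l, x t.2.1 t.2.2.1 t.2.2.2 = 0) : lsum l x = 0 :=
  List.sum_eq_zero fun y hy => by
    obtain ⟨t, ht, rfl⟩ := List.mem_map.1 hy
    rw [h t ht, mul_zero]

theorem dig_sum_shl {r : ℕ → ℕ} {B : ℕ} (hr : ∀ i j, B ≤ j → dig (r i) j = 0) (n : ℕ) :
    (∀ k, n * B ≤ k → dig (∑ i ∈ Finset.range n, r i <<< (16 * B * i)) k = 0) ∧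
    ∀ i < n, ∀ j < B, dig (∑ i ∈ Finset.range n, r i <<< (16 * B * i)) (i * B + j) =
      dig (r i) j := by
  induction n with
  | zero => simp
  | succ n ih =>
    rw [Finset.sum_range_succ, show 16 * B * n = 16 * (n * B) by ring]
    refine ⟨fun k hk => ?_, fun i hi j hj => ?_⟩
    · rw [Nat.succ_mul] at hk
      rw [dig_cat _ ih.1, if_neg (by omega), hr _ _ (by omega)]
    · rw [dig_cat _ ih.1]
      rcases Nat.lt_succ_iff_lt_or_eq.1 hi with h | rfl
      · rw [if_pos (by nlinarith), ih.2 i h j hj]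
      · rw [if_neg (by omega), Nat.add_sub_cancel_left]

theorem dig_sum_shl_le {r : ℕ → ℕ} {B β : ℕ} (hB : 0 < B) (hr : ∀ i j, B ≤ j → dig (r i) j = 0)
    (hβ : ∀ i j, dig (r i) j ≤ β) (n k : ℕ) :
    dig (∑ i ∈ Finset.range n, r i <<< (16 * B * i)) k ≤ β := by
  by_cases hk : n * B ≤ k
  · rw [(dig_sum_shl hr n).1 k hk]; exact Nat.zero_le _
  · rw [← Nat.div_add_mod' k B, (dig_sum_shl hr n).2 _
      ((Nat.div_lt_iff_lt_mul hB).2 (by omega)) _ (Nat.mod_lt _ hB)]
    exact hβ _ _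

/-- a digit of the data -/
def ycN (N O i j : ℕ) : ℕ := dig (N >>> ((O >>> (24 * i)) &&& 16777215)) j &&& 15

theorem ycN_le (N O i j : ℕ) : ycN N O i j ≤ 15 := Nat.and_le_right

/-- the coefficient of the monomial `U` for the generators `w`, `w'` at the place `j` -/
noncomputable def yc (L : DLL) (w U w' j : ℕ) : ℕ := ycN (dN L w U) (dO L w U) w' j

/-- a digit of the data at a bounded place -/
def ycB (N O i j : ℕ) : ℕ := if j < 1024 then ycN N O i j else 0

theorem ycB_le (N O i j : ℕ) : ycB N O i j ≤ 15 := by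
  rw [ycB]
  split_ifs
  · exact ycN_le _ _ _ _
  · exact Nat.zero_le _

/-- the coefficient at a bounded place -/
noncomputable def yb (L : DLL) (w U w' j : ℕ) : ℕ := ycB (dN L w U) (dO L w U) w' j

theorem yb_eq (L : DLL) (w U w' : ℕ) {j : ℕ} (h : j < 1024) : yb L w U w' j = yc L w U w' j :=
  if_pos h

theorem dig_cut (N O i j : ℕ) : dig (cut N O i) j = ycB N O i j := by
  change dig ((N >>> ((O >>> (24 * i)) &&& 16777215)) &&& (15 * repN 16 1024)) j = _
  rw [dig_land, dig_crep1 (by norm_num), ycB]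
  split_ifs
  · rfl
  · simp

theorem ycB_and (N O i j : ℕ) : ycB N O i j &&& 15 = ycB N O i j :=
  (and_ones _ 4).trans (Nat.mod_eq_of_lt (Nat.lt_succ_of_le (ycB_le _ _ _ _)))

/-- the conditions on the parameters of a group -/
structure WF (p : Pm) : Prop where
  bb : 0 < p.bb
  nw : 0 < p.nw
  nb : p.nb * p.bb ≤ p.sf
  sf : p.nw * p.bb < p.sf
  bb' : p.bb ≤ 30
  lm : p.lm ≤ 128
  rw : ∀ x, (TL.get p.cf.rng p.nw).f x = ∑ i ∈ Finset.range p.nw, x i 0 0
  rb : ∀ x, (TL.get p.cf.rng p.nb).f x = ∑ i ∈ Finset.range p.nb, x i 0 0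

variable {p : Pm}

theorem dig_row (N O i o j : ℕ) :
    dig (row p N O i (16 * o)) j = if j < p.bb then ycB N O i (j + o) else 0 := by
  change dig ((cut N O i >>> (16 * o)) &&& (15 * repN 16 p.bb)) j = _
  rw [dig_land, dig_crep1 (by norm_num), dig_shr, dig_cut]
  split_ifs
  · exact ycB_and _ _ _ _
  · simp

theorem blkB_eq (h : WF p) (w' a V low : ℕ) : blkB p w' (16 * a) V low =
    ∑ i ∈ Finset.range p.nb, row p (dN p.up w' V) (dO p.up w' V) (p.b0 + i)
      (16 * (a + (p.s3 * (low &&& 15) + p.s4 * ((low >>> 8) &&& 3)))) <<< (16 * p.bb * i) := by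
  rw [blkB, h.rb, mul_add]
  rfl

theorem row_zero (N O i o j : ℕ) (hj : p.bb ≤ j) : dig (row p N O i (16 * o)) j = 0 := by
  rw [dig_row, if_neg (by omega)]

theorem row_le (N O i o j : ℕ) : dig (row p N O i (16 * o)) j ≤ 15 := by
  rw [dig_row]
  split_ifs
  · exact ycB_le _ _ _ _
  · exact Nat.zero_le _

theorem blkB_zero (h : WF p) (w' a V low k : ℕ) (hk : p.sf ≤ k) :
    dig (blkB p w' (16 * a) V low) k = 0 := by
  rw [blkB_eq h]
  exact (dig_sum_shl (fun i j => row_zero _ _ _ _ j) _).1 k (h.nb.trans hk)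

theorem blkB_le (h : WF p) (w' a V low k : ℕ) : dig (blkB p w' (16 * a) V low) k ≤ 15 := by
  rw [blkB_eq h]
  exact dig_sum_shl_le h.bb (fun i j => row_zero _ _ _ _ j) (fun i j => row_le _ _ _ _ j) _ _

theorem blkB_val (h : WF p) (w' a V low : ℕ) {b e : ℕ} (hb : b < p.nb) (he : e < p.bb) :
    dig (blkB p w' (16 * a) V low) (b * p.bb + e) = yb p.up w' V (p.b0 + b)
      (e + (a + (p.s3 * (low &&& 15) + p.s4 * ((low >>> 8) &&& 3)))) := by
  rw [blkB_eq h, (dig_sum_shl (fun i j => row_zero _ _ _ _ j) _).2 b hb e he, dig_row, if_pos he]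
  rfl

theorem dig_blkA (h : WF p) (w' U o i : ℕ) : dig (blkA p w' U (16 * o)) i =
    if p.sf ∣ i ∧ i < p.sf * (p.nw * p.bb) then
      yb p.lo (p.w0 + i / p.sf / p.bb) U w' (i / p.sf % p.bb + o) else 0 := by
  have hsf := h.sf
  have h0 : 0 < p.nw * p.bb := Nat.mul_pos h.nw h.bb
  set X := ∑ i ∈ Finset.range p.nw, row p (dN p.lo (p.w0 + i) U) (dO p.lo (p.w0 + i) U) w'
    (16 * o) <<< (16 * p.bb * i) with hX
  have h1 : blkA p w' U (16 * o) = (repN (16 * (p.sf - 1)) (p.nw * p.bb) * X) &&&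
      (15 * repN (16 * p.sf) (p.nw * p.bb)) := by
    rw [blkA, h.rw, Nat.mul_sub]
    rfl
  rw [h1, dig_land, dig_crep (by omega) (by norm_num)]
  split_ifs with hi
  · obtain ⟨⟨r, rfl⟩, hr⟩ := hi
    have hr' : r < p.nw * p.bb := Nat.lt_of_mul_lt_mul_left hr
    have h2 := dig_sum_shl (r := fun i => row p (dN p.lo (p.w0 + i) U) (dO p.lo (p.w0 + i) U) w'
      (16 * o)) (fun i j => row_zero _ _ _ _ j) p.nw
    have h3 : p.sf * r = (p.sf - 1) * r + r := by
      rw [Nat.sub_mul, one_mul, Nat.sub_add_cancel (Nat.le_mul_of_pos_left _ (by omega))]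
    rw [Nat.mul_div_cancel_left _ (by omega), h3,
      dig_outer (α := 1) (β := 15) (by omega) (fun k hk => h2.1 k (by omega))
        (dig_sum_shl_le h.bb (fun i j => row_zero _ _ _ _ j) (fun i j => row_le _ _ _ _ j) _)
        (by norm_num) r (fun k hk => by rw [dig_repN (by omega), if_neg fun h => hk h.1])
        (fun k => by rw [dig_repN (by omega)]; split_ifs <;> omega) r (by omega),
      dig_repN (by omega), if_pos ⟨dvd_mul_right _ _, Nat.mul_lt_mul_of_pos_left hr' (by omega)⟩,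
      one_mul]
    conv_lhs => rw [← Nat.div_add_mod' r p.bb]
    rw [h2.2 _ ((Nat.div_lt_iff_lt_mul h.bb).2 hr') _ (Nat.mod_lt _ h.bb), dig_row,
      if_pos (Nat.mod_lt _ h.bb), ycB_and]
    rfl
  · simp

theorem grd_eq (n k x : ℕ) : grd n k x = if n ≤ k then 0 else x := by
  unfold grd
  by_cases h : n ≤ k
  · rw [Nat.ble_eq_true_of_le h, if_pos h]
  · rw [if_neg h, show Nat.ble n k = false from by
      rcases h' : Nat.ble n k with _ | _
      · rfl
      · exact absurd (Nat.le_of_ble_eq_true h') h]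

/-- `g k` is the concatenation of `d` slabs starting from `k` -/
def IsCat (f : ℕ → ℕ) (S n d : ℕ) (g : ℕ → ℕ) : Prop :=
  ∀ k, (∀ i, S * d ≤ i → dig (g k) i = 0) ∧
    (∀ i β, (∀ k j, dig (f k) j ≤ β) → dig (g k) i ≤ β) ∧
    ∀ j < d, k + j < n → ∀ s < S, dig (g k) (S * j + s) = dig (f (k + j)) s

theorem IsCat.two {f g : ℕ → ℕ} {S n d : ℕ} (h : IsCat f S n d g) :
    IsCat f S n (2 * d) fun k => g k + g (k + d) <<< (16 * (S * d)) := fun k => by
  refine ⟨fun i hi => ?_, fun i β hβ => ?_, fun j hj hn s hs => ?_⟩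
  · rw [show S * (2 * d) = S * d + S * d by ring] at hi
    rw [dig_cat _ (h k).1, if_neg (by omega), (h _).1 _ (by omega)]
  · rw [dig_cat _ (h k).1]
    split_ifs
    · exact (h _).2.1 _ _ hβ
    · exact (h _).2.1 _ _ hβ
  · rw [dig_cat _ (h k).1]
    by_cases hjd : j < d
    · rw [if_pos (by nlinarith), (h k).2.2 j hjd hn s hs]
    · obtain ⟨j, rfl⟩ := Nat.exists_eq_add_of_le (Nat.le_of_not_lt hjd)
      rw [if_neg (by nlinarith), show S * (d + j) + s - S * d = S * j + s by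
        rw [mul_add]; omega, (h _).2.2 j (by omega) (by omega) s hs, add_assoc]

theorem IsCat.four {f g : ℕ → ℕ} {S n d s : ℕ} (h : IsCat f S n d g) (hs : s = 16 * (S * d)) :
    IsCat f S n (4 * d) fun k => grd n k (cmb g s d k) := fun k => by
  have h2 := h.two.two k
  have h3 : cmb g s d k = (g k + g (k + d) <<< (16 * (S * d))) +
      (g (k + 2 * d) + g (k + 2 * d + d) <<< (16 * (S * d))) <<< (16 * (S * (2 * d))) := by
    rw [show k + 2 * d + d = k + 3 * d by ring, show 16 * (S * (2 * d)) = 2 * s by rw [hs]; ring,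
      ← hs]
    rfl
  rw [show 2 * (2 * d) = 4 * d by ring] at h2
  simp only [grd_eq]
  split_ifs with hk
  · exact ⟨by simp, by simp, fun j _ hn => by omega⟩
  · rw [h3]; exact h2

theorem isCat_cat {f : ℕ → ℕ} {S : ℕ} (hf : ∀ k i, S ≤ i → dig (f k) i = 0) (n : ℕ) :
    (∀ i β, (∀ k j, dig (f k) j ≤ β) → dig (cat f (16 * S) n) i ≤ β) ∧
    ∀ j < 128, j < n → ∀ s < S, dig (cat f (16 * S) n) (S * j + s) = dig (f j) s := by
  have h1 : IsCat f S n 1 f := fun k => ⟨by simpa using hf k, fun i β h => h k i,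
    fun j hj _ s _ => by rw [show j = 0 by omega]; simp⟩
  have h4 : IsCat f S n 4 (cat4 f (16 * S) n) := h1.four (by ring)
  have h16 : IsCat f S n 16 (cat16 f (16 * S) n) := h4.four (s := 4 * (16 * S)) (by ring)
  have h64 : IsCat f S n 64 (cat64 f (16 * S) n) := h16.four (s := 16 * (16 * S)) (by ring)
  have h := h64.two 0
  have e : cat f (16 * S) n =
      cat64 f (16 * S) n 0 + cat64 f (16 * S) n (0 + 64) <<< (16 * (S * 64)) := by
    rw [show 16 * (S * 64) = 64 * (16 * S) by ring]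
    rfl
  rw [e]
  exact ⟨h.2.1, fun j hj hn s hs => by simpa using h.2.2 j hj (by omega) s hs⟩

/-- the number of digits of a slab -/
def sk (p : Pm) : ℕ := p.nw * (p.bb * p.sf)

theorem sf16_eq : sf16 p = 16 * p.sf := rfl
theorem sw16_eq : sw16 p = 16 * (p.bb * p.sf) := by
  change p.bb * (16 * p.sf) = _
  ring
theorem sk16_eq : sk16 p = 16 * sk p := by
  change p.nw * (p.bb * (16 * p.sf)) = _
  rw [sk]; ring

theorem dig_red1 {m : ℕ} (hm : m < p.lm) (x i : ℕ) : dig (red1 p m x) i =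
    if i < sk p * (m + 1) then dig x i % 64 + dig x i / 64 else 0 := by
  have key : ∀ c < 65536, ∀ i, dig ((c * onesM p) >>> (sk16 p * (p.lm - (m + 1)))) i =
      if i < sk p * (m + 1) then c else 0 := fun c hc i => by
    obtain ⟨e, he⟩ := Nat.exists_eq_add_of_le (Nat.succ_le_of_lt hm)
    rw [sk16_eq, mul_assoc, dig_shr, show onesM p = repN 16 (p.lm * sk p) from rfl, dig_crep1 hc,
      he, Nat.add_sub_cancel_left, add_mul, mul_comm e, mul_comm (m.succ)]
    exact if_congr Nat.add_lt_add_iff_right rfl rfl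
  exact dig_red (key 63 (by norm_num)) (key 1023 (by norm_num)) x i

theorem red1_le {m : ℕ} (hm : m < p.lm) {x : ℕ} (hx : ∀ i, dig x i ≤ 4127) (i : ℕ) :
    dig (red1 p m x) i ≤ 127 := by
  have := hx i
  rw [dig_red1 hm]
  split_ifs <;> omega

theorem red2_le {m : ℕ} (hm : m < p.lm) (x i : ℕ) : dig (red2 p m x) i ≤ 127 :=
  red1_le hm (fun j => by
    have := dig_lt x j
    rw [dig_red1 hm]
    split_ifs <;> omega) i

theorem red1_cast {L : Type*} [CommRing L] (h9 : (9 : L) = 0) {m : ℕ} (hm : m < p.lm) (x : ℕ)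
    {i : ℕ} (hi : i < sk p * (m + 1)) : (dig (red1 p m x) i : L) = dig x i := by
  rw [dig_red1 hm, if_pos hi]
  conv_rhs => rw [← Nat.mod_add_div (dig x i) 64]
  push_cast
  rw [show (64 : L) = 1 + 7 * 9 by norm_num, h9]
  ring

theorem red2_cast {L : Type*} [CommRing L] (h9 : (9 : L) = 0) {m : ℕ} (hm : m < p.lm) (x : ℕ)
    {i : ℕ} (hi : i < sk p * (m + 1)) : (dig (red2 p m x) i : L) = dig x i := by
  rw [red2, red1_cast h9 hm _ hi, red1_cast h9 hm _ hi]

end Vale.Agent.P236KE
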