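import Vale.Agent.P236KE.Eng

/-!
# P236KE / Cfg : the tables of the structure maps (generated)
-/

set_option maxRecDepth 100000

namespace Vale.Agent.P236KE

noncomputable def cf_t2 : TL := (TL.cons ⟨fun x => (Nat.add (x (nat_lit 0) (nat_lit 0) (nat_lit 64)) (Nat.add (x (nat_lit 0) (nat_lit 0) (nat_lit 4096)) (x (nat_lit 0) (nat_lit 0) (nat_lit 16385))))⟩
  (TL.cons ⟨fun x => (Nat.add (Nat.add (x (nat_lit 1) (nat_lit 0) (nat_lit 64)) (Nat.add (x (nat_lit 1) (nat_lit 0) (nat_lit 4096)) (x (nat_lit 1) (nat_lit 0) (nat_lit 16385)))) (Nat.mul (nat_lit 8) (Nat.add (x (nat_lit 0) (nat_lit 0) (nat_lit 4096)) (x (nat_lit 0) (nat_lit 0) (nat_lit 8192)))))⟩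
  (TL.cons ⟨fun x => (Nat.add (x (nat_lit 2) (nat_lit 0) (nat_lit 64)) (Nat.add (x (nat_lit 2) (nat_lit 0) (nat_lit 4096)) (x (nat_lit 2) (nat_lit 0) (nat_lit 16385))))⟩
  (TL.cons ⟨fun x => (Nat.add (x (nat_lit 3) (nat_lit 0) (nat_lit 64)) (Nat.add (x (nat_lit 3) (nat_lit 0) (nat_lit 4096)) (x (nat_lit 3) (nat_lit 0) (nat_lit 16385))))⟩
  (TL.cons ⟨fun x => (Nat.add (x (nat_lit 4) (nat_lit 0) (nat_lit 64)) (Nat.add (x (nat_lit 4) (nat_lit 0) (nat_lit 4096)) (x (nat_lit 4) (nat_lit 0) (nat_lit 16385))))⟩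
  (TL.cons ⟨fun x => (Nat.add (Nat.add (x (nat_lit 5) (nat_lit 0) (nat_lit 64)) (Nat.add (x (nat_lit 5) (nat_lit 0) (nat_lit 4096)) (x (nat_lit 5) (nat_lit 0) (nat_lit 16385)))) (Nat.mul (nat_lit 2) (Nat.add (x (nat_lit 1) (nat_lit 0) (nat_lit 4096)) (x (nat_lit 1) (nat_lit 0) (nat_lit 8192)))))⟩
  (TL.cons ⟨fun x => (Nat.add (Nat.add (x (nat_lit 6) (nat_lit 0) (nat_lit 64)) (Nat.add (x (nat_lit 6) (nat_lit 0) (nat_lit 4096)) (x (nat_lit 6) (nat_lit 0) (nat_lit 16385)))) (Nat.mul (nat_lit 2) (Nat.add (x (nat_lit 2) (nat_lit 0) (nat_lit 4096)) (x (nat_lit 2) (nat_lit 0) (nat_lit 8192)))))⟩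
  (TL.cons ⟨fun x => (Nat.add (x (nat_lit 7) (nat_lit 0) (nat_lit 64)) (Nat.add (x (nat_lit 7) (nat_lit 0) (nat_lit 4096)) (x (nat_lit 7) (nat_lit 0) (nat_lit 16385))))⟩
  (TL.cons ⟨fun x => (Nat.add (Nat.add (x (nat_lit 8) (nat_lit 0) (nat_lit 64)) (Nat.add (x (nat_lit 8) (nat_lit 0) (nat_lit 4096)) (x (nat_lit 8) (nat_lit 0) (nat_lit 16385)))) (Nat.mul (nat_lit 2) (Nat.add (x (nat_lit 3) (nat_lit 0) (nat_lit 4096)) (x (nat_lit 3) (nat_lit 0) (nat_lit 8192)))))⟩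
  (TL.cons ⟨fun x => (Nat.add (x (nat_lit 9) (nat_lit 0) (nat_lit 64)) (Nat.add (x (nat_lit 9) (nat_lit 0) (nat_lit 4096)) (x (nat_lit 9) (nat_lit 0) (nat_lit 16385))))⟩
  (TL.cons ⟨fun x => (Nat.add (x (nat_lit 10) (nat_lit 0) (nat_lit 64)) (Nat.add (x (nat_lit 10) (nat_lit 0) (nat_lit 4096)) (x (nat_lit 10) (nat_lit 0) (nat_lit 16385))))⟩
  (TL.cons ⟨fun x => (Nat.add (Nat.add (x (nat_lit 11) (nat_lit 0) (nat_lit 64)) (Nat.add (x (nat_lit 11) (nat_lit 0) (nat_lit 4096)) (x (nat_lit 11) (nat_lit 0) (nat_lit 16385)))) (Nat.mul (nat_lit 2) (Nat.add (x (nat_lit 4) (nat_lit 0) (nat_lit 4096)) (x (nat_lit 4) (nat_lit 0) (nat_lit 8192)))))⟩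
  (TL.cons ⟨fun x => (Nat.add (x (nat_lit 12) (nat_lit 0) (nat_lit 64)) (Nat.add (x (nat_lit 12) (nat_lit 0) (nat_lit 4096)) (x (nat_lit 12) (nat_lit 0) (nat_lit 16385))))⟩
  (TL.cons ⟨fun x => (Nat.add (x (nat_lit 13) (nat_lit 0) (nat_lit 64)) (Nat.add (x (nat_lit 13) (nat_lit 0) (nat_lit 4096)) (x (nat_lit 13) (nat_lit 0) (nat_lit 16385))))⟩
  (TL.cons ⟨fun x => (Nat.add (x (nat_lit 14) (nat_lit 0) (nat_lit 64)) (Nat.add (x (nat_lit 14) (nat_lit 0) (nat_lit 4096)) (x (nat_lit 14) (nat_lit 0) (nat_lit 16385))))⟩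
  TL.nil)))))))))))))))

noncomputable def cf_t2_t : List TT := [(.add (.leaf (nat_lit 0) (nat_lit 0) (nat_lit 64)) (.add (.leaf (nat_lit 0) (nat_lit 0) (nat_lit 4096)) (.leaf (nat_lit 0) (nat_lit 0) (nat_lit 16385)))),
  (.add (.add (.leaf (nat_lit 1) (nat_lit 0) (nat_lit 64)) (.add (.leaf (nat_lit 1) (nat_lit 0) (nat_lit 4096)) (.leaf (nat_lit 1) (nat_lit 0) (nat_lit 16385)))) (.mul (nat_lit 8) (.add (.leaf (nat_lit 0) (nat_lit 0) (nat_lit 4096)) (.leaf (nat_lit 0) (nat_lit 0) (nat_lit 8192))))),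
  (.add (.leaf (nat_lit 2) (nat_lit 0) (nat_lit 64)) (.add (.leaf (nat_lit 2) (nat_lit 0) (nat_lit 4096)) (.leaf (nat_lit 2) (nat_lit 0) (nat_lit 16385)))),
  (.add (.leaf (nat_lit 3) (nat_lit 0) (nat_lit 64)) (.add (.leaf (nat_lit 3) (nat_lit 0) (nat_lit 4096)) (.leaf (nat_lit 3) (nat_lit 0) (nat_lit 16385)))),
  (.add (.leaf (nat_lit 4) (nat_lit 0) (nat_lit 64)) (.add (.leaf (nat_lit 4) (nat_lit 0) (nat_lit 4096)) (.leaf (nat_lit 4) (nat_lit 0) (nat_lit 16385)))),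
  (.add (.add (.leaf (nat_lit 5) (nat_lit 0) (nat_lit 64)) (.add (.leaf (nat_lit 5) (nat_lit 0) (nat_lit 4096)) (.leaf (nat_lit 5) (nat_lit 0) (nat_lit 16385)))) (.mul (nat_lit 2) (.add (.leaf (nat_lit 1) (nat_lit 0) (nat_lit 4096)) (.leaf (nat_lit 1) (nat_lit 0) (nat_lit 8192))))),
  (.add (.add (.leaf (nat_lit 6) (nat_lit 0) (nat_lit 64)) (.add (.leaf (nat_lit 6) (nat_lit 0) (nat_lit 4096)) (.leaf (nat_lit 6) (nat_lit 0) (nat_lit 16385)))) (.mul (nat_lit 2) (.add (.leaf (nat_lit 2) (nat_lit 0) (nat_lit 4096)) (.leaf (nat_lit 2) (nat_lit 0) (nat_lit 8192))))),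
  (.add (.leaf (nat_lit 7) (nat_lit 0) (nat_lit 64)) (.add (.leaf (nat_lit 7) (nat_lit 0) (nat_lit 4096)) (.leaf (nat_lit 7) (nat_lit 0) (nat_lit 16385)))),
  (.add (.add (.leaf (nat_lit 8) (nat_lit 0) (nat_lit 64)) (.add (.leaf (nat_lit 8) (nat_lit 0) (nat_lit 4096)) (.leaf (nat_lit 8) (nat_lit 0) (nat_lit 16385)))) (.mul (nat_lit 2) (.add (.leaf (nat_lit 3) (nat_lit 0) (nat_lit 4096)) (.leaf (nat_lit 3) (nat_lit 0) (nat_lit 8192))))),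
  (.add (.leaf (nat_lit 9) (nat_lit 0) (nat_lit 64)) (.add (.leaf (nat_lit 9) (nat_lit 0) (nat_lit 4096)) (.leaf (nat_lit 9) (nat_lit 0) (nat_lit 16385)))),
  (.add (.leaf (nat_lit 10) (nat_lit 0) (nat_lit 64)) (.add (.leaf (nat_lit 10) (nat_lit 0) (nat_lit 4096)) (.leaf (nat_lit 10) (nat_lit 0) (nat_lit 16385)))),
  (.add (.add (.leaf (nat_lit 11) (nat_lit 0) (nat_lit 64)) (.add (.leaf (nat_lit 11) (nat_lit 0) (nat_lit 4096)) (.leaf (nat_lit 11) (nat_lit 0) (nat_lit 16385)))) (.mul (nat_lit 2) (.add (.leaf (nat_lit 4) (nat_lit 0) (nat_lit 4096)) (.leaf (nat_lit 4) (nat_lit 0) (nat_lit 8192))))),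
  (.add (.leaf (nat_lit 12) (nat_lit 0) (nat_lit 64)) (.add (.leaf (nat_lit 12) (nat_lit 0) (nat_lit 4096)) (.leaf (nat_lit 12) (nat_lit 0) (nat_lit 16385)))),
  (.add (.leaf (nat_lit 13) (nat_lit 0) (nat_lit 64)) (.add (.leaf (nat_lit 13) (nat_lit 0) (nat_lit 4096)) (.leaf (nat_lit 13) (nat_lit 0) (nat_lit 16385)))),
  (.add (.leaf (nat_lit 14) (nat_lit 0) (nat_lit 64)) (.add (.leaf (nat_lit 14) (nat_lit 0) (nat_lit 4096)) (.leaf (nat_lit 14) (nat_lit 0) (nat_lit 16385))))]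

theorem cf_t2_eq : cf_t2 = ofL cf_t2_t := rfl

noncomputable def cf_t3 : TL := (TL.cons ⟨fun x => (Nat.add (Nat.add (x (nat_lit 0) (nat_lit 53264) (nat_lit 0)) (x (nat_lit 0) (nat_lit 0) (nat_lit 4288))) (Nat.add (x (nat_lit 0) (nat_lit 0) (nat_lit 16385)) (x (nat_lit 0) (nat_lit 53249) (nat_lit 0))))⟩
  (TL.cons ⟨fun x => (Nat.add (Nat.add (Nat.add (x (nat_lit 1) (nat_lit 53264) (nat_lit 0)) (x (nat_lit 1) (nat_lit 0) (nat_lit 4288))) (Nat.add (x (nat_lit 1) (nat_lit 0) (nat_lit 16385)) (x (nat_lit 1) (nat_lit 53249) (nat_lit 0)))) (Nat.add (Nat.mul (nat_lit 7) (x (nat_lit 0) (nat_lit 0) (nat_lit 20545))) (Nat.mul (nat_lit 8) (Nat.add (Nat.add (x (nat_lit 0) (nat_lit 0) (nat_lit 4224)) (Nat.add (x (nat_lit 0) (nat_lit 0) (nat_lit 16513)) (x (nat_lit 0) (nat_lit 0) (nat_lit 8256)))) (Nat.add (x (nat_lit 0) (nat_lit 0) (nat_lit 32834))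 (Nat.add (x (nat_lit 0) (nat_lit 0) (nat_lit 24577)) (x (nat_lit 0) (nat_lit 0) (nat_lit 36866))))))))⟩
  (TL.cons ⟨fun x => (Nat.add (Nat.add (Nat.add (Nat.add (x (nat_lit 2) (nat_lit 53264) (nat_lit 0)) (x (nat_lit 2) (nat_lit 0) (nat_lit 4288))) (Nat.add (x (nat_lit 2) (nat_lit 0) (nat_lit 16385)) (x (nat_lit 2) (nat_lit 53249) (nat_lit 0)))) (Nat.mul (nat_lit 3) (Nat.add (x (nat_lit 0) (nat_lit 0) (nat_lit 16384)) (x (nat_lit 0) (nat_lit 0) (nat_lit 20480))))) (Nat.add (Nat.mul (nat_lit 6) (Nat.add (Nat.add (x (nat_lit 0) (nat_lit 0) (nat_lit 4096)) (x (nat_lit 0) (nat_lit 0) (nat_lit 8192))) (Nat.add (x (nat_lit 0) (nat_lit 0) (nat_lit 28672)) (x (nat_lit 0) (nat_lit 0) (nat_lit 32768))))) (Nat.mul (nat_lit 8) (Nat.add (x (nat_lit 0) (nat_lit 0) (nat_lit 12288)) (x (nat_lit 0) (nat_lit 0) (nat_lit 24576))))))⟩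
  (TL.cons ⟨fun x => (Nat.add (Nat.add (x (nat_lit 3) (nat_lit 53264) (nat_lit 0)) (x (nat_lit 3) (nat_lit 0) (nat_lit 4288))) (Nat.add (x (nat_lit 3) (nat_lit 0) (nat_lit 16385)) (x (nat_lit 3) (nat_lit 53249) (nat_lit 0))))⟩
  (TL.cons ⟨fun x => (Nat.add (Nat.add (x (nat_lit 4) (nat_lit 53264) (nat_lit 0)) (x (nat_lit 4) (nat_lit 0) (nat_lit 4288))) (Nat.add (x (nat_lit 4) (nat_lit 0) (nat_lit 16385)) (x (nat_lit 4) (nat_lit 53249) (nat_lit 0))))⟩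
  (TL.cons ⟨fun x => (Nat.add (Nat.add (Nat.add (Nat.add (x (nat_lit 5) (nat_lit 53264) (nat_lit 0)) (x (nat_lit 5) (nat_lit 0) (nat_lit 4288))) (Nat.add (x (nat_lit 5) (nat_lit 0) (nat_lit 16385)) (Nat.add (x (nat_lit 5) (nat_lit 53249) (nat_lit 0)) (x (nat_lit 0) (nat_lit 0) (nat_lit 4224))))) (Nat.add (Nat.add (x (nat_lit 0) (nat_lit 0) (nat_lit 8320)) (Nat.add (x (nat_lit 1) (nat_lit 0) (nat_lit 20545)) (x (nat_lit 0) (nat_lit 0) (nat_lit 12288)))) (Nat.add (x (nat_lit 0) (nat_lit 0) (nat_lit 16384)) (Nat.add (x (nat_lit 0) (nat_lit 0) (nat_lit 36866)) (x (nat_lit 0) (nat_lit 0) (nat_lit 40962)))))) (Nat.mul (nat_lit 2) (Nat.add (Nat.add (Nat.add (x (nat_lit 1) (nat_lit 0) (nat_lit 4224)) (Nat.add (x (nat_lit 1) (nat_lit 0) (nat_lit 16513)) (x (nat_lit 1) (nat_lit 0) (nat_lit 8256)))) (Nat.add (x (nat_lit 0) (nat_lit 0) (nat_lit 8256))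 (Nat.add (x (nat_lit 0) (nat_lit 0) (nat_lit 12352)) (x (nat_lit 1) (nat_lit 0) (nat_lit 32834))))) (Nat.add (Nat.add (x (nat_lit 0) (nat_lit 0) (nat_lit 20545)) (Nat.add (x (nat_lit 0) (nat_lit 0) (nat_lit 24641)) (x (nat_lit 1) (nat_lit 0) (nat_lit 24577)))) (Nat.add (x (nat_lit 1) (nat_lit 0) (nat_lit 36866)) (Nat.add (x (nat_lit 0) (nat_lit 0) (nat_lit 24577)) (x (nat_lit 0) (nat_lit 0) (nat_lit 28673))))))))⟩
  (TL.cons ⟨fun x => (Nat.add (Nat.add (Nat.add (x (nat_lit 6) (nat_lit 53264) (nat_lit 0)) (x (nat_lit 6) (nat_lit 0) (nat_lit 4288))) (Nat.add (x (nat_lit 6) (nat_lit 0) (nat_lit 16385)) (Nat.add (x (nat_lit 6) (nat_lit 53249) (nat_lit 0)) (x (nat_lit 2) (nat_lit 0) (nat_lit 20545))))) (Nat.mul (nat_lit 2) (Nat.add (Nat.add (Nat.add (x (nat_lit 2) (nat_lit 0) (nat_lit 4224)) (x (nat_lit 2) (nat_lit 0) (nat_lit 16513))) (Nat.add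 (x (nat_lit 2) (nat_lit 0) (nat_lit 8256)) (x (nat_lit 2) (nat_lit 0) (nat_lit 32834)))) (Nat.add (Nat.add (x (nat_lit 2) (nat_lit 0) (nat_lit 24577)) (x (nat_lit 2) (nat_lit 0) (nat_lit 36866))) (Nat.add (x (nat_lit 1) (nat_lit 0) (nat_lit 12288)) (x (nat_lit 1) (nat_lit 0) (nat_lit 24576)))))))⟩
  (TL.cons ⟨fun x => (Nat.add (Nat.add (Nat.add (x (nat_lit 7) (nat_lit 53264) (nat_lit 0)) (x (nat_lit 7) (nat_lit 0) (nat_lit 4288))) (Nat.add (x (nat_lit 7) (nat_lit 0) (nat_lit 16385)) (x (nat_lit 7) (nat_lit 53249) (nat_lit 0)))) (Nat.mul (nat_lit 2) (Nat.add (x (nat_lit 2) (nat_lit 0) (nat_lit 12288)) (x (nat_lit 2) (nat_lit 0) (nat_lit 24576)))))⟩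
  (TL.cons ⟨fun x => (Nat.add (Nat.add (Nat.add (x (nat_lit 8) (nat_lit 53264) (nat_lit 0)) (x (nat_lit 8) (nat_lit 0) (nat_lit 4288))) (Nat.add (x (nat_lit 8) (nat_lit 0) (nat_lit 16385)) (Nat.add (x (nat_lit 8) (nat_lit 53249) (nat_lit 0)) (x (nat_lit 3) (nat_lit 0) (nat_lit 20545))))) (Nat.mul (nat_lit 2) (Nat.add (Nat.add (x (nat_lit 3) (nat_lit 0) (nat_lit 4224)) (Nat.add (x (nat_lit 3) (nat_lit 0) (nat_lit 16513)) (x (nat_lit 3) (nat_lit 0) (nat_lit 8256)))) (Nat.add (x (nat_lit 3) (nat_lit 0) (nat_lit 32834)) (Nat.add (x (nat_lit 3) (nat_lit 0) (nat_lit 24577)) (x (nat_lit 3) (nat_lit 0) (nat_lit 36866)))))))⟩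
  (TL.cons ⟨fun x => (Nat.add (Nat.add (Nat.add (x (nat_lit 9) (nat_lit 53264) (nat_lit 0)) (x (nat_lit 9) (nat_lit 0) (nat_lit 4288))) (Nat.add (x (nat_lit 9) (nat_lit 0) (nat_lit 16385)) (x (nat_lit 9) (nat_lit 53249) (nat_lit 0)))) (Nat.mul (nat_lit 2) (Nat.add (x (nat_lit 3) (nat_lit 0) (nat_lit 12288)) (x (nat_lit 3) (nat_lit 0) (nat_lit 24576)))))⟩
  (TL.cons ⟨fun x => (Nat.add (Nat.add (x (nat_lit 10) (nat_lit 53264) (nat_lit 0)) (x (nat_lit 10) (nat_lit 0) (nat_lit 4288))) (Nat.add (x (nat_lit 10) (nat_lit 0) (nat_lit 16385)) (x (nat_lit 10) (nat_lit 53249) (nat_lit 0))))⟩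
  (TL.cons ⟨fun x => (Nat.add (Nat.add (Nat.add (x (nat_lit 11) (nat_lit 53264) (nat_lit 0)) (x (nat_lit 11) (nat_lit 0) (nat_lit 4288))) (Nat.add (x (nat_lit 11) (nat_lit 0) (nat_lit 16385)) (Nat.add (x (nat_lit 11) (nat_lit 53249) (nat_lit 0)) (x (nat_lit 4) (nat_lit 0) (nat_lit 20545))))) (Nat.mul (nat_lit 2) (Nat.add (Nat.add (x (nat_lit 4) (nat_lit 0) (nat_lit 4224)) (Nat.add (x (nat_lit 4) (nat_lit 0) (nat_lit 16513)) (x (nat_lit 4) (nat_lit 0) (nat_lit 8256)))) (Nat.add (x (nat_lit 4) (nat_lit 0) (nat_lit 32834)) (Nat.add (x (nat_lit 4) (nat_lit 0) (nat_lit 24577)) (x (nat_lit 4) (nat_lit 0) (nat_lit 36866)))))))⟩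
  (TL.cons ⟨fun x => (Nat.add (Nat.add (Nat.add (x (nat_lit 12) (nat_lit 53264) (nat_lit 0)) (x (nat_lit 12) (nat_lit 0) (nat_lit 4288))) (Nat.add (x (nat_lit 12) (nat_lit 0) (nat_lit 16385)) (x (nat_lit 12) (nat_lit 53249) (nat_lit 0)))) (Nat.mul (nat_lit 2) (Nat.add (x (nat_lit 4) (nat_lit 0) (nat_lit 12288)) (x (nat_lit 4) (nat_lit 0) (nat_lit 24576)))))⟩
  (TL.cons ⟨fun x => (Nat.add (Nat.add (x (nat_lit 13) (nat_lit 53264) (nat_lit 0)) (x (nat_lit 13) (nat_lit 0) (nat_lit 4288))) (Nat.add (x (nat_lit 13) (nat_lit 0) (nat_lit 16385)) (x (nat_lit 13) (nat_lit 53249) (nat_lit 0))))⟩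
  (TL.cons ⟨fun x => (Nat.add (Nat.add (x (nat_lit 14) (nat_lit 53264) (nat_lit 0)) (x (nat_lit 14) (nat_lit 0) (nat_lit 4288))) (Nat.add (x (nat_lit 14) (nat_lit 0) (nat_lit 16385)) (x (nat_lit 14) (nat_lit 53249) (nat_lit 0))))⟩
  TL.nil)))))))))))))))

noncomputable def cf_t3_t : List TT := [(.add (.add (.leaf (nat_lit 0) (nat_lit 53264) (nat_lit 0)) (.leaf (nat_lit 0) (nat_lit 0) (nat_lit 4288))) (.add (.leaf (nat_lit 0) (nat_lit 0) (nat_lit 16385)) (.leaf (nat_lit 0) (nat_lit 53249) (nat_lit 0)))),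
  (.add (.add (.add (.leaf (nat_lit 1) (nat_lit 53264) (nat_lit 0)) (.leaf (nat_lit 1) (nat_lit 0) (nat_lit 4288))) (.add (.leaf (nat_lit 1) (nat_lit 0) (nat_lit 16385)) (.leaf (nat_lit 1) (nat_lit 53249) (nat_lit 0)))) (.add (.mul (nat_lit 7) (.leaf (nat_lit 0) (nat_lit 0) (nat_lit 20545))) (.mul (nat_lit 8) (.add (.add (.leaf (nat_lit 0) (nat_lit 0) (nat_lit 4224)) (.add (.leaf (nat_lit 0) (nat_lit 0) (nat_lit 16513)) (.leaf (nat_lit 0) (nat_lit 0) (nat_lit 8256)))) (.add (.leaf (nat_lit 0) (nat_lit 0) (nat_lit 32834)) (.add (.leaf (nat_lit 0) (nat_lit 0) (nat_lit 24577)) (.leaf (nat_lit 0) (nat_lit 0) (nat_lit 36866)))))))),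
  (.add (.add (.add (.add (.leaf (nat_lit 2) (nat_lit 53264) (nat_lit 0)) (.leaf (nat_lit 2) (nat_lit 0) (nat_lit 4288))) (.add (.leaf (nat_lit 2) (nat_lit 0) (nat_lit 16385)) (.leaf (nat_lit 2) (nat_lit 53249) (nat_lit 0)))) (.mul (nat_lit 3) (.add (.leaf (nat_lit 0) (nat_lit 0) (nat_lit 16384)) (.leaf (nat_lit 0) (nat_lit 0) (nat_lit 20480))))) (.add (.mul (nat_lit 6) (.add (.add (.leaf (nat_lit 0) (nat_lit 0) (nat_lit 4096)) (.leaf (nat_lit 0) (nat_lit 0) (nat_lit 8192))) (.add (.leaf (nat_lit 0) (nat_lit 0) (nat_lit 28672)) (.leaf (nat_lit 0) (nat_lit 0) (nat_lit 32768))))) (.mul (nat_lit 8) (.add (.leaf (nat_lit 0) (nat_lit 0) (nat_lit 12288)) (.leaf (nat_lit 0) (nat_lit 0) (nat_lit 24576)))))),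
  (.add (.add (.leaf (nat_lit 3) (nat_lit 53264) (nat_lit 0)) (.leaf (nat_lit 3) (nat_lit 0) (nat_lit 4288))) (.add (.leaf (nat_lit 3) (nat_lit 0) (nat_lit 16385)) (.leaf (nat_lit 3) (nat_lit 53249) (nat_lit 0)))),
  (.add (.add (.leaf (nat_lit 4) (nat_lit 53264) (nat_lit 0)) (.leaf (nat_lit 4) (nat_lit 0) (nat_lit 4288))) (.add (.leaf (nat_lit 4) (nat_lit 0) (nat_lit 16385)) (.leaf (nat_lit 4) (nat_lit 53249) (nat_lit 0)))),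
  (.add (.add (.add (.add (.leaf (nat_lit 5) (nat_lit 53264) (nat_lit 0)) (.leaf (nat_lit 5) (nat_lit 0) (nat_lit 4288))) (.add (.leaf (nat_lit 5) (nat_lit 0) (nat_lit 16385)) (.add (.leaf (nat_lit 5) (nat_lit 53249) (nat_lit 0)) (.leaf (nat_lit 0) (nat_lit 0) (nat_lit 4224))))) (.add (.add (.leaf (nat_lit 0) (nat_lit 0) (nat_lit 8320)) (.add (.leaf (nat_lit 1) (nat_lit 0) (nat_lit 20545)) (.leaf (nat_lit 0) (nat_lit 0) (nat_lit 12288)))) (.add (.leaf (nat_lit 0) (nat_lit 0) (nat_lit 16384)) (.add (.leaf (nat_lit 0) (nat_lit 0) (nat_lit 36866)) (.leaf (nat_lit 0) (nat_lit 0) (nat_lit 40962)))))) (.mul (nat_lit 2) (.add (.add (.add (.leaf (nat_lit 1) (nat_lit 0) (nat_lit 4224)) (.add (.leaf (nat_lit 1) (nat_lit 0) (nat_lit 16513)) (.leaf (nat_lit 1) (nat_lit 0) (nat_lit 8256)))) (.add (.leaf (nat_lit 0) (nat_lit 0) (nat_lit 8256)) (.add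 (.leaf (nat_lit 0) (nat_lit 0) (nat_lit 12352)) (.leaf (nat_lit 1) (nat_lit 0) (nat_lit 32834))))) (.add (.add (.leaf (nat_lit 0) (nat_lit 0) (nat_lit 20545)) (.add (.leaf (nat_lit 0) (nat_lit 0) (nat_lit 24641)) (.leaf (nat_lit 1) (nat_lit 0) (nat_lit 24577)))) (.add (.leaf (nat_lit 1) (nat_lit 0) (nat_lit 36866)) (.add (.leaf (nat_lit 0) (nat_lit 0) (nat_lit 24577)) (.leaf (nat_lit 0) (nat_lit 0) (nat_lit 28673)))))))),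
  (.add (.add (.add (.leaf (nat_lit 6) (nat_lit 53264) (nat_lit 0)) (.leaf (nat_lit 6) (nat_lit 0) (nat_lit 4288))) (.add (.leaf (nat_lit 6) (nat_lit 0) (nat_lit 16385)) (.add (.leaf (nat_lit 6) (nat_lit 53249) (nat_lit 0)) (.leaf (nat_lit 2) (nat_lit 0) (nat_lit 20545))))) (.mul (nat_lit 2) (.add (.add (.add (.leaf (nat_lit 2) (nat_lit 0) (nat_lit 4224)) (.leaf (nat_lit 2) (nat_lit 0) (nat_lit 16513))) (.add (.leaf (nat_lit 2) (nat_lit 0) (nat_lit 8256)) (.leaf (nat_lit 2) (nat_lit 0) (nat_lit 32834)))) (.add (.add (.leaf (nat_lit 2) (nat_lit 0) (nat_lit 24577)) (.leaf (nat_lit 2) (nat_lit 0) (nat_lit 36866))) (.add (.leaf (nat_lit 1) (nat_lit 0) (nat_lit 12288)) (.leaf (nat_lit 1) (nat_lit 0) (nat_lit 24576))))))),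
  (.add (.add (.add (.leaf (nat_lit 7) (nat_lit 53264) (nat_lit 0)) (.leaf (nat_lit 7) (nat_lit 0) (nat_lit 4288))) (.add (.leaf (nat_lit 7) (nat_lit 0) (nat_lit 16385)) (.leaf (nat_lit 7) (nat_lit 53249) (nat_lit 0)))) (.mul (nat_lit 2) (.add (.leaf (nat_lit 2) (nat_lit 0) (nat_lit 12288)) (.leaf (nat_lit 2) (nat_lit 0) (nat_lit 24576))))),
  (.add (.add (.add (.leaf (nat_lit 8) (nat_lit 53264) (nat_lit 0)) (.leaf (nat_lit 8) (nat_lit 0) (nat_lit 4288))) (.add (.leaf (nat_lit 8) (nat_lit 0) (nat_lit 16385)) (.add (.leaf (nat_lit 8) (nat_lit 53249) (nat_lit 0)) (.leaf (nat_lit 3) (nat_lit 0) (nat_lit 20545))))) (.mul (nat_lit 2) (.add (.add (.leaf (nat_lit 3) (nat_lit 0) (nat_lit 4224)) (.add (.leaf (nat_lit 3) (nat_lit 0) (nat_lit 16513)) (.leaf (nat_lit 3) (nat_lit 0) (nat_lit 8256)))) (.add (.leaf (nat_lit 3) (nat_lit 0) (nat_lit 32834))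 (.add (.leaf (nat_lit 3) (nat_lit 0) (nat_lit 24577)) (.leaf (nat_lit 3) (nat_lit 0) (nat_lit 36866))))))),
  (.add (.add (.add (.leaf (nat_lit 9) (nat_lit 53264) (nat_lit 0)) (.leaf (nat_lit 9) (nat_lit 0) (nat_lit 4288))) (.add (.leaf (nat_lit 9) (nat_lit 0) (nat_lit 16385)) (.leaf (nat_lit 9) (nat_lit 53249) (nat_lit 0)))) (.mul (nat_lit 2) (.add (.leaf (nat_lit 3) (nat_lit 0) (nat_lit 12288)) (.leaf (nat_lit 3) (nat_lit 0) (nat_lit 24576))))),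
  (.add (.add (.leaf (nat_lit 10) (nat_lit 53264) (nat_lit 0)) (.leaf (nat_lit 10) (nat_lit 0) (nat_lit 4288))) (.add (.leaf (nat_lit 10) (nat_lit 0) (nat_lit 16385)) (.leaf (nat_lit 10) (nat_lit 53249) (nat_lit 0)))),
  (.add (.add (.add (.leaf (nat_lit 11) (nat_lit 53264) (nat_lit 0)) (.leaf (nat_lit 11) (nat_lit 0) (nat_lit 4288))) (.add (.leaf (nat_lit 11) (nat_lit 0) (nat_lit 16385)) (.add (.leaf (nat_lit 11) (nat_lit 53249) (nat_lit 0)) (.leaf (nat_lit 4) (nat_lit 0) (nat_lit 20545))))) (.mul (nat_lit 2) (.add (.add (.leaf (nat_lit 4) (nat_lit 0) (nat_lit 4224)) (.add (.leaf (nat_lit 4) (nat_lit 0) (nat_lit 16513)) (.leaf (nat_lit 4) (nat_lit 0) (nat_lit 8256)))) (.add (.leaf (nat_lit 4) (nat_lit 0) (nat_lit 32834)) (.add (.leaf (nat_lit 4) (nat_lit 0) (nat_lit 24577)) (.leaf (nat_lit 4) (nat_lit 0) (nat_lit 36866))))))),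
  (.add (.add (.add (.leaf (nat_lit 12) (nat_lit 53264) (nat_lit 0)) (.leaf (nat_lit 12) (nat_lit 0) (nat_lit 4288))) (.add (.leaf (nat_lit 12) (nat_lit 0) (nat_lit 16385)) (.leaf (nat_lit 12) (nat_lit 53249) (nat_lit 0)))) (.mul (nat_lit 2) (.add (.leaf (nat_lit 4) (nat_lit 0) (nat_lit 12288)) (.leaf (nat_lit 4) (nat_lit 0) (nat_lit 24576))))),
  (.add (.add (.leaf (nat_lit 13) (nat_lit 53264) (nat_lit 0)) (.leaf (nat_lit 13) (nat_lit 0) (nat_lit 4288))) (.add (.leaf (nat_lit 13) (nat_lit 0) (nat_lit 16385)) (.leaf (nat_lit 13) (nat_lit 53249) (nat_lit 0)))),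
  (.add (.add (.leaf (nat_lit 14) (nat_lit 53264) (nat_lit 0)) (.leaf (nat_lit 14) (nat_lit 0) (nat_lit 4288))) (.add (.leaf (nat_lit 14) (nat_lit 0) (nat_lit 16385)) (.leaf (nat_lit 14) (nat_lit 53249) (nat_lit 0))))]

theorem cf_t3_eq : cf_t3 = ofL cf_t3_t := rfl

noncomputable def cf_t4 : TL := (TL.cons ⟨fun x => (Nat.add (Nat.add (x (nat_lit 0) (nat_lit 164864) (nat_lit 0)) (x (nat_lit 0) (nat_lit 159792) (nat_lit 4096))) (Nat.add (x (nat_lit 0) (nat_lit 0) (nat_lit 16961)) (Nat.add (x (nat_lit 0) (nat_lit 53249) (nat_lit 0)) (x (nat_lit 0) (nat_lit 164096) (nat_lit 0)))))⟩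
  (TL.cons ⟨fun x => (Nat.add (Nat.add (Nat.add (x (nat_lit 1) (nat_lit 164864) (nat_lit 0)) (x (nat_lit 1) (nat_lit 159792) (nat_lit 4096))) (Nat.add (x (nat_lit 1) (nat_lit 0) (nat_lit 16961)) (Nat.add (x (nat_lit 1) (nat_lit 53249) (nat_lit 0)) (x (nat_lit 1) (nat_lit 164096) (nat_lit 0))))) (Nat.add (Nat.mul (nat_lit 7) (Nat.add (Nat.add (x (nat_lit 0) (nat_lit 53264) (nat_lit 20673)) (x (nat_lit 0) (nat_lit 106513) (nat_lit 4288))) (Nat.add (x (nat_lit 0) (nat_lit 106513) (nat_lit 16385)) (x (nat_lit 0) (nat_lit 53249) (nat_lit 20673))))) (Nat.mul (nat_lit 8) (Nat.add (Nat.add (Nat.add (x (nat_lit 0) (nat_lit 106528) (nat_lit 4288)) (Nat.add (x (nat_lit 0) (nat_lit 106528) (nat_lit 16385)) (x (nat_lit 0) (nat_lit 159777) (nat_lit 0)))) (Nat.add (x (nat_lit 0) (nat_lit 53264) (nat_lit 8576)) (Nat.add (x (nat_lit 0) (nat_lit 53264)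 (nat_lit 32770)) (x (nat_lit 0) (nat_lit 159762) (nat_lit 0))))) (Nat.add (Nat.add (x (nat_lit 0) (nat_lit 0) (nat_lit 24961)) (Nat.add (x (nat_lit 0) (nat_lit 53249) (nat_lit 8576)) (x (nat_lit 0) (nat_lit 0) (nat_lit 37058)))) (Nat.add (x (nat_lit 0) (nat_lit 106498) (nat_lit 4288)) (Nat.add (x (nat_lit 0) (nat_lit 53249) (nat_lit 32770)) (x (nat_lit 0) (nat_lit 106498) (nat_lit 16385)))))))))⟩
  (TL.cons ⟨fun x => (Nat.add (Nat.add (Nat.add (Nat.add (x (nat_lit 2) (nat_lit 164864) (nat_lit 0)) (x (nat_lit 2) (nat_lit 159792) (nat_lit 4096))) (Nat.add (x (nat_lit 2) (nat_lit 0) (nat_lit 16961)) (Nat.add (x (nat_lit 2) (nat_lit 53249) (nat_lit 0)) (x (nat_lit 2) (nat_lit 164096) (nat_lit 0))))) (Nat.mul (nat_lit 3) (Nat.add (Nat.add (Nat.add (Nat.add (x (nat_lit 0) (nat_lit 0) (nat_lit 20929)) (x (nat_lit 0) (nat_lit 0) (nat_lit 16704)))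 (Nat.add (x (nat_lit 0) (nat_lit 0) (nat_lit 28993)) (Nat.add (x (nat_lit 0) (nat_lit 0) (nat_lit 53571)) (x (nat_lit 0) (nat_lit 0) (nat_lit 65860))))) (Nat.add (Nat.add (x (nat_lit 0) (nat_lit 0) (nat_lit 20736)) (x (nat_lit 0) (nat_lit 0) (nat_lit 45314))) (Nat.add (x (nat_lit 0) (nat_lit 0) (nat_lit 57603)) (Nat.add (x (nat_lit 0) (nat_lit 0) (nat_lit 82181)) (x (nat_lit 0) (nat_lit 0) (nat_lit 37057)))))) (Nat.add (Nat.add (Nat.add (x (nat_lit 0) (nat_lit 0) (nat_lit 49346)) (x (nat_lit 0) (nat_lit 0) (nat_lit 73924))) (Nat.add (x (nat_lit 0) (nat_lit 0) (nat_lit 86213)) (Nat.add (x (nat_lit 0) (nat_lit 0) (nat_lit 65667)) (x (nat_lit 0) (nat_lit 0) (nat_lit 77956))))) (Nat.add (Nat.add (x (nat_lit 0) (nat_lit 0) (nat_lit 45121)) (Nat.add (x (nat_lit 0) (nat_lit 0) (nat_lit 69699)) (x (nat_lit 0) (nat_lit 0) (nat_lit 94277)))) (Nat.add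 (x (nat_lit 0) (nat_lit 0) (nat_lit 118855)) (Nat.add (x (nat_lit 0) (nat_lit 0) (nat_lit 86020)) (x (nat_lit 0) (nat_lit 0) (nat_lit 98309))))))))) (Nat.add (Nat.mul (nat_lit 6) (Nat.add (Nat.add (Nat.add (Nat.add (x (nat_lit 0) (nat_lit 0) (nat_lit 4608)) (x (nat_lit 0) (nat_lit 0) (nat_lit 16897))) (Nat.add (x (nat_lit 0) (nat_lit 0) (nat_lit 8640)) (Nat.add (x (nat_lit 0) (nat_lit 0) (nat_lit 33218)) (x (nat_lit 0) (nat_lit 0) (nat_lit 24961))))) (Nat.add (Nat.add (x (nat_lit 0) (nat_lit 0) (nat_lit 37250)) (x (nat_lit 0) (nat_lit 0) (nat_lit 33025))) (Nat.add (x (nat_lit 0) (nat_lit 0) (nat_lit 69892)) (Nat.add (x (nat_lit 0) (nat_lit 0) (nat_lit 28800)) (x (nat_lit 0) (nat_lit 0) (nat_lit 41089)))))) (Nat.add (Nat.add (Nat.add (x (nat_lit 0) (nat_lit 0) (nat_lit 102534)) (x (nat_lit 0) (nat_lit 0) (nat_lit 114823))) (Nat.add (x (nat_lit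 0) (nat_lit 0) (nat_lit 32832)) (Nat.add (x (nat_lit 0) (nat_lit 0) (nat_lit 57410)) (x (nat_lit 0) (nat_lit 0) (nat_lit 81988))))) (Nat.add (Nat.add (x (nat_lit 0) (nat_lit 0) (nat_lit 106566)) (Nat.add (x (nat_lit 0) (nat_lit 0) (nat_lit 131144)) (x (nat_lit 0) (nat_lit 0) (nat_lit 49153)))) (Nat.add (x (nat_lit 0) (nat_lit 0) (nat_lit 61442)) (Nat.add (x (nat_lit 0) (nat_lit 0) (nat_lit 122887)) (x (nat_lit 0) (nat_lit 0) (nat_lit 135176)))))))) (Nat.add (Nat.mul (nat_lit 7) (x (nat_lit 0) (nat_lit 0) (nat_lit 61635))) (Nat.mul (nat_lit 8) (Nat.add (Nat.add (x (nat_lit 0) (nat_lit 0) (nat_lit 12672)) (Nat.add (x (nat_lit 0) (nat_lit 0) (nat_lit 49539)) (x (nat_lit 0) (nat_lit 0) (nat_lit 24768)))) (Nat.add (x (nat_lit 0) (nat_lit 0) (nat_lit 98502)) (Nat.add (x (nat_lit 0) (nat_lit 0) (nat_lit 73731)) (x (nat_lit 0) (nat_lit 0) (nat_lit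 110598)))))))))⟩
  (TL.cons ⟨fun x => (Nat.add (Nat.add (Nat.add (Nat.add (x (nat_lit 3) (nat_lit 164864) (nat_lit 0)) (x (nat_lit 3) (nat_lit 159792) (nat_lit 4096))) (Nat.add (x (nat_lit 3) (nat_lit 0) (nat_lit 16961)) (Nat.add (x (nat_lit 3) (nat_lit 53249) (nat_lit 0)) (x (nat_lit 3) (nat_lit 164096) (nat_lit 0))))) (Nat.mul (nat_lit 3) (Nat.add (x (nat_lit 0) (nat_lit 0) (nat_lit 49152)) (x (nat_lit 0) (nat_lit 0) (nat_lit 61440))))) (Nat.add (Nat.mul (nat_lit 6) (Nat.add (Nat.add (x (nat_lit 0) (nat_lit 0) (nat_lit 12288)) (x (nat_lit 0) (nat_lit 0) (nat_lit 24576))) (Nat.add (x (nat_lit 0) (nat_lit 0) (nat_lit 86016)) (x (nat_lit 0) (nat_lit 0) (nat_lit 98304))))) (Nat.mul (nat_lit 8) (Nat.add (x (nat_lit 0) (nat_lit 0) (nat_lit 36864)) (x (nat_lit 0) (nat_lit 0) (nat_lit 73728))))))⟩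
  (TL.cons ⟨fun x => (Nat.add (Nat.add (x (nat_lit 4) (nat_lit 164864) (nat_lit 0)) (x (nat_lit 4) (nat_lit 159792) (nat_lit 4096))) (Nat.add (x (nat_lit 4) (nat_lit 0) (nat_lit 16961)) (Nat.add (x (nat_lit 4) (nat_lit 53249) (nat_lit 0)) (x (nat_lit 4) (nat_lit 164096) (nat_lit 0)))))⟩
  (TL.cons ⟨fun x => (Nat.add (Nat.add (Nat.add (Nat.add (Nat.add (Nat.add (x (nat_lit 5) (nat_lit 164864) (nat_lit 0)) (x (nat_lit 5) (nat_lit 159792) (nat_lit 4096))) (Nat.add (x (nat_lit 5) (nat_lit 0) (nat_lit 16961)) (x (nat_lit 5) (nat_lit 53249) (nat_lit 0)))) (Nat.add (Nat.add (x (nat_lit 5) (nat_lit 164096) (nat_lit 0)) (x (nat_lit 0) (nat_lit 106528) (nat_lit 4224))) (Nat.add (x (nat_lit 0) (nat_lit 106528) (nat_lit 16513)) (Nat.add (x (nat_lit 0) (nat_lit 106528) (nat_lit 8256)) (x (nat_lit 0) (nat_lit 106528) (nat_lit 32834)))))) (Nat.add (Nat.add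 (Nat.add (x (nat_lit 0) (nat_lit 106528) (nat_lit 24577)) (x (nat_lit 0) (nat_lit 106528) (nat_lit 36866))) (Nat.add (x (nat_lit 1) (nat_lit 53264) (nat_lit 20673)) (Nat.add (x (nat_lit 1) (nat_lit 106513) (nat_lit 4288)) (x (nat_lit 0) (nat_lit 53264) (nat_lit 24833))))) (Nat.add (Nat.add (x (nat_lit 1) (nat_lit 106513) (nat_lit 16385)) (x (nat_lit 0) (nat_lit 53264) (nat_lit 36930))) (Nat.add (x (nat_lit 0) (nat_lit 106513) (nat_lit 20545)) (Nat.add (x (nat_lit 0) (nat_lit 0) (nat_lit 12800)) (x (nat_lit 0) (nat_lit 0) (nat_lit 25089))))))) (Nat.add (Nat.add (Nat.add (Nat.add (x (nat_lit 0) (nat_lit 0) (nat_lit 16832)) (x (nat_lit 0) (nat_lit 0) (nat_lit 41410))) (Nat.add (x (nat_lit 0) (nat_lit 0) (nat_lit 33153)) (Nat.add (x (nat_lit 0) (nat_lit 0) (nat_lit 45442)) (x (nat_lit 1) (nat_lit 53249) (nat_lit 20673))))) (Nat.add (Nat.add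 (x (nat_lit 0) (nat_lit 0) (nat_lit 41218)) (x (nat_lit 0) (nat_lit 53249) (nat_lit 24833))) (Nat.add (x (nat_lit 0) (nat_lit 0) (nat_lit 36994)) (Nat.add (x (nat_lit 0) (nat_lit 0) (nat_lit 49283)) (x (nat_lit 0) (nat_lit 0) (nat_lit 41026)))))) (Nat.add (Nat.add (Nat.add (x (nat_lit 0) (nat_lit 0) (nat_lit 65604)) (x (nat_lit 0) (nat_lit 0) (nat_lit 57347))) (Nat.add (x (nat_lit 0) (nat_lit 0) (nat_lit 69636)) (Nat.add (x (nat_lit 0) (nat_lit 53249) (nat_lit 36930)) (x (nat_lit 0) (nat_lit 106498) (nat_lit 4224))))) (Nat.add (Nat.add (x (nat_lit 0) (nat_lit 106498) (nat_lit 16513)) (x (nat_lit 0) (nat_lit 106498) (nat_lit 8256))) (Nat.add (x (nat_lit 0) (nat_lit 106498) (nat_lit 32834)) (Nat.add (x (nat_lit 0) (nat_lit 106498) (nat_lit 24577)) (x (nat_lit 0) (nat_lit 106498) (nat_lit 36866)))))))) (Nat.mul (nat_lit 2) (Nat.add (Nat.add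 (Nat.add (Nat.add (Nat.add (x (nat_lit 1) (nat_lit 106528) (nat_lit 4288)) (Nat.add (x (nat_lit 1) (nat_lit 106528) (nat_lit 16385)) (x (nat_lit 1) (nat_lit 159777) (nat_lit 0)))) (Nat.add (x (nat_lit 0) (nat_lit 106528) (nat_lit 20545)) (Nat.add (x (nat_lit 1) (nat_lit 53264) (nat_lit 8576)) (x (nat_lit 0) (nat_lit 53264) (nat_lit 8512))))) (Nat.add (Nat.add (x (nat_lit 0) (nat_lit 53264) (nat_lit 20801)) (Nat.add (x (nat_lit 0) (nat_lit 53264) (nat_lit 12544)) (x (nat_lit 0) (nat_lit 53264) (nat_lit 37122)))) (Nat.add (Nat.add (x (nat_lit 0) (nat_lit 53264) (nat_lit 28865)) (x (nat_lit 0) (nat_lit 53264) (nat_lit 41154))) (Nat.add (x (nat_lit 1) (nat_lit 53264) (nat_lit 32770)) (x (nat_lit 0) (nat_lit 53264) (nat_lit 20609)))))) (Nat.add (Nat.add (Nat.add (x (nat_lit 0) (nat_lit 53264) (nat_lit 32898)) (Nat.add (x (nat_lit 0) (nat_lit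 53264) (nat_lit 24641)) (x (nat_lit 0) (nat_lit 53264) (nat_lit 49219)))) (Nat.add (x (nat_lit 0) (nat_lit 53264) (nat_lit 40962)) (Nat.add (x (nat_lit 0) (nat_lit 53264) (nat_lit 53251)) (x (nat_lit 1) (nat_lit 159762) (nat_lit 0))))) (Nat.add (Nat.add (x (nat_lit 0) (nat_lit 106513) (nat_lit 4224)) (Nat.add (x (nat_lit 0) (nat_lit 106513) (nat_lit 16513)) (x (nat_lit 0) (nat_lit 106513) (nat_lit 8256)))) (Nat.add (Nat.add (x (nat_lit 0) (nat_lit 106513) (nat_lit 32834)) (x (nat_lit 0) (nat_lit 106513) (nat_lit 24577))) (Nat.add (x (nat_lit 0) (nat_lit 106513) (nat_lit 36866)) (x (nat_lit 1) (nat_lit 0) (nat_lit 24961))))))) (Nat.add (Nat.add (Nat.add (Nat.add (x (nat_lit 1) (nat_lit 53249) (nat_lit 8576)) (Nat.add (x (nat_lit 0) (nat_lit 0) (nat_lit 29121)) (x (nat_lit 1) (nat_lit 0) (nat_lit 37058)))) (Nat.add (x (nat_lit 0) (nat_lit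 0) (nat_lit 24897)) (Nat.add (x (nat_lit 0) (nat_lit 0) (nat_lit 37186)) (x (nat_lit 0) (nat_lit 0) (nat_lit 28929))))) (Nat.add (Nat.add (x (nat_lit 0) (nat_lit 0) (nat_lit 53507)) (Nat.add (x (nat_lit 0) (nat_lit 0) (nat_lit 45250)) (x (nat_lit 0) (nat_lit 0) (nat_lit 57539)))) (Nat.add (Nat.add (x (nat_lit 1) (nat_lit 106498) (nat_lit 4288)) (x (nat_lit 0) (nat_lit 53249) (nat_lit 8512))) (Nat.add (x (nat_lit 0) (nat_lit 53249) (nat_lit 20801)) (x (nat_lit 0) (nat_lit 53249) (nat_lit 12544)))))) (Nat.add (Nat.add (Nat.add (x (nat_lit 0) (nat_lit 53249) (nat_lit 37122)) (Nat.add (x (nat_lit 0) (nat_lit 53249) (nat_lit 28865)) (x (nat_lit 0) (nat_lit 53249) (nat_lit 41154)))) (Nat.add (x (nat_lit 1) (nat_lit 53249) (nat_lit 32770)) (Nat.add (x (nat_lit 0) (nat_lit 0) (nat_lit 53315)) (x (nat_lit 1) (nat_lit 106498) (nat_lit 16385)))))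 (Nat.add (Nat.add (x (nat_lit 0) (nat_lit 53249) (nat_lit 20609)) (Nat.add (x (nat_lit 0) (nat_lit 53249) (nat_lit 32898)) (x (nat_lit 0) (nat_lit 53249) (nat_lit 24641)))) (Nat.add (Nat.add (x (nat_lit 0) (nat_lit 53249) (nat_lit 49219)) (x (nat_lit 0) (nat_lit 53249) (nat_lit 40962))) (Nat.add (x (nat_lit 0) (nat_lit 53249) (nat_lit 53251)) (x (nat_lit 0) (nat_lit 106498) (nat_lit 20545))))))))))⟩
  (TL.cons ⟨fun x => (Nat.add (Nat.add (Nat.add (Nat.add (Nat.add (x (nat_lit 6) (nat_lit 164864) (nat_lit 0)) (x (nat_lit 6) (nat_lit 159792) (nat_lit 4096))) (Nat.add (x (nat_lit 6) (nat_lit 0) (nat_lit 16961)) (x (nat_lit 6) (nat_lit 53249) (nat_lit 0)))) (Nat.add (Nat.add (x (nat_lit 6) (nat_lit 164096) (nat_lit 0)) (x (nat_lit 0) (nat_lit 106528) (nat_lit 12288))) (Nat.add (x (nat_lit 0) (nat_lit 106528) (nat_lit 24576)) (Nat.add (x (nat_lit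 2) (nat_lit 53264) (nat_lit 20673)) (x (nat_lit 2) (nat_lit 106513) (nat_lit 4288)))))) (Nat.add (Nat.add (Nat.add (x (nat_lit 2) (nat_lit 106513) (nat_lit 16385)) (x (nat_lit 0) (nat_lit 0) (nat_lit 20864))) (Nat.add (x (nat_lit 0) (nat_lit 0) (nat_lit 33152)) (x (nat_lit 2) (nat_lit 53249) (nat_lit 20673)))) (Nat.add (Nat.add (x (nat_lit 0) (nat_lit 0) (nat_lit 45058)) (x (nat_lit 0) (nat_lit 0) (nat_lit 57346))) (Nat.add (x (nat_lit 0) (nat_lit 106498) (nat_lit 12288)) (Nat.add (x (nat_lit 0) (nat_lit 106498) (nat_lit 24576)) (x (nat_lit 1) (nat_lit 0) (nat_lit 61635))))))) (Nat.mul (nat_lit 2) (Nat.add (Nat.add (Nat.add (Nat.add (x (nat_lit 2) (nat_lit 106528) (nat_lit 4288)) (Nat.add (x (nat_lit 2) (nat_lit 106528) (nat_lit 16385)) (x (nat_lit 2) (nat_lit 159777) (nat_lit 0)))) (Nat.add (Nat.add (x (nat_lit 2) (nat_lit 53264) (nat_lit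 8576)) (x (nat_lit 0) (nat_lit 53264) (nat_lit 16576))) (Nat.add (x (nat_lit 0) (nat_lit 53264) (nat_lit 28864)) (x (nat_lit 2) (nat_lit 53264) (nat_lit 32770))))) (Nat.add (Nat.add (Nat.add (x (nat_lit 0) (nat_lit 53264) (nat_lit 28673)) (x (nat_lit 0) (nat_lit 53264) (nat_lit 40961))) (Nat.add (x (nat_lit 2) (nat_lit 159762) (nat_lit 0)) (x (nat_lit 0) (nat_lit 106513) (nat_lit 12288)))) (Nat.add (Nat.add (x (nat_lit 0) (nat_lit 106513) (nat_lit 24576)) (x (nat_lit 2) (nat_lit 0) (nat_lit 24961))) (Nat.add (x (nat_lit 2) (nat_lit 53249) (nat_lit 8576)) (x (nat_lit 2) (nat_lit 0) (nat_lit 37058)))))) (Nat.add (Nat.add (Nat.add (x (nat_lit 0) (nat_lit 0) (nat_lit 32961)) (Nat.add (x (nat_lit 0) (nat_lit 0) (nat_lit 45249)) (x (nat_lit 2) (nat_lit 106498) (nat_lit 4288)))) (Nat.add (Nat.add (x (nat_lit 0) (nat_lit 53249) (nat_lit 16576))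 (x (nat_lit 0) (nat_lit 53249) (nat_lit 28864))) (Nat.add (x (nat_lit 2) (nat_lit 53249) (nat_lit 32770)) (x (nat_lit 2) (nat_lit 106498) (nat_lit 16385))))) (Nat.add (Nat.add (Nat.add (x (nat_lit 0) (nat_lit 53249) (nat_lit 28673)) (x (nat_lit 0) (nat_lit 53249) (nat_lit 40961))) (Nat.add (x (nat_lit 1) (nat_lit 0) (nat_lit 12672)) (x (nat_lit 1) (nat_lit 0) (nat_lit 49539)))) (Nat.add (Nat.add (x (nat_lit 1) (nat_lit 0) (nat_lit 24768)) (x (nat_lit 1) (nat_lit 0) (nat_lit 98502))) (Nat.add (x (nat_lit 1) (nat_lit 0) (nat_lit 73731)) (x (nat_lit 1) (nat_lit 0) (nat_lit 110598)))))))))⟩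
  (TL.cons ⟨fun x => (Nat.add (Nat.add (Nat.add (x (nat_lit 7) (nat_lit 164864) (nat_lit 0)) (Nat.add (x (nat_lit 7) (nat_lit 159792) (nat_lit 4096)) (x (nat_lit 7) (nat_lit 0) (nat_lit 16961)))) (Nat.add (x (nat_lit 7) (nat_lit 53249) (nat_lit 0)) (Nat.add (x (nat_lit 7) (nat_lit 164096) (nat_lit 0)) (x (nat_lit 2) (nat_lit 0) (nat_lit 61635))))) (Nat.mul (nat_lit 2) (Nat.add (Nat.add (x (nat_lit 2) (nat_lit 0) (nat_lit 12672)) (Nat.add (x (nat_lit 2) (nat_lit 0) (nat_lit 49539)) (x (nat_lit 2) (nat_lit 0) (nat_lit 24768)))) (Nat.add (x (nat_lit 2) (nat_lit 0) (nat_lit 98502)) (Nat.add (x (nat_lit 2) (nat_lit 0) (nat_lit 73731)) (x (nat_lit 2) (nat_lit 0) (nat_lit 110598)))))))⟩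
  (TL.cons ⟨fun x => (Nat.add (Nat.add (Nat.add (Nat.add (x (nat_lit 8) (nat_lit 164864) (nat_lit 0)) (x (nat_lit 8) (nat_lit 159792) (nat_lit 4096))) (Nat.add (x (nat_lit 8) (nat_lit 0) (nat_lit 16961)) (x (nat_lit 8) (nat_lit 53249) (nat_lit 0)))) (Nat.add (Nat.add (x (nat_lit 8) (nat_lit 164096) (nat_lit 0)) (x (nat_lit 3) (nat_lit 53264) (nat_lit 20673))) (Nat.add (x (nat_lit 3) (nat_lit 106513) (nat_lit 4288)) (Nat.add (x (nat_lit 3) (nat_lit 106513) (nat_lit 16385)) (x (nat_lit 3) (nat_lit 53249) (nat_lit 20673)))))) (Nat.mul (nat_lit 2) (Nat.add (Nat.add (Nat.add (x (nat_lit 3) (nat_lit 106528) (nat_lit 4288)) (Nat.add (x (nat_lit 3) (nat_lit 106528) (nat_lit 16385)) (x (nat_lit 3) (nat_lit 159777) (nat_lit 0)))) (Nat.add (Nat.add (x (nat_lit 3) (nat_lit 53264) (nat_lit 8576)) (x (nat_lit 3) (nat_lit 53264) (nat_lit 32770))) (Nat.add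 (x (nat_lit 3) (nat_lit 159762) (nat_lit 0)) (x (nat_lit 3) (nat_lit 0) (nat_lit 24961))))) (Nat.add (Nat.add (x (nat_lit 3) (nat_lit 53249) (nat_lit 8576)) (Nat.add (x (nat_lit 3) (nat_lit 0) (nat_lit 37058)) (x (nat_lit 3) (nat_lit 106498) (nat_lit 4288)))) (Nat.add (Nat.add (x (nat_lit 3) (nat_lit 53249) (nat_lit 32770)) (x (nat_lit 3) (nat_lit 106498) (nat_lit 16385))) (Nat.add (x (nat_lit 1) (nat_lit 0) (nat_lit 36864)) (x (nat_lit 1) (nat_lit 0) (nat_lit 73728))))))))⟩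
  (TL.cons ⟨fun x => (Nat.add (Nat.add (Nat.add (x (nat_lit 9) (nat_lit 164864) (nat_lit 0)) (Nat.add (x (nat_lit 9) (nat_lit 159792) (nat_lit 4096)) (x (nat_lit 9) (nat_lit 0) (nat_lit 16961)))) (Nat.add (x (nat_lit 9) (nat_lit 53249) (nat_lit 0)) (Nat.add (x (nat_lit 9) (nat_lit 164096) (nat_lit 0)) (x (nat_lit 3) (nat_lit 0) (nat_lit 61635))))) (Nat.mul (nat_lit 2) (Nat.add (Nat.add (Nat.add (x (nat_lit 3) (nat_lit 0) (nat_lit 12672)) (x (nat_lit 3) (nat_lit 0) (nat_lit 49539))) (Nat.add (x (nat_lit 3) (nat_lit 0) (nat_lit 24768)) (x (nat_lit 3) (nat_lit 0) (nat_lit 98502)))) (Nat.add (Nat.add (x (nat_lit 3) (nat_lit 0) (nat_lit 73731)) (x (nat_lit 3) (nat_lit 0) (nat_lit 110598))) (Nat.add (x (nat_lit 2) (nat_lit 0) (nat_lit 36864)) (x (nat_lit 2) (nat_lit 0) (nat_lit 73728)))))))⟩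
  (TL.cons ⟨fun x => (Nat.add (Nat.add (Nat.add (x (nat_lit 10) (nat_lit 164864) (nat_lit 0)) (x (nat_lit 10) (nat_lit 159792) (nat_lit 4096))) (Nat.add (x (nat_lit 10) (nat_lit 0) (nat_lit 16961)) (Nat.add (x (nat_lit 10) (nat_lit 53249) (nat_lit 0)) (x (nat_lit 10) (nat_lit 164096) (nat_lit 0))))) (Nat.mul (nat_lit 2) (Nat.add (x (nat_lit 3) (nat_lit 0) (nat_lit 36864)) (x (nat_lit 3) (nat_lit 0) (nat_lit 73728)))))⟩
  (TL.cons ⟨fun x => (Nat.add (Nat.add (Nat.add (Nat.add (x (nat_lit 11) (nat_lit 164864) (nat_lit 0)) (x (nat_lit 11) (nat_lit 159792) (nat_lit 4096))) (Nat.add (x (nat_lit 11) (nat_lit 0) (nat_lit 16961)) (x (nat_lit 11) (nat_lit 53249) (nat_lit 0)))) (Nat.add (Nat.add (x (nat_lit 11) (nat_lit 164096) (nat_lit 0)) (x (nat_lit 4) (nat_lit 53264) (nat_lit 20673))) (Nat.add (x (nat_lit 4) (nat_lit 106513) (nat_lit 4288))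 (Nat.add (x (nat_lit 4) (nat_lit 106513) (nat_lit 16385)) (x (nat_lit 4) (nat_lit 53249) (nat_lit 20673)))))) (Nat.mul (nat_lit 2) (Nat.add (Nat.add (Nat.add (x (nat_lit 4) (nat_lit 106528) (nat_lit 4288)) (Nat.add (x (nat_lit 4) (nat_lit 106528) (nat_lit 16385)) (x (nat_lit 4) (nat_lit 159777) (nat_lit 0)))) (Nat.add (x (nat_lit 4) (nat_lit 53264) (nat_lit 8576)) (Nat.add (x (nat_lit 4) (nat_lit 53264) (nat_lit 32770)) (x (nat_lit 4) (nat_lit 159762) (nat_lit 0))))) (Nat.add (Nat.add (x (nat_lit 4) (nat_lit 0) (nat_lit 24961)) (Nat.add (x (nat_lit 4) (nat_lit 53249) (nat_lit 8576)) (x (nat_lit 4) (nat_lit 0) (nat_lit 37058)))) (Nat.add (x (nat_lit 4) (nat_lit 106498) (nat_lit 4288)) (Nat.add (x (nat_lit 4) (nat_lit 53249) (nat_lit 32770)) (x (nat_lit 4) (nat_lit 106498) (nat_lit 16385))))))))⟩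
  (TL.cons ⟨fun x => (Nat.add (Nat.add (Nat.add (x (nat_lit 12) (nat_lit 164864) (nat_lit 0)) (Nat.add (x (nat_lit 12) (nat_lit 159792) (nat_lit 4096)) (x (nat_lit 12) (nat_lit 0) (nat_lit 16961)))) (Nat.add (x (nat_lit 12) (nat_lit 53249) (nat_lit 0)) (Nat.add (x (nat_lit 12) (nat_lit 164096) (nat_lit 0)) (x (nat_lit 4) (nat_lit 0) (nat_lit 61635))))) (Nat.mul (nat_lit 2) (Nat.add (Nat.add (x (nat_lit 4) (nat_lit 0) (nat_lit 12672)) (Nat.add (x (nat_lit 4) (nat_lit 0) (nat_lit 49539)) (x (nat_lit 4) (nat_lit 0) (nat_lit 24768)))) (Nat.add (x (nat_lit 4) (nat_lit 0) (nat_lit 98502)) (Nat.add (x (nat_lit 4) (nat_lit 0) (nat_lit 73731)) (x (nat_lit 4) (nat_lit 0) (nat_lit 110598)))))))⟩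
  (TL.cons ⟨fun x => (Nat.add (Nat.add (Nat.add (x (nat_lit 13) (nat_lit 164864) (nat_lit 0)) (x (nat_lit 13) (nat_lit 159792) (nat_lit 4096))) (Nat.add (x (nat_lit 13) (nat_lit 0) (nat_lit 16961)) (Nat.add (x (nat_lit 13) (nat_lit 53249) (nat_lit 0)) (x (nat_lit 13) (nat_lit 164096) (nat_lit 0))))) (Nat.mul (nat_lit 2) (Nat.add (x (nat_lit 4) (nat_lit 0) (nat_lit 36864)) (x (nat_lit 4) (nat_lit 0) (nat_lit 73728)))))⟩
  (TL.cons ⟨fun x => (Nat.add (Nat.add (x (nat_lit 14) (nat_lit 164864) (nat_lit 0)) (x (nat_lit 14) (nat_lit 159792) (nat_lit 4096))) (Nat.add (x (nat_lit 14) (nat_lit 0) (nat_lit 16961)) (Nat.add (x (nat_lit 14) (nat_lit 53249) (nat_lit 0)) (x (nat_lit 14) (nat_lit 164096) (nat_lit 0)))))⟩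
  TL.nil)))))))))))))))

noncomputable def cf_t4_t : List TT := [(.add (.add (.leaf (nat_lit 0) (nat_lit 164864) (nat_lit 0)) (.leaf (nat_lit 0) (nat_lit 159792) (nat_lit 4096))) (.add (.leaf (nat_lit 0) (nat_lit 0) (nat_lit 16961)) (.add (.leaf (nat_lit 0) (nat_lit 53249) (nat_lit 0)) (.leaf (nat_lit 0) (nat_lit 164096) (nat_lit 0))))),
  (.add (.add (.add (.leaf (nat_lit 1) (nat_lit 164864) (nat_lit 0)) (.leaf (nat_lit 1) (nat_lit 159792) (nat_lit 4096))) (.add (.leaf (nat_lit 1) (nat_lit 0) (nat_lit 16961)) (.add (.leaf (nat_lit 1) (nat_lit 53249) (nat_lit 0)) (.leaf (nat_lit 1) (nat_lit 164096) (nat_lit 0))))) (.add (.mul (nat_lit 7) (.add (.add (.leaf (nat_lit 0) (nat_lit 53264) (nat_lit 20673)) (.leaf (nat_lit 0) (nat_lit 106513) (nat_lit 4288))) (.add (.leaf (nat_lit 0) (nat_lit 106513) (nat_lit 16385)) (.leaf (nat_lit 0) (nat_lit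 53249) (nat_lit 20673))))) (.mul (nat_lit 8) (.add (.add (.add (.leaf (nat_lit 0) (nat_lit 106528) (nat_lit 4288)) (.add (.leaf (nat_lit 0) (nat_lit 106528) (nat_lit 16385)) (.leaf (nat_lit 0) (nat_lit 159777) (nat_lit 0)))) (.add (.leaf (nat_lit 0) (nat_lit 53264) (nat_lit 8576)) (.add (.leaf (nat_lit 0) (nat_lit 53264) (nat_lit 32770)) (.leaf (nat_lit 0) (nat_lit 159762) (nat_lit 0))))) (.add (.add (.leaf (nat_lit 0) (nat_lit 0) (nat_lit 24961)) (.add (.leaf (nat_lit 0) (nat_lit 53249) (nat_lit 8576)) (.leaf (nat_lit 0) (nat_lit 0) (nat_lit 37058)))) (.add (.leaf (nat_lit 0) (nat_lit 106498) (nat_lit 4288)) (.add (.leaf (nat_lit 0) (nat_lit 53249) (nat_lit 32770)) (.leaf (nat_lit 0) (nat_lit 106498) (nat_lit 16385))))))))),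
  (.add (.add (.add (.add (.leaf (nat_lit 2) (nat_lit 164864) (nat_lit 0)) (.leaf (nat_lit 2) (nat_lit 159792) (nat_lit 4096))) (.add (.leaf (nat_lit 2) (nat_lit 0) (nat_lit 16961)) (.add (.leaf (nat_lit 2) (nat_lit 53249) (nat_lit 0)) (.leaf (nat_lit 2) (nat_lit 164096) (nat_lit 0))))) (.mul (nat_lit 3) (.add (.add (.add (.add (.leaf (nat_lit 0) (nat_lit 0) (nat_lit 20929)) (.leaf (nat_lit 0) (nat_lit 0) (nat_lit 16704))) (.add (.leaf (nat_lit 0) (nat_lit 0) (nat_lit 28993)) (.add (.leaf (nat_lit 0) (nat_lit 0) (nat_lit 53571)) (.leaf (nat_lit 0) (nat_lit 0) (nat_lit 65860))))) (.add (.add (.leaf (nat_lit 0) (nat_lit 0) (nat_lit 20736)) (.leaf (nat_lit 0) (nat_lit 0) (nat_lit 45314))) (.add (.leaf (nat_lit 0) (nat_lit 0) (nat_lit 57603)) (.add (.leaf (nat_lit 0) (nat_lit 0) (nat_lit 82181)) (.leaf (nat_lit 0) (nat_lit 0) (nat_lit 37057))))))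 (.add (.add (.add (.leaf (nat_lit 0) (nat_lit 0) (nat_lit 49346)) (.leaf (nat_lit 0) (nat_lit 0) (nat_lit 73924))) (.add (.leaf (nat_lit 0) (nat_lit 0) (nat_lit 86213)) (.add (.leaf (nat_lit 0) (nat_lit 0) (nat_lit 65667)) (.leaf (nat_lit 0) (nat_lit 0) (nat_lit 77956))))) (.add (.add (.leaf (nat_lit 0) (nat_lit 0) (nat_lit 45121)) (.add (.leaf (nat_lit 0) (nat_lit 0) (nat_lit 69699)) (.leaf (nat_lit 0) (nat_lit 0) (nat_lit 94277)))) (.add (.leaf (nat_lit 0) (nat_lit 0) (nat_lit 118855)) (.add (.leaf (nat_lit 0) (nat_lit 0) (nat_lit 86020)) (.leaf (nat_lit 0) (nat_lit 0) (nat_lit 98309))))))))) (.add (.mul (nat_lit 6) (.add (.add (.add (.add (.leaf (nat_lit 0) (nat_lit 0) (nat_lit 4608)) (.leaf (nat_lit 0) (nat_lit 0) (nat_lit 16897))) (.add (.leaf (nat_lit 0) (nat_lit 0) (nat_lit 8640)) (.add (.leaf (nat_lit 0) (nat_lit 0) (nat_lit 33218))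 (.leaf (nat_lit 0) (nat_lit 0) (nat_lit 24961))))) (.add (.add (.leaf (nat_lit 0) (nat_lit 0) (nat_lit 37250)) (.leaf (nat_lit 0) (nat_lit 0) (nat_lit 33025))) (.add (.leaf (nat_lit 0) (nat_lit 0) (nat_lit 69892)) (.add (.leaf (nat_lit 0) (nat_lit 0) (nat_lit 28800)) (.leaf (nat_lit 0) (nat_lit 0) (nat_lit 41089)))))) (.add (.add (.add (.leaf (nat_lit 0) (nat_lit 0) (nat_lit 102534)) (.leaf (nat_lit 0) (nat_lit 0) (nat_lit 114823))) (.add (.leaf (nat_lit 0) (nat_lit 0) (nat_lit 32832)) (.add (.leaf (nat_lit 0) (nat_lit 0) (nat_lit 57410)) (.leaf (nat_lit 0) (nat_lit 0) (nat_lit 81988))))) (.add (.add (.leaf (nat_lit 0) (nat_lit 0) (nat_lit 106566)) (.add (.leaf (nat_lit 0) (nat_lit 0) (nat_lit 131144)) (.leaf (nat_lit 0) (nat_lit 0) (nat_lit 49153)))) (.add (.leaf (nat_lit 0) (nat_lit 0) (nat_lit 61442)) (.add (.leaf (nat_lit 0) (nat_lit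 0) (nat_lit 122887)) (.leaf (nat_lit 0) (nat_lit 0) (nat_lit 135176)))))))) (.add (.mul (nat_lit 7) (.leaf (nat_lit 0) (nat_lit 0) (nat_lit 61635))) (.mul (nat_lit 8) (.add (.add (.leaf (nat_lit 0) (nat_lit 0) (nat_lit 12672)) (.add (.leaf (nat_lit 0) (nat_lit 0) (nat_lit 49539)) (.leaf (nat_lit 0) (nat_lit 0) (nat_lit 24768)))) (.add (.leaf (nat_lit 0) (nat_lit 0) (nat_lit 98502)) (.add (.leaf (nat_lit 0) (nat_lit 0) (nat_lit 73731)) (.leaf (nat_lit 0) (nat_lit 0) (nat_lit 110598))))))))),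
  (.add (.add (.add (.add (.leaf (nat_lit 3) (nat_lit 164864) (nat_lit 0)) (.leaf (nat_lit 3) (nat_lit 159792) (nat_lit 4096))) (.add (.leaf (nat_lit 3) (nat_lit 0) (nat_lit 16961)) (.add (.leaf (nat_lit 3) (nat_lit 53249) (nat_lit 0)) (.leaf (nat_lit 3) (nat_lit 164096) (nat_lit 0))))) (.mul (nat_lit 3) (.add (.leaf (nat_lit 0) (nat_lit 0) (nat_lit 49152)) (.leaf (nat_lit 0) (nat_lit 0) (nat_lit 61440))))) (.add (.mul (nat_lit 6) (.add (.add (.leaf (nat_lit 0) (nat_lit 0) (nat_lit 12288)) (.leaf (nat_lit 0) (nat_lit 0) (nat_lit 24576))) (.add (.leaf (nat_lit 0) (nat_lit 0) (nat_lit 86016)) (.leaf (nat_lit 0) (nat_lit 0) (nat_lit 98304))))) (.mul (nat_lit 8) (.add (.leaf (nat_lit 0) (nat_lit 0) (nat_lit 36864)) (.leaf (nat_lit 0) (nat_lit 0) (nat_lit 73728)))))),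
  (.add (.add (.leaf (nat_lit 4) (nat_lit 164864) (nat_lit 0)) (.leaf (nat_lit 4) (nat_lit 159792) (nat_lit 4096))) (.add (.leaf (nat_lit 4) (nat_lit 0) (nat_lit 16961)) (.add (.leaf (nat_lit 4) (nat_lit 53249) (nat_lit 0)) (.leaf (nat_lit 4) (nat_lit 164096) (nat_lit 0))))),
  (.add (.add (.add (.add (.add (.add (.leaf (nat_lit 5) (nat_lit 164864) (nat_lit 0)) (.leaf (nat_lit 5) (nat_lit 159792) (nat_lit 4096))) (.add (.leaf (nat_lit 5) (nat_lit 0) (nat_lit 16961)) (.leaf (nat_lit 5) (nat_lit 53249) (nat_lit 0)))) (.add (.add (.leaf (nat_lit 5) (nat_lit 164096) (nat_lit 0)) (.leaf (nat_lit 0) (nat_lit 106528) (nat_lit 4224))) (.add (.leaf (nat_lit 0) (nat_lit 106528) (nat_lit 16513)) (.add (.leaf (nat_lit 0) (nat_lit 106528) (nat_lit 8256)) (.leaf (nat_lit 0) (nat_lit 106528) (nat_lit 32834)))))) (.add (.add (.add (.leaf (nat_lit 0) (nat_lit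 106528) (nat_lit 24577)) (.leaf (nat_lit 0) (nat_lit 106528) (nat_lit 36866))) (.add (.leaf (nat_lit 1) (nat_lit 53264) (nat_lit 20673)) (.add (.leaf (nat_lit 1) (nat_lit 106513) (nat_lit 4288)) (.leaf (nat_lit 0) (nat_lit 53264) (nat_lit 24833))))) (.add (.add (.leaf (nat_lit 1) (nat_lit 106513) (nat_lit 16385)) (.leaf (nat_lit 0) (nat_lit 53264) (nat_lit 36930))) (.add (.leaf (nat_lit 0) (nat_lit 106513) (nat_lit 20545)) (.add (.leaf (nat_lit 0) (nat_lit 0) (nat_lit 12800)) (.leaf (nat_lit 0) (nat_lit 0) (nat_lit 25089))))))) (.add (.add (.add (.add (.leaf (nat_lit 0) (nat_lit 0) (nat_lit 16832)) (.leaf (nat_lit 0) (nat_lit 0) (nat_lit 41410))) (.add (.leaf (nat_lit 0) (nat_lit 0) (nat_lit 33153)) (.add (.leaf (nat_lit 0) (nat_lit 0) (nat_lit 45442)) (.leaf (nat_lit 1) (nat_lit 53249) (nat_lit 20673))))) (.add (.add (.leaf (nat_lit 0)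 (nat_lit 0) (nat_lit 41218)) (.leaf (nat_lit 0) (nat_lit 53249) (nat_lit 24833))) (.add (.leaf (nat_lit 0) (nat_lit 0) (nat_lit 36994)) (.add (.leaf (nat_lit 0) (nat_lit 0) (nat_lit 49283)) (.leaf (nat_lit 0) (nat_lit 0) (nat_lit 41026)))))) (.add (.add (.add (.leaf (nat_lit 0) (nat_lit 0) (nat_lit 65604)) (.leaf (nat_lit 0) (nat_lit 0) (nat_lit 57347))) (.add (.leaf (nat_lit 0) (nat_lit 0) (nat_lit 69636)) (.add (.leaf (nat_lit 0) (nat_lit 53249) (nat_lit 36930)) (.leaf (nat_lit 0) (nat_lit 106498) (nat_lit 4224))))) (.add (.add (.leaf (nat_lit 0) (nat_lit 106498) (nat_lit 16513)) (.leaf (nat_lit 0) (nat_lit 106498) (nat_lit 8256))) (.add (.leaf (nat_lit 0) (nat_lit 106498) (nat_lit 32834)) (.add (.leaf (nat_lit 0) (nat_lit 106498) (nat_lit 24577)) (.leaf (nat_lit 0) (nat_lit 106498) (nat_lit 36866)))))))) (.mul (nat_lit 2) (.add (.add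 (.add (.add (.add (.leaf (nat_lit 1) (nat_lit 106528) (nat_lit 4288)) (.add (.leaf (nat_lit 1) (nat_lit 106528) (nat_lit 16385)) (.leaf (nat_lit 1) (nat_lit 159777) (nat_lit 0)))) (.add (.leaf (nat_lit 0) (nat_lit 106528) (nat_lit 20545)) (.add (.leaf (nat_lit 1) (nat_lit 53264) (nat_lit 8576)) (.leaf (nat_lit 0) (nat_lit 53264) (nat_lit 8512))))) (.add (.add (.leaf (nat_lit 0) (nat_lit 53264) (nat_lit 20801)) (.add (.leaf (nat_lit 0) (nat_lit 53264) (nat_lit 12544)) (.leaf (nat_lit 0) (nat_lit 53264) (nat_lit 37122)))) (.add (.add (.leaf (nat_lit 0) (nat_lit 53264) (nat_lit 28865)) (.leaf (nat_lit 0) (nat_lit 53264) (nat_lit 41154))) (.add (.leaf (nat_lit 1) (nat_lit 53264) (nat_lit 32770)) (.leaf (nat_lit 0) (nat_lit 53264) (nat_lit 20609)))))) (.add (.add (.add (.leaf (nat_lit 0) (nat_lit 53264) (nat_lit 32898)) (.add (.leaf (nat_lit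 0) (nat_lit 53264) (nat_lit 24641)) (.leaf (nat_lit 0) (nat_lit 53264) (nat_lit 49219)))) (.add (.leaf (nat_lit 0) (nat_lit 53264) (nat_lit 40962)) (.add (.leaf (nat_lit 0) (nat_lit 53264) (nat_lit 53251)) (.leaf (nat_lit 1) (nat_lit 159762) (nat_lit 0))))) (.add (.add (.leaf (nat_lit 0) (nat_lit 106513) (nat_lit 4224)) (.add (.leaf (nat_lit 0) (nat_lit 106513) (nat_lit 16513)) (.leaf (nat_lit 0) (nat_lit 106513) (nat_lit 8256)))) (.add (.add (.leaf (nat_lit 0) (nat_lit 106513) (nat_lit 32834)) (.leaf (nat_lit 0) (nat_lit 106513) (nat_lit 24577))) (.add (.leaf (nat_lit 0) (nat_lit 106513) (nat_lit 36866)) (.leaf (nat_lit 1) (nat_lit 0) (nat_lit 24961))))))) (.add (.add (.add (.add (.leaf (nat_lit 1) (nat_lit 53249) (nat_lit 8576)) (.add (.leaf (nat_lit 0) (nat_lit 0) (nat_lit 29121)) (.leaf (nat_lit 1) (nat_lit 0) (nat_lit 37058)))) (.add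 (.leaf (nat_lit 0) (nat_lit 0) (nat_lit 24897)) (.add (.leaf (nat_lit 0) (nat_lit 0) (nat_lit 37186)) (.leaf (nat_lit 0) (nat_lit 0) (nat_lit 28929))))) (.add (.add (.leaf (nat_lit 0) (nat_lit 0) (nat_lit 53507)) (.add (.leaf (nat_lit 0) (nat_lit 0) (nat_lit 45250)) (.leaf (nat_lit 0) (nat_lit 0) (nat_lit 57539)))) (.add (.add (.leaf (nat_lit 1) (nat_lit 106498) (nat_lit 4288)) (.leaf (nat_lit 0) (nat_lit 53249) (nat_lit 8512))) (.add (.leaf (nat_lit 0) (nat_lit 53249) (nat_lit 20801)) (.leaf (nat_lit 0) (nat_lit 53249) (nat_lit 12544)))))) (.add (.add (.add (.leaf (nat_lit 0) (nat_lit 53249) (nat_lit 37122)) (.add (.leaf (nat_lit 0) (nat_lit 53249) (nat_lit 28865)) (.leaf (nat_lit 0) (nat_lit 53249) (nat_lit 41154)))) (.add (.leaf (nat_lit 1) (nat_lit 53249) (nat_lit 32770)) (.add (.leaf (nat_lit 0) (nat_lit 0) (nat_lit 53315)) (.leaf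 (nat_lit 1) (nat_lit 106498) (nat_lit 16385))))) (.add (.add (.leaf (nat_lit 0) (nat_lit 53249) (nat_lit 20609)) (.add (.leaf (nat_lit 0) (nat_lit 53249) (nat_lit 32898)) (.leaf (nat_lit 0) (nat_lit 53249) (nat_lit 24641)))) (.add (.add (.leaf (nat_lit 0) (nat_lit 53249) (nat_lit 49219)) (.leaf (nat_lit 0) (nat_lit 53249) (nat_lit 40962))) (.add (.leaf (nat_lit 0) (nat_lit 53249) (nat_lit 53251)) (.leaf (nat_lit 0) (nat_lit 106498) (nat_lit 20545)))))))))),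
  (.add (.add (.add (.add (.add (.leaf (nat_lit 6) (nat_lit 164864) (nat_lit 0)) (.leaf (nat_lit 6) (nat_lit 159792) (nat_lit 4096))) (.add (.leaf (nat_lit 6) (nat_lit 0) (nat_lit 16961)) (.leaf (nat_lit 6) (nat_lit 53249) (nat_lit 0)))) (.add (.add (.leaf (nat_lit 6) (nat_lit 164096) (nat_lit 0)) (.leaf (nat_lit 0) (nat_lit 106528) (nat_lit 12288))) (.add (.leaf (nat_lit 0) (nat_lit 106528) (nat_lit 24576)) (.add (.leaf (nat_lit 2) (nat_lit 53264) (nat_lit 20673)) (.leaf (nat_lit 2) (nat_lit 106513) (nat_lit 4288)))))) (.add (.add (.add (.leaf (nat_lit 2) (nat_lit 106513) (nat_lit 16385)) (.leaf (nat_lit 0) (nat_lit 0) (nat_lit 20864))) (.add (.leaf (nat_lit 0) (nat_lit 0) (nat_lit 33152)) (.leaf (nat_lit 2) (nat_lit 53249) (nat_lit 20673)))) (.add (.add (.leaf (nat_lit 0) (nat_lit 0) (nat_lit 45058)) (.leaf (nat_lit 0) (nat_lit 0) (nat_lit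 57346))) (.add (.leaf (nat_lit 0) (nat_lit 106498) (nat_lit 12288)) (.add (.leaf (nat_lit 0) (nat_lit 106498) (nat_lit 24576)) (.leaf (nat_lit 1) (nat_lit 0) (nat_lit 61635))))))) (.mul (nat_lit 2) (.add (.add (.add (.add (.leaf (nat_lit 2) (nat_lit 106528) (nat_lit 4288)) (.add (.leaf (nat_lit 2) (nat_lit 106528) (nat_lit 16385)) (.leaf (nat_lit 2) (nat_lit 159777) (nat_lit 0)))) (.add (.add (.leaf (nat_lit 2) (nat_lit 53264) (nat_lit 8576)) (.leaf (nat_lit 0) (nat_lit 53264) (nat_lit 16576))) (.add (.leaf (nat_lit 0) (nat_lit 53264) (nat_lit 28864)) (.leaf (nat_lit 2) (nat_lit 53264) (nat_lit 32770))))) (.add (.add (.add (.leaf (nat_lit 0) (nat_lit 53264) (nat_lit 28673)) (.leaf (nat_lit 0) (nat_lit 53264) (nat_lit 40961))) (.add (.leaf (nat_lit 2) (nat_lit 159762) (nat_lit 0)) (.leaf (nat_lit 0) (nat_lit 106513) (nat_lit 12288)))) (.add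 (.add (.leaf (nat_lit 0) (nat_lit 106513) (nat_lit 24576)) (.leaf (nat_lit 2) (nat_lit 0) (nat_lit 24961))) (.add (.leaf (nat_lit 2) (nat_lit 53249) (nat_lit 8576)) (.leaf (nat_lit 2) (nat_lit 0) (nat_lit 37058)))))) (.add (.add (.add (.leaf (nat_lit 0) (nat_lit 0) (nat_lit 32961)) (.add (.leaf (nat_lit 0) (nat_lit 0) (nat_lit 45249)) (.leaf (nat_lit 2) (nat_lit 106498) (nat_lit 4288)))) (.add (.add (.leaf (nat_lit 0) (nat_lit 53249) (nat_lit 16576)) (.leaf (nat_lit 0) (nat_lit 53249) (nat_lit 28864))) (.add (.leaf (nat_lit 2) (nat_lit 53249) (nat_lit 32770)) (.leaf (nat_lit 2) (nat_lit 106498) (nat_lit 16385))))) (.add (.add (.add (.leaf (nat_lit 0) (nat_lit 53249) (nat_lit 28673)) (.leaf (nat_lit 0) (nat_lit 53249) (nat_lit 40961))) (.add (.leaf (nat_lit 1) (nat_lit 0) (nat_lit 12672)) (.leaf (nat_lit 1) (nat_lit 0) (nat_lit 49539))))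 (.add (.add (.leaf (nat_lit 1) (nat_lit 0) (nat_lit 24768)) (.leaf (nat_lit 1) (nat_lit 0) (nat_lit 98502))) (.add (.leaf (nat_lit 1) (nat_lit 0) (nat_lit 73731)) (.leaf (nat_lit 1) (nat_lit 0) (nat_lit 110598))))))))),
  (.add (.add (.add (.leaf (nat_lit 7) (nat_lit 164864) (nat_lit 0)) (.add (.leaf (nat_lit 7) (nat_lit 159792) (nat_lit 4096)) (.leaf (nat_lit 7) (nat_lit 0) (nat_lit 16961)))) (.add (.leaf (nat_lit 7) (nat_lit 53249) (nat_lit 0)) (.add (.leaf (nat_lit 7) (nat_lit 164096) (nat_lit 0)) (.leaf (nat_lit 2) (nat_lit 0) (nat_lit 61635))))) (.mul (nat_lit 2) (.add (.add (.leaf (nat_lit 2) (nat_lit 0) (nat_lit 12672)) (.add (.leaf (nat_lit 2) (nat_lit 0) (nat_lit 49539)) (.leaf (nat_lit 2) (nat_lit 0) (nat_lit 24768)))) (.add (.leaf (nat_lit 2) (nat_lit 0) (nat_lit 98502)) (.add (.leaf (nat_lit 2) (nat_lit 0) (nat_lit 73731))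 (.leaf (nat_lit 2) (nat_lit 0) (nat_lit 110598))))))),
  (.add (.add (.add (.add (.leaf (nat_lit 8) (nat_lit 164864) (nat_lit 0)) (.leaf (nat_lit 8) (nat_lit 159792) (nat_lit 4096))) (.add (.leaf (nat_lit 8) (nat_lit 0) (nat_lit 16961)) (.leaf (nat_lit 8) (nat_lit 53249) (nat_lit 0)))) (.add (.add (.leaf (nat_lit 8) (nat_lit 164096) (nat_lit 0)) (.leaf (nat_lit 3) (nat_lit 53264) (nat_lit 20673))) (.add (.leaf (nat_lit 3) (nat_lit 106513) (nat_lit 4288)) (.add (.leaf (nat_lit 3) (nat_lit 106513) (nat_lit 16385)) (.leaf (nat_lit 3) (nat_lit 53249) (nat_lit 20673)))))) (.mul (nat_lit 2) (.add (.add (.add (.leaf (nat_lit 3) (nat_lit 106528) (nat_lit 4288)) (.add (.leaf (nat_lit 3) (nat_lit 106528) (nat_lit 16385)) (.leaf (nat_lit 3) (nat_lit 159777) (nat_lit 0)))) (.add (.add (.leaf (nat_lit 3) (nat_lit 53264) (nat_lit 8576)) (.leaf (nat_lit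 3) (nat_lit 53264) (nat_lit 32770))) (.add (.leaf (nat_lit 3) (nat_lit 159762) (nat_lit 0)) (.leaf (nat_lit 3) (nat_lit 0) (nat_lit 24961))))) (.add (.add (.leaf (nat_lit 3) (nat_lit 53249) (nat_lit 8576)) (.add (.leaf (nat_lit 3) (nat_lit 0) (nat_lit 37058)) (.leaf (nat_lit 3) (nat_lit 106498) (nat_lit 4288)))) (.add (.add (.leaf (nat_lit 3) (nat_lit 53249) (nat_lit 32770)) (.leaf (nat_lit 3) (nat_lit 106498) (nat_lit 16385))) (.add (.leaf (nat_lit 1) (nat_lit 0) (nat_lit 36864)) (.leaf (nat_lit 1) (nat_lit 0) (nat_lit 73728)))))))),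
  (.add (.add (.add (.leaf (nat_lit 9) (nat_lit 164864) (nat_lit 0)) (.add (.leaf (nat_lit 9) (nat_lit 159792) (nat_lit 4096)) (.leaf (nat_lit 9) (nat_lit 0) (nat_lit 16961)))) (.add (.leaf (nat_lit 9) (nat_lit 53249) (nat_lit 0)) (.add (.leaf (nat_lit 9) (nat_lit 164096) (nat_lit 0)) (.leaf (nat_lit 3) (nat_lit 0) (nat_lit 61635))))) (.mul (nat_lit 2) (.add (.add (.add (.leaf (nat_lit 3) (nat_lit 0) (nat_lit 12672)) (.leaf (nat_lit 3) (nat_lit 0) (nat_lit 49539))) (.add (.leaf (nat_lit 3) (nat_lit 0) (nat_lit 24768)) (.leaf (nat_lit 3) (nat_lit 0) (nat_lit 98502)))) (.add (.add (.leaf (nat_lit 3) (nat_lit 0) (nat_lit 73731)) (.leaf (nat_lit 3) (nat_lit 0) (nat_lit 110598))) (.add (.leaf (nat_lit 2) (nat_lit 0) (nat_lit 36864)) (.leaf (nat_lit 2) (nat_lit 0) (nat_lit 73728))))))),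
  (.add (.add (.add (.leaf (nat_lit 10) (nat_lit 164864) (nat_lit 0)) (.leaf (nat_lit 10) (nat_lit 159792) (nat_lit 4096))) (.add (.leaf (nat_lit 10) (nat_lit 0) (nat_lit 16961)) (.add (.leaf (nat_lit 10) (nat_lit 53249) (nat_lit 0)) (.leaf (nat_lit 10) (nat_lit 164096) (nat_lit 0))))) (.mul (nat_lit 2) (.add (.leaf (nat_lit 3) (nat_lit 0) (nat_lit 36864)) (.leaf (nat_lit 3) (nat_lit 0) (nat_lit 73728))))),
  (.add (.add (.add (.add (.leaf (nat_lit 11) (nat_lit 164864) (nat_lit 0)) (.leaf (nat_lit 11) (nat_lit 159792) (nat_lit 4096))) (.add (.leaf (nat_lit 11) (nat_lit 0) (nat_lit 16961)) (.leaf (nat_lit 11) (nat_lit 53249) (nat_lit 0)))) (.add (.add (.leaf (nat_lit 11) (nat_lit 164096) (nat_lit 0)) (.leaf (nat_lit 4) (nat_lit 53264) (nat_lit 20673))) (.add (.leaf (nat_lit 4) (nat_lit 106513) (nat_lit 4288)) (.add (.leaf (nat_lit 4) (nat_lit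 106513) (nat_lit 16385)) (.leaf (nat_lit 4) (nat_lit 53249) (nat_lit 20673)))))) (.mul (nat_lit 2) (.add (.add (.add (.leaf (nat_lit 4) (nat_lit 106528) (nat_lit 4288)) (.add (.leaf (nat_lit 4) (nat_lit 106528) (nat_lit 16385)) (.leaf (nat_lit 4) (nat_lit 159777) (nat_lit 0)))) (.add (.leaf (nat_lit 4) (nat_lit 53264) (nat_lit 8576)) (.add (.leaf (nat_lit 4) (nat_lit 53264) (nat_lit 32770)) (.leaf (nat_lit 4) (nat_lit 159762) (nat_lit 0))))) (.add (.add (.leaf (nat_lit 4) (nat_lit 0) (nat_lit 24961)) (.add (.leaf (nat_lit 4) (nat_lit 53249) (nat_lit 8576)) (.leaf (nat_lit 4) (nat_lit 0) (nat_lit 37058)))) (.add (.leaf (nat_lit 4) (nat_lit 106498) (nat_lit 4288)) (.add (.leaf (nat_lit 4) (nat_lit 53249) (nat_lit 32770)) (.leaf (nat_lit 4) (nat_lit 106498) (nat_lit 16385)))))))),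
  (.add (.add (.add (.leaf (nat_lit 12) (nat_lit 164864) (nat_lit 0)) (.add (.leaf (nat_lit 12) (nat_lit 159792) (nat_lit 4096)) (.leaf (nat_lit 12) (nat_lit 0) (nat_lit 16961)))) (.add (.leaf (nat_lit 12) (nat_lit 53249) (nat_lit 0)) (.add (.leaf (nat_lit 12) (nat_lit 164096) (nat_lit 0)) (.leaf (nat_lit 4) (nat_lit 0) (nat_lit 61635))))) (.mul (nat_lit 2) (.add (.add (.leaf (nat_lit 4) (nat_lit 0) (nat_lit 12672)) (.add (.leaf (nat_lit 4) (nat_lit 0) (nat_lit 49539)) (.leaf (nat_lit 4) (nat_lit 0) (nat_lit 24768)))) (.add (.leaf (nat_lit 4) (nat_lit 0) (nat_lit 98502)) (.add (.leaf (nat_lit 4) (nat_lit 0) (nat_lit 73731)) (.leaf (nat_lit 4) (nat_lit 0) (nat_lit 110598))))))),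
  (.add (.add (.add (.leaf (nat_lit 13) (nat_lit 164864) (nat_lit 0)) (.leaf (nat_lit 13) (nat_lit 159792) (nat_lit 4096))) (.add (.leaf (nat_lit 13) (nat_lit 0) (nat_lit 16961)) (.add (.leaf (nat_lit 13) (nat_lit 53249) (nat_lit 0)) (.leaf (nat_lit 13) (nat_lit 164096) (nat_lit 0))))) (.mul (nat_lit 2) (.add (.leaf (nat_lit 4) (nat_lit 0) (nat_lit 36864)) (.leaf (nat_lit 4) (nat_lit 0) (nat_lit 73728))))),
  (.add (.add (.leaf (nat_lit 14) (nat_lit 164864) (nat_lit 0)) (.leaf (nat_lit 14) (nat_lit 159792) (nat_lit 4096))) (.add (.leaf (nat_lit 14) (nat_lit 0) (nat_lit 16961)) (.add (.leaf (nat_lit 14) (nat_lit 53249) (nat_lit 0)) (.leaf (nat_lit 14) (nat_lit 164096) (nat_lit 0)))))]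

theorem cf_t4_eq : cf_t4 = ofL cf_t4_t := rfl

noncomputable def cf_e0 : TL := (TL.cons ⟨fun x => (x (nat_lit 0) (nat_lit 0) (nat_lit 0))⟩
  (TL.cons ⟨fun x => (x (nat_lit 1) (nat_lit 0) (nat_lit 0))⟩
  (TL.cons ⟨fun x => (x (nat_lit 2) (nat_lit 0) (nat_lit 0))⟩
  (TL.cons ⟨fun x => (x (nat_lit 3) (nat_lit 0) (nat_lit 0))⟩
  (TL.cons ⟨fun x => (x (nat_lit 4) (nat_lit 0) (nat_lit 0))⟩
  (TL.cons ⟨fun x => (x (nat_lit 5) (nat_lit 0) (nat_lit 0))⟩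
  (TL.cons ⟨fun x => (x (nat_lit 6) (nat_lit 0) (nat_lit 0))⟩
  (TL.cons ⟨fun x => (x (nat_lit 7) (nat_lit 0) (nat_lit 0))⟩
  (TL.cons ⟨fun x => (x (nat_lit 8) (nat_lit 0) (nat_lit 0))⟩
  (TL.cons ⟨fun x => (x (nat_lit 9) (nat_lit 0) (nat_lit 0))⟩
  (TL.cons ⟨fun x => (x (nat_lit 10) (nat_lit 0) (nat_lit 0))⟩
  (TL.cons ⟨fun x => (x (nat_lit 11) (nat_lit 0) (nat_lit 0))⟩
  (TL.cons ⟨fun x => (x (nat_lit 12) (nat_lit 0) (nat_lit 0))⟩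
  (TL.cons ⟨fun x => (x (nat_lit 13) (nat_lit 0) (nat_lit 0))⟩
  (TL.cons ⟨fun x => (x (nat_lit 14) (nat_lit 0) (nat_lit 0))⟩
  TL.nil)))))))))))))))

noncomputable def cf_e0_t : List TT := [(.leaf (nat_lit 0) (nat_lit 0) (nat_lit 0)),
  (.leaf (nat_lit 1) (nat_lit 0) (nat_lit 0)),
  (.leaf (nat_lit 2) (nat_lit 0) (nat_lit 0)),
  (.leaf (nat_lit 3) (nat_lit 0) (nat_lit 0)),
  (.leaf (nat_lit 4) (nat_lit 0) (nat_lit 0)),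
  (.leaf (nat_lit 5) (nat_lit 0) (nat_lit 0)),
  (.leaf (nat_lit 6) (nat_lit 0) (nat_lit 0)),
  (.leaf (nat_lit 7) (nat_lit 0) (nat_lit 0)),
  (.leaf (nat_lit 8) (nat_lit 0) (nat_lit 0)),
  (.leaf (nat_lit 9) (nat_lit 0) (nat_lit 0)),
  (.leaf (nat_lit 10) (nat_lit 0) (nat_lit 0)),
  (.leaf (nat_lit 11) (nat_lit 0) (nat_lit 0)),
  (.leaf (nat_lit 12) (nat_lit 0) (nat_lit 0)),
  (.leaf (nat_lit 13) (nat_lit 0) (nat_lit 0)),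
  (.leaf (nat_lit 14) (nat_lit 0) (nat_lit 0))]

theorem cf_e0_eq : cf_e0 = ofL cf_e0_t := rfl

noncomputable def cf_e1 : TL := (TL.cons ⟨fun x => (Nat.mul (nat_lit 3) (x (nat_lit 0) (nat_lit 0) (nat_lit 0)))⟩
  (TL.cons ⟨fun x => (Nat.add (x (nat_lit 0) (nat_lit 0) (nat_lit 0)) (Nat.mul (nat_lit 3) (x (nat_lit 1) (nat_lit 0) (nat_lit 0))))⟩
  (TL.cons ⟨fun x => (Nat.mul (nat_lit 3) (x (nat_lit 2) (nat_lit 0) (nat_lit 0)))⟩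
  (TL.cons ⟨fun x => (Nat.mul (nat_lit 3) (x (nat_lit 3) (nat_lit 0) (nat_lit 0)))⟩
  (TL.cons ⟨fun x => (Nat.mul (nat_lit 3) (x (nat_lit 4) (nat_lit 0) (nat_lit 0)))⟩
  (TL.cons ⟨fun x => (x (nat_lit 1) (nat_lit 0) (nat_lit 0))⟩
  (TL.cons ⟨fun x => (x (nat_lit 2) (nat_lit 0) (nat_lit 0))⟩
  (TL.cons ⟨fun _ => nat_lit 0⟩
  (TL.cons ⟨fun x => (x (nat_lit 3) (nat_lit 0) (nat_lit 0))⟩
  (TL.cons ⟨fun _ => nat_lit 0⟩
  (TL.cons ⟨fun _ => nat_lit 0⟩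
  (TL.cons ⟨fun x => (x (nat_lit 4) (nat_lit 0) (nat_lit 0))⟩
  (TL.cons ⟨fun _ => nat_lit 0⟩
  (TL.cons ⟨fun _ => nat_lit 0⟩
  (TL.cons ⟨fun _ => nat_lit 0⟩
  TL.nil)))))))))))))))

noncomputable def cf_e1_t : List TT := [(.mul (nat_lit 3) (.leaf (nat_lit 0) (nat_lit 0) (nat_lit 0))),
  (.add (.leaf (nat_lit 0) (nat_lit 0) (nat_lit 0)) (.mul (nat_lit 3) (.leaf (nat_lit 1) (nat_lit 0) (nat_lit 0)))),
  (.mul (nat_lit 3) (.leaf (nat_lit 2) (nat_lit 0) (nat_lit 0))),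
  (.mul (nat_lit 3) (.leaf (nat_lit 3) (nat_lit 0) (nat_lit 0))),
  (.mul (nat_lit 3) (.leaf (nat_lit 4) (nat_lit 0) (nat_lit 0))),
  (.leaf (nat_lit 1) (nat_lit 0) (nat_lit 0)),
  (.leaf (nat_lit 2) (nat_lit 0) (nat_lit 0)),
  .zero,
  (.leaf (nat_lit 3) (nat_lit 0) (nat_lit 0)),
  .zero,
  .zero,
  (.leaf (nat_lit 4) (nat_lit 0) (nat_lit 0)),
  .zero,
  .zero,
  .zero]

theorem cf_e1_eq : cf_e1 = ofL cf_e1_t := rfl

noncomputable def cf_e2 : TL := (TL.cons ⟨fun x => (Nat.mul (nat_lit 3) (x (nat_lit 0) (nat_lit 0) (nat_lit 16)))⟩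
  (TL.cons ⟨fun x => (Nat.add (x (nat_lit 0) (nat_lit 0) (nat_lit 0)) (Nat.mul (nat_lit 3) (x (nat_lit 1) (nat_lit 0) (nat_lit 16))))⟩
  (TL.cons ⟨fun x => (Nat.add (x (nat_lit 0) (nat_lit 0) (nat_lit 0)) (Nat.mul (nat_lit 3) (x (nat_lit 2) (nat_lit 0) (nat_lit 16))))⟩
  (TL.cons ⟨fun x => (Nat.mul (nat_lit 3) (x (nat_lit 3) (nat_lit 0) (nat_lit 16)))⟩
  (TL.cons ⟨fun x => (Nat.mul (nat_lit 3) (x (nat_lit 4) (nat_lit 0) (nat_lit 16)))⟩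
  (TL.cons ⟨fun x => (x (nat_lit 1) (nat_lit 0) (nat_lit 0))⟩
  (TL.cons ⟨fun x => (Nat.add (x (nat_lit 2) (nat_lit 0) (nat_lit 0)) (x (nat_lit 1) (nat_lit 0) (nat_lit 0)))⟩
  (TL.cons ⟨fun x => (x (nat_lit 2) (nat_lit 0) (nat_lit 0))⟩
  (TL.cons ⟨fun x => (x (nat_lit 3) (nat_lit 0) (nat_lit 0))⟩
  (TL.cons ⟨fun x => (x (nat_lit 3) (nat_lit 0) (nat_lit 0))⟩
  (TL.cons ⟨fun _ => nat_lit 0⟩
  (TL.cons ⟨fun x => (x (nat_lit 4) (nat_lit 0) (nat_lit 0))⟩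
  (TL.cons ⟨fun x => (x (nat_lit 4) (nat_lit 0) (nat_lit 0))⟩
  (TL.cons ⟨fun _ => nat_lit 0⟩
  (TL.cons ⟨fun _ => nat_lit 0⟩
  TL.nil)))))))))))))))

noncomputable def cf_e2_t : List TT := [(.mul (nat_lit 3) (.leaf (nat_lit 0) (nat_lit 0) (nat_lit 16))),
  (.add (.leaf (nat_lit 0) (nat_lit 0) (nat_lit 0)) (.mul (nat_lit 3) (.leaf (nat_lit 1) (nat_lit 0) (nat_lit 16)))),
  (.add (.leaf (nat_lit 0) (nat_lit 0) (nat_lit 0)) (.mul (nat_lit 3) (.leaf (nat_lit 2) (nat_lit 0) (nat_lit 16)))),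
  (.mul (nat_lit 3) (.leaf (nat_lit 3) (nat_lit 0) (nat_lit 16))),
  (.mul (nat_lit 3) (.leaf (nat_lit 4) (nat_lit 0) (nat_lit 16))),
  (.leaf (nat_lit 1) (nat_lit 0) (nat_lit 0)),
  (.add (.leaf (nat_lit 2) (nat_lit 0) (nat_lit 0)) (.leaf (nat_lit 1) (nat_lit 0) (nat_lit 0))),
  (.leaf (nat_lit 2) (nat_lit 0) (nat_lit 0)),
  (.leaf (nat_lit 3) (nat_lit 0) (nat_lit 0)),
  (.leaf (nat_lit 3) (nat_lit 0) (nat_lit 0)),
  .zero,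
  (.leaf (nat_lit 4) (nat_lit 0) (nat_lit 0)),
  (.leaf (nat_lit 4) (nat_lit 0) (nat_lit 0)),
  .zero,
  .zero]

theorem cf_e2_eq : cf_e2 = ofL cf_e2_t := rfl

noncomputable def cf_e3 : TL := (TL.cons ⟨fun x => (Nat.mul (nat_lit 3) (x (nat_lit 0) (nat_lit 53249) (nat_lit 0)))⟩
  (TL.cons ⟨fun x => (Nat.add (x (nat_lit 0) (nat_lit 0) (nat_lit 48)) (Nat.mul (nat_lit 3) (x (nat_lit 1) (nat_lit 53249) (nat_lit 0))))⟩
  (TL.cons ⟨fun x => (Nat.add (x (nat_lit 0) (nat_lit 0) (nat_lit 0)) (Nat.mul (nat_lit 3) (x (nat_lit 2) (nat_lit 53249) (nat_lit 0))))⟩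
  (TL.cons ⟨fun x => (Nat.add (x (nat_lit 0) (nat_lit 0) (nat_lit 0)) (Nat.mul (nat_lit 3) (x (nat_lit 3) (nat_lit 53249) (nat_lit 0))))⟩
  (TL.cons ⟨fun x => (Nat.mul (nat_lit 3) (x (nat_lit 4) (nat_lit 53249) (nat_lit 0)))⟩
  (TL.cons ⟨fun x => (x (nat_lit 1) (nat_lit 0) (nat_lit 48))⟩
  (TL.cons ⟨fun x => (Nat.add (x (nat_lit 2) (nat_lit 0) (nat_lit 48)) (x (nat_lit 1) (nat_lit 0) (nat_lit 0)))⟩
  (TL.cons ⟨fun x => (x (nat_lit 2) (nat_lit 0) (nat_lit 0))⟩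
  (TL.cons ⟨fun x => (Nat.add (x (nat_lit 3) (nat_lit 0) (nat_lit 48)) (x (nat_lit 1) (nat_lit 0) (nat_lit 0)))⟩
  (TL.cons ⟨fun x => (Nat.add (x (nat_lit 3) (nat_lit 0) (nat_lit 0)) (x (nat_lit 2) (nat_lit 0) (nat_lit 0)))⟩
  (TL.cons ⟨fun x => (x (nat_lit 3) (nat_lit 0) (nat_lit 0))⟩
  (TL.cons ⟨fun x => (x (nat_lit 4) (nat_lit 0) (nat_lit 48))⟩
  (TL.cons ⟨fun x => (x (nat_lit 4) (nat_lit 0) (nat_lit 0))⟩
  (TL.cons ⟨fun x => (x (nat_lit 4) (nat_lit 0) (nat_lit 0))⟩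
  (TL.cons ⟨fun _ => nat_lit 0⟩
  TL.nil)))))))))))))))

noncomputable def cf_e3_t : List TT := [(.mul (nat_lit 3) (.leaf (nat_lit 0) (nat_lit 53249) (nat_lit 0))),
  (.add (.leaf (nat_lit 0) (nat_lit 0) (nat_lit 48)) (.mul (nat_lit 3) (.leaf (nat_lit 1) (nat_lit 53249) (nat_lit 0)))),
  (.add (.leaf (nat_lit 0) (nat_lit 0) (nat_lit 0)) (.mul (nat_lit 3) (.leaf (nat_lit 2) (nat_lit 53249) (nat_lit 0)))),
  (.add (.leaf (nat_lit 0) (nat_lit 0) (nat_lit 0)) (.mul (nat_lit 3) (.leaf (nat_lit 3) (nat_lit 53249) (nat_lit 0)))),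
  (.mul (nat_lit 3) (.leaf (nat_lit 4) (nat_lit 53249) (nat_lit 0))),
  (.leaf (nat_lit 1) (nat_lit 0) (nat_lit 48)),
  (.add (.leaf (nat_lit 2) (nat_lit 0) (nat_lit 48)) (.leaf (nat_lit 1) (nat_lit 0) (nat_lit 0))),
  (.leaf (nat_lit 2) (nat_lit 0) (nat_lit 0)),
  (.add (.leaf (nat_lit 3) (nat_lit 0) (nat_lit 48)) (.leaf (nat_lit 1) (nat_lit 0) (nat_lit 0))),
  (.add (.leaf (nat_lit 3) (nat_lit 0) (nat_lit 0)) (.leaf (nat_lit 2) (nat_lit 0) (nat_lit 0))),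
  (.leaf (nat_lit 3) (nat_lit 0) (nat_lit 0)),
  (.leaf (nat_lit 4) (nat_lit 0) (nat_lit 48)),
  (.leaf (nat_lit 4) (nat_lit 0) (nat_lit 0)),
  (.leaf (nat_lit 4) (nat_lit 0) (nat_lit 0)),
  .zero]

theorem cf_e3_eq : cf_e3 = ofL cf_e3_t := rfl

noncomputable def cf_e4 : TL := (TL.cons ⟨fun x => (Nat.mul (nat_lit 3) (x (nat_lit 0) (nat_lit 164096) (nat_lit 0)))⟩
  (TL.cons ⟨fun x => (Nat.add (x (nat_lit 0) (nat_lit 159747) (nat_lit 0)) (Nat.mul (nat_lit 3) (x (nat_lit 1) (nat_lit 164096) (nat_lit 0))))⟩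
  (TL.cons ⟨fun x => (Nat.add (x (nat_lit 0) (nat_lit 0) (nat_lit 144)) (Nat.mul (nat_lit 3) (x (nat_lit 2) (nat_lit 164096) (nat_lit 0))))⟩
  (TL.cons ⟨fun x => (Nat.add (x (nat_lit 0) (nat_lit 0) (nat_lit 0)) (Nat.mul (nat_lit 3) (x (nat_lit 3) (nat_lit 164096) (nat_lit 0))))⟩
  (TL.cons ⟨fun x => (Nat.add (x (nat_lit 0) (nat_lit 0) (nat_lit 0)) (Nat.mul (nat_lit 3) (x (nat_lit 4) (nat_lit 164096) (nat_lit 0))))⟩
  (TL.cons ⟨fun x => (x (nat_lit 1) (nat_lit 159747) (nat_lit 0))⟩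
  (TL.cons ⟨fun x => (Nat.add (x (nat_lit 2) (nat_lit 159747) (nat_lit 0)) (x (nat_lit 1) (nat_lit 0) (nat_lit 144)))⟩
  (TL.cons ⟨fun x => (x (nat_lit 2) (nat_lit 0) (nat_lit 144))⟩
  (TL.cons ⟨fun x => (Nat.add (x (nat_lit 3) (nat_lit 159747) (nat_lit 0)) (x (nat_lit 1) (nat_lit 0) (nat_lit 0)))⟩
  (TL.cons ⟨fun x => (Nat.add (x (nat_lit 3) (nat_lit 0) (nat_lit 144)) (x (nat_lit 2) (nat_lit 0) (nat_lit 0)))⟩
  (TL.cons ⟨fun x => (x (nat_lit 3) (nat_lit 0) (nat_lit 0))⟩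
  (TL.cons ⟨fun x => (Nat.add (x (nat_lit 4) (nat_lit 159747) (nat_lit 0)) (x (nat_lit 1) (nat_lit 0) (nat_lit 0)))⟩
  (TL.cons ⟨fun x => (Nat.add (x (nat_lit 4) (nat_lit 0) (nat_lit 144)) (x (nat_lit 2) (nat_lit 0) (nat_lit 0)))⟩
  (TL.cons ⟨fun x => (Nat.add (x (nat_lit 4) (nat_lit 0) (nat_lit 0)) (x (nat_lit 3) (nat_lit 0) (nat_lit 0)))⟩
  (TL.cons ⟨fun x => (x (nat_lit 4) (nat_lit 0) (nat_lit 0))⟩
  TL.nil)))))))))))))))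

noncomputable def cf_e4_t : List TT := [(.mul (nat_lit 3) (.leaf (nat_lit 0) (nat_lit 164096) (nat_lit 0))),
  (.add (.leaf (nat_lit 0) (nat_lit 159747) (nat_lit 0)) (.mul (nat_lit 3) (.leaf (nat_lit 1) (nat_lit 164096) (nat_lit 0)))),
  (.add (.leaf (nat_lit 0) (nat_lit 0) (nat_lit 144)) (.mul (nat_lit 3) (.leaf (nat_lit 2) (nat_lit 164096) (nat_lit 0)))),
  (.add (.leaf (nat_lit 0) (nat_lit 0) (nat_lit 0)) (.mul (nat_lit 3) (.leaf (nat_lit 3) (nat_lit 164096) (nat_lit 0)))),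
  (.add (.leaf (nat_lit 0) (nat_lit 0) (nat_lit 0)) (.mul (nat_lit 3) (.leaf (nat_lit 4) (nat_lit 164096) (nat_lit 0)))),
  (.leaf (nat_lit 1) (nat_lit 159747) (nat_lit 0)),
  (.add (.leaf (nat_lit 2) (nat_lit 159747) (nat_lit 0)) (.leaf (nat_lit 1) (nat_lit 0) (nat_lit 144))),
  (.leaf (nat_lit 2) (nat_lit 0) (nat_lit 144)),
  (.add (.leaf (nat_lit 3) (nat_lit 159747) (nat_lit 0)) (.leaf (nat_lit 1) (nat_lit 0) (nat_lit 0))),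
  (.add (.leaf (nat_lit 3) (nat_lit 0) (nat_lit 144)) (.leaf (nat_lit 2) (nat_lit 0) (nat_lit 0))),
  (.leaf (nat_lit 3) (nat_lit 0) (nat_lit 0)),
  (.add (.leaf (nat_lit 4) (nat_lit 159747) (nat_lit 0)) (.leaf (nat_lit 1) (nat_lit 0) (nat_lit 0))),
  (.add (.leaf (nat_lit 4) (nat_lit 0) (nat_lit 144)) (.leaf (nat_lit 2) (nat_lit 0) (nat_lit 0))),
  (.add (.leaf (nat_lit 4) (nat_lit 0) (nat_lit 0)) (.leaf (nat_lit 3) (nat_lit 0) (nat_lit 0))),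
  (.leaf (nat_lit 4) (nat_lit 0) (nat_lit 0))]

theorem cf_e4_eq : cf_e4 = ofL cf_e4_t := rfl

noncomputable def cf_e5 : TL := (TL.cons ⟨fun _ => nat_lit 0⟩
  (TL.cons ⟨fun x => (Nat.mul (nat_lit 3) (Nat.add (x (nat_lit 0) (nat_lit 0) (nat_lit 0)) (x (nat_lit 0) (nat_lit 0) (nat_lit 0))))⟩
  (TL.cons ⟨fun _ => nat_lit 0⟩
  (TL.cons ⟨fun _ => nat_lit 0⟩
  (TL.cons ⟨fun _ => nat_lit 0⟩
  (TL.cons ⟨fun x => (x (nat_lit 0) (nat_lit 0) (nat_lit 0))⟩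
  (TL.cons ⟨fun _ => nat_lit 0⟩
  (TL.cons ⟨fun _ => nat_lit 0⟩
  (TL.cons ⟨fun _ => nat_lit 0⟩
  (TL.cons ⟨fun _ => nat_lit 0⟩
  (TL.cons ⟨fun _ => nat_lit 0⟩
  (TL.cons ⟨fun _ => nat_lit 0⟩
  (TL.cons ⟨fun _ => nat_lit 0⟩
  (TL.cons ⟨fun _ => nat_lit 0⟩
  (TL.cons ⟨fun _ => nat_lit 0⟩
  TL.nil)))))))))))))))

noncomputable def cf_e5_t : List TT := [.zero,
  (.mul (nat_lit 3) (.add (.leaf (nat_lit 0) (nat_lit 0) (nat_lit 0)) (.leaf (nat_lit 0) (nat_lit 0) (nat_lit 0)))),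
  .zero,
  .zero,
  .zero,
  (.leaf (nat_lit 0) (nat_lit 0) (nat_lit 0)),
  .zero,
  .zero,
  .zero,
  .zero,
  .zero,
  .zero,
  .zero,
  .zero,
  .zero]

theorem cf_e5_eq : cf_e5 = ofL cf_e5_t := rfl

noncomputable def cf_e6 : TL := (TL.cons ⟨fun _ => nat_lit 0⟩
  (TL.cons ⟨fun x => (Nat.mul (nat_lit 3) (Nat.add (x (nat_lit 0) (nat_lit 0) (nat_lit 0)) (x (nat_lit 0) (nat_lit 0) (nat_lit 16))))⟩
  (TL.cons ⟨fun x => (Nat.mul (nat_lit 3) (x (nat_lit 0) (nat_lit 0) (nat_lit 0)))⟩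
  (TL.cons ⟨fun _ => nat_lit 0⟩
  (TL.cons ⟨fun _ => nat_lit 0⟩
  (TL.cons ⟨fun x => (x (nat_lit 0) (nat_lit 0) (nat_lit 0))⟩
  (TL.cons ⟨fun x => (x (nat_lit 0) (nat_lit 0) (nat_lit 0))⟩
  (TL.cons ⟨fun _ => nat_lit 0⟩
  (TL.cons ⟨fun _ => nat_lit 0⟩
  (TL.cons ⟨fun _ => nat_lit 0⟩
  (TL.cons ⟨fun _ => nat_lit 0⟩
  (TL.cons ⟨fun _ => nat_lit 0⟩
  (TL.cons ⟨fun _ => nat_lit 0⟩
  (TL.cons ⟨fun _ => nat_lit 0⟩
  (TL.cons ⟨fun _ => nat_lit 0⟩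
  TL.nil)))))))))))))))

noncomputable def cf_e6_t : List TT := [.zero,
  (.mul (nat_lit 3) (.add (.leaf (nat_lit 0) (nat_lit 0) (nat_lit 0)) (.leaf (nat_lit 0) (nat_lit 0) (nat_lit 16)))),
  (.mul (nat_lit 3) (.leaf (nat_lit 0) (nat_lit 0) (nat_lit 0))),
  .zero,
  .zero,
  (.leaf (nat_lit 0) (nat_lit 0) (nat_lit 0)),
  (.leaf (nat_lit 0) (nat_lit 0) (nat_lit 0)),
  .zero,
  .zero,
  .zero,
  .zero,
  .zero,
  .zero,
  .zero,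
  .zero]

theorem cf_e6_eq : cf_e6 = ofL cf_e6_t := rfl

noncomputable def cf_e7 : TL := (TL.cons ⟨fun _ => nat_lit 0⟩
  (TL.cons ⟨fun x => (Nat.mul (nat_lit 3) (Nat.add (x (nat_lit 0) (nat_lit 0) (nat_lit 16)) (x (nat_lit 0) (nat_lit 0) (nat_lit 16))))⟩
  (TL.cons ⟨fun x => (Nat.mul (nat_lit 3) (Nat.add (x (nat_lit 0) (nat_lit 0) (nat_lit 16)) (x (nat_lit 0) (nat_lit 0) (nat_lit 16))))⟩
  (TL.cons ⟨fun _ => nat_lit 0⟩
  (TL.cons ⟨fun _ => nat_lit 0⟩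
  (TL.cons ⟨fun x => (x (nat_lit 0) (nat_lit 0) (nat_lit 0))⟩
  (TL.cons ⟨fun x => (Nat.add (x (nat_lit 0) (nat_lit 0) (nat_lit 0)) (x (nat_lit 0) (nat_lit 0) (nat_lit 0)))⟩
  (TL.cons ⟨fun x => (x (nat_lit 0) (nat_lit 0) (nat_lit 0))⟩
  (TL.cons ⟨fun _ => nat_lit 0⟩
  (TL.cons ⟨fun _ => nat_lit 0⟩
  (TL.cons ⟨fun _ => nat_lit 0⟩
  (TL.cons ⟨fun _ => nat_lit 0⟩
  (TL.cons ⟨fun _ => nat_lit 0⟩
  (TL.cons ⟨fun _ => nat_lit 0⟩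
  (TL.cons ⟨fun _ => nat_lit 0⟩
  TL.nil)))))))))))))))

noncomputable def cf_e7_t : List TT := [.zero,
  (.mul (nat_lit 3) (.add (.leaf (nat_lit 0) (nat_lit 0) (nat_lit 16)) (.leaf (nat_lit 0) (nat_lit 0) (nat_lit 16)))),
  (.mul (nat_lit 3) (.add (.leaf (nat_lit 0) (nat_lit 0) (nat_lit 16)) (.leaf (nat_lit 0) (nat_lit 0) (nat_lit 16)))),
  .zero,
  .zero,
  (.leaf (nat_lit 0) (nat_lit 0) (nat_lit 0)),
  (.add (.leaf (nat_lit 0) (nat_lit 0) (nat_lit 0)) (.leaf (nat_lit 0) (nat_lit 0) (nat_lit 0))),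
  (.leaf (nat_lit 0) (nat_lit 0) (nat_lit 0)),
  .zero,
  .zero,
  .zero,
  .zero,
  .zero,
  .zero,
  .zero]

theorem cf_e7_eq : cf_e7 = ofL cf_e7_t := rfl

noncomputable def cf_e8 : TL := (TL.cons ⟨fun _ => nat_lit 0⟩
  (TL.cons ⟨fun x => (Nat.mul (nat_lit 3) (Nat.add (x (nat_lit 0) (nat_lit 0) (nat_lit 48)) (x (nat_lit 0) (nat_lit 53249) (nat_lit 0))))⟩
  (TL.cons ⟨fun x => (Nat.mul (nat_lit 3) (x (nat_lit 0) (nat_lit 0) (nat_lit 0)))⟩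
  (TL.cons ⟨fun x => (Nat.mul (nat_lit 3) (x (nat_lit 0) (nat_lit 0) (nat_lit 0)))⟩
  (TL.cons ⟨fun _ => nat_lit 0⟩
  (TL.cons ⟨fun x => (x (nat_lit 0) (nat_lit 0) (nat_lit 48))⟩
  (TL.cons ⟨fun x => (x (nat_lit 0) (nat_lit 0) (nat_lit 0))⟩
  (TL.cons ⟨fun _ => nat_lit 0⟩
  (TL.cons ⟨fun x => (x (nat_lit 0) (nat_lit 0) (nat_lit 0))⟩
  (TL.cons ⟨fun _ => nat_lit 0⟩
  (TL.cons ⟨fun _ => nat_lit 0⟩
  (TL.cons ⟨fun _ => nat_lit 0⟩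
  (TL.cons ⟨fun _ => nat_lit 0⟩
  (TL.cons ⟨fun _ => nat_lit 0⟩
  (TL.cons ⟨fun _ => nat_lit 0⟩
  TL.nil)))))))))))))))

noncomputable def cf_e8_t : List TT := [.zero,
  (.mul (nat_lit 3) (.add (.leaf (nat_lit 0) (nat_lit 0) (nat_lit 48)) (.leaf (nat_lit 0) (nat_lit 53249) (nat_lit 0)))),
  (.mul (nat_lit 3) (.leaf (nat_lit 0) (nat_lit 0) (nat_lit 0))),
  (.mul (nat_lit 3) (.leaf (nat_lit 0) (nat_lit 0) (nat_lit 0))),
  .zero,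
  (.leaf (nat_lit 0) (nat_lit 0) (nat_lit 48)),
  (.leaf (nat_lit 0) (nat_lit 0) (nat_lit 0)),
  .zero,
  (.leaf (nat_lit 0) (nat_lit 0) (nat_lit 0)),
  .zero,
  .zero,
  .zero,
  .zero,
  .zero,
  .zero]

theorem cf_e8_eq : cf_e8 = ofL cf_e8_t := rfl

noncomputable def cf_e9 : TL := (TL.cons ⟨fun _ => nat_lit 0⟩
  (TL.cons ⟨fun x => (Nat.mul (nat_lit 3) (Nat.add (x (nat_lit 0) (nat_lit 0) (nat_lit 64)) (x (nat_lit 0) (nat_lit 53249) (nat_lit 0))))⟩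
  (TL.cons ⟨fun x => (Nat.mul (nat_lit 3) (Nat.add (x (nat_lit 0) (nat_lit 0) (nat_lit 16)) (x (nat_lit 0) (nat_lit 53249) (nat_lit 0))))⟩
  (TL.cons ⟨fun x => (Nat.mul (nat_lit 3) (x (nat_lit 0) (nat_lit 0) (nat_lit 16)))⟩
  (TL.cons ⟨fun _ => nat_lit 0⟩
  (TL.cons ⟨fun x => (x (nat_lit 0) (nat_lit 0) (nat_lit 48))⟩
  (TL.cons ⟨fun x => (Nat.add (x (nat_lit 0) (nat_lit 0) (nat_lit 0)) (x (nat_lit 0) (nat_lit 0) (nat_lit 48)))⟩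
  (TL.cons ⟨fun x => (x (nat_lit 0) (nat_lit 0) (nat_lit 0))⟩
  (TL.cons ⟨fun x => (x (nat_lit 0) (nat_lit 0) (nat_lit 0))⟩
  (TL.cons ⟨fun x => (x (nat_lit 0) (nat_lit 0) (nat_lit 0))⟩
  (TL.cons ⟨fun _ => nat_lit 0⟩
  (TL.cons ⟨fun _ => nat_lit 0⟩
  (TL.cons ⟨fun _ => nat_lit 0⟩
  (TL.cons ⟨fun _ => nat_lit 0⟩
  (TL.cons ⟨fun _ => nat_lit 0⟩
  TL.nil)))))))))))))))

noncomputable def cf_e9_t : List TT := [.zero,
  (.mul (nat_lit 3) (.add (.leaf (nat_lit 0) (nat_lit 0) (nat_lit 64)) (.leaf (nat_lit 0) (nat_lit 53249) (nat_lit 0)))),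
  (.mul (nat_lit 3) (.add (.leaf (nat_lit 0) (nat_lit 0) (nat_lit 16)) (.leaf (nat_lit 0) (nat_lit 53249) (nat_lit 0)))),
  (.mul (nat_lit 3) (.leaf (nat_lit 0) (nat_lit 0) (nat_lit 16))),
  .zero,
  (.leaf (nat_lit 0) (nat_lit 0) (nat_lit 48)),
  (.add (.leaf (nat_lit 0) (nat_lit 0) (nat_lit 0)) (.leaf (nat_lit 0) (nat_lit 0) (nat_lit 48))),
  (.leaf (nat_lit 0) (nat_lit 0) (nat_lit 0)),
  (.leaf (nat_lit 0) (nat_lit 0) (nat_lit 0)),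
  (.leaf (nat_lit 0) (nat_lit 0) (nat_lit 0)),
  .zero,
  .zero,
  .zero,
  .zero,
  .zero]

theorem cf_e9_eq : cf_e9 = ofL cf_e9_t := rfl

noncomputable def cf_e10 : TL := (TL.cons ⟨fun _ => nat_lit 0⟩
  (TL.cons ⟨fun x => (Nat.mul (nat_lit 3) (Nat.add (x (nat_lit 0) (nat_lit 53249) (nat_lit 48)) (x (nat_lit 0) (nat_lit 53249) (nat_lit 48))))⟩
  (TL.cons ⟨fun x => (Nat.mul (nat_lit 3) (Nat.add (x (nat_lit 0) (nat_lit 53249) (nat_lit 0)) (x (nat_lit 0) (nat_lit 53249) (nat_lit 0))))⟩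
  (TL.cons ⟨fun x => (Nat.mul (nat_lit 3) (Nat.add (x (nat_lit 0) (nat_lit 53249) (nat_lit 0)) (x (nat_lit 0) (nat_lit 53249) (nat_lit 0))))⟩
  (TL.cons ⟨fun _ => nat_lit 0⟩
  (TL.cons ⟨fun x => (x (nat_lit 0) (nat_lit 0) (nat_lit 96))⟩
  (TL.cons ⟨fun x => (Nat.add (x (nat_lit 0) (nat_lit 0) (nat_lit 48)) (x (nat_lit 0) (nat_lit 0) (nat_lit 48)))⟩
  (TL.cons ⟨fun x => (x (nat_lit 0) (nat_lit 0) (nat_lit 0))⟩
  (TL.cons ⟨fun x => (Nat.add (x (nat_lit 0) (nat_lit 0) (nat_lit 48)) (x (nat_lit 0) (nat_lit 0) (nat_lit 48)))⟩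
  (TL.cons ⟨fun x => (Nat.add (x (nat_lit 0) (nat_lit 0) (nat_lit 0)) (x (nat_lit 0) (nat_lit 0) (nat_lit 0)))⟩
  (TL.cons ⟨fun x => (x (nat_lit 0) (nat_lit 0) (nat_lit 0))⟩
  (TL.cons ⟨fun _ => nat_lit 0⟩
  (TL.cons ⟨fun _ => nat_lit 0⟩
  (TL.cons ⟨fun _ => nat_lit 0⟩
  (TL.cons ⟨fun _ => nat_lit 0⟩
  TL.nil)))))))))))))))

noncomputable def cf_e10_t : List TT := [.zero,
  (.mul (nat_lit 3) (.add (.leaf (nat_lit 0) (nat_lit 53249) (nat_lit 48)) (.leaf (nat_lit 0) (nat_lit 53249) (nat_lit 48)))),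
  (.mul (nat_lit 3) (.add (.leaf (nat_lit 0) (nat_lit 53249) (nat_lit 0)) (.leaf (nat_lit 0) (nat_lit 53249) (nat_lit 0)))),
  (.mul (nat_lit 3) (.add (.leaf (nat_lit 0) (nat_lit 53249) (nat_lit 0)) (.leaf (nat_lit 0) (nat_lit 53249) (nat_lit 0)))),
  .zero,
  (.leaf (nat_lit 0) (nat_lit 0) (nat_lit 96)),
  (.add (.leaf (nat_lit 0) (nat_lit 0) (nat_lit 48)) (.leaf (nat_lit 0) (nat_lit 0) (nat_lit 48))),
  (.leaf (nat_lit 0) (nat_lit 0) (nat_lit 0)),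
  (.add (.leaf (nat_lit 0) (nat_lit 0) (nat_lit 48)) (.leaf (nat_lit 0) (nat_lit 0) (nat_lit 48))),
  (.add (.leaf (nat_lit 0) (nat_lit 0) (nat_lit 0)) (.leaf (nat_lit 0) (nat_lit 0) (nat_lit 0))),
  (.leaf (nat_lit 0) (nat_lit 0) (nat_lit 0)),
  .zero,
  .zero,
  .zero,
  .zero]

theorem cf_e10_eq : cf_e10 = ofL cf_e10_t := rfl

noncomputable def cf_e11 : TL := (TL.cons ⟨fun _ => nat_lit 0⟩
  (TL.cons ⟨fun x => (Nat.mul (nat_lit 3) (Nat.add (x (nat_lit 0) (nat_lit 159747) (nat_lit 0)) (x (nat_lit 0) (nat_lit 164096) (nat_lit 0))))⟩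
  (TL.cons ⟨fun x => (Nat.mul (nat_lit 3) (x (nat_lit 0) (nat_lit 0) (nat_lit 144)))⟩
  (TL.cons ⟨fun x => (Nat.mul (nat_lit 3) (x (nat_lit 0) (nat_lit 0) (nat_lit 0)))⟩
  (TL.cons ⟨fun x => (Nat.mul (nat_lit 3) (x (nat_lit 0) (nat_lit 0) (nat_lit 0)))⟩
  (TL.cons ⟨fun x => (x (nat_lit 0) (nat_lit 159747) (nat_lit 0))⟩
  (TL.cons ⟨fun x => (x (nat_lit 0) (nat_lit 0) (nat_lit 144))⟩
  (TL.cons ⟨fun _ => nat_lit 0⟩
  (TL.cons ⟨fun x => (x (nat_lit 0) (nat_lit 0) (nat_lit 0))⟩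
  (TL.cons ⟨fun _ => nat_lit 0⟩
  (TL.cons ⟨fun _ => nat_lit 0⟩
  (TL.cons ⟨fun x => (x (nat_lit 0) (nat_lit 0) (nat_lit 0))⟩
  (TL.cons ⟨fun _ => nat_lit 0⟩
  (TL.cons ⟨fun _ => nat_lit 0⟩
  (TL.cons ⟨fun _ => nat_lit 0⟩
  TL.nil)))))))))))))))

noncomputable def cf_e11_t : List TT := [.zero,
  (.mul (nat_lit 3) (.add (.leaf (nat_lit 0) (nat_lit 159747) (nat_lit 0)) (.leaf (nat_lit 0) (nat_lit 164096) (nat_lit 0)))),
  (.mul (nat_lit 3) (.leaf (nat_lit 0) (nat_lit 0) (nat_lit 144))),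
  (.mul (nat_lit 3) (.leaf (nat_lit 0) (nat_lit 0) (nat_lit 0))),
  (.mul (nat_lit 3) (.leaf (nat_lit 0) (nat_lit 0) (nat_lit 0))),
  (.leaf (nat_lit 0) (nat_lit 159747) (nat_lit 0)),
  (.leaf (nat_lit 0) (nat_lit 0) (nat_lit 144)),
  .zero,
  (.leaf (nat_lit 0) (nat_lit 0) (nat_lit 0)),
  .zero,
  .zero,
  (.leaf (nat_lit 0) (nat_lit 0) (nat_lit 0)),
  .zero,
  .zero,
  .zero]

theorem cf_e11_eq : cf_e11 = ofL cf_e11_t := rfl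

noncomputable def cf_e12 : TL := (TL.cons ⟨fun _ => nat_lit 0⟩
  (TL.cons ⟨fun x => (Nat.mul (nat_lit 3) (Nat.add (x (nat_lit 0) (nat_lit 159747) (nat_lit 16)) (x (nat_lit 0) (nat_lit 164096) (nat_lit 0))))⟩
  (TL.cons ⟨fun x => (Nat.mul (nat_lit 3) (Nat.add (x (nat_lit 0) (nat_lit 0) (nat_lit 160)) (x (nat_lit 0) (nat_lit 164096) (nat_lit 0))))⟩
  (TL.cons ⟨fun x => (Nat.mul (nat_lit 3) (x (nat_lit 0) (nat_lit 0) (nat_lit 16)))⟩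
  (TL.cons ⟨fun x => (Nat.mul (nat_lit 3) (x (nat_lit 0) (nat_lit 0) (nat_lit 16)))⟩
  (TL.cons ⟨fun x => (x (nat_lit 0) (nat_lit 159747) (nat_lit 0))⟩
  (TL.cons ⟨fun x => (Nat.add (x (nat_lit 0) (nat_lit 0) (nat_lit 144)) (x (nat_lit 0) (nat_lit 159747) (nat_lit 0)))⟩
  (TL.cons ⟨fun x => (x (nat_lit 0) (nat_lit 0) (nat_lit 144))⟩
  (TL.cons ⟨fun x => (x (nat_lit 0) (nat_lit 0) (nat_lit 0))⟩
  (TL.cons ⟨fun x => (x (nat_lit 0) (nat_lit 0) (nat_lit 0))⟩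
  (TL.cons ⟨fun _ => nat_lit 0⟩
  (TL.cons ⟨fun x => (x (nat_lit 0) (nat_lit 0) (nat_lit 0))⟩
  (TL.cons ⟨fun x => (x (nat_lit 0) (nat_lit 0) (nat_lit 0))⟩
  (TL.cons ⟨fun _ => nat_lit 0⟩
  (TL.cons ⟨fun _ => nat_lit 0⟩
  TL.nil)))))))))))))))

noncomputable def cf_e12_t : List TT := [.zero,
  (.mul (nat_lit 3) (.add (.leaf (nat_lit 0) (nat_lit 159747) (nat_lit 16)) (.leaf (nat_lit 0) (nat_lit 164096) (nat_lit 0)))),
  (.mul (nat_lit 3) (.add (.leaf (nat_lit 0) (nat_lit 0) (nat_lit 160)) (.leaf (nat_lit 0) (nat_lit 164096) (nat_lit 0)))),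
  (.mul (nat_lit 3) (.leaf (nat_lit 0) (nat_lit 0) (nat_lit 16))),
  (.mul (nat_lit 3) (.leaf (nat_lit 0) (nat_lit 0) (nat_lit 16))),
  (.leaf (nat_lit 0) (nat_lit 159747) (nat_lit 0)),
  (.add (.leaf (nat_lit 0) (nat_lit 0) (nat_lit 144)) (.leaf (nat_lit 0) (nat_lit 159747) (nat_lit 0))),
  (.leaf (nat_lit 0) (nat_lit 0) (nat_lit 144)),
  (.leaf (nat_lit 0) (nat_lit 0) (nat_lit 0)),
  (.leaf (nat_lit 0) (nat_lit 0) (nat_lit 0)),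
  .zero,
  (.leaf (nat_lit 0) (nat_lit 0) (nat_lit 0)),
  (.leaf (nat_lit 0) (nat_lit 0) (nat_lit 0)),
  .zero,
  .zero]

theorem cf_e12_eq : cf_e12 = ofL cf_e12_t := rfl

noncomputable def cf_e13 : TL := (TL.cons ⟨fun _ => nat_lit 0⟩
  (TL.cons ⟨fun x => (Nat.mul (nat_lit 3) (Nat.add (x (nat_lit 0) (nat_lit 212996) (nat_lit 0)) (x (nat_lit 0) (nat_lit 164096) (nat_lit 48))))⟩
  (TL.cons ⟨fun x => (Nat.mul (nat_lit 3) (Nat.add (x (nat_lit 0) (nat_lit 53249) (nat_lit 144)) (x (nat_lit 0) (nat_lit 164096) (nat_lit 0))))⟩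
  (TL.cons ⟨fun x => (Nat.mul (nat_lit 3) (Nat.add (x (nat_lit 0) (nat_lit 53249) (nat_lit 0)) (x (nat_lit 0) (nat_lit 164096) (nat_lit 0))))⟩
  (TL.cons ⟨fun x => (Nat.mul (nat_lit 3) (x (nat_lit 0) (nat_lit 53249) (nat_lit 0)))⟩
  (TL.cons ⟨fun x => (x (nat_lit 0) (nat_lit 159747) (nat_lit 48))⟩
  (TL.cons ⟨fun x => (Nat.add (x (nat_lit 0) (nat_lit 0) (nat_lit 192)) (x (nat_lit 0) (nat_lit 159747) (nat_lit 0)))⟩
  (TL.cons ⟨fun x => (x (nat_lit 0) (nat_lit 0) (nat_lit 144))⟩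
  (TL.cons ⟨fun x => (Nat.add (x (nat_lit 0) (nat_lit 0) (nat_lit 48)) (x (nat_lit 0) (nat_lit 159747) (nat_lit 0)))⟩
  (TL.cons ⟨fun x => (Nat.add (x (nat_lit 0) (nat_lit 0) (nat_lit 0)) (x (nat_lit 0) (nat_lit 0) (nat_lit 144)))⟩
  (TL.cons ⟨fun x => (x (nat_lit 0) (nat_lit 0) (nat_lit 0))⟩
  (TL.cons ⟨fun x => (x (nat_lit 0) (nat_lit 0) (nat_lit 48))⟩
  (TL.cons ⟨fun x => (x (nat_lit 0) (nat_lit 0) (nat_lit 0))⟩
  (TL.cons ⟨fun x => (x (nat_lit 0) (nat_lit 0) (nat_lit 0))⟩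
  (TL.cons ⟨fun _ => nat_lit 0⟩
  TL.nil)))))))))))))))

noncomputable def cf_e13_t : List TT := [.zero,
  (.mul (nat_lit 3) (.add (.leaf (nat_lit 0) (nat_lit 212996) (nat_lit 0)) (.leaf (nat_lit 0) (nat_lit 164096) (nat_lit 48)))),
  (.mul (nat_lit 3) (.add (.leaf (nat_lit 0) (nat_lit 53249) (nat_lit 144)) (.leaf (nat_lit 0) (nat_lit 164096) (nat_lit 0)))),
  (.mul (nat_lit 3) (.add (.leaf (nat_lit 0) (nat_lit 53249) (nat_lit 0)) (.leaf (nat_lit 0) (nat_lit 164096) (nat_lit 0)))),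
  (.mul (nat_lit 3) (.leaf (nat_lit 0) (nat_lit 53249) (nat_lit 0))),
  (.leaf (nat_lit 0) (nat_lit 159747) (nat_lit 48)),
  (.add (.leaf (nat_lit 0) (nat_lit 0) (nat_lit 192)) (.leaf (nat_lit 0) (nat_lit 159747) (nat_lit 0))),
  (.leaf (nat_lit 0) (nat_lit 0) (nat_lit 144)),
  (.add (.leaf (nat_lit 0) (nat_lit 0) (nat_lit 48)) (.leaf (nat_lit 0) (nat_lit 159747) (nat_lit 0))),
  (.add (.leaf (nat_lit 0) (nat_lit 0) (nat_lit 0)) (.leaf (nat_lit 0) (nat_lit 0) (nat_lit 144))),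
  (.leaf (nat_lit 0) (nat_lit 0) (nat_lit 0)),
  (.leaf (nat_lit 0) (nat_lit 0) (nat_lit 48)),
  (.leaf (nat_lit 0) (nat_lit 0) (nat_lit 0)),
  (.leaf (nat_lit 0) (nat_lit 0) (nat_lit 0)),
  .zero]

theorem cf_e13_eq : cf_e13 = ofL cf_e13_t := rfl

noncomputable def cf_e14 : TL := (TL.cons ⟨fun _ => nat_lit 0⟩
  (TL.cons ⟨fun x => (Nat.mul (nat_lit 3) (Nat.add (x (nat_lit 0) (nat_lit 323843) (nat_lit 0)) (x (nat_lit 0) (nat_lit 323843) (nat_lit 0))))⟩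
  (TL.cons ⟨fun x => (Nat.mul (nat_lit 3) (Nat.add (x (nat_lit 0) (nat_lit 164096) (nat_lit 144)) (x (nat_lit 0) (nat_lit 164096) (nat_lit 144))))⟩
  (TL.cons ⟨fun x => (Nat.mul (nat_lit 3) (Nat.add (x (nat_lit 0) (nat_lit 164096) (nat_lit 0)) (x (nat_lit 0) (nat_lit 164096) (nat_lit 0))))⟩
  (TL.cons ⟨fun x => (Nat.mul (nat_lit 3) (Nat.add (x (nat_lit 0) (nat_lit 164096) (nat_lit 0)) (x (nat_lit 0) (nat_lit 164096) (nat_lit 0))))⟩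
  (TL.cons ⟨fun x => (x (nat_lit 0) (nat_lit 319494) (nat_lit 0))⟩
  (TL.cons ⟨fun x => (Nat.add (x (nat_lit 0) (nat_lit 159747) (nat_lit 144)) (x (nat_lit 0) (nat_lit 159747) (nat_lit 144)))⟩
  (TL.cons ⟨fun x => (x (nat_lit 0) (nat_lit 0) (nat_lit 288))⟩
  (TL.cons ⟨fun x => (Nat.add (x (nat_lit 0) (nat_lit 159747) (nat_lit 0)) (x (nat_lit 0) (nat_lit 159747) (nat_lit 0)))⟩
  (TL.cons ⟨fun x => (Nat.add (x (nat_lit 0) (nat_lit 0) (nat_lit 144)) (x (nat_lit 0) (nat_lit 0) (nat_lit 144)))⟩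
  (TL.cons ⟨fun x => (x (nat_lit 0) (nat_lit 0) (nat_lit 0))⟩
  (TL.cons ⟨fun x => (Nat.add (x (nat_lit 0) (nat_lit 159747) (nat_lit 0)) (x (nat_lit 0) (nat_lit 159747) (nat_lit 0)))⟩
  (TL.cons ⟨fun x => (Nat.add (x (nat_lit 0) (nat_lit 0) (nat_lit 144)) (x (nat_lit 0) (nat_lit 0) (nat_lit 144)))⟩
  (TL.cons ⟨fun x => (Nat.add (x (nat_lit 0) (nat_lit 0) (nat_lit 0)) (x (nat_lit 0) (nat_lit 0) (nat_lit 0)))⟩
  (TL.cons ⟨fun x => (x (nat_lit 0) (nat_lit 0) (nat_lit 0))⟩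
  TL.nil)))))))))))))))

noncomputable def cf_e14_t : List TT := [.zero,
  (.mul (nat_lit 3) (.add (.leaf (nat_lit 0) (nat_lit 323843) (nat_lit 0)) (.leaf (nat_lit 0) (nat_lit 323843) (nat_lit 0)))),
  (.mul (nat_lit 3) (.add (.leaf (nat_lit 0) (nat_lit 164096) (nat_lit 144)) (.leaf (nat_lit 0) (nat_lit 164096) (nat_lit 144)))),
  (.mul (nat_lit 3) (.add (.leaf (nat_lit 0) (nat_lit 164096) (nat_lit 0)) (.leaf (nat_lit 0) (nat_lit 164096) (nat_lit 0)))),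
  (.mul (nat_lit 3) (.add (.leaf (nat_lit 0) (nat_lit 164096) (nat_lit 0)) (.leaf (nat_lit 0) (nat_lit 164096) (nat_lit 0)))),
  (.leaf (nat_lit 0) (nat_lit 319494) (nat_lit 0)),
  (.add (.leaf (nat_lit 0) (nat_lit 159747) (nat_lit 144)) (.leaf (nat_lit 0) (nat_lit 159747) (nat_lit 144))),
  (.leaf (nat_lit 0) (nat_lit 0) (nat_lit 288)),
  (.add (.leaf (nat_lit 0) (nat_lit 159747) (nat_lit 0)) (.leaf (nat_lit 0) (nat_lit 159747) (nat_lit 0))),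
  (.add (.leaf (nat_lit 0) (nat_lit 0) (nat_lit 144)) (.leaf (nat_lit 0) (nat_lit 0) (nat_lit 144))),
  (.leaf (nat_lit 0) (nat_lit 0) (nat_lit 0)),
  (.add (.leaf (nat_lit 0) (nat_lit 159747) (nat_lit 0)) (.leaf (nat_lit 0) (nat_lit 159747) (nat_lit 0))),
  (.add (.leaf (nat_lit 0) (nat_lit 0) (nat_lit 144)) (.leaf (nat_lit 0) (nat_lit 0) (nat_lit 144))),
  (.add (.leaf (nat_lit 0) (nat_lit 0) (nat_lit 0)) (.leaf (nat_lit 0) (nat_lit 0) (nat_lit 0))),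
  (.leaf (nat_lit 0) (nat_lit 0) (nat_lit 0))]

theorem cf_e14_eq : cf_e14 = ofL cf_e14_t := rfl

noncomputable def cf_eta : TLL := (TLL.cons cf_e0
  (TLL.cons cf_e1
  (TLL.cons cf_e2
  (TLL.cons cf_e3
  (TLL.cons cf_e4
  (TLL.cons cf_e5
  (TLL.cons cf_e6
  (TLL.cons cf_e7
  (TLL.cons cf_e8
  (TLL.cons cf_e9
  (TLL.cons cf_e10
  (TLL.cons cf_e11
  (TLL.cons cf_e12
  (TLL.cons cf_e13
  (TLL.cons cf_e14
  TLL.nil)))))))))))))))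

noncomputable def cf_eta_t : List (List TT) := [cf_e0_t, cf_e1_t, cf_e2_t, cf_e3_t, cf_e4_t, cf_e5_t, cf_e6_t, cf_e7_t, cf_e8_t, cf_e9_t, cf_e10_t, cf_e11_t, cf_e12_t, cf_e13_t, cf_e14_t]

theorem cf_eta_eq : cf_eta = ofLL cf_eta_t := rfl

noncomputable def cf_nodes : TL := (TL.cons ⟨fun x => (x (nat_lit 0) (nat_lit 0) (nat_lit 0))⟩
  (TL.cons ⟨fun _ => nat_lit 0⟩
  (TL.cons ⟨fun _ => nat_lit 0⟩
  (TL.cons ⟨fun _ => nat_lit 0⟩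
  (TL.cons ⟨fun x => (x (nat_lit 0) (nat_lit 0) (nat_lit 1))⟩
  (TL.cons ⟨fun _ => nat_lit 0⟩
  (TL.cons ⟨fun _ => nat_lit 0⟩
  (TL.cons ⟨fun _ => nat_lit 0⟩
  (TL.cons ⟨fun x => (x (nat_lit 0) (nat_lit 0) (nat_lit 2))⟩
  (TL.cons ⟨fun _ => nat_lit 0⟩
  (TL.cons ⟨fun _ => nat_lit 0⟩
  (TL.cons ⟨fun _ => nat_lit 0⟩
  (TL.cons ⟨fun x => (x (nat_lit 0) (nat_lit 0) (nat_lit 3))⟩
  (TL.cons ⟨fun x => (x (nat_lit 0) (nat_lit 1) (nat_lit 0))⟩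
  (TL.cons ⟨fun _ => nat_lit 0⟩
  (TL.cons ⟨fun _ => nat_lit 0⟩
  (TL.cons ⟨fun x => (x (nat_lit 0) (nat_lit 0) (nat_lit 4))⟩
  (TL.cons ⟨fun x => (x (nat_lit 0) (nat_lit 1) (nat_lit 1))⟩
  (TL.cons ⟨fun _ => nat_lit 0⟩
  (TL.cons ⟨fun _ => nat_lit 0⟩
  (TL.cons ⟨fun x => (x (nat_lit 0) (nat_lit 0) (nat_lit 5))⟩
  (TL.cons ⟨fun x => (x (nat_lit 0) (nat_lit 1) (nat_lit 2))⟩
  (TL.cons ⟨fun _ => nat_lit 0⟩
  (TL.cons ⟨fun _ => nat_lit 0⟩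
  (TL.cons ⟨fun x => (x (nat_lit 0) (nat_lit 0) (nat_lit 6))⟩
  (TL.cons ⟨fun x => (x (nat_lit 0) (nat_lit 1) (nat_lit 3))⟩
  (TL.cons ⟨fun x => (x (nat_lit 0) (nat_lit 2) (nat_lit 0))⟩
  (TL.cons ⟨fun _ => nat_lit 0⟩
  (TL.cons ⟨fun x => (x (nat_lit 0) (nat_lit 0) (nat_lit 7))⟩
  (TL.cons ⟨fun x => (x (nat_lit 0) (nat_lit 1) (nat_lit 4))⟩
  (TL.cons ⟨fun x => (x (nat_lit 0) (nat_lit 2) (nat_lit 1))⟩
  (TL.cons ⟨fun _ => nat_lit 0⟩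
  (TL.cons ⟨fun x => (x (nat_lit 0) (nat_lit 0) (nat_lit 8))⟩
  (TL.cons ⟨fun x => (x (nat_lit 0) (nat_lit 1) (nat_lit 5))⟩
  (TL.cons ⟨fun x => (x (nat_lit 0) (nat_lit 2) (nat_lit 2))⟩
  (TL.cons ⟨fun _ => nat_lit 0⟩
  (TL.cons ⟨fun x => (x (nat_lit 0) (nat_lit 0) (nat_lit 9))⟩
  (TL.cons ⟨fun x => (x (nat_lit 0) (nat_lit 1) (nat_lit 6))⟩
  (TL.cons ⟨fun x => (x (nat_lit 0) (nat_lit 2) (nat_lit 3))⟩
  (TL.cons ⟨fun x => (x (nat_lit 0) (nat_lit 3) (nat_lit 0))⟩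
  (TL.cons ⟨fun x => (Nat.add (x (nat_lit 0) (nat_lit 0) (nat_lit 10)) (x (nat_lit 1) (nat_lit 0) (nat_lit 0)))⟩
  (TL.cons ⟨fun x => (x (nat_lit 0) (nat_lit 1) (nat_lit 7))⟩
  (TL.cons ⟨fun x => (x (nat_lit 0) (nat_lit 2) (nat_lit 4))⟩
  (TL.cons ⟨fun x => (x (nat_lit 0) (nat_lit 3) (nat_lit 1))⟩
  (TL.cons ⟨fun x => (Nat.add (x (nat_lit 0) (nat_lit 0) (nat_lit 11)) (x (nat_lit 1) (nat_lit 0) (nat_lit 1)))⟩
  (TL.cons ⟨fun x => (x (nat_lit 0) (nat_lit 1) (nat_lit 8))⟩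
  (TL.cons ⟨fun x => (x (nat_lit 0) (nat_lit 2) (nat_lit 5))⟩
  (TL.cons ⟨fun x => (x (nat_lit 0) (nat_lit 3) (nat_lit 2))⟩
  (TL.cons ⟨fun x => (Nat.add (x (nat_lit 0) (nat_lit 0) (nat_lit 12)) (x (nat_lit 1) (nat_lit 0) (nat_lit 2)))⟩
  (TL.cons ⟨fun x => (x (nat_lit 0) (nat_lit 1) (nat_lit 9))⟩
  (TL.cons ⟨fun x => (x (nat_lit 0) (nat_lit 2) (nat_lit 6))⟩
  (TL.cons ⟨fun x => (x (nat_lit 0) (nat_lit 3) (nat_lit 3))⟩
  (TL.cons ⟨fun x => (Nat.add (x (nat_lit 0) (nat_lit 0) (nat_lit 13)) (Nat.add (x (nat_lit 0) (nat_lit 4) (nat_lit 0)) (x (nat_lit 1) (nat_lit 0) (nat_lit 3))))⟩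
  (TL.cons ⟨fun x => (Nat.add (x (nat_lit 0) (nat_lit 1) (nat_lit 10)) (x (nat_lit 1) (nat_lit 1) (nat_lit 0)))⟩
  (TL.cons ⟨fun x => (x (nat_lit 0) (nat_lit 2) (nat_lit 7))⟩
  (TL.cons ⟨fun x => (x (nat_lit 0) (nat_lit 3) (nat_lit 4))⟩
  (TL.cons ⟨fun x => (Nat.add (x (nat_lit 0) (nat_lit 0) (nat_lit 14)) (Nat.add (x (nat_lit 0) (nat_lit 4) (nat_lit 1)) (x (nat_lit 1) (nat_lit 0) (nat_lit 4))))⟩
  (TL.cons ⟨fun x => (Nat.add (x (nat_lit 0) (nat_lit 1) (nat_lit 11)) (x (nat_lit 1) (nat_lit 1) (nat_lit 1)))⟩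
  (TL.cons ⟨fun x => (x (nat_lit 0) (nat_lit 2) (nat_lit 8))⟩
  (TL.cons ⟨fun x => (x (nat_lit 0) (nat_lit 3) (nat_lit 5))⟩
  (TL.cons ⟨fun x => (Nat.add (x (nat_lit 0) (nat_lit 0) (nat_lit 15)) (Nat.add (x (nat_lit 0) (nat_lit 4) (nat_lit 2)) (x (nat_lit 1) (nat_lit 0) (nat_lit 5))))⟩
  (TL.cons ⟨fun x => (Nat.add (x (nat_lit 0) (nat_lit 1) (nat_lit 12)) (x (nat_lit 1) (nat_lit 1) (nat_lit 2)))⟩
  (TL.cons ⟨fun x => (x (nat_lit 0) (nat_lit 2) (nat_lit 9))⟩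
  (TL.cons ⟨fun x => (x (nat_lit 0) (nat_lit 3) (nat_lit 6))⟩
  (TL.cons ⟨fun x => (Nat.add (x (nat_lit 0) (nat_lit 0) (nat_lit 16)) (Nat.add (x (nat_lit 0) (nat_lit 4) (nat_lit 3)) (x (nat_lit 1) (nat_lit 0) (nat_lit 6))))⟩
  (TL.cons ⟨fun x => (Nat.add (x (nat_lit 0) (nat_lit 1) (nat_lit 13)) (Nat.add (x (nat_lit 0) (nat_lit 5) (nat_lit 0)) (x (nat_lit 1) (nat_lit 1) (nat_lit 3))))⟩
  (TL.cons ⟨fun x => (Nat.add (x (nat_lit 0) (nat_lit 2) (nat_lit 10)) (x (nat_lit 1) (nat_lit 2) (nat_lit 0)))⟩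
  (TL.cons ⟨fun x => (x (nat_lit 0) (nat_lit 3) (nat_lit 7))⟩
  (TL.cons ⟨fun x => (Nat.add (x (nat_lit 0) (nat_lit 0) (nat_lit 17)) (Nat.add (x (nat_lit 0) (nat_lit 4) (nat_lit 4)) (x (nat_lit 1) (nat_lit 0) (nat_lit 7))))⟩
  (TL.cons ⟨fun x => (Nat.add (x (nat_lit 0) (nat_lit 1) (nat_lit 14)) (Nat.add (x (nat_lit 0) (nat_lit 5) (nat_lit 1)) (x (nat_lit 1) (nat_lit 1) (nat_lit 4))))⟩
  (TL.cons ⟨fun x => (Nat.add (x (nat_lit 0) (nat_lit 2) (nat_lit 11)) (x (nat_lit 1) (nat_lit 2) (nat_lit 1)))⟩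
  (TL.cons ⟨fun x => (x (nat_lit 0) (nat_lit 3) (nat_lit 8))⟩
  (TL.cons ⟨fun x => (Nat.add (x (nat_lit 0) (nat_lit 0) (nat_lit 18)) (Nat.add (x (nat_lit 0) (nat_lit 4) (nat_lit 5)) (x (nat_lit 1) (nat_lit 0) (nat_lit 8))))⟩
  (TL.cons ⟨fun x => (Nat.add (x (nat_lit 0) (nat_lit 1) (nat_lit 15)) (Nat.add (x (nat_lit 0) (nat_lit 5) (nat_lit 2)) (x (nat_lit 1) (nat_lit 1) (nat_lit 5))))⟩
  (TL.cons ⟨fun x => (Nat.add (x (nat_lit 0) (nat_lit 2) (nat_lit 12)) (x (nat_lit 1) (nat_lit 2) (nat_lit 2)))⟩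
  (TL.cons ⟨fun x => (x (nat_lit 0) (nat_lit 3) (nat_lit 9))⟩
  (TL.cons ⟨fun x => (Nat.add (x (nat_lit 0) (nat_lit 0) (nat_lit 19)) (Nat.add (x (nat_lit 0) (nat_lit 4) (nat_lit 6)) (x (nat_lit 1) (nat_lit 0) (nat_lit 9))))⟩
  (TL.cons ⟨fun x => (Nat.add (x (nat_lit 0) (nat_lit 1) (nat_lit 16)) (Nat.add (x (nat_lit 0) (nat_lit 5) (nat_lit 3)) (x (nat_lit 1) (nat_lit 1) (nat_lit 6))))⟩
  (TL.cons ⟨fun x => (Nat.add (x (nat_lit 0) (nat_lit 2) (nat_lit 13)) (Nat.add (x (nat_lit 0) (nat_lit 6) (nat_lit 0)) (x (nat_lit 1) (nat_lit 2) (nat_lit 3))))⟩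
  (TL.cons ⟨fun x => (Nat.add (x (nat_lit 0) (nat_lit 3) (nat_lit 10)) (x (nat_lit 1) (nat_lit 3) (nat_lit 0)))⟩
  (TL.cons ⟨fun x => (Nat.add (Nat.add (x (nat_lit 0) (nat_lit 0) (nat_lit 20)) (x (nat_lit 0) (nat_lit 4) (nat_lit 7))) (Nat.add (x (nat_lit 1) (nat_lit 0) (nat_lit 10)) (x (nat_lit 2) (nat_lit 0) (nat_lit 0))))⟩
  (TL.cons ⟨fun x => (Nat.add (x (nat_lit 0) (nat_lit 1) (nat_lit 17)) (Nat.add (x (nat_lit 0) (nat_lit 5) (nat_lit 4)) (x (nat_lit 1) (nat_lit 1) (nat_lit 7))))⟩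
  (TL.cons ⟨fun x => (Nat.add (x (nat_lit 0) (nat_lit 2) (nat_lit 14)) (Nat.add (x (nat_lit 0) (nat_lit 6) (nat_lit 1)) (x (nat_lit 1) (nat_lit 2) (nat_lit 4))))⟩
  (TL.cons ⟨fun x => (Nat.add (x (nat_lit 0) (nat_lit 3) (nat_lit 11)) (x (nat_lit 1) (nat_lit 3) (nat_lit 1)))⟩
  (TL.cons ⟨fun x => (Nat.add (Nat.add (x (nat_lit 0) (nat_lit 0) (nat_lit 21)) (x (nat_lit 0) (nat_lit 4) (nat_lit 8))) (Nat.add (x (nat_lit 1) (nat_lit 0) (nat_lit 11)) (x (nat_lit 2) (nat_lit 0) (nat_lit 1))))⟩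
  (TL.cons ⟨fun x => (Nat.add (x (nat_lit 0) (nat_lit 1) (nat_lit 18)) (Nat.add (x (nat_lit 0) (nat_lit 5) (nat_lit 5)) (x (nat_lit 1) (nat_lit 1) (nat_lit 8))))⟩
  (TL.cons ⟨fun x => (Nat.add (x (nat_lit 0) (nat_lit 2) (nat_lit 15)) (Nat.add (x (nat_lit 0) (nat_lit 6) (nat_lit 2)) (x (nat_lit 1) (nat_lit 2) (nat_lit 5))))⟩
  (TL.cons ⟨fun x => (Nat.add (x (nat_lit 0) (nat_lit 3) (nat_lit 12)) (x (nat_lit 1) (nat_lit 3) (nat_lit 2)))⟩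
  (TL.cons ⟨fun x => (Nat.add (Nat.add (x (nat_lit 0) (nat_lit 0) (nat_lit 22)) (x (nat_lit 0) (nat_lit 4) (nat_lit 9))) (Nat.add (x (nat_lit 1) (nat_lit 0) (nat_lit 12)) (x (nat_lit 2) (nat_lit 0) (nat_lit 2))))⟩
  (TL.cons ⟨fun x => (Nat.add (x (nat_lit 0) (nat_lit 1) (nat_lit 19)) (Nat.add (x (nat_lit 0) (nat_lit 5) (nat_lit 6)) (x (nat_lit 1) (nat_lit 1) (nat_lit 9))))⟩
  (TL.cons ⟨fun x => (Nat.add (x (nat_lit 0) (nat_lit 2) (nat_lit 16)) (Nat.add (x (nat_lit 0) (nat_lit 6) (nat_lit 3)) (x (nat_lit 1) (nat_lit 2) (nat_lit 6))))⟩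
  (TL.cons ⟨fun x => (Nat.add (x (nat_lit 0) (nat_lit 3) (nat_lit 13)) (Nat.add (x (nat_lit 0) (nat_lit 7) (nat_lit 0)) (x (nat_lit 1) (nat_lit 3) (nat_lit 3))))⟩
  (TL.cons ⟨fun x => (Nat.add (Nat.add (x (nat_lit 0) (nat_lit 0) (nat_lit 23)) (x (nat_lit 0) (nat_lit 4) (nat_lit 10))) (Nat.add (x (nat_lit 1) (nat_lit 0) (nat_lit 13)) (Nat.add (x (nat_lit 1) (nat_lit 4) (nat_lit 0)) (x (nat_lit 2) (nat_lit 0) (nat_lit 3)))))⟩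
  (TL.cons ⟨fun x => (Nat.add (Nat.add (x (nat_lit 0) (nat_lit 1) (nat_lit 20)) (x (nat_lit 0) (nat_lit 5) (nat_lit 7))) (Nat.add (x (nat_lit 1) (nat_lit 1) (nat_lit 10)) (x (nat_lit 2) (nat_lit 1) (nat_lit 0))))⟩
  (TL.cons ⟨fun x => (Nat.add (x (nat_lit 0) (nat_lit 2) (nat_lit 17)) (Nat.add (x (nat_lit 0) (nat_lit 6) (nat_lit 4)) (x (nat_lit 1) (nat_lit 2) (nat_lit 7))))⟩
  (TL.cons ⟨fun x => (Nat.add (x (nat_lit 0) (nat_lit 3) (nat_lit 14)) (Nat.add (x (nat_lit 0) (nat_lit 7) (nat_lit 1)) (x (nat_lit 1) (nat_lit 3) (nat_lit 4))))⟩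
  (TL.cons ⟨fun x => (Nat.add (Nat.add (x (nat_lit 0) (nat_lit 0) (nat_lit 24)) (x (nat_lit 0) (nat_lit 4) (nat_lit 11))) (Nat.add (x (nat_lit 1) (nat_lit 0) (nat_lit 14)) (Nat.add (x (nat_lit 1) (nat_lit 4) (nat_lit 1)) (x (nat_lit 2) (nat_lit 0) (nat_lit 4)))))⟩
  (TL.cons ⟨fun x => (Nat.add (Nat.add (x (nat_lit 0) (nat_lit 1) (nat_lit 21)) (x (nat_lit 0) (nat_lit 5) (nat_lit 8))) (Nat.add (x (nat_lit 1) (nat_lit 1) (nat_lit 11)) (x (nat_lit 2) (nat_lit 1) (nat_lit 1))))⟩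
  (TL.cons ⟨fun x => (Nat.add (x (nat_lit 0) (nat_lit 2) (nat_lit 18)) (Nat.add (x (nat_lit 0) (nat_lit 6) (nat_lit 5)) (x (nat_lit 1) (nat_lit 2) (nat_lit 8))))⟩
  (TL.cons ⟨fun x => (Nat.add (x (nat_lit 0) (nat_lit 3) (nat_lit 15)) (Nat.add (x (nat_lit 0) (nat_lit 7) (nat_lit 2)) (x (nat_lit 1) (nat_lit 3) (nat_lit 5))))⟩
  (TL.cons ⟨fun x => (Nat.add (Nat.add (x (nat_lit 0) (nat_lit 0) (nat_lit 25)) (x (nat_lit 0) (nat_lit 4) (nat_lit 12))) (Nat.add (x (nat_lit 1) (nat_lit 0) (nat_lit 15)) (Nat.add (x (nat_lit 1) (nat_lit 4) (nat_lit 2)) (x (nat_lit 2) (nat_lit 0) (nat_lit 5)))))⟩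
  (TL.cons ⟨fun x => (Nat.add (Nat.add (x (nat_lit 0) (nat_lit 1) (nat_lit 22)) (x (nat_lit 0) (nat_lit 5) (nat_lit 9))) (Nat.add (x (nat_lit 1) (nat_lit 1) (nat_lit 12)) (x (nat_lit 2) (nat_lit 1) (nat_lit 2))))⟩
  (TL.cons ⟨fun x => (Nat.add (x (nat_lit 0) (nat_lit 2) (nat_lit 19)) (Nat.add (x (nat_lit 0) (nat_lit 6) (nat_lit 6)) (x (nat_lit 1) (nat_lit 2) (nat_lit 9))))⟩
  (TL.cons ⟨fun x => (Nat.add (x (nat_lit 0) (nat_lit 3) (nat_lit 16)) (Nat.add (x (nat_lit 0) (nat_lit 7) (nat_lit 3)) (x (nat_lit 1) (nat_lit 3) (nat_lit 6))))⟩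
  (TL.cons ⟨fun x => (Nat.add (Nat.add (x (nat_lit 0) (nat_lit 0) (nat_lit 26)) (Nat.add (x (nat_lit 0) (nat_lit 4) (nat_lit 13)) (x (nat_lit 0) (nat_lit 8) (nat_lit 0)))) (Nat.add (x (nat_lit 1) (nat_lit 0) (nat_lit 16)) (Nat.add (x (nat_lit 1) (nat_lit 4) (nat_lit 3)) (x (nat_lit 2) (nat_lit 0) (nat_lit 6)))))⟩
  (TL.cons ⟨fun x => (Nat.add (Nat.add (x (nat_lit 0) (nat_lit 1) (nat_lit 23)) (x (nat_lit 0) (nat_lit 5) (nat_lit 10))) (Nat.add (x (nat_lit 1) (nat_lit 1) (nat_lit 13)) (Nat.add (x (nat_lit 1) (nat_lit 5) (nat_lit 0)) (x (nat_lit 2) (nat_lit 1) (nat_lit 3)))))⟩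
  (TL.cons ⟨fun x => (Nat.add (Nat.add (x (nat_lit 0) (nat_lit 2) (nat_lit 20)) (x (nat_lit 0) (nat_lit 6) (nat_lit 7))) (Nat.add (x (nat_lit 1) (nat_lit 2) (nat_lit 10)) (x (nat_lit 2) (nat_lit 2) (nat_lit 0))))⟩
  (TL.cons ⟨fun x => (Nat.add (x (nat_lit 0) (nat_lit 3) (nat_lit 17)) (Nat.add (x (nat_lit 0) (nat_lit 7) (nat_lit 4)) (x (nat_lit 1) (nat_lit 3) (nat_lit 7))))⟩
  (TL.cons ⟨fun x => (Nat.add (Nat.add (x (nat_lit 0) (nat_lit 0) (nat_lit 27)) (Nat.add (x (nat_lit 0) (nat_lit 4) (nat_lit 14)) (x (nat_lit 0) (nat_lit 8) (nat_lit 1)))) (Nat.add (x (nat_lit 1) (nat_lit 0) (nat_lit 17)) (Nat.add (x (nat_lit 1) (nat_lit 4) (nat_lit 4)) (x (nat_lit 2) (nat_lit 0) (nat_lit 7)))))⟩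
  (TL.cons ⟨fun x => (Nat.add (Nat.add (x (nat_lit 0) (nat_lit 1) (nat_lit 24)) (x (nat_lit 0) (nat_lit 5) (nat_lit 11))) (Nat.add (x (nat_lit 1) (nat_lit 1) (nat_lit 14)) (Nat.add (x (nat_lit 1) (nat_lit 5) (nat_lit 1)) (x (nat_lit 2) (nat_lit 1) (nat_lit 4)))))⟩
  (TL.cons ⟨fun x => (Nat.add (Nat.add (x (nat_lit 0) (nat_lit 2) (nat_lit 21)) (x (nat_lit 0) (nat_lit 6) (nat_lit 8))) (Nat.add (x (nat_lit 1) (nat_lit 2) (nat_lit 11)) (x (nat_lit 2) (nat_lit 2) (nat_lit 1))))⟩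
  (TL.cons ⟨fun x => (Nat.add (x (nat_lit 0) (nat_lit 3) (nat_lit 18)) (Nat.add (x (nat_lit 0) (nat_lit 7) (nat_lit 5)) (x (nat_lit 1) (nat_lit 3) (nat_lit 8))))⟩
  (TL.cons ⟨fun x => (Nat.add (Nat.add (x (nat_lit 0) (nat_lit 0) (nat_lit 28)) (Nat.add (x (nat_lit 0) (nat_lit 4) (nat_lit 15)) (x (nat_lit 0) (nat_lit 8) (nat_lit 2)))) (Nat.add (x (nat_lit 1) (nat_lit 0) (nat_lit 18)) (Nat.add (x (nat_lit 1) (nat_lit 4) (nat_lit 5)) (x (nat_lit 2) (nat_lit 0) (nat_lit 8)))))⟩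
  (TL.cons ⟨fun x => (Nat.add (Nat.add (x (nat_lit 0) (nat_lit 1) (nat_lit 25)) (x (nat_lit 0) (nat_lit 5) (nat_lit 12))) (Nat.add (x (nat_lit 1) (nat_lit 1) (nat_lit 15)) (Nat.add (x (nat_lit 1) (nat_lit 5) (nat_lit 2)) (x (nat_lit 2) (nat_lit 1) (nat_lit 5)))))⟩
  (TL.cons ⟨fun x => (Nat.add (Nat.add (x (nat_lit 0) (nat_lit 2) (nat_lit 22)) (x (nat_lit 0) (nat_lit 6) (nat_lit 9))) (Nat.add (x (nat_lit 1) (nat_lit 2) (nat_lit 12)) (x (nat_lit 2) (nat_lit 2) (nat_lit 2))))⟩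
  (TL.cons ⟨fun x => (Nat.add (x (nat_lit 0) (nat_lit 3) (nat_lit 19)) (Nat.add (x (nat_lit 0) (nat_lit 7) (nat_lit 6)) (x (nat_lit 1) (nat_lit 3) (nat_lit 9))))⟩
  (TL.cons ⟨fun x => (Nat.add (Nat.add (x (nat_lit 0) (nat_lit 0) (nat_lit 29)) (Nat.add (x (nat_lit 0) (nat_lit 4) (nat_lit 16)) (x (nat_lit 0) (nat_lit 8) (nat_lit 3)))) (Nat.add (x (nat_lit 1) (nat_lit 0) (nat_lit 19)) (Nat.add (x (nat_lit 1) (nat_lit 4) (nat_lit 6)) (x (nat_lit 2) (nat_lit 0) (nat_lit 9)))))⟩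
  (TL.cons ⟨fun x => (Nat.add (Nat.add (x (nat_lit 0) (nat_lit 1) (nat_lit 26)) (Nat.add (x (nat_lit 0) (nat_lit 5) (nat_lit 13)) (x (nat_lit 0) (nat_lit 9) (nat_lit 0)))) (Nat.add (x (nat_lit 1) (nat_lit 1) (nat_lit 16)) (Nat.add (x (nat_lit 1) (nat_lit 5) (nat_lit 3)) (x (nat_lit 2) (nat_lit 1) (nat_lit 6)))))⟩
  (TL.cons ⟨fun x => (Nat.add (Nat.add (x (nat_lit 0) (nat_lit 2) (nat_lit 23)) (x (nat_lit 0) (nat_lit 6) (nat_lit 10))) (Nat.add (x (nat_lit 1) (nat_lit 2) (nat_lit 13)) (Nat.add (x (nat_lit 1) (nat_lit 6) (nat_lit 0)) (x (nat_lit 2) (nat_lit 2) (nat_lit 3)))))⟩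
  (TL.cons ⟨fun x => (Nat.add (Nat.add (x (nat_lit 0) (nat_lit 3) (nat_lit 20)) (x (nat_lit 0) (nat_lit 7) (nat_lit 7))) (Nat.add (x (nat_lit 1) (nat_lit 3) (nat_lit 10)) (x (nat_lit 2) (nat_lit 3) (nat_lit 0))))⟩
  TL.nil))))))))))))))))))))))))))))))))))))))))))))))))))))))))))))))))))))))))))))))))))))))))))))))))))))))))))))))))))))))))

noncomputable def cf_nodes_t : List TT := [(.leaf (nat_lit 0) (nat_lit 0) (nat_lit 0)),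
  .zero,
  .zero,
  .zero,
  (.leaf (nat_lit 0) (nat_lit 0) (nat_lit 1)),
  .zero,
  .zero,
  .zero,
  (.leaf (nat_lit 0) (nat_lit 0) (nat_lit 2)),
  .zero,
  .zero,
  .zero,
  (.leaf (nat_lit 0) (nat_lit 0) (nat_lit 3)),
  (.leaf (nat_lit 0) (nat_lit 1) (nat_lit 0)),
  .zero,
  .zero,
  (.leaf (nat_lit 0) (nat_lit 0) (nat_lit 4)),
  (.leaf (nat_lit 0) (nat_lit 1) (nat_lit 1)),
  .zero,
  .zero,
  (.leaf (nat_lit 0) (nat_lit 0) (nat_lit 5)),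
  (.leaf (nat_lit 0) (nat_lit 1) (nat_lit 2)),
  .zero,
  .zero,
  (.leaf (nat_lit 0) (nat_lit 0) (nat_lit 6)),
  (.leaf (nat_lit 0) (nat_lit 1) (nat_lit 3)),
  (.leaf (nat_lit 0) (nat_lit 2) (nat_lit 0)),
  .zero,
  (.leaf (nat_lit 0) (nat_lit 0) (nat_lit 7)),
  (.leaf (nat_lit 0) (nat_lit 1) (nat_lit 4)),
  (.leaf (nat_lit 0) (nat_lit 2) (nat_lit 1)),
  .zero,
  (.leaf (nat_lit 0) (nat_lit 0) (nat_lit 8)),
  (.leaf (nat_lit 0) (nat_lit 1) (nat_lit 5)),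
  (.leaf (nat_lit 0) (nat_lit 2) (nat_lit 2)),
  .zero,
  (.leaf (nat_lit 0) (nat_lit 0) (nat_lit 9)),
  (.leaf (nat_lit 0) (nat_lit 1) (nat_lit 6)),
  (.leaf (nat_lit 0) (nat_lit 2) (nat_lit 3)),
  (.leaf (nat_lit 0) (nat_lit 3) (nat_lit 0)),
  (.add (.leaf (nat_lit 0) (nat_lit 0) (nat_lit 10)) (.leaf (nat_lit 1) (nat_lit 0) (nat_lit 0))),
  (.leaf (nat_lit 0) (nat_lit 1) (nat_lit 7)),
  (.leaf (nat_lit 0) (nat_lit 2) (nat_lit 4)),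
  (.leaf (nat_lit 0) (nat_lit 3) (nat_lit 1)),
  (.add (.leaf (nat_lit 0) (nat_lit 0) (nat_lit 11)) (.leaf (nat_lit 1) (nat_lit 0) (nat_lit 1))),
  (.leaf (nat_lit 0) (nat_lit 1) (nat_lit 8)),
  (.leaf (nat_lit 0) (nat_lit 2) (nat_lit 5)),
  (.leaf (nat_lit 0) (nat_lit 3) (nat_lit 2)),
  (.add (.leaf (nat_lit 0) (nat_lit 0) (nat_lit 12)) (.leaf (nat_lit 1) (nat_lit 0) (nat_lit 2))),
  (.leaf (nat_lit 0) (nat_lit 1) (nat_lit 9)),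
  (.leaf (nat_lit 0) (nat_lit 2) (nat_lit 6)),
  (.leaf (nat_lit 0) (nat_lit 3) (nat_lit 3)),
  (.add (.leaf (nat_lit 0) (nat_lit 0) (nat_lit 13)) (.add (.leaf (nat_lit 0) (nat_lit 4) (nat_lit 0)) (.leaf (nat_lit 1) (nat_lit 0) (nat_lit 3)))),
  (.add (.leaf (nat_lit 0) (nat_lit 1) (nat_lit 10)) (.leaf (nat_lit 1) (nat_lit 1) (nat_lit 0))),
  (.leaf (nat_lit 0) (nat_lit 2) (nat_lit 7)),
  (.leaf (nat_lit 0) (nat_lit 3) (nat_lit 4)),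
  (.add (.leaf (nat_lit 0) (nat_lit 0) (nat_lit 14)) (.add (.leaf (nat_lit 0) (nat_lit 4) (nat_lit 1)) (.leaf (nat_lit 1) (nat_lit 0) (nat_lit 4)))),
  (.add (.leaf (nat_lit 0) (nat_lit 1) (nat_lit 11)) (.leaf (nat_lit 1) (nat_lit 1) (nat_lit 1))),
  (.leaf (nat_lit 0) (nat_lit 2) (nat_lit 8)),
  (.leaf (nat_lit 0) (nat_lit 3) (nat_lit 5)),
  (.add (.leaf (nat_lit 0) (nat_lit 0) (nat_lit 15)) (.add (.leaf (nat_lit 0) (nat_lit 4) (nat_lit 2)) (.leaf (nat_lit 1) (nat_lit 0) (nat_lit 5)))),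
  (.add (.leaf (nat_lit 0) (nat_lit 1) (nat_lit 12)) (.leaf (nat_lit 1) (nat_lit 1) (nat_lit 2))),
  (.leaf (nat_lit 0) (nat_lit 2) (nat_lit 9)),
  (.leaf (nat_lit 0) (nat_lit 3) (nat_lit 6)),
  (.add (.leaf (nat_lit 0) (nat_lit 0) (nat_lit 16)) (.add (.leaf (nat_lit 0) (nat_lit 4) (nat_lit 3)) (.leaf (nat_lit 1) (nat_lit 0) (nat_lit 6)))),
  (.add (.leaf (nat_lit 0) (nat_lit 1) (nat_lit 13)) (.add (.leaf (nat_lit 0) (nat_lit 5) (nat_lit 0)) (.leaf (nat_lit 1) (nat_lit 1) (nat_lit 3)))),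
  (.add (.leaf (nat_lit 0) (nat_lit 2) (nat_lit 10)) (.leaf (nat_lit 1) (nat_lit 2) (nat_lit 0))),
  (.leaf (nat_lit 0) (nat_lit 3) (nat_lit 7)),
  (.add (.leaf (nat_lit 0) (nat_lit 0) (nat_lit 17)) (.add (.leaf (nat_lit 0) (nat_lit 4) (nat_lit 4)) (.leaf (nat_lit 1) (nat_lit 0) (nat_lit 7)))),
  (.add (.leaf (nat_lit 0) (nat_lit 1) (nat_lit 14)) (.add (.leaf (nat_lit 0) (nat_lit 5) (nat_lit 1)) (.leaf (nat_lit 1) (nat_lit 1) (nat_lit 4)))),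
  (.add (.leaf (nat_lit 0) (nat_lit 2) (nat_lit 11)) (.leaf (nat_lit 1) (nat_lit 2) (nat_lit 1))),
  (.leaf (nat_lit 0) (nat_lit 3) (nat_lit 8)),
  (.add (.leaf (nat_lit 0) (nat_lit 0) (nat_lit 18)) (.add (.leaf (nat_lit 0) (nat_lit 4) (nat_lit 5)) (.leaf (nat_lit 1) (nat_lit 0) (nat_lit 8)))),
  (.add (.leaf (nat_lit 0) (nat_lit 1) (nat_lit 15)) (.add (.leaf (nat_lit 0) (nat_lit 5) (nat_lit 2)) (.leaf (nat_lit 1) (nat_lit 1) (nat_lit 5)))),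
  (.add (.leaf (nat_lit 0) (nat_lit 2) (nat_lit 12)) (.leaf (nat_lit 1) (nat_lit 2) (nat_lit 2))),
  (.leaf (nat_lit 0) (nat_lit 3) (nat_lit 9)),
  (.add (.leaf (nat_lit 0) (nat_lit 0) (nat_lit 19)) (.add (.leaf (nat_lit 0) (nat_lit 4) (nat_lit 6)) (.leaf (nat_lit 1) (nat_lit 0) (nat_lit 9)))),
  (.add (.leaf (nat_lit 0) (nat_lit 1) (nat_lit 16)) (.add (.leaf (nat_lit 0) (nat_lit 5) (nat_lit 3)) (.leaf (nat_lit 1) (nat_lit 1) (nat_lit 6)))),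
  (.add (.leaf (nat_lit 0) (nat_lit 2) (nat_lit 13)) (.add (.leaf (nat_lit 0) (nat_lit 6) (nat_lit 0)) (.leaf (nat_lit 1) (nat_lit 2) (nat_lit 3)))),
  (.add (.leaf (nat_lit 0) (nat_lit 3) (nat_lit 10)) (.leaf (nat_lit 1) (nat_lit 3) (nat_lit 0))),
  (.add (.add (.leaf (nat_lit 0) (nat_lit 0) (nat_lit 20)) (.leaf (nat_lit 0) (nat_lit 4) (nat_lit 7))) (.add (.leaf (nat_lit 1) (nat_lit 0) (nat_lit 10)) (.leaf (nat_lit 2) (nat_lit 0) (nat_lit 0)))),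
  (.add (.leaf (nat_lit 0) (nat_lit 1) (nat_lit 17)) (.add (.leaf (nat_lit 0) (nat_lit 5) (nat_lit 4)) (.leaf (nat_lit 1) (nat_lit 1) (nat_lit 7)))),
  (.add (.leaf (nat_lit 0) (nat_lit 2) (nat_lit 14)) (.add (.leaf (nat_lit 0) (nat_lit 6) (nat_lit 1)) (.leaf (nat_lit 1) (nat_lit 2) (nat_lit 4)))),
  (.add (.leaf (nat_lit 0) (nat_lit 3) (nat_lit 11)) (.leaf (nat_lit 1) (nat_lit 3) (nat_lit 1))),
  (.add (.add (.leaf (nat_lit 0) (nat_lit 0) (nat_lit 21)) (.leaf (nat_lit 0) (nat_lit 4) (nat_lit 8))) (.add (.leaf (nat_lit 1) (nat_lit 0) (nat_lit 11)) (.leaf (nat_lit 2) (nat_lit 0) (nat_lit 1)))),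
  (.add (.leaf (nat_lit 0) (nat_lit 1) (nat_lit 18)) (.add (.leaf (nat_lit 0) (nat_lit 5) (nat_lit 5)) (.leaf (nat_lit 1) (nat_lit 1) (nat_lit 8)))),
  (.add (.leaf (nat_lit 0) (nat_lit 2) (nat_lit 15)) (.add (.leaf (nat_lit 0) (nat_lit 6) (nat_lit 2)) (.leaf (nat_lit 1) (nat_lit 2) (nat_lit 5)))),
  (.add (.leaf (nat_lit 0) (nat_lit 3) (nat_lit 12)) (.leaf (nat_lit 1) (nat_lit 3) (nat_lit 2))),
  (.add (.add (.leaf (nat_lit 0) (nat_lit 0) (nat_lit 22)) (.leaf (nat_lit 0) (nat_lit 4) (nat_lit 9))) (.add (.leaf (nat_lit 1) (nat_lit 0) (nat_lit 12)) (.leaf (nat_lit 2) (nat_lit 0) (nat_lit 2)))),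
  (.add (.leaf (nat_lit 0) (nat_lit 1) (nat_lit 19)) (.add (.leaf (nat_lit 0) (nat_lit 5) (nat_lit 6)) (.leaf (nat_lit 1) (nat_lit 1) (nat_lit 9)))),
  (.add (.leaf (nat_lit 0) (nat_lit 2) (nat_lit 16)) (.add (.leaf (nat_lit 0) (nat_lit 6) (nat_lit 3)) (.leaf (nat_lit 1) (nat_lit 2) (nat_lit 6)))),
  (.add (.leaf (nat_lit 0) (nat_lit 3) (nat_lit 13)) (.add (.leaf (nat_lit 0) (nat_lit 7) (nat_lit 0)) (.leaf (nat_lit 1) (nat_lit 3) (nat_lit 3)))),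
  (.add (.add (.leaf (nat_lit 0) (nat_lit 0) (nat_lit 23)) (.leaf (nat_lit 0) (nat_lit 4) (nat_lit 10))) (.add (.leaf (nat_lit 1) (nat_lit 0) (nat_lit 13)) (.add (.leaf (nat_lit 1) (nat_lit 4) (nat_lit 0)) (.leaf (nat_lit 2) (nat_lit 0) (nat_lit 3))))),
  (.add (.add (.leaf (nat_lit 0) (nat_lit 1) (nat_lit 20)) (.leaf (nat_lit 0) (nat_lit 5) (nat_lit 7))) (.add (.leaf (nat_lit 1) (nat_lit 1) (nat_lit 10)) (.leaf (nat_lit 2) (nat_lit 1) (nat_lit 0)))),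
  (.add (.leaf (nat_lit 0) (nat_lit 2) (nat_lit 17)) (.add (.leaf (nat_lit 0) (nat_lit 6) (nat_lit 4)) (.leaf (nat_lit 1) (nat_lit 2) (nat_lit 7)))),
  (.add (.leaf (nat_lit 0) (nat_lit 3) (nat_lit 14)) (.add (.leaf (nat_lit 0) (nat_lit 7) (nat_lit 1)) (.leaf (nat_lit 1) (nat_lit 3) (nat_lit 4)))),
  (.add (.add (.leaf (nat_lit 0) (nat_lit 0) (nat_lit 24)) (.leaf (nat_lit 0) (nat_lit 4) (nat_lit 11))) (.add (.leaf (nat_lit 1) (nat_lit 0) (nat_lit 14)) (.add (.leaf (nat_lit 1) (nat_lit 4) (nat_lit 1)) (.leaf (nat_lit 2) (nat_lit 0) (nat_lit 4))))),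
  (.add (.add (.leaf (nat_lit 0) (nat_lit 1) (nat_lit 21)) (.leaf (nat_lit 0) (nat_lit 5) (nat_lit 8))) (.add (.leaf (nat_lit 1) (nat_lit 1) (nat_lit 11)) (.leaf (nat_lit 2) (nat_lit 1) (nat_lit 1)))),
  (.add (.leaf (nat_lit 0) (nat_lit 2) (nat_lit 18)) (.add (.leaf (nat_lit 0) (nat_lit 6) (nat_lit 5)) (.leaf (nat_lit 1) (nat_lit 2) (nat_lit 8)))),
  (.add (.leaf (nat_lit 0) (nat_lit 3) (nat_lit 15)) (.add (.leaf (nat_lit 0) (nat_lit 7) (nat_lit 2)) (.leaf (nat_lit 1) (nat_lit 3) (nat_lit 5)))),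
  (.add (.add (.leaf (nat_lit 0) (nat_lit 0) (nat_lit 25)) (.leaf (nat_lit 0) (nat_lit 4) (nat_lit 12))) (.add (.leaf (nat_lit 1) (nat_lit 0) (nat_lit 15)) (.add (.leaf (nat_lit 1) (nat_lit 4) (nat_lit 2)) (.leaf (nat_lit 2) (nat_lit 0) (nat_lit 5))))),
  (.add (.add (.leaf (nat_lit 0) (nat_lit 1) (nat_lit 22)) (.leaf (nat_lit 0) (nat_lit 5) (nat_lit 9))) (.add (.leaf (nat_lit 1) (nat_lit 1) (nat_lit 12)) (.leaf (nat_lit 2) (nat_lit 1) (nat_lit 2)))),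
  (.add (.leaf (nat_lit 0) (nat_lit 2) (nat_lit 19)) (.add (.leaf (nat_lit 0) (nat_lit 6) (nat_lit 6)) (.leaf (nat_lit 1) (nat_lit 2) (nat_lit 9)))),
  (.add (.leaf (nat_lit 0) (nat_lit 3) (nat_lit 16)) (.add (.leaf (nat_lit 0) (nat_lit 7) (nat_lit 3)) (.leaf (nat_lit 1) (nat_lit 3) (nat_lit 6)))),
  (.add (.add (.leaf (nat_lit 0) (nat_lit 0) (nat_lit 26)) (.add (.leaf (nat_lit 0) (nat_lit 4) (nat_lit 13)) (.leaf (nat_lit 0) (nat_lit 8) (nat_lit 0)))) (.add (.leaf (nat_lit 1) (nat_lit 0) (nat_lit 16)) (.add (.leaf (nat_lit 1) (nat_lit 4) (nat_lit 3)) (.leaf (nat_lit 2) (nat_lit 0) (nat_lit 6))))),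
  (.add (.add (.leaf (nat_lit 0) (nat_lit 1) (nat_lit 23)) (.leaf (nat_lit 0) (nat_lit 5) (nat_lit 10))) (.add (.leaf (nat_lit 1) (nat_lit 1) (nat_lit 13)) (.add (.leaf (nat_lit 1) (nat_lit 5) (nat_lit 0)) (.leaf (nat_lit 2) (nat_lit 1) (nat_lit 3))))),
  (.add (.add (.leaf (nat_lit 0) (nat_lit 2) (nat_lit 20)) (.leaf (nat_lit 0) (nat_lit 6) (nat_lit 7))) (.add (.leaf (nat_lit 1) (nat_lit 2) (nat_lit 10)) (.leaf (nat_lit 2) (nat_lit 2) (nat_lit 0)))),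
  (.add (.leaf (nat_lit 0) (nat_lit 3) (nat_lit 17)) (.add (.leaf (nat_lit 0) (nat_lit 7) (nat_lit 4)) (.leaf (nat_lit 1) (nat_lit 3) (nat_lit 7)))),
  (.add (.add (.leaf (nat_lit 0) (nat_lit 0) (nat_lit 27)) (.add (.leaf (nat_lit 0) (nat_lit 4) (nat_lit 14)) (.leaf (nat_lit 0) (nat_lit 8) (nat_lit 1)))) (.add (.leaf (nat_lit 1) (nat_lit 0) (nat_lit 17)) (.add (.leaf (nat_lit 1) (nat_lit 4) (nat_lit 4)) (.leaf (nat_lit 2) (nat_lit 0) (nat_lit 7))))),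
  (.add (.add (.leaf (nat_lit 0) (nat_lit 1) (nat_lit 24)) (.leaf (nat_lit 0) (nat_lit 5) (nat_lit 11))) (.add (.leaf (nat_lit 1) (nat_lit 1) (nat_lit 14)) (.add (.leaf (nat_lit 1) (nat_lit 5) (nat_lit 1)) (.leaf (nat_lit 2) (nat_lit 1) (nat_lit 4))))),
  (.add (.add (.leaf (nat_lit 0) (nat_lit 2) (nat_lit 21)) (.leaf (nat_lit 0) (nat_lit 6) (nat_lit 8))) (.add (.leaf (nat_lit 1) (nat_lit 2) (nat_lit 11)) (.leaf (nat_lit 2) (nat_lit 2) (nat_lit 1)))),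
  (.add (.leaf (nat_lit 0) (nat_lit 3) (nat_lit 18)) (.add (.leaf (nat_lit 0) (nat_lit 7) (nat_lit 5)) (.leaf (nat_lit 1) (nat_lit 3) (nat_lit 8)))),
  (.add (.add (.leaf (nat_lit 0) (nat_lit 0) (nat_lit 28)) (.add (.leaf (nat_lit 0) (nat_lit 4) (nat_lit 15)) (.leaf (nat_lit 0) (nat_lit 8) (nat_lit 2)))) (.add (.leaf (nat_lit 1) (nat_lit 0) (nat_lit 18)) (.add (.leaf (nat_lit 1) (nat_lit 4) (nat_lit 5)) (.leaf (nat_lit 2) (nat_lit 0) (nat_lit 8))))),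
  (.add (.add (.leaf (nat_lit 0) (nat_lit 1) (nat_lit 25)) (.leaf (nat_lit 0) (nat_lit 5) (nat_lit 12))) (.add (.leaf (nat_lit 1) (nat_lit 1) (nat_lit 15)) (.add (.leaf (nat_lit 1) (nat_lit 5) (nat_lit 2)) (.leaf (nat_lit 2) (nat_lit 1) (nat_lit 5))))),
  (.add (.add (.leaf (nat_lit 0) (nat_lit 2) (nat_lit 22)) (.leaf (nat_lit 0) (nat_lit 6) (nat_lit 9))) (.add (.leaf (nat_lit 1) (nat_lit 2) (nat_lit 12)) (.leaf (nat_lit 2) (nat_lit 2) (nat_lit 2)))),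
  (.add (.leaf (nat_lit 0) (nat_lit 3) (nat_lit 19)) (.add (.leaf (nat_lit 0) (nat_lit 7) (nat_lit 6)) (.leaf (nat_lit 1) (nat_lit 3) (nat_lit 9)))),
  (.add (.add (.leaf (nat_lit 0) (nat_lit 0) (nat_lit 29)) (.add (.leaf (nat_lit 0) (nat_lit 4) (nat_lit 16)) (.leaf (nat_lit 0) (nat_lit 8) (nat_lit 3)))) (.add (.leaf (nat_lit 1) (nat_lit 0) (nat_lit 19)) (.add (.leaf (nat_lit 1) (nat_lit 4) (nat_lit 6)) (.leaf (nat_lit 2) (nat_lit 0) (nat_lit 9))))),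
  (.add (.add (.leaf (nat_lit 0) (nat_lit 1) (nat_lit 26)) (.add (.leaf (nat_lit 0) (nat_lit 5) (nat_lit 13)) (.leaf (nat_lit 0) (nat_lit 9) (nat_lit 0)))) (.add (.leaf (nat_lit 1) (nat_lit 1) (nat_lit 16)) (.add (.leaf (nat_lit 1) (nat_lit 5) (nat_lit 3)) (.leaf (nat_lit 2) (nat_lit 1) (nat_lit 6))))),
  (.add (.add (.leaf (nat_lit 0) (nat_lit 2) (nat_lit 23)) (.leaf (nat_lit 0) (nat_lit 6) (nat_lit 10))) (.add (.leaf (nat_lit 1) (nat_lit 2) (nat_lit 13)) (.add (.leaf (nat_lit 1) (nat_lit 6) (nat_lit 0)) (.leaf (nat_lit 2) (nat_lit 2) (nat_lit 3))))),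
  (.add (.add (.leaf (nat_lit 0) (nat_lit 3) (nat_lit 20)) (.leaf (nat_lit 0) (nat_lit 7) (nat_lit 7))) (.add (.leaf (nat_lit 1) (nat_lit 3) (nat_lit 10)) (.leaf (nat_lit 2) (nat_lit 3) (nat_lit 0))))]

theorem cf_nodes_eq : cf_nodes = ofL cf_nodes_t := rfl

noncomputable def cf_rng : TL := (TL.cons ⟨fun _ => nat_lit 0⟩
  (TL.cons ⟨fun x => (x (nat_lit 0) (nat_lit 0) (nat_lit 0))⟩
  (TL.cons ⟨fun x => (Nat.add (x (nat_lit 0) (nat_lit 0) (nat_lit 0)) (x (nat_lit 1) (nat_lit 0) (nat_lit 0)))⟩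
  (TL.cons ⟨fun x => (Nat.add (x (nat_lit 0) (nat_lit 0) (nat_lit 0)) (Nat.add (x (nat_lit 1) (nat_lit 0) (nat_lit 0)) (x (nat_lit 2) (nat_lit 0) (nat_lit 0))))⟩
  (TL.cons ⟨fun x => (Nat.add (Nat.add (x (nat_lit 0) (nat_lit 0) (nat_lit 0)) (x (nat_lit 1) (nat_lit 0) (nat_lit 0))) (Nat.add (x (nat_lit 2) (nat_lit 0) (nat_lit 0)) (x (nat_lit 3) (nat_lit 0) (nat_lit 0))))⟩
  (TL.cons ⟨fun x => (Nat.add (Nat.add (x (nat_lit 0) (nat_lit 0) (nat_lit 0)) (x (nat_lit 1) (nat_lit 0) (nat_lit 0))) (Nat.add (x (nat_lit 2) (nat_lit 0) (nat_lit 0)) (Nat.add (x (nat_lit 3) (nat_lit 0) (nat_lit 0)) (x (nat_lit 4) (nat_lit 0) (nat_lit 0)))))⟩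
  (TL.cons ⟨fun x => (Nat.add (Nat.add (x (nat_lit 0) (nat_lit 0) (nat_lit 0)) (Nat.add (x (nat_lit 1) (nat_lit 0) (nat_lit 0)) (x (nat_lit 2) (nat_lit 0) (nat_lit 0)))) (Nat.add (x (nat_lit 3) (nat_lit 0) (nat_lit 0)) (Nat.add (x (nat_lit 4) (nat_lit 0) (nat_lit 0)) (x (nat_lit 5) (nat_lit 0) (nat_lit 0)))))⟩
  (TL.cons ⟨fun x => (Nat.add (Nat.add (x (nat_lit 0) (nat_lit 0) (nat_lit 0)) (Nat.add (x (nat_lit 1) (nat_lit 0) (nat_lit 0)) (x (nat_lit 2) (nat_lit 0) (nat_lit 0)))) (Nat.add (Nat.add (x (nat_lit 3) (nat_lit 0) (nat_lit 0)) (x (nat_lit 4) (nat_lit 0) (nat_lit 0))) (Nat.add (x (nat_lit 5) (nat_lit 0) (nat_lit 0)) (x (nat_lit 6) (nat_lit 0) (nat_lit 0)))))⟩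
  (TL.cons ⟨fun x => (Nat.add (Nat.add (Nat.add (x (nat_lit 0) (nat_lit 0) (nat_lit 0)) (x (nat_lit 1) (nat_lit 0) (nat_lit 0))) (Nat.add (x (nat_lit 2) (nat_lit 0) (nat_lit 0)) (x (nat_lit 3) (nat_lit 0) (nat_lit 0)))) (Nat.add (Nat.add (x (nat_lit 4) (nat_lit 0) (nat_lit 0)) (x (nat_lit 5) (nat_lit 0) (nat_lit 0))) (Nat.add (x (nat_lit 6) (nat_lit 0) (nat_lit 0)) (x (nat_lit 7) (nat_lit 0) (nat_lit 0)))))⟩
  (TL.cons ⟨fun x => (Nat.add (Nat.add (Nat.add (x (nat_lit 0) (nat_lit 0) (nat_lit 0)) (x (nat_lit 1) (nat_lit 0) (nat_lit 0))) (Nat.add (x (nat_lit 2) (nat_lit 0) (nat_lit 0)) (x (nat_lit 3) (nat_lit 0) (nat_lit 0)))) (Nat.add (Nat.add (x (nat_lit 4) (nat_lit 0) (nat_lit 0)) (x (nat_lit 5) (nat_lit 0) (nat_lit 0))) (Nat.add (x (nat_lit 6) (nat_lit 0) (nat_lit 0)) (Nat.add (x (nat_lit 7) (nat_lit 0) (nat_lit 0)) (x (nat_lit 8) (nat_lit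 0) (nat_lit 0))))))⟩
  (TL.cons ⟨fun x => (Nat.add (Nat.add (Nat.add (x (nat_lit 0) (nat_lit 0) (nat_lit 0)) (x (nat_lit 1) (nat_lit 0) (nat_lit 0))) (Nat.add (x (nat_lit 2) (nat_lit 0) (nat_lit 0)) (Nat.add (x (nat_lit 3) (nat_lit 0) (nat_lit 0)) (x (nat_lit 4) (nat_lit 0) (nat_lit 0))))) (Nat.add (Nat.add (x (nat_lit 5) (nat_lit 0) (nat_lit 0)) (x (nat_lit 6) (nat_lit 0) (nat_lit 0))) (Nat.add (x (nat_lit 7) (nat_lit 0) (nat_lit 0)) (Nat.add (x (nat_lit 8) (nat_lit 0) (nat_lit 0)) (x (nat_lit 9) (nat_lit 0) (nat_lit 0))))))⟩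
  (TL.cons ⟨fun x => (Nat.add (Nat.add (Nat.add (x (nat_lit 0) (nat_lit 0) (nat_lit 0)) (x (nat_lit 1) (nat_lit 0) (nat_lit 0))) (Nat.add (x (nat_lit 2) (nat_lit 0) (nat_lit 0)) (Nat.add (x (nat_lit 3) (nat_lit 0) (nat_lit 0)) (x (nat_lit 4) (nat_lit 0) (nat_lit 0))))) (Nat.add (Nat.add (x (nat_lit 5) (nat_lit 0) (nat_lit 0)) (Nat.add (x (nat_lit 6) (nat_lit 0) (nat_lit 0)) (x (nat_lit 7) (nat_lit 0) (nat_lit 0)))) (Nat.add (x (nat_lit 8) (nat_lit 0) (nat_lit 0)) (Nat.add (x (nat_lit 9) (nat_lit 0) (nat_lit 0)) (x (nat_lit 10) (nat_lit 0) (nat_lit 0))))))⟩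
  (TL.cons ⟨fun x => (Nat.add (Nat.add (Nat.add (x (nat_lit 0) (nat_lit 0) (nat_lit 0)) (Nat.add (x (nat_lit 1) (nat_lit 0) (nat_lit 0)) (x (nat_lit 2) (nat_lit 0) (nat_lit 0)))) (Nat.add (x (nat_lit 3) (nat_lit 0) (nat_lit 0)) (Nat.add (x (nat_lit 4) (nat_lit 0) (nat_lit 0)) (x (nat_lit 5) (nat_lit 0) (nat_lit 0))))) (Nat.add (Nat.add (x (nat_lit 6) (nat_lit 0) (nat_lit 0)) (Nat.add (x (nat_lit 7) (nat_lit 0) (nat_lit 0)) (x (nat_lit 8) (nat_lit 0) (nat_lit 0)))) (Nat.add (x (nat_lit 9) (nat_lit 0) (nat_lit 0)) (Nat.add (x (nat_lit 10) (nat_lit 0) (nat_lit 0)) (x (nat_lit 11) (nat_lit 0) (nat_lit 0))))))⟩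
  (TL.cons ⟨fun x => (Nat.add (Nat.add (Nat.add (x (nat_lit 0) (nat_lit 0) (nat_lit 0)) (Nat.add (x (nat_lit 1) (nat_lit 0) (nat_lit 0)) (x (nat_lit 2) (nat_lit 0) (nat_lit 0)))) (Nat.add (x (nat_lit 3) (nat_lit 0) (nat_lit 0)) (Nat.add (x (nat_lit 4) (nat_lit 0) (nat_lit 0)) (x (nat_lit 5) (nat_lit 0) (nat_lit 0))))) (Nat.add (Nat.add (x (nat_lit 6) (nat_lit 0) (nat_lit 0)) (Nat.add (x (nat_lit 7) (nat_lit 0) (nat_lit 0)) (x (nat_lit 8) (nat_lit 0) (nat_lit 0)))) (Nat.add (Nat.add (x (nat_lit 9) (nat_lit 0) (nat_lit 0)) (x (nat_lit 10) (nat_lit 0) (nat_lit 0))) (Nat.add (x (nat_lit 11) (nat_lit 0) (nat_lit 0)) (x (nat_lit 12) (nat_lit 0) (nat_lit 0))))))⟩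
  (TL.cons ⟨fun x => (Nat.add (Nat.add (Nat.add (x (nat_lit 0) (nat_lit 0) (nat_lit 0)) (Nat.add (x (nat_lit 1) (nat_lit 0) (nat_lit 0)) (x (nat_lit 2) (nat_lit 0) (nat_lit 0)))) (Nat.add (Nat.add (x (nat_lit 3) (nat_lit 0) (nat_lit 0)) (x (nat_lit 4) (nat_lit 0) (nat_lit 0))) (Nat.add (x (nat_lit 5) (nat_lit 0) (nat_lit 0)) (x (nat_lit 6) (nat_lit 0) (nat_lit 0))))) (Nat.add (Nat.add (x (nat_lit 7) (nat_lit 0) (nat_lit 0)) (Nat.add (x (nat_lit 8) (nat_lit 0) (nat_lit 0)) (x (nat_lit 9) (nat_lit 0) (nat_lit 0)))) (Nat.add (Nat.add (x (nat_lit 10) (nat_lit 0) (nat_lit 0)) (x (nat_lit 11) (nat_lit 0) (nat_lit 0))) (Nat.add (x (nat_lit 12) (nat_lit 0) (nat_lit 0)) (x (nat_lit 13) (nat_lit 0) (nat_lit 0))))))⟩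
  (TL.cons ⟨fun x => (Nat.add (Nat.add (Nat.add (x (nat_lit 0) (nat_lit 0) (nat_lit 0)) (Nat.add (x (nat_lit 1) (nat_lit 0) (nat_lit 0)) (x (nat_lit 2) (nat_lit 0) (nat_lit 0)))) (Nat.add (Nat.add (x (nat_lit 3) (nat_lit 0) (nat_lit 0)) (x (nat_lit 4) (nat_lit 0) (nat_lit 0))) (Nat.add (x (nat_lit 5) (nat_lit 0) (nat_lit 0)) (x (nat_lit 6) (nat_lit 0) (nat_lit 0))))) (Nat.add (Nat.add (Nat.add (x (nat_lit 7) (nat_lit 0) (nat_lit 0)) (x (nat_lit 8) (nat_lit 0) (nat_lit 0))) (Nat.add (x (nat_lit 9) (nat_lit 0) (nat_lit 0)) (x (nat_lit 10) (nat_lit 0) (nat_lit 0)))) (Nat.add (Nat.add (x (nat_lit 11) (nat_lit 0) (nat_lit 0)) (x (nat_lit 12) (nat_lit 0) (nat_lit 0))) (Nat.add (x (nat_lit 13) (nat_lit 0) (nat_lit 0)) (x (nat_lit 14) (nat_lit 0) (nat_lit 0))))))⟩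
  (TL.cons ⟨fun x => (Nat.add (Nat.add (Nat.add (Nat.add (x (nat_lit 0) (nat_lit 0) (nat_lit 0)) (x (nat_lit 1) (nat_lit 0) (nat_lit 0))) (Nat.add (x (nat_lit 2) (nat_lit 0) (nat_lit 0)) (x (nat_lit 3) (nat_lit 0) (nat_lit 0)))) (Nat.add (Nat.add (x (nat_lit 4) (nat_lit 0) (nat_lit 0)) (x (nat_lit 5) (nat_lit 0) (nat_lit 0))) (Nat.add (x (nat_lit 6) (nat_lit 0) (nat_lit 0)) (x (nat_lit 7) (nat_lit 0) (nat_lit 0))))) (Nat.add (Nat.add (Nat.add (x (nat_lit 8) (nat_lit 0) (nat_lit 0)) (x (nat_lit 9) (nat_lit 0) (nat_lit 0))) (Nat.add (x (nat_lit 10) (nat_lit 0) (nat_lit 0)) (x (nat_lit 11) (nat_lit 0) (nat_lit 0)))) (Nat.add (Nat.add (x (nat_lit 12) (nat_lit 0) (nat_lit 0)) (x (nat_lit 13) (nat_lit 0) (nat_lit 0))) (Nat.add (x (nat_lit 14) (nat_lit 0) (nat_lit 0)) (x (nat_lit 15) (nat_lit 0) (nat_lit 0))))))⟩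
  (TL.cons ⟨fun x => (Nat.add (Nat.add (Nat.add (Nat.add (x (nat_lit 0) (nat_lit 0) (nat_lit 0)) (x (nat_lit 1) (nat_lit 0) (nat_lit 0))) (Nat.add (x (nat_lit 2) (nat_lit 0) (nat_lit 0)) (x (nat_lit 3) (nat_lit 0) (nat_lit 0)))) (Nat.add (Nat.add (x (nat_lit 4) (nat_lit 0) (nat_lit 0)) (x (nat_lit 5) (nat_lit 0) (nat_lit 0))) (Nat.add (x (nat_lit 6) (nat_lit 0) (nat_lit 0)) (x (nat_lit 7) (nat_lit 0) (nat_lit 0))))) (Nat.add (Nat.add (Nat.add (x (nat_lit 8) (nat_lit 0) (nat_lit 0)) (x (nat_lit 9) (nat_lit 0) (nat_lit 0))) (Nat.add (x (nat_lit 10) (nat_lit 0) (nat_lit 0)) (x (nat_lit 11) (nat_lit 0) (nat_lit 0)))) (Nat.add (Nat.add (x (nat_lit 12) (nat_lit 0) (nat_lit 0)) (x (nat_lit 13) (nat_lit 0) (nat_lit 0))) (Nat.add (x (nat_lit 14) (nat_lit 0) (nat_lit 0)) (Nat.add (x (nat_lit 15) (nat_lit 0) (nat_lit 0)) (x (nat_lit 16) (nat_lit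 0) (nat_lit 0)))))))⟩
  (TL.cons ⟨fun x => (Nat.add (Nat.add (Nat.add (Nat.add (x (nat_lit 0) (nat_lit 0) (nat_lit 0)) (x (nat_lit 1) (nat_lit 0) (nat_lit 0))) (Nat.add (x (nat_lit 2) (nat_lit 0) (nat_lit 0)) (x (nat_lit 3) (nat_lit 0) (nat_lit 0)))) (Nat.add (Nat.add (x (nat_lit 4) (nat_lit 0) (nat_lit 0)) (x (nat_lit 5) (nat_lit 0) (nat_lit 0))) (Nat.add (x (nat_lit 6) (nat_lit 0) (nat_lit 0)) (Nat.add (x (nat_lit 7) (nat_lit 0) (nat_lit 0)) (x (nat_lit 8) (nat_lit 0) (nat_lit 0)))))) (Nat.add (Nat.add (Nat.add (x (nat_lit 9) (nat_lit 0) (nat_lit 0)) (x (nat_lit 10) (nat_lit 0) (nat_lit 0))) (Nat.add (x (nat_lit 11) (nat_lit 0) (nat_lit 0)) (x (nat_lit 12) (nat_lit 0) (nat_lit 0)))) (Nat.add (Nat.add (x (nat_lit 13) (nat_lit 0) (nat_lit 0)) (x (nat_lit 14) (nat_lit 0) (nat_lit 0))) (Nat.add (x (nat_lit 15) (nat_lit 0) (nat_lit 0)) (Nat.add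 (x (nat_lit 16) (nat_lit 0) (nat_lit 0)) (x (nat_lit 17) (nat_lit 0) (nat_lit 0)))))))⟩
  (TL.cons ⟨fun x => (Nat.add (Nat.add (Nat.add (Nat.add (x (nat_lit 0) (nat_lit 0) (nat_lit 0)) (x (nat_lit 1) (nat_lit 0) (nat_lit 0))) (Nat.add (x (nat_lit 2) (nat_lit 0) (nat_lit 0)) (x (nat_lit 3) (nat_lit 0) (nat_lit 0)))) (Nat.add (Nat.add (x (nat_lit 4) (nat_lit 0) (nat_lit 0)) (x (nat_lit 5) (nat_lit 0) (nat_lit 0))) (Nat.add (x (nat_lit 6) (nat_lit 0) (nat_lit 0)) (Nat.add (x (nat_lit 7) (nat_lit 0) (nat_lit 0)) (x (nat_lit 8) (nat_lit 0) (nat_lit 0)))))) (Nat.add (Nat.add (Nat.add (x (nat_lit 9) (nat_lit 0) (nat_lit 0)) (x (nat_lit 10) (nat_lit 0) (nat_lit 0))) (Nat.add (x (nat_lit 11) (nat_lit 0) (nat_lit 0)) (Nat.add (x (nat_lit 12) (nat_lit 0) (nat_lit 0)) (x (nat_lit 13) (nat_lit 0) (nat_lit 0))))) (Nat.add (Nat.add (x (nat_lit 14) (nat_lit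 0) (nat_lit 0)) (x (nat_lit 15) (nat_lit 0) (nat_lit 0))) (Nat.add (x (nat_lit 16) (nat_lit 0) (nat_lit 0)) (Nat.add (x (nat_lit 17) (nat_lit 0) (nat_lit 0)) (x (nat_lit 18) (nat_lit 0) (nat_lit 0)))))))⟩
  (TL.cons ⟨fun x => (Nat.add (Nat.add (Nat.add (Nat.add (x (nat_lit 0) (nat_lit 0) (nat_lit 0)) (x (nat_lit 1) (nat_lit 0) (nat_lit 0))) (Nat.add (x (nat_lit 2) (nat_lit 0) (nat_lit 0)) (Nat.add (x (nat_lit 3) (nat_lit 0) (nat_lit 0)) (x (nat_lit 4) (nat_lit 0) (nat_lit 0))))) (Nat.add (Nat.add (x (nat_lit 5) (nat_lit 0) (nat_lit 0)) (x (nat_lit 6) (nat_lit 0) (nat_lit 0))) (Nat.add (x (nat_lit 7) (nat_lit 0) (nat_lit 0)) (Nat.add (x (nat_lit 8) (nat_lit 0) (nat_lit 0)) (x (nat_lit 9) (nat_lit 0) (nat_lit 0)))))) (Nat.add (Nat.add (Nat.add (x (nat_lit 10) (nat_lit 0) (nat_lit 0)) (x (nat_lit 11) (nat_lit 0) (nat_lit 0))) (Nat.add (x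 (nat_lit 12) (nat_lit 0) (nat_lit 0)) (Nat.add (x (nat_lit 13) (nat_lit 0) (nat_lit 0)) (x (nat_lit 14) (nat_lit 0) (nat_lit 0))))) (Nat.add (Nat.add (x (nat_lit 15) (nat_lit 0) (nat_lit 0)) (x (nat_lit 16) (nat_lit 0) (nat_lit 0))) (Nat.add (x (nat_lit 17) (nat_lit 0) (nat_lit 0)) (Nat.add (x (nat_lit 18) (nat_lit 0) (nat_lit 0)) (x (nat_lit 19) (nat_lit 0) (nat_lit 0)))))))⟩
  (TL.cons ⟨fun x => (Nat.add (Nat.add (Nat.add (Nat.add (x (nat_lit 0) (nat_lit 0) (nat_lit 0)) (x (nat_lit 1) (nat_lit 0) (nat_lit 0))) (Nat.add (x (nat_lit 2) (nat_lit 0) (nat_lit 0)) (Nat.add (x (nat_lit 3) (nat_lit 0) (nat_lit 0)) (x (nat_lit 4) (nat_lit 0) (nat_lit 0))))) (Nat.add (Nat.add (x (nat_lit 5) (nat_lit 0) (nat_lit 0)) (x (nat_lit 6) (nat_lit 0) (nat_lit 0))) (Nat.add (x (nat_lit 7) (nat_lit 0) (nat_lit 0)) (Nat.add (x (nat_lit 8) (nat_lit 0) (nat_lit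 0)) (x (nat_lit 9) (nat_lit 0) (nat_lit 0)))))) (Nat.add (Nat.add (Nat.add (x (nat_lit 10) (nat_lit 0) (nat_lit 0)) (x (nat_lit 11) (nat_lit 0) (nat_lit 0))) (Nat.add (x (nat_lit 12) (nat_lit 0) (nat_lit 0)) (Nat.add (x (nat_lit 13) (nat_lit 0) (nat_lit 0)) (x (nat_lit 14) (nat_lit 0) (nat_lit 0))))) (Nat.add (Nat.add (x (nat_lit 15) (nat_lit 0) (nat_lit 0)) (Nat.add (x (nat_lit 16) (nat_lit 0) (nat_lit 0)) (x (nat_lit 17) (nat_lit 0) (nat_lit 0)))) (Nat.add (x (nat_lit 18) (nat_lit 0) (nat_lit 0)) (Nat.add (x (nat_lit 19) (nat_lit 0) (nat_lit 0)) (x (nat_lit 20) (nat_lit 0) (nat_lit 0)))))))⟩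
  (TL.cons ⟨fun x => (Nat.add (Nat.add (Nat.add (Nat.add (x (nat_lit 0) (nat_lit 0) (nat_lit 0)) (x (nat_lit 1) (nat_lit 0) (nat_lit 0))) (Nat.add (x (nat_lit 2) (nat_lit 0) (nat_lit 0)) (Nat.add (x (nat_lit 3) (nat_lit 0) (nat_lit 0)) (x (nat_lit 4) (nat_lit 0) (nat_lit 0))))) (Nat.add (Nat.add (x (nat_lit 5) (nat_lit 0) (nat_lit 0)) (Nat.add (x (nat_lit 6) (nat_lit 0) (nat_lit 0)) (x (nat_lit 7) (nat_lit 0) (nat_lit 0)))) (Nat.add (x (nat_lit 8) (nat_lit 0) (nat_lit 0)) (Nat.add (x (nat_lit 9) (nat_lit 0) (nat_lit 0)) (x (nat_lit 10) (nat_lit 0) (nat_lit 0)))))) (Nat.add (Nat.add (Nat.add (x (nat_lit 11) (nat_lit 0) (nat_lit 0)) (x (nat_lit 12) (nat_lit 0) (nat_lit 0))) (Nat.add (x (nat_lit 13) (nat_lit 0) (nat_lit 0)) (Nat.add (x (nat_lit 14) (nat_lit 0) (nat_lit 0)) (x (nat_lit 15) (nat_lit 0) (nat_lit 0))))) (Nat.add (Nat.add (x (nat_lit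 16) (nat_lit 0) (nat_lit 0)) (Nat.add (x (nat_lit 17) (nat_lit 0) (nat_lit 0)) (x (nat_lit 18) (nat_lit 0) (nat_lit 0)))) (Nat.add (x (nat_lit 19) (nat_lit 0) (nat_lit 0)) (Nat.add (x (nat_lit 20) (nat_lit 0) (nat_lit 0)) (x (nat_lit 21) (nat_lit 0) (nat_lit 0)))))))⟩
  (TL.cons ⟨fun x => (Nat.add (Nat.add (Nat.add (Nat.add (x (nat_lit 0) (nat_lit 0) (nat_lit 0)) (x (nat_lit 1) (nat_lit 0) (nat_lit 0))) (Nat.add (x (nat_lit 2) (nat_lit 0) (nat_lit 0)) (Nat.add (x (nat_lit 3) (nat_lit 0) (nat_lit 0)) (x (nat_lit 4) (nat_lit 0) (nat_lit 0))))) (Nat.add (Nat.add (x (nat_lit 5) (nat_lit 0) (nat_lit 0)) (Nat.add (x (nat_lit 6) (nat_lit 0) (nat_lit 0)) (x (nat_lit 7) (nat_lit 0) (nat_lit 0)))) (Nat.add (x (nat_lit 8) (nat_lit 0) (nat_lit 0)) (Nat.add (x (nat_lit 9) (nat_lit 0) (nat_lit 0)) (x (nat_lit 10) (nat_lit 0) (nat_lit 0)))))) (Nat.add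 (Nat.add (Nat.add (x (nat_lit 11) (nat_lit 0) (nat_lit 0)) (Nat.add (x (nat_lit 12) (nat_lit 0) (nat_lit 0)) (x (nat_lit 13) (nat_lit 0) (nat_lit 0)))) (Nat.add (x (nat_lit 14) (nat_lit 0) (nat_lit 0)) (Nat.add (x (nat_lit 15) (nat_lit 0) (nat_lit 0)) (x (nat_lit 16) (nat_lit 0) (nat_lit 0))))) (Nat.add (Nat.add (x (nat_lit 17) (nat_lit 0) (nat_lit 0)) (Nat.add (x (nat_lit 18) (nat_lit 0) (nat_lit 0)) (x (nat_lit 19) (nat_lit 0) (nat_lit 0)))) (Nat.add (x (nat_lit 20) (nat_lit 0) (nat_lit 0)) (Nat.add (x (nat_lit 21) (nat_lit 0) (nat_lit 0)) (x (nat_lit 22) (nat_lit 0) (nat_lit 0)))))))⟩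
  (TL.cons ⟨fun x => (Nat.add (Nat.add (Nat.add (Nat.add (x (nat_lit 0) (nat_lit 0) (nat_lit 0)) (Nat.add (x (nat_lit 1) (nat_lit 0) (nat_lit 0)) (x (nat_lit 2) (nat_lit 0) (nat_lit 0)))) (Nat.add (x (nat_lit 3) (nat_lit 0) (nat_lit 0)) (Nat.add (x (nat_lit 4) (nat_lit 0) (nat_lit 0)) (x (nat_lit 5) (nat_lit 0) (nat_lit 0))))) (Nat.add (Nat.add (x (nat_lit 6) (nat_lit 0) (nat_lit 0)) (Nat.add (x (nat_lit 7) (nat_lit 0) (nat_lit 0)) (x (nat_lit 8) (nat_lit 0) (nat_lit 0)))) (Nat.add (x (nat_lit 9) (nat_lit 0) (nat_lit 0)) (Nat.add (x (nat_lit 10) (nat_lit 0) (nat_lit 0)) (x (nat_lit 11) (nat_lit 0) (nat_lit 0)))))) (Nat.add (Nat.add (Nat.add (x (nat_lit 12) (nat_lit 0) (nat_lit 0)) (Nat.add (x (nat_lit 13) (nat_lit 0) (nat_lit 0)) (x (nat_lit 14) (nat_lit 0) (nat_lit 0)))) (Nat.add (x (nat_lit 15) (nat_lit 0) (nat_lit 0)) (Nat.add (x (nat_lit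 16) (nat_lit 0) (nat_lit 0)) (x (nat_lit 17) (nat_lit 0) (nat_lit 0))))) (Nat.add (Nat.add (x (nat_lit 18) (nat_lit 0) (nat_lit 0)) (Nat.add (x (nat_lit 19) (nat_lit 0) (nat_lit 0)) (x (nat_lit 20) (nat_lit 0) (nat_lit 0)))) (Nat.add (x (nat_lit 21) (nat_lit 0) (nat_lit 0)) (Nat.add (x (nat_lit 22) (nat_lit 0) (nat_lit 0)) (x (nat_lit 23) (nat_lit 0) (nat_lit 0)))))))⟩
  (TL.cons ⟨fun x => (Nat.add (Nat.add (Nat.add (Nat.add (x (nat_lit 0) (nat_lit 0) (nat_lit 0)) (Nat.add (x (nat_lit 1) (nat_lit 0) (nat_lit 0)) (x (nat_lit 2) (nat_lit 0) (nat_lit 0)))) (Nat.add (x (nat_lit 3) (nat_lit 0) (nat_lit 0)) (Nat.add (x (nat_lit 4) (nat_lit 0) (nat_lit 0)) (x (nat_lit 5) (nat_lit 0) (nat_lit 0))))) (Nat.add (Nat.add (x (nat_lit 6) (nat_lit 0) (nat_lit 0)) (Nat.add (x (nat_lit 7) (nat_lit 0) (nat_lit 0)) (x (nat_lit 8) (nat_lit 0) (nat_lit 0))))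 (Nat.add (x (nat_lit 9) (nat_lit 0) (nat_lit 0)) (Nat.add (x (nat_lit 10) (nat_lit 0) (nat_lit 0)) (x (nat_lit 11) (nat_lit 0) (nat_lit 0)))))) (Nat.add (Nat.add (Nat.add (x (nat_lit 12) (nat_lit 0) (nat_lit 0)) (Nat.add (x (nat_lit 13) (nat_lit 0) (nat_lit 0)) (x (nat_lit 14) (nat_lit 0) (nat_lit 0)))) (Nat.add (x (nat_lit 15) (nat_lit 0) (nat_lit 0)) (Nat.add (x (nat_lit 16) (nat_lit 0) (nat_lit 0)) (x (nat_lit 17) (nat_lit 0) (nat_lit 0))))) (Nat.add (Nat.add (x (nat_lit 18) (nat_lit 0) (nat_lit 0)) (Nat.add (x (nat_lit 19) (nat_lit 0) (nat_lit 0)) (x (nat_lit 20) (nat_lit 0) (nat_lit 0)))) (Nat.add (Nat.add (x (nat_lit 21) (nat_lit 0) (nat_lit 0)) (x (nat_lit 22) (nat_lit 0) (nat_lit 0))) (Nat.add (x (nat_lit 23) (nat_lit 0) (nat_lit 0)) (x (nat_lit 24) (nat_lit 0) (nat_lit 0)))))))⟩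
  (TL.cons ⟨fun x => (Nat.add (Nat.add (Nat.add (Nat.add (x (nat_lit 0) (nat_lit 0) (nat_lit 0)) (Nat.add (x (nat_lit 1) (nat_lit 0) (nat_lit 0)) (x (nat_lit 2) (nat_lit 0) (nat_lit 0)))) (Nat.add (x (nat_lit 3) (nat_lit 0) (nat_lit 0)) (Nat.add (x (nat_lit 4) (nat_lit 0) (nat_lit 0)) (x (nat_lit 5) (nat_lit 0) (nat_lit 0))))) (Nat.add (Nat.add (x (nat_lit 6) (nat_lit 0) (nat_lit 0)) (Nat.add (x (nat_lit 7) (nat_lit 0) (nat_lit 0)) (x (nat_lit 8) (nat_lit 0) (nat_lit 0)))) (Nat.add (Nat.add (x (nat_lit 9) (nat_lit 0) (nat_lit 0)) (x (nat_lit 10) (nat_lit 0) (nat_lit 0))) (Nat.add (x (nat_lit 11) (nat_lit 0) (nat_lit 0)) (x (nat_lit 12) (nat_lit 0) (nat_lit 0)))))) (Nat.add (Nat.add (Nat.add (x (nat_lit 13) (nat_lit 0) (nat_lit 0)) (Nat.add (x (nat_lit 14) (nat_lit 0) (nat_lit 0)) (x (nat_lit 15) (nat_lit 0) (nat_lit 0)))) (Nat.add (x (nat_lit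 16) (nat_lit 0) (nat_lit 0)) (Nat.add (x (nat_lit 17) (nat_lit 0) (nat_lit 0)) (x (nat_lit 18) (nat_lit 0) (nat_lit 0))))) (Nat.add (Nat.add (x (nat_lit 19) (nat_lit 0) (nat_lit 0)) (Nat.add (x (nat_lit 20) (nat_lit 0) (nat_lit 0)) (x (nat_lit 21) (nat_lit 0) (nat_lit 0)))) (Nat.add (Nat.add (x (nat_lit 22) (nat_lit 0) (nat_lit 0)) (x (nat_lit 23) (nat_lit 0) (nat_lit 0))) (Nat.add (x (nat_lit 24) (nat_lit 0) (nat_lit 0)) (x (nat_lit 25) (nat_lit 0) (nat_lit 0)))))))⟩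
  (TL.cons ⟨fun x => (Nat.add (Nat.add (Nat.add (Nat.add (x (nat_lit 0) (nat_lit 0) (nat_lit 0)) (Nat.add (x (nat_lit 1) (nat_lit 0) (nat_lit 0)) (x (nat_lit 2) (nat_lit 0) (nat_lit 0)))) (Nat.add (x (nat_lit 3) (nat_lit 0) (nat_lit 0)) (Nat.add (x (nat_lit 4) (nat_lit 0) (nat_lit 0)) (x (nat_lit 5) (nat_lit 0) (nat_lit 0))))) (Nat.add (Nat.add (x (nat_lit 6) (nat_lit 0) (nat_lit 0)) (Nat.add (x (nat_lit 7) (nat_lit 0) (nat_lit 0)) (x (nat_lit 8) (nat_lit 0) (nat_lit 0)))) (Nat.add (Nat.add (x (nat_lit 9) (nat_lit 0) (nat_lit 0)) (x (nat_lit 10) (nat_lit 0) (nat_lit 0))) (Nat.add (x (nat_lit 11) (nat_lit 0) (nat_lit 0)) (x (nat_lit 12) (nat_lit 0) (nat_lit 0)))))) (Nat.add (Nat.add (Nat.add (x (nat_lit 13) (nat_lit 0) (nat_lit 0)) (Nat.add (x (nat_lit 14) (nat_lit 0) (nat_lit 0)) (x (nat_lit 15) (nat_lit 0) (nat_lit 0)))) (Nat.add (Nat.add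 (x (nat_lit 16) (nat_lit 0) (nat_lit 0)) (x (nat_lit 17) (nat_lit 0) (nat_lit 0))) (Nat.add (x (nat_lit 18) (nat_lit 0) (nat_lit 0)) (x (nat_lit 19) (nat_lit 0) (nat_lit 0))))) (Nat.add (Nat.add (x (nat_lit 20) (nat_lit 0) (nat_lit 0)) (Nat.add (x (nat_lit 21) (nat_lit 0) (nat_lit 0)) (x (nat_lit 22) (nat_lit 0) (nat_lit 0)))) (Nat.add (Nat.add (x (nat_lit 23) (nat_lit 0) (nat_lit 0)) (x (nat_lit 24) (nat_lit 0) (nat_lit 0))) (Nat.add (x (nat_lit 25) (nat_lit 0) (nat_lit 0)) (x (nat_lit 26) (nat_lit 0) (nat_lit 0)))))))⟩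
  (TL.cons ⟨fun x => (Nat.add (Nat.add (Nat.add (Nat.add (x (nat_lit 0) (nat_lit 0) (nat_lit 0)) (Nat.add (x (nat_lit 1) (nat_lit 0) (nat_lit 0)) (x (nat_lit 2) (nat_lit 0) (nat_lit 0)))) (Nat.add (Nat.add (x (nat_lit 3) (nat_lit 0) (nat_lit 0)) (x (nat_lit 4) (nat_lit 0) (nat_lit 0))) (Nat.add (x (nat_lit 5) (nat_lit 0) (nat_lit 0)) (x (nat_lit 6) (nat_lit 0) (nat_lit 0))))) (Nat.add (Nat.add (x (nat_lit 7) (nat_lit 0) (nat_lit 0)) (Nat.add (x (nat_lit 8) (nat_lit 0) (nat_lit 0)) (x (nat_lit 9) (nat_lit 0) (nat_lit 0)))) (Nat.add (Nat.add (x (nat_lit 10) (nat_lit 0) (nat_lit 0)) (x (nat_lit 11) (nat_lit 0) (nat_lit 0))) (Nat.add (x (nat_lit 12) (nat_lit 0) (nat_lit 0)) (x (nat_lit 13) (nat_lit 0) (nat_lit 0)))))) (Nat.add (Nat.add (Nat.add (x (nat_lit 14) (nat_lit 0) (nat_lit 0)) (Nat.add (x (nat_lit 15) (nat_lit 0) (nat_lit 0)) (x (nat_lit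 16) (nat_lit 0) (nat_lit 0)))) (Nat.add (Nat.add (x (nat_lit 17) (nat_lit 0) (nat_lit 0)) (x (nat_lit 18) (nat_lit 0) (nat_lit 0))) (Nat.add (x (nat_lit 19) (nat_lit 0) (nat_lit 0)) (x (nat_lit 20) (nat_lit 0) (nat_lit 0))))) (Nat.add (Nat.add (x (nat_lit 21) (nat_lit 0) (nat_lit 0)) (Nat.add (x (nat_lit 22) (nat_lit 0) (nat_lit 0)) (x (nat_lit 23) (nat_lit 0) (nat_lit 0)))) (Nat.add (Nat.add (x (nat_lit 24) (nat_lit 0) (nat_lit 0)) (x (nat_lit 25) (nat_lit 0) (nat_lit 0))) (Nat.add (x (nat_lit 26) (nat_lit 0) (nat_lit 0)) (x (nat_lit 27) (nat_lit 0) (nat_lit 0)))))))⟩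
  (TL.cons ⟨fun x => (Nat.add (Nat.add (Nat.add (Nat.add (x (nat_lit 0) (nat_lit 0) (nat_lit 0)) (Nat.add (x (nat_lit 1) (nat_lit 0) (nat_lit 0)) (x (nat_lit 2) (nat_lit 0) (nat_lit 0)))) (Nat.add (Nat.add (x (nat_lit 3) (nat_lit 0) (nat_lit 0)) (x (nat_lit 4) (nat_lit 0) (nat_lit 0))) (Nat.add (x (nat_lit 5) (nat_lit 0) (nat_lit 0)) (x (nat_lit 6) (nat_lit 0) (nat_lit 0))))) (Nat.add (Nat.add (x (nat_lit 7) (nat_lit 0) (nat_lit 0)) (Nat.add (x (nat_lit 8) (nat_lit 0) (nat_lit 0)) (x (nat_lit 9) (nat_lit 0) (nat_lit 0)))) (Nat.add (Nat.add (x (nat_lit 10) (nat_lit 0) (nat_lit 0)) (x (nat_lit 11) (nat_lit 0) (nat_lit 0))) (Nat.add (x (nat_lit 12) (nat_lit 0) (nat_lit 0)) (x (nat_lit 13) (nat_lit 0) (nat_lit 0)))))) (Nat.add (Nat.add (Nat.add (x (nat_lit 14) (nat_lit 0) (nat_lit 0)) (Nat.add (x (nat_lit 15) (nat_lit 0) (nat_lit 0)) (x (nat_lit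 16) (nat_lit 0) (nat_lit 0)))) (Nat.add (Nat.add (x (nat_lit 17) (nat_lit 0) (nat_lit 0)) (x (nat_lit 18) (nat_lit 0) (nat_lit 0))) (Nat.add (x (nat_lit 19) (nat_lit 0) (nat_lit 0)) (x (nat_lit 20) (nat_lit 0) (nat_lit 0))))) (Nat.add (Nat.add (Nat.add (x (nat_lit 21) (nat_lit 0) (nat_lit 0)) (x (nat_lit 22) (nat_lit 0) (nat_lit 0))) (Nat.add (x (nat_lit 23) (nat_lit 0) (nat_lit 0)) (x (nat_lit 24) (nat_lit 0) (nat_lit 0)))) (Nat.add (Nat.add (x (nat_lit 25) (nat_lit 0) (nat_lit 0)) (x (nat_lit 26) (nat_lit 0) (nat_lit 0))) (Nat.add (x (nat_lit 27) (nat_lit 0) (nat_lit 0)) (x (nat_lit 28) (nat_lit 0) (nat_lit 0)))))))⟩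
  (TL.cons ⟨fun x => (Nat.add (Nat.add (Nat.add (Nat.add (x (nat_lit 0) (nat_lit 0) (nat_lit 0)) (Nat.add (x (nat_lit 1) (nat_lit 0) (nat_lit 0)) (x (nat_lit 2) (nat_lit 0) (nat_lit 0)))) (Nat.add (Nat.add (x (nat_lit 3) (nat_lit 0) (nat_lit 0)) (x (nat_lit 4) (nat_lit 0) (nat_lit 0))) (Nat.add (x (nat_lit 5) (nat_lit 0) (nat_lit 0)) (x (nat_lit 6) (nat_lit 0) (nat_lit 0))))) (Nat.add (Nat.add (Nat.add (x (nat_lit 7) (nat_lit 0) (nat_lit 0)) (x (nat_lit 8) (nat_lit 0) (nat_lit 0))) (Nat.add (x (nat_lit 9) (nat_lit 0) (nat_lit 0)) (x (nat_lit 10) (nat_lit 0) (nat_lit 0)))) (Nat.add (Nat.add (x (nat_lit 11) (nat_lit 0) (nat_lit 0)) (x (nat_lit 12) (nat_lit 0) (nat_lit 0))) (Nat.add (x (nat_lit 13) (nat_lit 0) (nat_lit 0)) (x (nat_lit 14) (nat_lit 0) (nat_lit 0)))))) (Nat.add (Nat.add (Nat.add (x (nat_lit 15) (nat_lit 0) (nat_lit 0)) (Nat.add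 (x (nat_lit 16) (nat_lit 0) (nat_lit 0)) (x (nat_lit 17) (nat_lit 0) (nat_lit 0)))) (Nat.add (Nat.add (x (nat_lit 18) (nat_lit 0) (nat_lit 0)) (x (nat_lit 19) (nat_lit 0) (nat_lit 0))) (Nat.add (x (nat_lit 20) (nat_lit 0) (nat_lit 0)) (x (nat_lit 21) (nat_lit 0) (nat_lit 0))))) (Nat.add (Nat.add (Nat.add (x (nat_lit 22) (nat_lit 0) (nat_lit 0)) (x (nat_lit 23) (nat_lit 0) (nat_lit 0))) (Nat.add (x (nat_lit 24) (nat_lit 0) (nat_lit 0)) (x (nat_lit 25) (nat_lit 0) (nat_lit 0)))) (Nat.add (Nat.add (x (nat_lit 26) (nat_lit 0) (nat_lit 0)) (x (nat_lit 27) (nat_lit 0) (nat_lit 0))) (Nat.add (x (nat_lit 28) (nat_lit 0) (nat_lit 0)) (x (nat_lit 29) (nat_lit 0) (nat_lit 0)))))))⟩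
  (TL.cons ⟨fun x => (Nat.add (Nat.add (Nat.add (Nat.add (x (nat_lit 0) (nat_lit 0) (nat_lit 0)) (Nat.add (x (nat_lit 1) (nat_lit 0) (nat_lit 0)) (x (nat_lit 2) (nat_lit 0) (nat_lit 0)))) (Nat.add (Nat.add (x (nat_lit 3) (nat_lit 0) (nat_lit 0)) (x (nat_lit 4) (nat_lit 0) (nat_lit 0))) (Nat.add (x (nat_lit 5) (nat_lit 0) (nat_lit 0)) (x (nat_lit 6) (nat_lit 0) (nat_lit 0))))) (Nat.add (Nat.add (Nat.add (x (nat_lit 7) (nat_lit 0) (nat_lit 0)) (x (nat_lit 8) (nat_lit 0) (nat_lit 0))) (Nat.add (x (nat_lit 9) (nat_lit 0) (nat_lit 0)) (x (nat_lit 10) (nat_lit 0) (nat_lit 0)))) (Nat.add (Nat.add (x (nat_lit 11) (nat_lit 0) (nat_lit 0)) (x (nat_lit 12) (nat_lit 0) (nat_lit 0))) (Nat.add (x (nat_lit 13) (nat_lit 0) (nat_lit 0)) (x (nat_lit 14) (nat_lit 0) (nat_lit 0)))))) (Nat.add (Nat.add (Nat.add (Nat.add (x (nat_lit 15) (nat_lit 0) (nat_lit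 0)) (x (nat_lit 16) (nat_lit 0) (nat_lit 0))) (Nat.add (x (nat_lit 17) (nat_lit 0) (nat_lit 0)) (x (nat_lit 18) (nat_lit 0) (nat_lit 0)))) (Nat.add (Nat.add (x (nat_lit 19) (nat_lit 0) (nat_lit 0)) (x (nat_lit 20) (nat_lit 0) (nat_lit 0))) (Nat.add (x (nat_lit 21) (nat_lit 0) (nat_lit 0)) (x (nat_lit 22) (nat_lit 0) (nat_lit 0))))) (Nat.add (Nat.add (Nat.add (x (nat_lit 23) (nat_lit 0) (nat_lit 0)) (x (nat_lit 24) (nat_lit 0) (nat_lit 0))) (Nat.add (x (nat_lit 25) (nat_lit 0) (nat_lit 0)) (x (nat_lit 26) (nat_lit 0) (nat_lit 0)))) (Nat.add (Nat.add (x (nat_lit 27) (nat_lit 0) (nat_lit 0)) (x (nat_lit 28) (nat_lit 0) (nat_lit 0))) (Nat.add (x (nat_lit 29) (nat_lit 0) (nat_lit 0)) (x (nat_lit 30) (nat_lit 0) (nat_lit 0)))))))⟩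
  (TL.cons ⟨fun x => (Nat.add (Nat.add (Nat.add (Nat.add (Nat.add (x (nat_lit 0) (nat_lit 0) (nat_lit 0)) (x (nat_lit 1) (nat_lit 0) (nat_lit 0))) (Nat.add (x (nat_lit 2) (nat_lit 0) (nat_lit 0)) (x (nat_lit 3) (nat_lit 0) (nat_lit 0)))) (Nat.add (Nat.add (x (nat_lit 4) (nat_lit 0) (nat_lit 0)) (x (nat_lit 5) (nat_lit 0) (nat_lit 0))) (Nat.add (x (nat_lit 6) (nat_lit 0) (nat_lit 0)) (x (nat_lit 7) (nat_lit 0) (nat_lit 0))))) (Nat.add (Nat.add (Nat.add (x (nat_lit 8) (nat_lit 0) (nat_lit 0)) (x (nat_lit 9) (nat_lit 0) (nat_lit 0))) (Nat.add (x (nat_lit 10) (nat_lit 0) (nat_lit 0)) (x (nat_lit 11) (nat_lit 0) (nat_lit 0)))) (Nat.add (Nat.add (x (nat_lit 12) (nat_lit 0) (nat_lit 0)) (x (nat_lit 13) (nat_lit 0) (nat_lit 0))) (Nat.add (x (nat_lit 14) (nat_lit 0) (nat_lit 0)) (x (nat_lit 15) (nat_lit 0) (nat_lit 0)))))) (Nat.add (Nat.add (Nat.add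 (Nat.add (x (nat_lit 16) (nat_lit 0) (nat_lit 0)) (x (nat_lit 17) (nat_lit 0) (nat_lit 0))) (Nat.add (x (nat_lit 18) (nat_lit 0) (nat_lit 0)) (x (nat_lit 19) (nat_lit 0) (nat_lit 0)))) (Nat.add (Nat.add (x (nat_lit 20) (nat_lit 0) (nat_lit 0)) (x (nat_lit 21) (nat_lit 0) (nat_lit 0))) (Nat.add (x (nat_lit 22) (nat_lit 0) (nat_lit 0)) (x (nat_lit 23) (nat_lit 0) (nat_lit 0))))) (Nat.add (Nat.add (Nat.add (x (nat_lit 24) (nat_lit 0) (nat_lit 0)) (x (nat_lit 25) (nat_lit 0) (nat_lit 0))) (Nat.add (x (nat_lit 26) (nat_lit 0) (nat_lit 0)) (x (nat_lit 27) (nat_lit 0) (nat_lit 0)))) (Nat.add (Nat.add (x (nat_lit 28) (nat_lit 0) (nat_lit 0)) (x (nat_lit 29) (nat_lit 0) (nat_lit 0))) (Nat.add (x (nat_lit 30) (nat_lit 0) (nat_lit 0)) (x (nat_lit 31) (nat_lit 0) (nat_lit 0)))))))⟩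
  (TL.cons ⟨fun x => (Nat.add (Nat.add (Nat.add (Nat.add (Nat.add (x (nat_lit 0) (nat_lit 0) (nat_lit 0)) (x (nat_lit 1) (nat_lit 0) (nat_lit 0))) (Nat.add (x (nat_lit 2) (nat_lit 0) (nat_lit 0)) (x (nat_lit 3) (nat_lit 0) (nat_lit 0)))) (Nat.add (Nat.add (x (nat_lit 4) (nat_lit 0) (nat_lit 0)) (x (nat_lit 5) (nat_lit 0) (nat_lit 0))) (Nat.add (x (nat_lit 6) (nat_lit 0) (nat_lit 0)) (x (nat_lit 7) (nat_lit 0) (nat_lit 0))))) (Nat.add (Nat.add (Nat.add (x (nat_lit 8) (nat_lit 0) (nat_lit 0)) (x (nat_lit 9) (nat_lit 0) (nat_lit 0))) (Nat.add (x (nat_lit 10) (nat_lit 0) (nat_lit 0)) (x (nat_lit 11) (nat_lit 0) (nat_lit 0)))) (Nat.add (Nat.add (x (nat_lit 12) (nat_lit 0) (nat_lit 0)) (x (nat_lit 13) (nat_lit 0) (nat_lit 0))) (Nat.add (x (nat_lit 14) (nat_lit 0) (nat_lit 0)) (x (nat_lit 15) (nat_lit 0) (nat_lit 0)))))) (Nat.add (Nat.add (Nat.add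 (Nat.add (x (nat_lit 16) (nat_lit 0) (nat_lit 0)) (x (nat_lit 17) (nat_lit 0) (nat_lit 0))) (Nat.add (x (nat_lit 18) (nat_lit 0) (nat_lit 0)) (x (nat_lit 19) (nat_lit 0) (nat_lit 0)))) (Nat.add (Nat.add (x (nat_lit 20) (nat_lit 0) (nat_lit 0)) (x (nat_lit 21) (nat_lit 0) (nat_lit 0))) (Nat.add (x (nat_lit 22) (nat_lit 0) (nat_lit 0)) (x (nat_lit 23) (nat_lit 0) (nat_lit 0))))) (Nat.add (Nat.add (Nat.add (x (nat_lit 24) (nat_lit 0) (nat_lit 0)) (x (nat_lit 25) (nat_lit 0) (nat_lit 0))) (Nat.add (x (nat_lit 26) (nat_lit 0) (nat_lit 0)) (x (nat_lit 27) (nat_lit 0) (nat_lit 0)))) (Nat.add (Nat.add (x (nat_lit 28) (nat_lit 0) (nat_lit 0)) (x (nat_lit 29) (nat_lit 0) (nat_lit 0))) (Nat.add (x (nat_lit 30) (nat_lit 0) (nat_lit 0)) (Nat.add (x (nat_lit 31) (nat_lit 0) (nat_lit 0)) (x (nat_lit 32) (nat_lit 0) (nat_lit 0))))))))⟩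
  (TL.cons ⟨fun x => (Nat.add (Nat.add (Nat.add (Nat.add (Nat.add (x (nat_lit 0) (nat_lit 0) (nat_lit 0)) (x (nat_lit 1) (nat_lit 0) (nat_lit 0))) (Nat.add (x (nat_lit 2) (nat_lit 0) (nat_lit 0)) (x (nat_lit 3) (nat_lit 0) (nat_lit 0)))) (Nat.add (Nat.add (x (nat_lit 4) (nat_lit 0) (nat_lit 0)) (x (nat_lit 5) (nat_lit 0) (nat_lit 0))) (Nat.add (x (nat_lit 6) (nat_lit 0) (nat_lit 0)) (x (nat_lit 7) (nat_lit 0) (nat_lit 0))))) (Nat.add (Nat.add (Nat.add (x (nat_lit 8) (nat_lit 0) (nat_lit 0)) (x (nat_lit 9) (nat_lit 0) (nat_lit 0))) (Nat.add (x (nat_lit 10) (nat_lit 0) (nat_lit 0)) (x (nat_lit 11) (nat_lit 0) (nat_lit 0)))) (Nat.add (Nat.add (x (nat_lit 12) (nat_lit 0) (nat_lit 0)) (x (nat_lit 13) (nat_lit 0) (nat_lit 0))) (Nat.add (x (nat_lit 14) (nat_lit 0) (nat_lit 0)) (Nat.add (x (nat_lit 15) (nat_lit 0) (nat_lit 0)) (x (nat_lit 16)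 (nat_lit 0) (nat_lit 0))))))) (Nat.add (Nat.add (Nat.add (Nat.add (x (nat_lit 17) (nat_lit 0) (nat_lit 0)) (x (nat_lit 18) (nat_lit 0) (nat_lit 0))) (Nat.add (x (nat_lit 19) (nat_lit 0) (nat_lit 0)) (x (nat_lit 20) (nat_lit 0) (nat_lit 0)))) (Nat.add (Nat.add (x (nat_lit 21) (nat_lit 0) (nat_lit 0)) (x (nat_lit 22) (nat_lit 0) (nat_lit 0))) (Nat.add (x (nat_lit 23) (nat_lit 0) (nat_lit 0)) (x (nat_lit 24) (nat_lit 0) (nat_lit 0))))) (Nat.add (Nat.add (Nat.add (x (nat_lit 25) (nat_lit 0) (nat_lit 0)) (x (nat_lit 26) (nat_lit 0) (nat_lit 0))) (Nat.add (x (nat_lit 27) (nat_lit 0) (nat_lit 0)) (x (nat_lit 28) (nat_lit 0) (nat_lit 0)))) (Nat.add (Nat.add (x (nat_lit 29) (nat_lit 0) (nat_lit 0)) (x (nat_lit 30) (nat_lit 0) (nat_lit 0))) (Nat.add (x (nat_lit 31) (nat_lit 0) (nat_lit 0)) (Nat.add (x (nat_lit 32) (nat_lit 0) (nat_lit 0)) (x (nat_lit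 33) (nat_lit 0) (nat_lit 0))))))))⟩
  (TL.cons ⟨fun x => (Nat.add (Nat.add (Nat.add (Nat.add (Nat.add (x (nat_lit 0) (nat_lit 0) (nat_lit 0)) (x (nat_lit 1) (nat_lit 0) (nat_lit 0))) (Nat.add (x (nat_lit 2) (nat_lit 0) (nat_lit 0)) (x (nat_lit 3) (nat_lit 0) (nat_lit 0)))) (Nat.add (Nat.add (x (nat_lit 4) (nat_lit 0) (nat_lit 0)) (x (nat_lit 5) (nat_lit 0) (nat_lit 0))) (Nat.add (x (nat_lit 6) (nat_lit 0) (nat_lit 0)) (x (nat_lit 7) (nat_lit 0) (nat_lit 0))))) (Nat.add (Nat.add (Nat.add (x (nat_lit 8) (nat_lit 0) (nat_lit 0)) (x (nat_lit 9) (nat_lit 0) (nat_lit 0))) (Nat.add (x (nat_lit 10) (nat_lit 0) (nat_lit 0)) (x (nat_lit 11) (nat_lit 0) (nat_lit 0)))) (Nat.add (Nat.add (x (nat_lit 12) (nat_lit 0) (nat_lit 0)) (x (nat_lit 13) (nat_lit 0) (nat_lit 0))) (Nat.add (x (nat_lit 14) (nat_lit 0) (nat_lit 0)) (Nat.add (x (nat_lit 15) (nat_lit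 0) (nat_lit 0)) (x (nat_lit 16) (nat_lit 0) (nat_lit 0))))))) (Nat.add (Nat.add (Nat.add (Nat.add (x (nat_lit 17) (nat_lit 0) (nat_lit 0)) (x (nat_lit 18) (nat_lit 0) (nat_lit 0))) (Nat.add (x (nat_lit 19) (nat_lit 0) (nat_lit 0)) (x (nat_lit 20) (nat_lit 0) (nat_lit 0)))) (Nat.add (Nat.add (x (nat_lit 21) (nat_lit 0) (nat_lit 0)) (x (nat_lit 22) (nat_lit 0) (nat_lit 0))) (Nat.add (x (nat_lit 23) (nat_lit 0) (nat_lit 0)) (Nat.add (x (nat_lit 24) (nat_lit 0) (nat_lit 0)) (x (nat_lit 25) (nat_lit 0) (nat_lit 0)))))) (Nat.add (Nat.add (Nat.add (x (nat_lit 26) (nat_lit 0) (nat_lit 0)) (x (nat_lit 27) (nat_lit 0) (nat_lit 0))) (Nat.add (x (nat_lit 28) (nat_lit 0) (nat_lit 0)) (x (nat_lit 29) (nat_lit 0) (nat_lit 0)))) (Nat.add (Nat.add (x (nat_lit 30) (nat_lit 0) (nat_lit 0)) (x (nat_lit 31) (nat_lit 0) (nat_lit 0))) (Nat.add (x (nat_lit 32)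 (nat_lit 0) (nat_lit 0)) (Nat.add (x (nat_lit 33) (nat_lit 0) (nat_lit 0)) (x (nat_lit 34) (nat_lit 0) (nat_lit 0))))))))⟩
  (TL.cons ⟨fun x => (Nat.add (Nat.add (Nat.add (Nat.add (Nat.add (x (nat_lit 0) (nat_lit 0) (nat_lit 0)) (x (nat_lit 1) (nat_lit 0) (nat_lit 0))) (Nat.add (x (nat_lit 2) (nat_lit 0) (nat_lit 0)) (x (nat_lit 3) (nat_lit 0) (nat_lit 0)))) (Nat.add (Nat.add (x (nat_lit 4) (nat_lit 0) (nat_lit 0)) (x (nat_lit 5) (nat_lit 0) (nat_lit 0))) (Nat.add (x (nat_lit 6) (nat_lit 0) (nat_lit 0)) (Nat.add (x (nat_lit 7) (nat_lit 0) (nat_lit 0)) (x (nat_lit 8) (nat_lit 0) (nat_lit 0)))))) (Nat.add (Nat.add (Nat.add (x (nat_lit 9) (nat_lit 0) (nat_lit 0)) (x (nat_lit 10) (nat_lit 0) (nat_lit 0))) (Nat.add (x (nat_lit 11) (nat_lit 0) (nat_lit 0)) (x (nat_lit 12) (nat_lit 0) (nat_lit 0)))) (Nat.add (Nat.add (x (nat_lit 13) (nat_lit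 0) (nat_lit 0)) (x (nat_lit 14) (nat_lit 0) (nat_lit 0))) (Nat.add (x (nat_lit 15) (nat_lit 0) (nat_lit 0)) (Nat.add (x (nat_lit 16) (nat_lit 0) (nat_lit 0)) (x (nat_lit 17) (nat_lit 0) (nat_lit 0))))))) (Nat.add (Nat.add (Nat.add (Nat.add (x (nat_lit 18) (nat_lit 0) (nat_lit 0)) (x (nat_lit 19) (nat_lit 0) (nat_lit 0))) (Nat.add (x (nat_lit 20) (nat_lit 0) (nat_lit 0)) (x (nat_lit 21) (nat_lit 0) (nat_lit 0)))) (Nat.add (Nat.add (x (nat_lit 22) (nat_lit 0) (nat_lit 0)) (x (nat_lit 23) (nat_lit 0) (nat_lit 0))) (Nat.add (x (nat_lit 24) (nat_lit 0) (nat_lit 0)) (Nat.add (x (nat_lit 25) (nat_lit 0) (nat_lit 0)) (x (nat_lit 26) (nat_lit 0) (nat_lit 0)))))) (Nat.add (Nat.add (Nat.add (x (nat_lit 27) (nat_lit 0) (nat_lit 0)) (x (nat_lit 28) (nat_lit 0) (nat_lit 0))) (Nat.add (x (nat_lit 29) (nat_lit 0) (nat_lit 0)) (x (nat_lit 30) (nat_lit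 0) (nat_lit 0)))) (Nat.add (Nat.add (x (nat_lit 31) (nat_lit 0) (nat_lit 0)) (x (nat_lit 32) (nat_lit 0) (nat_lit 0))) (Nat.add (x (nat_lit 33) (nat_lit 0) (nat_lit 0)) (Nat.add (x (nat_lit 34) (nat_lit 0) (nat_lit 0)) (x (nat_lit 35) (nat_lit 0) (nat_lit 0))))))))⟩
  (TL.cons ⟨fun x => (Nat.add (Nat.add (Nat.add (Nat.add (Nat.add (x (nat_lit 0) (nat_lit 0) (nat_lit 0)) (x (nat_lit 1) (nat_lit 0) (nat_lit 0))) (Nat.add (x (nat_lit 2) (nat_lit 0) (nat_lit 0)) (x (nat_lit 3) (nat_lit 0) (nat_lit 0)))) (Nat.add (Nat.add (x (nat_lit 4) (nat_lit 0) (nat_lit 0)) (x (nat_lit 5) (nat_lit 0) (nat_lit 0))) (Nat.add (x (nat_lit 6) (nat_lit 0) (nat_lit 0)) (Nat.add (x (nat_lit 7) (nat_lit 0) (nat_lit 0)) (x (nat_lit 8) (nat_lit 0) (nat_lit 0)))))) (Nat.add (Nat.add (Nat.add (x (nat_lit 9) (nat_lit 0) (nat_lit 0)) (x (nat_lit 10) (nat_lit 0) (nat_lit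 0))) (Nat.add (x (nat_lit 11) (nat_lit 0) (nat_lit 0)) (x (nat_lit 12) (nat_lit 0) (nat_lit 0)))) (Nat.add (Nat.add (x (nat_lit 13) (nat_lit 0) (nat_lit 0)) (x (nat_lit 14) (nat_lit 0) (nat_lit 0))) (Nat.add (x (nat_lit 15) (nat_lit 0) (nat_lit 0)) (Nat.add (x (nat_lit 16) (nat_lit 0) (nat_lit 0)) (x (nat_lit 17) (nat_lit 0) (nat_lit 0))))))) (Nat.add (Nat.add (Nat.add (Nat.add (x (nat_lit 18) (nat_lit 0) (nat_lit 0)) (x (nat_lit 19) (nat_lit 0) (nat_lit 0))) (Nat.add (x (nat_lit 20) (nat_lit 0) (nat_lit 0)) (x (nat_lit 21) (nat_lit 0) (nat_lit 0)))) (Nat.add (Nat.add (x (nat_lit 22) (nat_lit 0) (nat_lit 0)) (x (nat_lit 23) (nat_lit 0) (nat_lit 0))) (Nat.add (x (nat_lit 24) (nat_lit 0) (nat_lit 0)) (Nat.add (x (nat_lit 25) (nat_lit 0) (nat_lit 0)) (x (nat_lit 26) (nat_lit 0) (nat_lit 0)))))) (Nat.add (Nat.add (Nat.add (x (nat_lit 27) (nat_lit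 0) (nat_lit 0)) (x (nat_lit 28) (nat_lit 0) (nat_lit 0))) (Nat.add (x (nat_lit 29) (nat_lit 0) (nat_lit 0)) (Nat.add (x (nat_lit 30) (nat_lit 0) (nat_lit 0)) (x (nat_lit 31) (nat_lit 0) (nat_lit 0))))) (Nat.add (Nat.add (x (nat_lit 32) (nat_lit 0) (nat_lit 0)) (x (nat_lit 33) (nat_lit 0) (nat_lit 0))) (Nat.add (x (nat_lit 34) (nat_lit 0) (nat_lit 0)) (Nat.add (x (nat_lit 35) (nat_lit 0) (nat_lit 0)) (x (nat_lit 36) (nat_lit 0) (nat_lit 0))))))))⟩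
  (TL.cons ⟨fun x => (Nat.add (Nat.add (Nat.add (Nat.add (Nat.add (x (nat_lit 0) (nat_lit 0) (nat_lit 0)) (x (nat_lit 1) (nat_lit 0) (nat_lit 0))) (Nat.add (x (nat_lit 2) (nat_lit 0) (nat_lit 0)) (x (nat_lit 3) (nat_lit 0) (nat_lit 0)))) (Nat.add (Nat.add (x (nat_lit 4) (nat_lit 0) (nat_lit 0)) (x (nat_lit 5) (nat_lit 0) (nat_lit 0))) (Nat.add (x (nat_lit 6) (nat_lit 0) (nat_lit 0)) (Nat.add (x (nat_lit 7) (nat_lit 0) (nat_lit 0)) (x (nat_lit 8) (nat_lit 0) (nat_lit 0)))))) (Nat.add (Nat.add (Nat.add (x (nat_lit 9) (nat_lit 0) (nat_lit 0)) (x (nat_lit 10) (nat_lit 0) (nat_lit 0))) (Nat.add (x (nat_lit 11) (nat_lit 0) (nat_lit 0)) (Nat.add (x (nat_lit 12) (nat_lit 0) (nat_lit 0)) (x (nat_lit 13) (nat_lit 0) (nat_lit 0))))) (Nat.add (Nat.add (x (nat_lit 14) (nat_lit 0) (nat_lit 0)) (x (nat_lit 15) (nat_lit 0) (nat_lit 0))) (Nat.add (x (nat_lit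 16) (nat_lit 0) (nat_lit 0)) (Nat.add (x (nat_lit 17) (nat_lit 0) (nat_lit 0)) (x (nat_lit 18) (nat_lit 0) (nat_lit 0))))))) (Nat.add (Nat.add (Nat.add (Nat.add (x (nat_lit 19) (nat_lit 0) (nat_lit 0)) (x (nat_lit 20) (nat_lit 0) (nat_lit 0))) (Nat.add (x (nat_lit 21) (nat_lit 0) (nat_lit 0)) (x (nat_lit 22) (nat_lit 0) (nat_lit 0)))) (Nat.add (Nat.add (x (nat_lit 23) (nat_lit 0) (nat_lit 0)) (x (nat_lit 24) (nat_lit 0) (nat_lit 0))) (Nat.add (x (nat_lit 25) (nat_lit 0) (nat_lit 0)) (Nat.add (x (nat_lit 26) (nat_lit 0) (nat_lit 0)) (x (nat_lit 27) (nat_lit 0) (nat_lit 0)))))) (Nat.add (Nat.add (Nat.add (x (nat_lit 28) (nat_lit 0) (nat_lit 0)) (x (nat_lit 29) (nat_lit 0) (nat_lit 0))) (Nat.add (x (nat_lit 30) (nat_lit 0) (nat_lit 0)) (Nat.add (x (nat_lit 31) (nat_lit 0) (nat_lit 0)) (x (nat_lit 32) (nat_lit 0) (nat_lit 0))))) (Nat.add (Nat.add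 (x (nat_lit 33) (nat_lit 0) (nat_lit 0)) (x (nat_lit 34) (nat_lit 0) (nat_lit 0))) (Nat.add (x (nat_lit 35) (nat_lit 0) (nat_lit 0)) (Nat.add (x (nat_lit 36) (nat_lit 0) (nat_lit 0)) (x (nat_lit 37) (nat_lit 0) (nat_lit 0))))))))⟩
  (TL.cons ⟨fun x => (Nat.add (Nat.add (Nat.add (Nat.add (Nat.add (x (nat_lit 0) (nat_lit 0) (nat_lit 0)) (x (nat_lit 1) (nat_lit 0) (nat_lit 0))) (Nat.add (x (nat_lit 2) (nat_lit 0) (nat_lit 0)) (x (nat_lit 3) (nat_lit 0) (nat_lit 0)))) (Nat.add (Nat.add (x (nat_lit 4) (nat_lit 0) (nat_lit 0)) (x (nat_lit 5) (nat_lit 0) (nat_lit 0))) (Nat.add (x (nat_lit 6) (nat_lit 0) (nat_lit 0)) (Nat.add (x (nat_lit 7) (nat_lit 0) (nat_lit 0)) (x (nat_lit 8) (nat_lit 0) (nat_lit 0)))))) (Nat.add (Nat.add (Nat.add (x (nat_lit 9) (nat_lit 0) (nat_lit 0)) (x (nat_lit 10) (nat_lit 0) (nat_lit 0))) (Nat.add (x (nat_lit 11) (nat_lit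 0) (nat_lit 0)) (Nat.add (x (nat_lit 12) (nat_lit 0) (nat_lit 0)) (x (nat_lit 13) (nat_lit 0) (nat_lit 0))))) (Nat.add (Nat.add (x (nat_lit 14) (nat_lit 0) (nat_lit 0)) (x (nat_lit 15) (nat_lit 0) (nat_lit 0))) (Nat.add (x (nat_lit 16) (nat_lit 0) (nat_lit 0)) (Nat.add (x (nat_lit 17) (nat_lit 0) (nat_lit 0)) (x (nat_lit 18) (nat_lit 0) (nat_lit 0))))))) (Nat.add (Nat.add (Nat.add (Nat.add (x (nat_lit 19) (nat_lit 0) (nat_lit 0)) (x (nat_lit 20) (nat_lit 0) (nat_lit 0))) (Nat.add (x (nat_lit 21) (nat_lit 0) (nat_lit 0)) (Nat.add (x (nat_lit 22) (nat_lit 0) (nat_lit 0)) (x (nat_lit 23) (nat_lit 0) (nat_lit 0))))) (Nat.add (Nat.add (x (nat_lit 24) (nat_lit 0) (nat_lit 0)) (x (nat_lit 25) (nat_lit 0) (nat_lit 0))) (Nat.add (x (nat_lit 26) (nat_lit 0) (nat_lit 0)) (Nat.add (x (nat_lit 27) (nat_lit 0) (nat_lit 0)) (x (nat_lit 28) (nat_lit 0)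 (nat_lit 0)))))) (Nat.add (Nat.add (Nat.add (x (nat_lit 29) (nat_lit 0) (nat_lit 0)) (x (nat_lit 30) (nat_lit 0) (nat_lit 0))) (Nat.add (x (nat_lit 31) (nat_lit 0) (nat_lit 0)) (Nat.add (x (nat_lit 32) (nat_lit 0) (nat_lit 0)) (x (nat_lit 33) (nat_lit 0) (nat_lit 0))))) (Nat.add (Nat.add (x (nat_lit 34) (nat_lit 0) (nat_lit 0)) (x (nat_lit 35) (nat_lit 0) (nat_lit 0))) (Nat.add (x (nat_lit 36) (nat_lit 0) (nat_lit 0)) (Nat.add (x (nat_lit 37) (nat_lit 0) (nat_lit 0)) (x (nat_lit 38) (nat_lit 0) (nat_lit 0))))))))⟩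
  (TL.cons ⟨fun x => (Nat.add (Nat.add (Nat.add (Nat.add (Nat.add (x (nat_lit 0) (nat_lit 0) (nat_lit 0)) (x (nat_lit 1) (nat_lit 0) (nat_lit 0))) (Nat.add (x (nat_lit 2) (nat_lit 0) (nat_lit 0)) (Nat.add (x (nat_lit 3) (nat_lit 0) (nat_lit 0)) (x (nat_lit 4) (nat_lit 0) (nat_lit 0))))) (Nat.add (Nat.add (x (nat_lit 5) (nat_lit 0) (nat_lit 0)) (x (nat_lit 6) (nat_lit 0) (nat_lit 0))) (Nat.add (x (nat_lit 7) (nat_lit 0) (nat_lit 0)) (Nat.add (x (nat_lit 8) (nat_lit 0) (nat_lit 0)) (x (nat_lit 9) (nat_lit 0) (nat_lit 0)))))) (Nat.add (Nat.add (Nat.add (x (nat_lit 10) (nat_lit 0) (nat_lit 0)) (x (nat_lit 11) (nat_lit 0) (nat_lit 0))) (Nat.add (x (nat_lit 12) (nat_lit 0) (nat_lit 0)) (Nat.add (x (nat_lit 13) (nat_lit 0) (nat_lit 0)) (x (nat_lit 14) (nat_lit 0) (nat_lit 0))))) (Nat.add (Nat.add (x (nat_lit 15) (nat_lit 0) (nat_lit 0)) (x (nat_lit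 16) (nat_lit 0) (nat_lit 0))) (Nat.add (x (nat_lit 17) (nat_lit 0) (nat_lit 0)) (Nat.add (x (nat_lit 18) (nat_lit 0) (nat_lit 0)) (x (nat_lit 19) (nat_lit 0) (nat_lit 0))))))) (Nat.add (Nat.add (Nat.add (Nat.add (x (nat_lit 20) (nat_lit 0) (nat_lit 0)) (x (nat_lit 21) (nat_lit 0) (nat_lit 0))) (Nat.add (x (nat_lit 22) (nat_lit 0) (nat_lit 0)) (Nat.add (x (nat_lit 23) (nat_lit 0) (nat_lit 0)) (x (nat_lit 24) (nat_lit 0) (nat_lit 0))))) (Nat.add (Nat.add (x (nat_lit 25) (nat_lit 0) (nat_lit 0)) (x (nat_lit 26) (nat_lit 0) (nat_lit 0))) (Nat.add (x (nat_lit 27) (nat_lit 0) (nat_lit 0)) (Nat.add (x (nat_lit 28) (nat_lit 0) (nat_lit 0)) (x (nat_lit 29) (nat_lit 0) (nat_lit 0)))))) (Nat.add (Nat.add (Nat.add (x (nat_lit 30) (nat_lit 0) (nat_lit 0)) (x (nat_lit 31) (nat_lit 0) (nat_lit 0))) (Nat.add (x (nat_lit 32) (nat_lit 0) (nat_lit 0)) (Nat.add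 (x (nat_lit 33) (nat_lit 0) (nat_lit 0)) (x (nat_lit 34) (nat_lit 0) (nat_lit 0))))) (Nat.add (Nat.add (x (nat_lit 35) (nat_lit 0) (nat_lit 0)) (x (nat_lit 36) (nat_lit 0) (nat_lit 0))) (Nat.add (x (nat_lit 37) (nat_lit 0) (nat_lit 0)) (Nat.add (x (nat_lit 38) (nat_lit 0) (nat_lit 0)) (x (nat_lit 39) (nat_lit 0) (nat_lit 0))))))))⟩
  (TL.cons ⟨fun x => (Nat.add (Nat.add (Nat.add (Nat.add (Nat.add (x (nat_lit 0) (nat_lit 0) (nat_lit 0)) (x (nat_lit 1) (nat_lit 0) (nat_lit 0))) (Nat.add (x (nat_lit 2) (nat_lit 0) (nat_lit 0)) (Nat.add (x (nat_lit 3) (nat_lit 0) (nat_lit 0)) (x (nat_lit 4) (nat_lit 0) (nat_lit 0))))) (Nat.add (Nat.add (x (nat_lit 5) (nat_lit 0) (nat_lit 0)) (x (nat_lit 6) (nat_lit 0) (nat_lit 0))) (Nat.add (x (nat_lit 7) (nat_lit 0) (nat_lit 0)) (Nat.add (x (nat_lit 8) (nat_lit 0) (nat_lit 0)) (x (nat_lit 9) (nat_lit 0) (nat_lit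 0)))))) (Nat.add (Nat.add (Nat.add (x (nat_lit 10) (nat_lit 0) (nat_lit 0)) (x (nat_lit 11) (nat_lit 0) (nat_lit 0))) (Nat.add (x (nat_lit 12) (nat_lit 0) (nat_lit 0)) (Nat.add (x (nat_lit 13) (nat_lit 0) (nat_lit 0)) (x (nat_lit 14) (nat_lit 0) (nat_lit 0))))) (Nat.add (Nat.add (x (nat_lit 15) (nat_lit 0) (nat_lit 0)) (x (nat_lit 16) (nat_lit 0) (nat_lit 0))) (Nat.add (x (nat_lit 17) (nat_lit 0) (nat_lit 0)) (Nat.add (x (nat_lit 18) (nat_lit 0) (nat_lit 0)) (x (nat_lit 19) (nat_lit 0) (nat_lit 0))))))) (Nat.add (Nat.add (Nat.add (Nat.add (x (nat_lit 20) (nat_lit 0) (nat_lit 0)) (x (nat_lit 21) (nat_lit 0) (nat_lit 0))) (Nat.add (x (nat_lit 22) (nat_lit 0) (nat_lit 0)) (Nat.add (x (nat_lit 23) (nat_lit 0) (nat_lit 0)) (x (nat_lit 24) (nat_lit 0) (nat_lit 0))))) (Nat.add (Nat.add (x (nat_lit 25) (nat_lit 0) (nat_lit 0)) (x (nat_lit 26)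 (nat_lit 0) (nat_lit 0))) (Nat.add (x (nat_lit 27) (nat_lit 0) (nat_lit 0)) (Nat.add (x (nat_lit 28) (nat_lit 0) (nat_lit 0)) (x (nat_lit 29) (nat_lit 0) (nat_lit 0)))))) (Nat.add (Nat.add (Nat.add (x (nat_lit 30) (nat_lit 0) (nat_lit 0)) (x (nat_lit 31) (nat_lit 0) (nat_lit 0))) (Nat.add (x (nat_lit 32) (nat_lit 0) (nat_lit 0)) (Nat.add (x (nat_lit 33) (nat_lit 0) (nat_lit 0)) (x (nat_lit 34) (nat_lit 0) (nat_lit 0))))) (Nat.add (Nat.add (x (nat_lit 35) (nat_lit 0) (nat_lit 0)) (Nat.add (x (nat_lit 36) (nat_lit 0) (nat_lit 0)) (x (nat_lit 37) (nat_lit 0) (nat_lit 0)))) (Nat.add (x (nat_lit 38) (nat_lit 0) (nat_lit 0)) (Nat.add (x (nat_lit 39) (nat_lit 0) (nat_lit 0)) (x (nat_lit 40) (nat_lit 0) (nat_lit 0))))))))⟩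
  (TL.cons ⟨fun x => (Nat.add (Nat.add (Nat.add (Nat.add (Nat.add (x (nat_lit 0) (nat_lit 0) (nat_lit 0)) (x (nat_lit 1) (nat_lit 0) (nat_lit 0))) (Nat.add (x (nat_lit 2) (nat_lit 0) (nat_lit 0)) (Nat.add (x (nat_lit 3) (nat_lit 0) (nat_lit 0)) (x (nat_lit 4) (nat_lit 0) (nat_lit 0))))) (Nat.add (Nat.add (x (nat_lit 5) (nat_lit 0) (nat_lit 0)) (x (nat_lit 6) (nat_lit 0) (nat_lit 0))) (Nat.add (x (nat_lit 7) (nat_lit 0) (nat_lit 0)) (Nat.add (x (nat_lit 8) (nat_lit 0) (nat_lit 0)) (x (nat_lit 9) (nat_lit 0) (nat_lit 0)))))) (Nat.add (Nat.add (Nat.add (x (nat_lit 10) (nat_lit 0) (nat_lit 0)) (x (nat_lit 11) (nat_lit 0) (nat_lit 0))) (Nat.add (x (nat_lit 12) (nat_lit 0) (nat_lit 0)) (Nat.add (x (nat_lit 13) (nat_lit 0) (nat_lit 0)) (x (nat_lit 14) (nat_lit 0) (nat_lit 0))))) (Nat.add (Nat.add (x (nat_lit 15) (nat_lit 0) (nat_lit 0)) (Nat.add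 (x (nat_lit 16) (nat_lit 0) (nat_lit 0)) (x (nat_lit 17) (nat_lit 0) (nat_lit 0)))) (Nat.add (x (nat_lit 18) (nat_lit 0) (nat_lit 0)) (Nat.add (x (nat_lit 19) (nat_lit 0) (nat_lit 0)) (x (nat_lit 20) (nat_lit 0) (nat_lit 0))))))) (Nat.add (Nat.add (Nat.add (Nat.add (x (nat_lit 21) (nat_lit 0) (nat_lit 0)) (x (nat_lit 22) (nat_lit 0) (nat_lit 0))) (Nat.add (x (nat_lit 23) (nat_lit 0) (nat_lit 0)) (Nat.add (x (nat_lit 24) (nat_lit 0) (nat_lit 0)) (x (nat_lit 25) (nat_lit 0) (nat_lit 0))))) (Nat.add (Nat.add (x (nat_lit 26) (nat_lit 0) (nat_lit 0)) (x (nat_lit 27) (nat_lit 0) (nat_lit 0))) (Nat.add (x (nat_lit 28) (nat_lit 0) (nat_lit 0)) (Nat.add (x (nat_lit 29) (nat_lit 0) (nat_lit 0)) (x (nat_lit 30) (nat_lit 0) (nat_lit 0)))))) (Nat.add (Nat.add (Nat.add (x (nat_lit 31) (nat_lit 0) (nat_lit 0)) (x (nat_lit 32) (nat_lit 0) (nat_lit 0)))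 (Nat.add (x (nat_lit 33) (nat_lit 0) (nat_lit 0)) (Nat.add (x (nat_lit 34) (nat_lit 0) (nat_lit 0)) (x (nat_lit 35) (nat_lit 0) (nat_lit 0))))) (Nat.add (Nat.add (x (nat_lit 36) (nat_lit 0) (nat_lit 0)) (Nat.add (x (nat_lit 37) (nat_lit 0) (nat_lit 0)) (x (nat_lit 38) (nat_lit 0) (nat_lit 0)))) (Nat.add (x (nat_lit 39) (nat_lit 0) (nat_lit 0)) (Nat.add (x (nat_lit 40) (nat_lit 0) (nat_lit 0)) (x (nat_lit 41) (nat_lit 0) (nat_lit 0))))))))⟩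
  (TL.cons ⟨fun x => (Nat.add (Nat.add (Nat.add (Nat.add (Nat.add (x (nat_lit 0) (nat_lit 0) (nat_lit 0)) (x (nat_lit 1) (nat_lit 0) (nat_lit 0))) (Nat.add (x (nat_lit 2) (nat_lit 0) (nat_lit 0)) (Nat.add (x (nat_lit 3) (nat_lit 0) (nat_lit 0)) (x (nat_lit 4) (nat_lit 0) (nat_lit 0))))) (Nat.add (Nat.add (x (nat_lit 5) (nat_lit 0) (nat_lit 0)) (x (nat_lit 6) (nat_lit 0) (nat_lit 0))) (Nat.add (x (nat_lit 7) (nat_lit 0) (nat_lit 0)) (Nat.add (x (nat_lit 8) (nat_lit 0) (nat_lit 0)) (x (nat_lit 9) (nat_lit 0) (nat_lit 0)))))) (Nat.add (Nat.add (Nat.add (x (nat_lit 10) (nat_lit 0) (nat_lit 0)) (x (nat_lit 11) (nat_lit 0) (nat_lit 0))) (Nat.add (x (nat_lit 12) (nat_lit 0) (nat_lit 0)) (Nat.add (x (nat_lit 13) (nat_lit 0) (nat_lit 0)) (x (nat_lit 14) (nat_lit 0) (nat_lit 0))))) (Nat.add (Nat.add (x (nat_lit 15) (nat_lit 0) (nat_lit 0)) (Nat.add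 (x (nat_lit 16) (nat_lit 0) (nat_lit 0)) (x (nat_lit 17) (nat_lit 0) (nat_lit 0)))) (Nat.add (x (nat_lit 18) (nat_lit 0) (nat_lit 0)) (Nat.add (x (nat_lit 19) (nat_lit 0) (nat_lit 0)) (x (nat_lit 20) (nat_lit 0) (nat_lit 0))))))) (Nat.add (Nat.add (Nat.add (Nat.add (x (nat_lit 21) (nat_lit 0) (nat_lit 0)) (x (nat_lit 22) (nat_lit 0) (nat_lit 0))) (Nat.add (x (nat_lit 23) (nat_lit 0) (nat_lit 0)) (Nat.add (x (nat_lit 24) (nat_lit 0) (nat_lit 0)) (x (nat_lit 25) (nat_lit 0) (nat_lit 0))))) (Nat.add (Nat.add (x (nat_lit 26) (nat_lit 0) (nat_lit 0)) (Nat.add (x (nat_lit 27) (nat_lit 0) (nat_lit 0)) (x (nat_lit 28) (nat_lit 0) (nat_lit 0)))) (Nat.add (x (nat_lit 29) (nat_lit 0) (nat_lit 0)) (Nat.add (x (nat_lit 30) (nat_lit 0) (nat_lit 0)) (x (nat_lit 31) (nat_lit 0) (nat_lit 0)))))) (Nat.add (Nat.add (Nat.add (x (nat_lit 32) (nat_lit 0) (nat_lit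 0)) (x (nat_lit 33) (nat_lit 0) (nat_lit 0))) (Nat.add (x (nat_lit 34) (nat_lit 0) (nat_lit 0)) (Nat.add (x (nat_lit 35) (nat_lit 0) (nat_lit 0)) (x (nat_lit 36) (nat_lit 0) (nat_lit 0))))) (Nat.add (Nat.add (x (nat_lit 37) (nat_lit 0) (nat_lit 0)) (Nat.add (x (nat_lit 38) (nat_lit 0) (nat_lit 0)) (x (nat_lit 39) (nat_lit 0) (nat_lit 0)))) (Nat.add (x (nat_lit 40) (nat_lit 0) (nat_lit 0)) (Nat.add (x (nat_lit 41) (nat_lit 0) (nat_lit 0)) (x (nat_lit 42) (nat_lit 0) (nat_lit 0))))))))⟩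
  (TL.cons ⟨fun x => (Nat.add (Nat.add (Nat.add (Nat.add (Nat.add (x (nat_lit 0) (nat_lit 0) (nat_lit 0)) (x (nat_lit 1) (nat_lit 0) (nat_lit 0))) (Nat.add (x (nat_lit 2) (nat_lit 0) (nat_lit 0)) (Nat.add (x (nat_lit 3) (nat_lit 0) (nat_lit 0)) (x (nat_lit 4) (nat_lit 0) (nat_lit 0))))) (Nat.add (Nat.add (x (nat_lit 5) (nat_lit 0) (nat_lit 0)) (Nat.add (x (nat_lit 6) (nat_lit 0) (nat_lit 0)) (x (nat_lit 7) (nat_lit 0) (nat_lit 0)))) (Nat.add (x (nat_lit 8) (nat_lit 0) (nat_lit 0)) (Nat.add (x (nat_lit 9) (nat_lit 0) (nat_lit 0)) (x (nat_lit 10) (nat_lit 0) (nat_lit 0)))))) (Nat.add (Nat.add (Nat.add (x (nat_lit 11) (nat_lit 0) (nat_lit 0)) (x (nat_lit 12) (nat_lit 0) (nat_lit 0))) (Nat.add (x (nat_lit 13) (nat_lit 0) (nat_lit 0)) (Nat.add (x (nat_lit 14) (nat_lit 0) (nat_lit 0)) (x (nat_lit 15) (nat_lit 0) (nat_lit 0))))) (Nat.add (Nat.add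 (x (nat_lit 16) (nat_lit 0) (nat_lit 0)) (Nat.add (x (nat_lit 17) (nat_lit 0) (nat_lit 0)) (x (nat_lit 18) (nat_lit 0) (nat_lit 0)))) (Nat.add (x (nat_lit 19) (nat_lit 0) (nat_lit 0)) (Nat.add (x (nat_lit 20) (nat_lit 0) (nat_lit 0)) (x (nat_lit 21) (nat_lit 0) (nat_lit 0))))))) (Nat.add (Nat.add (Nat.add (Nat.add (x (nat_lit 22) (nat_lit 0) (nat_lit 0)) (x (nat_lit 23) (nat_lit 0) (nat_lit 0))) (Nat.add (x (nat_lit 24) (nat_lit 0) (nat_lit 0)) (Nat.add (x (nat_lit 25) (nat_lit 0) (nat_lit 0)) (x (nat_lit 26) (nat_lit 0) (nat_lit 0))))) (Nat.add (Nat.add (x (nat_lit 27) (nat_lit 0) (nat_lit 0)) (Nat.add (x (nat_lit 28) (nat_lit 0) (nat_lit 0)) (x (nat_lit 29) (nat_lit 0) (nat_lit 0)))) (Nat.add (x (nat_lit 30) (nat_lit 0) (nat_lit 0)) (Nat.add (x (nat_lit 31) (nat_lit 0) (nat_lit 0)) (x (nat_lit 32) (nat_lit 0) (nat_lit 0)))))) (Nat.add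 (Nat.add (Nat.add (x (nat_lit 33) (nat_lit 0) (nat_lit 0)) (x (nat_lit 34) (nat_lit 0) (nat_lit 0))) (Nat.add (x (nat_lit 35) (nat_lit 0) (nat_lit 0)) (Nat.add (x (nat_lit 36) (nat_lit 0) (nat_lit 0)) (x (nat_lit 37) (nat_lit 0) (nat_lit 0))))) (Nat.add (Nat.add (x (nat_lit 38) (nat_lit 0) (nat_lit 0)) (Nat.add (x (nat_lit 39) (nat_lit 0) (nat_lit 0)) (x (nat_lit 40) (nat_lit 0) (nat_lit 0)))) (Nat.add (x (nat_lit 41) (nat_lit 0) (nat_lit 0)) (Nat.add (x (nat_lit 42) (nat_lit 0) (nat_lit 0)) (x (nat_lit 43) (nat_lit 0) (nat_lit 0))))))))⟩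
  (TL.cons ⟨fun x => (Nat.add (Nat.add (Nat.add (Nat.add (Nat.add (x (nat_lit 0) (nat_lit 0) (nat_lit 0)) (x (nat_lit 1) (nat_lit 0) (nat_lit 0))) (Nat.add (x (nat_lit 2) (nat_lit 0) (nat_lit 0)) (Nat.add (x (nat_lit 3) (nat_lit 0) (nat_lit 0)) (x (nat_lit 4) (nat_lit 0) (nat_lit 0))))) (Nat.add (Nat.add (x (nat_lit 5) (nat_lit 0) (nat_lit 0)) (Nat.add (x (nat_lit 6) (nat_lit 0) (nat_lit 0)) (x (nat_lit 7) (nat_lit 0) (nat_lit 0)))) (Nat.add (x (nat_lit 8) (nat_lit 0) (nat_lit 0)) (Nat.add (x (nat_lit 9) (nat_lit 0) (nat_lit 0)) (x (nat_lit 10) (nat_lit 0) (nat_lit 0)))))) (Nat.add (Nat.add (Nat.add (x (nat_lit 11) (nat_lit 0) (nat_lit 0)) (x (nat_lit 12) (nat_lit 0) (nat_lit 0))) (Nat.add (x (nat_lit 13) (nat_lit 0) (nat_lit 0)) (Nat.add (x (nat_lit 14) (nat_lit 0) (nat_lit 0)) (x (nat_lit 15) (nat_lit 0) (nat_lit 0))))) (Nat.add (Nat.add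 (x (nat_lit 16) (nat_lit 0) (nat_lit 0)) (Nat.add (x (nat_lit 17) (nat_lit 0) (nat_lit 0)) (x (nat_lit 18) (nat_lit 0) (nat_lit 0)))) (Nat.add (x (nat_lit 19) (nat_lit 0) (nat_lit 0)) (Nat.add (x (nat_lit 20) (nat_lit 0) (nat_lit 0)) (x (nat_lit 21) (nat_lit 0) (nat_lit 0))))))) (Nat.add (Nat.add (Nat.add (Nat.add (x (nat_lit 22) (nat_lit 0) (nat_lit 0)) (x (nat_lit 23) (nat_lit 0) (nat_lit 0))) (Nat.add (x (nat_lit 24) (nat_lit 0) (nat_lit 0)) (Nat.add (x (nat_lit 25) (nat_lit 0) (nat_lit 0)) (x (nat_lit 26) (nat_lit 0) (nat_lit 0))))) (Nat.add (Nat.add (x (nat_lit 27) (nat_lit 0) (nat_lit 0)) (Nat.add (x (nat_lit 28) (nat_lit 0) (nat_lit 0)) (x (nat_lit 29) (nat_lit 0) (nat_lit 0)))) (Nat.add (x (nat_lit 30) (nat_lit 0) (nat_lit 0)) (Nat.add (x (nat_lit 31) (nat_lit 0) (nat_lit 0)) (x (nat_lit 32) (nat_lit 0) (nat_lit 0)))))) (Nat.add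 (Nat.add (Nat.add (x (nat_lit 33) (nat_lit 0) (nat_lit 0)) (Nat.add (x (nat_lit 34) (nat_lit 0) (nat_lit 0)) (x (nat_lit 35) (nat_lit 0) (nat_lit 0)))) (Nat.add (x (nat_lit 36) (nat_lit 0) (nat_lit 0)) (Nat.add (x (nat_lit 37) (nat_lit 0) (nat_lit 0)) (x (nat_lit 38) (nat_lit 0) (nat_lit 0))))) (Nat.add (Nat.add (x (nat_lit 39) (nat_lit 0) (nat_lit 0)) (Nat.add (x (nat_lit 40) (nat_lit 0) (nat_lit 0)) (x (nat_lit 41) (nat_lit 0) (nat_lit 0)))) (Nat.add (x (nat_lit 42) (nat_lit 0) (nat_lit 0)) (Nat.add (x (nat_lit 43) (nat_lit 0) (nat_lit 0)) (x (nat_lit 44) (nat_lit 0) (nat_lit 0))))))))⟩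
  (TL.cons ⟨fun x => (Nat.add (Nat.add (Nat.add (Nat.add (Nat.add (x (nat_lit 0) (nat_lit 0) (nat_lit 0)) (x (nat_lit 1) (nat_lit 0) (nat_lit 0))) (Nat.add (x (nat_lit 2) (nat_lit 0) (nat_lit 0)) (Nat.add (x (nat_lit 3) (nat_lit 0) (nat_lit 0)) (x (nat_lit 4) (nat_lit 0) (nat_lit 0))))) (Nat.add (Nat.add (x (nat_lit 5) (nat_lit 0) (nat_lit 0)) (Nat.add (x (nat_lit 6) (nat_lit 0) (nat_lit 0)) (x (nat_lit 7) (nat_lit 0) (nat_lit 0)))) (Nat.add (x (nat_lit 8) (nat_lit 0) (nat_lit 0)) (Nat.add (x (nat_lit 9) (nat_lit 0) (nat_lit 0)) (x (nat_lit 10) (nat_lit 0) (nat_lit 0)))))) (Nat.add (Nat.add (Nat.add (x (nat_lit 11) (nat_lit 0) (nat_lit 0)) (Nat.add (x (nat_lit 12) (nat_lit 0) (nat_lit 0)) (x (nat_lit 13) (nat_lit 0) (nat_lit 0)))) (Nat.add (x (nat_lit 14) (nat_lit 0) (nat_lit 0)) (Nat.add (x (nat_lit 15) (nat_lit 0) (nat_lit 0)) (x (nat_lit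 16) (nat_lit 0) (nat_lit 0))))) (Nat.add (Nat.add (x (nat_lit 17) (nat_lit 0) (nat_lit 0)) (Nat.add (x (nat_lit 18) (nat_lit 0) (nat_lit 0)) (x (nat_lit 19) (nat_lit 0) (nat_lit 0)))) (Nat.add (x (nat_lit 20) (nat_lit 0) (nat_lit 0)) (Nat.add (x (nat_lit 21) (nat_lit 0) (nat_lit 0)) (x (nat_lit 22) (nat_lit 0) (nat_lit 0))))))) (Nat.add (Nat.add (Nat.add (Nat.add (x (nat_lit 23) (nat_lit 0) (nat_lit 0)) (x (nat_lit 24) (nat_lit 0) (nat_lit 0))) (Nat.add (x (nat_lit 25) (nat_lit 0) (nat_lit 0)) (Nat.add (x (nat_lit 26) (nat_lit 0) (nat_lit 0)) (x (nat_lit 27) (nat_lit 0) (nat_lit 0))))) (Nat.add (Nat.add (x (nat_lit 28) (nat_lit 0) (nat_lit 0)) (Nat.add (x (nat_lit 29) (nat_lit 0) (nat_lit 0)) (x (nat_lit 30) (nat_lit 0) (nat_lit 0)))) (Nat.add (x (nat_lit 31) (nat_lit 0) (nat_lit 0)) (Nat.add (x (nat_lit 32) (nat_lit 0) (nat_lit 0)) (x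 (nat_lit 33) (nat_lit 0) (nat_lit 0)))))) (Nat.add (Nat.add (Nat.add (x (nat_lit 34) (nat_lit 0) (nat_lit 0)) (Nat.add (x (nat_lit 35) (nat_lit 0) (nat_lit 0)) (x (nat_lit 36) (nat_lit 0) (nat_lit 0)))) (Nat.add (x (nat_lit 37) (nat_lit 0) (nat_lit 0)) (Nat.add (x (nat_lit 38) (nat_lit 0) (nat_lit 0)) (x (nat_lit 39) (nat_lit 0) (nat_lit 0))))) (Nat.add (Nat.add (x (nat_lit 40) (nat_lit 0) (nat_lit 0)) (Nat.add (x (nat_lit 41) (nat_lit 0) (nat_lit 0)) (x (nat_lit 42) (nat_lit 0) (nat_lit 0)))) (Nat.add (x (nat_lit 43) (nat_lit 0) (nat_lit 0)) (Nat.add (x (nat_lit 44) (nat_lit 0) (nat_lit 0)) (x (nat_lit 45) (nat_lit 0) (nat_lit 0))))))))⟩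
  (TL.cons ⟨fun x => (Nat.add (Nat.add (Nat.add (Nat.add (Nat.add (x (nat_lit 0) (nat_lit 0) (nat_lit 0)) (x (nat_lit 1) (nat_lit 0) (nat_lit 0))) (Nat.add (x (nat_lit 2) (nat_lit 0) (nat_lit 0)) (Nat.add (x (nat_lit 3) (nat_lit 0) (nat_lit 0)) (x (nat_lit 4) (nat_lit 0) (nat_lit 0))))) (Nat.add (Nat.add (x (nat_lit 5) (nat_lit 0) (nat_lit 0)) (Nat.add (x (nat_lit 6) (nat_lit 0) (nat_lit 0)) (x (nat_lit 7) (nat_lit 0) (nat_lit 0)))) (Nat.add (x (nat_lit 8) (nat_lit 0) (nat_lit 0)) (Nat.add (x (nat_lit 9) (nat_lit 0) (nat_lit 0)) (x (nat_lit 10) (nat_lit 0) (nat_lit 0)))))) (Nat.add (Nat.add (Nat.add (x (nat_lit 11) (nat_lit 0) (nat_lit 0)) (Nat.add (x (nat_lit 12) (nat_lit 0) (nat_lit 0)) (x (nat_lit 13) (nat_lit 0) (nat_lit 0)))) (Nat.add (x (nat_lit 14) (nat_lit 0) (nat_lit 0)) (Nat.add (x (nat_lit 15) (nat_lit 0) (nat_lit 0)) (x (nat_lit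 16) (nat_lit 0) (nat_lit 0))))) (Nat.add (Nat.add (x (nat_lit 17) (nat_lit 0) (nat_lit 0)) (Nat.add (x (nat_lit 18) (nat_lit 0) (nat_lit 0)) (x (nat_lit 19) (nat_lit 0) (nat_lit 0)))) (Nat.add (x (nat_lit 20) (nat_lit 0) (nat_lit 0)) (Nat.add (x (nat_lit 21) (nat_lit 0) (nat_lit 0)) (x (nat_lit 22) (nat_lit 0) (nat_lit 0))))))) (Nat.add (Nat.add (Nat.add (Nat.add (x (nat_lit 23) (nat_lit 0) (nat_lit 0)) (Nat.add (x (nat_lit 24) (nat_lit 0) (nat_lit 0)) (x (nat_lit 25) (nat_lit 0) (nat_lit 0)))) (Nat.add (x (nat_lit 26) (nat_lit 0) (nat_lit 0)) (Nat.add (x (nat_lit 27) (nat_lit 0) (nat_lit 0)) (x (nat_lit 28) (nat_lit 0) (nat_lit 0))))) (Nat.add (Nat.add (x (nat_lit 29) (nat_lit 0) (nat_lit 0)) (Nat.add (x (nat_lit 30) (nat_lit 0) (nat_lit 0)) (x (nat_lit 31) (nat_lit 0) (nat_lit 0)))) (Nat.add (x (nat_lit 32) (nat_lit 0) (nat_lit 0)) (Nat.add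 (x (nat_lit 33) (nat_lit 0) (nat_lit 0)) (x (nat_lit 34) (nat_lit 0) (nat_lit 0)))))) (Nat.add (Nat.add (Nat.add (x (nat_lit 35) (nat_lit 0) (nat_lit 0)) (Nat.add (x (nat_lit 36) (nat_lit 0) (nat_lit 0)) (x (nat_lit 37) (nat_lit 0) (nat_lit 0)))) (Nat.add (x (nat_lit 38) (nat_lit 0) (nat_lit 0)) (Nat.add (x (nat_lit 39) (nat_lit 0) (nat_lit 0)) (x (nat_lit 40) (nat_lit 0) (nat_lit 0))))) (Nat.add (Nat.add (x (nat_lit 41) (nat_lit 0) (nat_lit 0)) (Nat.add (x (nat_lit 42) (nat_lit 0) (nat_lit 0)) (x (nat_lit 43) (nat_lit 0) (nat_lit 0)))) (Nat.add (x (nat_lit 44) (nat_lit 0) (nat_lit 0)) (Nat.add (x (nat_lit 45) (nat_lit 0) (nat_lit 0)) (x (nat_lit 46) (nat_lit 0) (nat_lit 0))))))))⟩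
  (TL.cons ⟨fun x => (Nat.add (Nat.add (Nat.add (Nat.add (Nat.add (x (nat_lit 0) (nat_lit 0) (nat_lit 0)) (Nat.add (x (nat_lit 1) (nat_lit 0) (nat_lit 0)) (x (nat_lit 2) (nat_lit 0) (nat_lit 0)))) (Nat.add (x (nat_lit 3) (nat_lit 0) (nat_lit 0)) (Nat.add (x (nat_lit 4) (nat_lit 0) (nat_lit 0)) (x (nat_lit 5) (nat_lit 0) (nat_lit 0))))) (Nat.add (Nat.add (x (nat_lit 6) (nat_lit 0) (nat_lit 0)) (Nat.add (x (nat_lit 7) (nat_lit 0) (nat_lit 0)) (x (nat_lit 8) (nat_lit 0) (nat_lit 0)))) (Nat.add (x (nat_lit 9) (nat_lit 0) (nat_lit 0)) (Nat.add (x (nat_lit 10) (nat_lit 0) (nat_lit 0)) (x (nat_lit 11) (nat_lit 0) (nat_lit 0)))))) (Nat.add (Nat.add (Nat.add (x (nat_lit 12) (nat_lit 0) (nat_lit 0)) (Nat.add (x (nat_lit 13) (nat_lit 0) (nat_lit 0)) (x (nat_lit 14) (nat_lit 0) (nat_lit 0)))) (Nat.add (x (nat_lit 15) (nat_lit 0) (nat_lit 0)) (Nat.add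 (x (nat_lit 16) (nat_lit 0) (nat_lit 0)) (x (nat_lit 17) (nat_lit 0) (nat_lit 0))))) (Nat.add (Nat.add (x (nat_lit 18) (nat_lit 0) (nat_lit 0)) (Nat.add (x (nat_lit 19) (nat_lit 0) (nat_lit 0)) (x (nat_lit 20) (nat_lit 0) (nat_lit 0)))) (Nat.add (x (nat_lit 21) (nat_lit 0) (nat_lit 0)) (Nat.add (x (nat_lit 22) (nat_lit 0) (nat_lit 0)) (x (nat_lit 23) (nat_lit 0) (nat_lit 0))))))) (Nat.add (Nat.add (Nat.add (Nat.add (x (nat_lit 24) (nat_lit 0) (nat_lit 0)) (Nat.add (x (nat_lit 25) (nat_lit 0) (nat_lit 0)) (x (nat_lit 26) (nat_lit 0) (nat_lit 0)))) (Nat.add (x (nat_lit 27) (nat_lit 0) (nat_lit 0)) (Nat.add (x (nat_lit 28) (nat_lit 0) (nat_lit 0)) (x (nat_lit 29) (nat_lit 0) (nat_lit 0))))) (Nat.add (Nat.add (x (nat_lit 30) (nat_lit 0) (nat_lit 0)) (Nat.add (x (nat_lit 31) (nat_lit 0) (nat_lit 0)) (x (nat_lit 32) (nat_lit 0) (nat_lit 0))))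 (Nat.add (x (nat_lit 33) (nat_lit 0) (nat_lit 0)) (Nat.add (x (nat_lit 34) (nat_lit 0) (nat_lit 0)) (x (nat_lit 35) (nat_lit 0) (nat_lit 0)))))) (Nat.add (Nat.add (Nat.add (x (nat_lit 36) (nat_lit 0) (nat_lit 0)) (Nat.add (x (nat_lit 37) (nat_lit 0) (nat_lit 0)) (x (nat_lit 38) (nat_lit 0) (nat_lit 0)))) (Nat.add (x (nat_lit 39) (nat_lit 0) (nat_lit 0)) (Nat.add (x (nat_lit 40) (nat_lit 0) (nat_lit 0)) (x (nat_lit 41) (nat_lit 0) (nat_lit 0))))) (Nat.add (Nat.add (x (nat_lit 42) (nat_lit 0) (nat_lit 0)) (Nat.add (x (nat_lit 43) (nat_lit 0) (nat_lit 0)) (x (nat_lit 44) (nat_lit 0) (nat_lit 0)))) (Nat.add (x (nat_lit 45) (nat_lit 0) (nat_lit 0)) (Nat.add (x (nat_lit 46) (nat_lit 0) (nat_lit 0)) (x (nat_lit 47) (nat_lit 0) (nat_lit 0))))))))⟩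
  (TL.cons ⟨fun x => (Nat.add (Nat.add (Nat.add (Nat.add (Nat.add (x (nat_lit 0) (nat_lit 0) (nat_lit 0)) (Nat.add (x (nat_lit 1) (nat_lit 0) (nat_lit 0)) (x (nat_lit 2) (nat_lit 0) (nat_lit 0)))) (Nat.add (x (nat_lit 3) (nat_lit 0) (nat_lit 0)) (Nat.add (x (nat_lit 4) (nat_lit 0) (nat_lit 0)) (x (nat_lit 5) (nat_lit 0) (nat_lit 0))))) (Nat.add (Nat.add (x (nat_lit 6) (nat_lit 0) (nat_lit 0)) (Nat.add (x (nat_lit 7) (nat_lit 0) (nat_lit 0)) (x (nat_lit 8) (nat_lit 0) (nat_lit 0)))) (Nat.add (x (nat_lit 9) (nat_lit 0) (nat_lit 0)) (Nat.add (x (nat_lit 10) (nat_lit 0) (nat_lit 0)) (x (nat_lit 11) (nat_lit 0) (nat_lit 0)))))) (Nat.add (Nat.add (Nat.add (x (nat_lit 12) (nat_lit 0) (nat_lit 0)) (Nat.add (x (nat_lit 13) (nat_lit 0) (nat_lit 0)) (x (nat_lit 14) (nat_lit 0) (nat_lit 0)))) (Nat.add (x (nat_lit 15) (nat_lit 0) (nat_lit 0)) (Nat.add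 (x (nat_lit 16) (nat_lit 0) (nat_lit 0)) (x (nat_lit 17) (nat_lit 0) (nat_lit 0))))) (Nat.add (Nat.add (x (nat_lit 18) (nat_lit 0) (nat_lit 0)) (Nat.add (x (nat_lit 19) (nat_lit 0) (nat_lit 0)) (x (nat_lit 20) (nat_lit 0) (nat_lit 0)))) (Nat.add (x (nat_lit 21) (nat_lit 0) (nat_lit 0)) (Nat.add (x (nat_lit 22) (nat_lit 0) (nat_lit 0)) (x (nat_lit 23) (nat_lit 0) (nat_lit 0))))))) (Nat.add (Nat.add (Nat.add (Nat.add (x (nat_lit 24) (nat_lit 0) (nat_lit 0)) (Nat.add (x (nat_lit 25) (nat_lit 0) (nat_lit 0)) (x (nat_lit 26) (nat_lit 0) (nat_lit 0)))) (Nat.add (x (nat_lit 27) (nat_lit 0) (nat_lit 0)) (Nat.add (x (nat_lit 28) (nat_lit 0) (nat_lit 0)) (x (nat_lit 29) (nat_lit 0) (nat_lit 0))))) (Nat.add (Nat.add (x (nat_lit 30) (nat_lit 0) (nat_lit 0)) (Nat.add (x (nat_lit 31) (nat_lit 0) (nat_lit 0)) (x (nat_lit 32) (nat_lit 0) (nat_lit 0))))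 (Nat.add (x (nat_lit 33) (nat_lit 0) (nat_lit 0)) (Nat.add (x (nat_lit 34) (nat_lit 0) (nat_lit 0)) (x (nat_lit 35) (nat_lit 0) (nat_lit 0)))))) (Nat.add (Nat.add (Nat.add (x (nat_lit 36) (nat_lit 0) (nat_lit 0)) (Nat.add (x (nat_lit 37) (nat_lit 0) (nat_lit 0)) (x (nat_lit 38) (nat_lit 0) (nat_lit 0)))) (Nat.add (x (nat_lit 39) (nat_lit 0) (nat_lit 0)) (Nat.add (x (nat_lit 40) (nat_lit 0) (nat_lit 0)) (x (nat_lit 41) (nat_lit 0) (nat_lit 0))))) (Nat.add (Nat.add (x (nat_lit 42) (nat_lit 0) (nat_lit 0)) (Nat.add (x (nat_lit 43) (nat_lit 0) (nat_lit 0)) (x (nat_lit 44) (nat_lit 0) (nat_lit 0)))) (Nat.add (Nat.add (x (nat_lit 45) (nat_lit 0) (nat_lit 0)) (x (nat_lit 46) (nat_lit 0) (nat_lit 0))) (Nat.add (x (nat_lit 47) (nat_lit 0) (nat_lit 0)) (x (nat_lit 48) (nat_lit 0) (nat_lit 0))))))))⟩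
  (TL.cons ⟨fun x => (Nat.add (Nat.add (Nat.add (Nat.add (Nat.add (x (nat_lit 0) (nat_lit 0) (nat_lit 0)) (Nat.add (x (nat_lit 1) (nat_lit 0) (nat_lit 0)) (x (nat_lit 2) (nat_lit 0) (nat_lit 0)))) (Nat.add (x (nat_lit 3) (nat_lit 0) (nat_lit 0)) (Nat.add (x (nat_lit 4) (nat_lit 0) (nat_lit 0)) (x (nat_lit 5) (nat_lit 0) (nat_lit 0))))) (Nat.add (Nat.add (x (nat_lit 6) (nat_lit 0) (nat_lit 0)) (Nat.add (x (nat_lit 7) (nat_lit 0) (nat_lit 0)) (x (nat_lit 8) (nat_lit 0) (nat_lit 0)))) (Nat.add (x (nat_lit 9) (nat_lit 0) (nat_lit 0)) (Nat.add (x (nat_lit 10) (nat_lit 0) (nat_lit 0)) (x (nat_lit 11) (nat_lit 0) (nat_lit 0)))))) (Nat.add (Nat.add (Nat.add (x (nat_lit 12) (nat_lit 0) (nat_lit 0)) (Nat.add (x (nat_lit 13) (nat_lit 0) (nat_lit 0)) (x (nat_lit 14) (nat_lit 0) (nat_lit 0)))) (Nat.add (x (nat_lit 15) (nat_lit 0) (nat_lit 0)) (Nat.add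 (x (nat_lit 16) (nat_lit 0) (nat_lit 0)) (x (nat_lit 17) (nat_lit 0) (nat_lit 0))))) (Nat.add (Nat.add (x (nat_lit 18) (nat_lit 0) (nat_lit 0)) (Nat.add (x (nat_lit 19) (nat_lit 0) (nat_lit 0)) (x (nat_lit 20) (nat_lit 0) (nat_lit 0)))) (Nat.add (Nat.add (x (nat_lit 21) (nat_lit 0) (nat_lit 0)) (x (nat_lit 22) (nat_lit 0) (nat_lit 0))) (Nat.add (x (nat_lit 23) (nat_lit 0) (nat_lit 0)) (x (nat_lit 24) (nat_lit 0) (nat_lit 0))))))) (Nat.add (Nat.add (Nat.add (Nat.add (x (nat_lit 25) (nat_lit 0) (nat_lit 0)) (Nat.add (x (nat_lit 26) (nat_lit 0) (nat_lit 0)) (x (nat_lit 27) (nat_lit 0) (nat_lit 0)))) (Nat.add (x (nat_lit 28) (nat_lit 0) (nat_lit 0)) (Nat.add (x (nat_lit 29) (nat_lit 0) (nat_lit 0)) (x (nat_lit 30) (nat_lit 0) (nat_lit 0))))) (Nat.add (Nat.add (x (nat_lit 31) (nat_lit 0) (nat_lit 0)) (Nat.add (x (nat_lit 32) (nat_lit 0) (nat_lit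 0)) (x (nat_lit 33) (nat_lit 0) (nat_lit 0)))) (Nat.add (x (nat_lit 34) (nat_lit 0) (nat_lit 0)) (Nat.add (x (nat_lit 35) (nat_lit 0) (nat_lit 0)) (x (nat_lit 36) (nat_lit 0) (nat_lit 0)))))) (Nat.add (Nat.add (Nat.add (x (nat_lit 37) (nat_lit 0) (nat_lit 0)) (Nat.add (x (nat_lit 38) (nat_lit 0) (nat_lit 0)) (x (nat_lit 39) (nat_lit 0) (nat_lit 0)))) (Nat.add (x (nat_lit 40) (nat_lit 0) (nat_lit 0)) (Nat.add (x (nat_lit 41) (nat_lit 0) (nat_lit 0)) (x (nat_lit 42) (nat_lit 0) (nat_lit 0))))) (Nat.add (Nat.add (x (nat_lit 43) (nat_lit 0) (nat_lit 0)) (Nat.add (x (nat_lit 44) (nat_lit 0) (nat_lit 0)) (x (nat_lit 45) (nat_lit 0) (nat_lit 0)))) (Nat.add (Nat.add (x (nat_lit 46) (nat_lit 0) (nat_lit 0)) (x (nat_lit 47) (nat_lit 0) (nat_lit 0))) (Nat.add (x (nat_lit 48) (nat_lit 0) (nat_lit 0)) (x (nat_lit 49) (nat_lit 0) (nat_lit 0))))))))⟩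
  (TL.cons ⟨fun x => (Nat.add (Nat.add (Nat.add (Nat.add (Nat.add (x (nat_lit 0) (nat_lit 0) (nat_lit 0)) (Nat.add (x (nat_lit 1) (nat_lit 0) (nat_lit 0)) (x (nat_lit 2) (nat_lit 0) (nat_lit 0)))) (Nat.add (x (nat_lit 3) (nat_lit 0) (nat_lit 0)) (Nat.add (x (nat_lit 4) (nat_lit 0) (nat_lit 0)) (x (nat_lit 5) (nat_lit 0) (nat_lit 0))))) (Nat.add (Nat.add (x (nat_lit 6) (nat_lit 0) (nat_lit 0)) (Nat.add (x (nat_lit 7) (nat_lit 0) (nat_lit 0)) (x (nat_lit 8) (nat_lit 0) (nat_lit 0)))) (Nat.add (x (nat_lit 9) (nat_lit 0) (nat_lit 0)) (Nat.add (x (nat_lit 10) (nat_lit 0) (nat_lit 0)) (x (nat_lit 11) (nat_lit 0) (nat_lit 0)))))) (Nat.add (Nat.add (Nat.add (x (nat_lit 12) (nat_lit 0) (nat_lit 0)) (Nat.add (x (nat_lit 13) (nat_lit 0) (nat_lit 0)) (x (nat_lit 14) (nat_lit 0) (nat_lit 0)))) (Nat.add (x (nat_lit 15) (nat_lit 0) (nat_lit 0)) (Nat.add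 (x (nat_lit 16) (nat_lit 0) (nat_lit 0)) (x (nat_lit 17) (nat_lit 0) (nat_lit 0))))) (Nat.add (Nat.add (x (nat_lit 18) (nat_lit 0) (nat_lit 0)) (Nat.add (x (nat_lit 19) (nat_lit 0) (nat_lit 0)) (x (nat_lit 20) (nat_lit 0) (nat_lit 0)))) (Nat.add (Nat.add (x (nat_lit 21) (nat_lit 0) (nat_lit 0)) (x (nat_lit 22) (nat_lit 0) (nat_lit 0))) (Nat.add (x (nat_lit 23) (nat_lit 0) (nat_lit 0)) (x (nat_lit 24) (nat_lit 0) (nat_lit 0))))))) (Nat.add (Nat.add (Nat.add (Nat.add (x (nat_lit 25) (nat_lit 0) (nat_lit 0)) (Nat.add (x (nat_lit 26) (nat_lit 0) (nat_lit 0)) (x (nat_lit 27) (nat_lit 0) (nat_lit 0)))) (Nat.add (x (nat_lit 28) (nat_lit 0) (nat_lit 0)) (Nat.add (x (nat_lit 29) (nat_lit 0) (nat_lit 0)) (x (nat_lit 30) (nat_lit 0) (nat_lit 0))))) (Nat.add (Nat.add (x (nat_lit 31) (nat_lit 0) (nat_lit 0)) (Nat.add (x (nat_lit 32) (nat_lit 0) (nat_lit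 0)) (x (nat_lit 33) (nat_lit 0) (nat_lit 0)))) (Nat.add (Nat.add (x (nat_lit 34) (nat_lit 0) (nat_lit 0)) (x (nat_lit 35) (nat_lit 0) (nat_lit 0))) (Nat.add (x (nat_lit 36) (nat_lit 0) (nat_lit 0)) (x (nat_lit 37) (nat_lit 0) (nat_lit 0)))))) (Nat.add (Nat.add (Nat.add (x (nat_lit 38) (nat_lit 0) (nat_lit 0)) (Nat.add (x (nat_lit 39) (nat_lit 0) (nat_lit 0)) (x (nat_lit 40) (nat_lit 0) (nat_lit 0)))) (Nat.add (x (nat_lit 41) (nat_lit 0) (nat_lit 0)) (Nat.add (x (nat_lit 42) (nat_lit 0) (nat_lit 0)) (x (nat_lit 43) (nat_lit 0) (nat_lit 0))))) (Nat.add (Nat.add (x (nat_lit 44) (nat_lit 0) (nat_lit 0)) (Nat.add (x (nat_lit 45) (nat_lit 0) (nat_lit 0)) (x (nat_lit 46) (nat_lit 0) (nat_lit 0)))) (Nat.add (Nat.add (x (nat_lit 47) (nat_lit 0) (nat_lit 0)) (x (nat_lit 48) (nat_lit 0) (nat_lit 0))) (Nat.add (x (nat_lit 49) (nat_lit 0) (nat_lit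 0)) (x (nat_lit 50) (nat_lit 0) (nat_lit 0))))))))⟩
  (TL.cons ⟨fun x => (Nat.add (Nat.add (Nat.add (Nat.add (Nat.add (x (nat_lit 0) (nat_lit 0) (nat_lit 0)) (Nat.add (x (nat_lit 1) (nat_lit 0) (nat_lit 0)) (x (nat_lit 2) (nat_lit 0) (nat_lit 0)))) (Nat.add (x (nat_lit 3) (nat_lit 0) (nat_lit 0)) (Nat.add (x (nat_lit 4) (nat_lit 0) (nat_lit 0)) (x (nat_lit 5) (nat_lit 0) (nat_lit 0))))) (Nat.add (Nat.add (x (nat_lit 6) (nat_lit 0) (nat_lit 0)) (Nat.add (x (nat_lit 7) (nat_lit 0) (nat_lit 0)) (x (nat_lit 8) (nat_lit 0) (nat_lit 0)))) (Nat.add (Nat.add (x (nat_lit 9) (nat_lit 0) (nat_lit 0)) (x (nat_lit 10) (nat_lit 0) (nat_lit 0))) (Nat.add (x (nat_lit 11) (nat_lit 0) (nat_lit 0)) (x (nat_lit 12) (nat_lit 0) (nat_lit 0)))))) (Nat.add (Nat.add (Nat.add (x (nat_lit 13) (nat_lit 0) (nat_lit 0)) (Nat.add (x (nat_lit 14) (nat_lit 0) (nat_lit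 0)) (x (nat_lit 15) (nat_lit 0) (nat_lit 0)))) (Nat.add (x (nat_lit 16) (nat_lit 0) (nat_lit 0)) (Nat.add (x (nat_lit 17) (nat_lit 0) (nat_lit 0)) (x (nat_lit 18) (nat_lit 0) (nat_lit 0))))) (Nat.add (Nat.add (x (nat_lit 19) (nat_lit 0) (nat_lit 0)) (Nat.add (x (nat_lit 20) (nat_lit 0) (nat_lit 0)) (x (nat_lit 21) (nat_lit 0) (nat_lit 0)))) (Nat.add (Nat.add (x (nat_lit 22) (nat_lit 0) (nat_lit 0)) (x (nat_lit 23) (nat_lit 0) (nat_lit 0))) (Nat.add (x (nat_lit 24) (nat_lit 0) (nat_lit 0)) (x (nat_lit 25) (nat_lit 0) (nat_lit 0))))))) (Nat.add (Nat.add (Nat.add (Nat.add (x (nat_lit 26) (nat_lit 0) (nat_lit 0)) (Nat.add (x (nat_lit 27) (nat_lit 0) (nat_lit 0)) (x (nat_lit 28) (nat_lit 0) (nat_lit 0)))) (Nat.add (x (nat_lit 29) (nat_lit 0) (nat_lit 0)) (Nat.add (x (nat_lit 30) (nat_lit 0) (nat_lit 0)) (x (nat_lit 31) (nat_lit 0) (nat_lit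 0))))) (Nat.add (Nat.add (x (nat_lit 32) (nat_lit 0) (nat_lit 0)) (Nat.add (x (nat_lit 33) (nat_lit 0) (nat_lit 0)) (x (nat_lit 34) (nat_lit 0) (nat_lit 0)))) (Nat.add (Nat.add (x (nat_lit 35) (nat_lit 0) (nat_lit 0)) (x (nat_lit 36) (nat_lit 0) (nat_lit 0))) (Nat.add (x (nat_lit 37) (nat_lit 0) (nat_lit 0)) (x (nat_lit 38) (nat_lit 0) (nat_lit 0)))))) (Nat.add (Nat.add (Nat.add (x (nat_lit 39) (nat_lit 0) (nat_lit 0)) (Nat.add (x (nat_lit 40) (nat_lit 0) (nat_lit 0)) (x (nat_lit 41) (nat_lit 0) (nat_lit 0)))) (Nat.add (x (nat_lit 42) (nat_lit 0) (nat_lit 0)) (Nat.add (x (nat_lit 43) (nat_lit 0) (nat_lit 0)) (x (nat_lit 44) (nat_lit 0) (nat_lit 0))))) (Nat.add (Nat.add (x (nat_lit 45) (nat_lit 0) (nat_lit 0)) (Nat.add (x (nat_lit 46) (nat_lit 0) (nat_lit 0)) (x (nat_lit 47) (nat_lit 0) (nat_lit 0)))) (Nat.add (Nat.add (x (nat_lit 48) (nat_lit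 0) (nat_lit 0)) (x (nat_lit 49) (nat_lit 0) (nat_lit 0))) (Nat.add (x (nat_lit 50) (nat_lit 0) (nat_lit 0)) (x (nat_lit 51) (nat_lit 0) (nat_lit 0))))))))⟩
  (TL.cons ⟨fun x => (Nat.add (Nat.add (Nat.add (Nat.add (Nat.add (x (nat_lit 0) (nat_lit 0) (nat_lit 0)) (Nat.add (x (nat_lit 1) (nat_lit 0) (nat_lit 0)) (x (nat_lit 2) (nat_lit 0) (nat_lit 0)))) (Nat.add (x (nat_lit 3) (nat_lit 0) (nat_lit 0)) (Nat.add (x (nat_lit 4) (nat_lit 0) (nat_lit 0)) (x (nat_lit 5) (nat_lit 0) (nat_lit 0))))) (Nat.add (Nat.add (x (nat_lit 6) (nat_lit 0) (nat_lit 0)) (Nat.add (x (nat_lit 7) (nat_lit 0) (nat_lit 0)) (x (nat_lit 8) (nat_lit 0) (nat_lit 0)))) (Nat.add (Nat.add (x (nat_lit 9) (nat_lit 0) (nat_lit 0)) (x (nat_lit 10) (nat_lit 0) (nat_lit 0))) (Nat.add (x (nat_lit 11) (nat_lit 0) (nat_lit 0)) (x (nat_lit 12) (nat_lit 0) (nat_lit 0)))))) (Nat.add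 (Nat.add (Nat.add (x (nat_lit 13) (nat_lit 0) (nat_lit 0)) (Nat.add (x (nat_lit 14) (nat_lit 0) (nat_lit 0)) (x (nat_lit 15) (nat_lit 0) (nat_lit 0)))) (Nat.add (x (nat_lit 16) (nat_lit 0) (nat_lit 0)) (Nat.add (x (nat_lit 17) (nat_lit 0) (nat_lit 0)) (x (nat_lit 18) (nat_lit 0) (nat_lit 0))))) (Nat.add (Nat.add (x (nat_lit 19) (nat_lit 0) (nat_lit 0)) (Nat.add (x (nat_lit 20) (nat_lit 0) (nat_lit 0)) (x (nat_lit 21) (nat_lit 0) (nat_lit 0)))) (Nat.add (Nat.add (x (nat_lit 22) (nat_lit 0) (nat_lit 0)) (x (nat_lit 23) (nat_lit 0) (nat_lit 0))) (Nat.add (x (nat_lit 24) (nat_lit 0) (nat_lit 0)) (x (nat_lit 25) (nat_lit 0) (nat_lit 0))))))) (Nat.add (Nat.add (Nat.add (Nat.add (x (nat_lit 26) (nat_lit 0) (nat_lit 0)) (Nat.add (x (nat_lit 27) (nat_lit 0) (nat_lit 0)) (x (nat_lit 28) (nat_lit 0) (nat_lit 0)))) (Nat.add (x (nat_lit 29) (nat_lit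 0) (nat_lit 0)) (Nat.add (x (nat_lit 30) (nat_lit 0) (nat_lit 0)) (x (nat_lit 31) (nat_lit 0) (nat_lit 0))))) (Nat.add (Nat.add (x (nat_lit 32) (nat_lit 0) (nat_lit 0)) (Nat.add (x (nat_lit 33) (nat_lit 0) (nat_lit 0)) (x (nat_lit 34) (nat_lit 0) (nat_lit 0)))) (Nat.add (Nat.add (x (nat_lit 35) (nat_lit 0) (nat_lit 0)) (x (nat_lit 36) (nat_lit 0) (nat_lit 0))) (Nat.add (x (nat_lit 37) (nat_lit 0) (nat_lit 0)) (x (nat_lit 38) (nat_lit 0) (nat_lit 0)))))) (Nat.add (Nat.add (Nat.add (x (nat_lit 39) (nat_lit 0) (nat_lit 0)) (Nat.add (x (nat_lit 40) (nat_lit 0) (nat_lit 0)) (x (nat_lit 41) (nat_lit 0) (nat_lit 0)))) (Nat.add (Nat.add (x (nat_lit 42) (nat_lit 0) (nat_lit 0)) (x (nat_lit 43) (nat_lit 0) (nat_lit 0))) (Nat.add (x (nat_lit 44) (nat_lit 0) (nat_lit 0)) (x (nat_lit 45) (nat_lit 0) (nat_lit 0))))) (Nat.add (Nat.add (x (nat_lit 46)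 (nat_lit 0) (nat_lit 0)) (Nat.add (x (nat_lit 47) (nat_lit 0) (nat_lit 0)) (x (nat_lit 48) (nat_lit 0) (nat_lit 0)))) (Nat.add (Nat.add (x (nat_lit 49) (nat_lit 0) (nat_lit 0)) (x (nat_lit 50) (nat_lit 0) (nat_lit 0))) (Nat.add (x (nat_lit 51) (nat_lit 0) (nat_lit 0)) (x (nat_lit 52) (nat_lit 0) (nat_lit 0))))))))⟩
  (TL.cons ⟨fun x => (Nat.add (Nat.add (Nat.add (Nat.add (Nat.add (x (nat_lit 0) (nat_lit 0) (nat_lit 0)) (Nat.add (x (nat_lit 1) (nat_lit 0) (nat_lit 0)) (x (nat_lit 2) (nat_lit 0) (nat_lit 0)))) (Nat.add (x (nat_lit 3) (nat_lit 0) (nat_lit 0)) (Nat.add (x (nat_lit 4) (nat_lit 0) (nat_lit 0)) (x (nat_lit 5) (nat_lit 0) (nat_lit 0))))) (Nat.add (Nat.add (x (nat_lit 6) (nat_lit 0) (nat_lit 0)) (Nat.add (x (nat_lit 7) (nat_lit 0) (nat_lit 0)) (x (nat_lit 8) (nat_lit 0) (nat_lit 0)))) (Nat.add (Nat.add (x (nat_lit 9) (nat_lit 0)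 (nat_lit 0)) (x (nat_lit 10) (nat_lit 0) (nat_lit 0))) (Nat.add (x (nat_lit 11) (nat_lit 0) (nat_lit 0)) (x (nat_lit 12) (nat_lit 0) (nat_lit 0)))))) (Nat.add (Nat.add (Nat.add (x (nat_lit 13) (nat_lit 0) (nat_lit 0)) (Nat.add (x (nat_lit 14) (nat_lit 0) (nat_lit 0)) (x (nat_lit 15) (nat_lit 0) (nat_lit 0)))) (Nat.add (Nat.add (x (nat_lit 16) (nat_lit 0) (nat_lit 0)) (x (nat_lit 17) (nat_lit 0) (nat_lit 0))) (Nat.add (x (nat_lit 18) (nat_lit 0) (nat_lit 0)) (x (nat_lit 19) (nat_lit 0) (nat_lit 0))))) (Nat.add (Nat.add (x (nat_lit 20) (nat_lit 0) (nat_lit 0)) (Nat.add (x (nat_lit 21) (nat_lit 0) (nat_lit 0)) (x (nat_lit 22) (nat_lit 0) (nat_lit 0)))) (Nat.add (Nat.add (x (nat_lit 23) (nat_lit 0) (nat_lit 0)) (x (nat_lit 24) (nat_lit 0) (nat_lit 0))) (Nat.add (x (nat_lit 25) (nat_lit 0) (nat_lit 0)) (x (nat_lit 26) (nat_lit 0) (nat_lit 0)))))))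 (Nat.add (Nat.add (Nat.add (Nat.add (x (nat_lit 27) (nat_lit 0) (nat_lit 0)) (Nat.add (x (nat_lit 28) (nat_lit 0) (nat_lit 0)) (x (nat_lit 29) (nat_lit 0) (nat_lit 0)))) (Nat.add (x (nat_lit 30) (nat_lit 0) (nat_lit 0)) (Nat.add (x (nat_lit 31) (nat_lit 0) (nat_lit 0)) (x (nat_lit 32) (nat_lit 0) (nat_lit 0))))) (Nat.add (Nat.add (x (nat_lit 33) (nat_lit 0) (nat_lit 0)) (Nat.add (x (nat_lit 34) (nat_lit 0) (nat_lit 0)) (x (nat_lit 35) (nat_lit 0) (nat_lit 0)))) (Nat.add (Nat.add (x (nat_lit 36) (nat_lit 0) (nat_lit 0)) (x (nat_lit 37) (nat_lit 0) (nat_lit 0))) (Nat.add (x (nat_lit 38) (nat_lit 0) (nat_lit 0)) (x (nat_lit 39) (nat_lit 0) (nat_lit 0)))))) (Nat.add (Nat.add (Nat.add (x (nat_lit 40) (nat_lit 0) (nat_lit 0)) (Nat.add (x (nat_lit 41) (nat_lit 0) (nat_lit 0)) (x (nat_lit 42) (nat_lit 0) (nat_lit 0)))) (Nat.add (Nat.add (x (nat_lit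 43) (nat_lit 0) (nat_lit 0)) (x (nat_lit 44) (nat_lit 0) (nat_lit 0))) (Nat.add (x (nat_lit 45) (nat_lit 0) (nat_lit 0)) (x (nat_lit 46) (nat_lit 0) (nat_lit 0))))) (Nat.add (Nat.add (x (nat_lit 47) (nat_lit 0) (nat_lit 0)) (Nat.add (x (nat_lit 48) (nat_lit 0) (nat_lit 0)) (x (nat_lit 49) (nat_lit 0) (nat_lit 0)))) (Nat.add (Nat.add (x (nat_lit 50) (nat_lit 0) (nat_lit 0)) (x (nat_lit 51) (nat_lit 0) (nat_lit 0))) (Nat.add (x (nat_lit 52) (nat_lit 0) (nat_lit 0)) (x (nat_lit 53) (nat_lit 0) (nat_lit 0))))))))⟩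
  (TL.cons ⟨fun x => (Nat.add (Nat.add (Nat.add (Nat.add (Nat.add (x (nat_lit 0) (nat_lit 0) (nat_lit 0)) (Nat.add (x (nat_lit 1) (nat_lit 0) (nat_lit 0)) (x (nat_lit 2) (nat_lit 0) (nat_lit 0)))) (Nat.add (x (nat_lit 3) (nat_lit 0) (nat_lit 0)) (Nat.add (x (nat_lit 4) (nat_lit 0) (nat_lit 0)) (x (nat_lit 5) (nat_lit 0) (nat_lit 0))))) (Nat.add (Nat.add (x (nat_lit 6) (nat_lit 0) (nat_lit 0)) (Nat.add (x (nat_lit 7) (nat_lit 0) (nat_lit 0)) (x (nat_lit 8) (nat_lit 0) (nat_lit 0)))) (Nat.add (Nat.add (x (nat_lit 9) (nat_lit 0) (nat_lit 0)) (x (nat_lit 10) (nat_lit 0) (nat_lit 0))) (Nat.add (x (nat_lit 11) (nat_lit 0) (nat_lit 0)) (x (nat_lit 12) (nat_lit 0) (nat_lit 0)))))) (Nat.add (Nat.add (Nat.add (x (nat_lit 13) (nat_lit 0) (nat_lit 0)) (Nat.add (x (nat_lit 14) (nat_lit 0) (nat_lit 0)) (x (nat_lit 15) (nat_lit 0) (nat_lit 0)))) (Nat.add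 (Nat.add (x (nat_lit 16) (nat_lit 0) (nat_lit 0)) (x (nat_lit 17) (nat_lit 0) (nat_lit 0))) (Nat.add (x (nat_lit 18) (nat_lit 0) (nat_lit 0)) (x (nat_lit 19) (nat_lit 0) (nat_lit 0))))) (Nat.add (Nat.add (x (nat_lit 20) (nat_lit 0) (nat_lit 0)) (Nat.add (x (nat_lit 21) (nat_lit 0) (nat_lit 0)) (x (nat_lit 22) (nat_lit 0) (nat_lit 0)))) (Nat.add (Nat.add (x (nat_lit 23) (nat_lit 0) (nat_lit 0)) (x (nat_lit 24) (nat_lit 0) (nat_lit 0))) (Nat.add (x (nat_lit 25) (nat_lit 0) (nat_lit 0)) (x (nat_lit 26) (nat_lit 0) (nat_lit 0))))))) (Nat.add (Nat.add (Nat.add (Nat.add (x (nat_lit 27) (nat_lit 0) (nat_lit 0)) (Nat.add (x (nat_lit 28) (nat_lit 0) (nat_lit 0)) (x (nat_lit 29) (nat_lit 0) (nat_lit 0)))) (Nat.add (Nat.add (x (nat_lit 30) (nat_lit 0) (nat_lit 0)) (x (nat_lit 31) (nat_lit 0) (nat_lit 0))) (Nat.add (x (nat_lit 32) (nat_lit 0) (nat_lit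 0)) (x (nat_lit 33) (nat_lit 0) (nat_lit 0))))) (Nat.add (Nat.add (x (nat_lit 34) (nat_lit 0) (nat_lit 0)) (Nat.add (x (nat_lit 35) (nat_lit 0) (nat_lit 0)) (x (nat_lit 36) (nat_lit 0) (nat_lit 0)))) (Nat.add (Nat.add (x (nat_lit 37) (nat_lit 0) (nat_lit 0)) (x (nat_lit 38) (nat_lit 0) (nat_lit 0))) (Nat.add (x (nat_lit 39) (nat_lit 0) (nat_lit 0)) (x (nat_lit 40) (nat_lit 0) (nat_lit 0)))))) (Nat.add (Nat.add (Nat.add (x (nat_lit 41) (nat_lit 0) (nat_lit 0)) (Nat.add (x (nat_lit 42) (nat_lit 0) (nat_lit 0)) (x (nat_lit 43) (nat_lit 0) (nat_lit 0)))) (Nat.add (Nat.add (x (nat_lit 44) (nat_lit 0) (nat_lit 0)) (x (nat_lit 45) (nat_lit 0) (nat_lit 0))) (Nat.add (x (nat_lit 46) (nat_lit 0) (nat_lit 0)) (x (nat_lit 47) (nat_lit 0) (nat_lit 0))))) (Nat.add (Nat.add (x (nat_lit 48) (nat_lit 0) (nat_lit 0)) (Nat.add (x (nat_lit 49) (nat_lit 0)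 (nat_lit 0)) (x (nat_lit 50) (nat_lit 0) (nat_lit 0)))) (Nat.add (Nat.add (x (nat_lit 51) (nat_lit 0) (nat_lit 0)) (x (nat_lit 52) (nat_lit 0) (nat_lit 0))) (Nat.add (x (nat_lit 53) (nat_lit 0) (nat_lit 0)) (x (nat_lit 54) (nat_lit 0) (nat_lit 0))))))))⟩
  (TL.cons ⟨fun x => (Nat.add (Nat.add (Nat.add (Nat.add (Nat.add (x (nat_lit 0) (nat_lit 0) (nat_lit 0)) (Nat.add (x (nat_lit 1) (nat_lit 0) (nat_lit 0)) (x (nat_lit 2) (nat_lit 0) (nat_lit 0)))) (Nat.add (Nat.add (x (nat_lit 3) (nat_lit 0) (nat_lit 0)) (x (nat_lit 4) (nat_lit 0) (nat_lit 0))) (Nat.add (x (nat_lit 5) (nat_lit 0) (nat_lit 0)) (x (nat_lit 6) (nat_lit 0) (nat_lit 0))))) (Nat.add (Nat.add (x (nat_lit 7) (nat_lit 0) (nat_lit 0)) (Nat.add (x (nat_lit 8) (nat_lit 0) (nat_lit 0)) (x (nat_lit 9) (nat_lit 0) (nat_lit 0)))) (Nat.add (Nat.add (x (nat_lit 10) (nat_lit 0) (nat_lit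 0)) (x (nat_lit 11) (nat_lit 0) (nat_lit 0))) (Nat.add (x (nat_lit 12) (nat_lit 0) (nat_lit 0)) (x (nat_lit 13) (nat_lit 0) (nat_lit 0)))))) (Nat.add (Nat.add (Nat.add (x (nat_lit 14) (nat_lit 0) (nat_lit 0)) (Nat.add (x (nat_lit 15) (nat_lit 0) (nat_lit 0)) (x (nat_lit 16) (nat_lit 0) (nat_lit 0)))) (Nat.add (Nat.add (x (nat_lit 17) (nat_lit 0) (nat_lit 0)) (x (nat_lit 18) (nat_lit 0) (nat_lit 0))) (Nat.add (x (nat_lit 19) (nat_lit 0) (nat_lit 0)) (x (nat_lit 20) (nat_lit 0) (nat_lit 0))))) (Nat.add (Nat.add (x (nat_lit 21) (nat_lit 0) (nat_lit 0)) (Nat.add (x (nat_lit 22) (nat_lit 0) (nat_lit 0)) (x (nat_lit 23) (nat_lit 0) (nat_lit 0)))) (Nat.add (Nat.add (x (nat_lit 24) (nat_lit 0) (nat_lit 0)) (x (nat_lit 25) (nat_lit 0) (nat_lit 0))) (Nat.add (x (nat_lit 26) (nat_lit 0) (nat_lit 0)) (x (nat_lit 27) (nat_lit 0) (nat_lit 0))))))) (Nat.add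 (Nat.add (Nat.add (Nat.add (x (nat_lit 28) (nat_lit 0) (nat_lit 0)) (Nat.add (x (nat_lit 29) (nat_lit 0) (nat_lit 0)) (x (nat_lit 30) (nat_lit 0) (nat_lit 0)))) (Nat.add (Nat.add (x (nat_lit 31) (nat_lit 0) (nat_lit 0)) (x (nat_lit 32) (nat_lit 0) (nat_lit 0))) (Nat.add (x (nat_lit 33) (nat_lit 0) (nat_lit 0)) (x (nat_lit 34) (nat_lit 0) (nat_lit 0))))) (Nat.add (Nat.add (x (nat_lit 35) (nat_lit 0) (nat_lit 0)) (Nat.add (x (nat_lit 36) (nat_lit 0) (nat_lit 0)) (x (nat_lit 37) (nat_lit 0) (nat_lit 0)))) (Nat.add (Nat.add (x (nat_lit 38) (nat_lit 0) (nat_lit 0)) (x (nat_lit 39) (nat_lit 0) (nat_lit 0))) (Nat.add (x (nat_lit 40) (nat_lit 0) (nat_lit 0)) (x (nat_lit 41) (nat_lit 0) (nat_lit 0)))))) (Nat.add (Nat.add (Nat.add (x (nat_lit 42) (nat_lit 0) (nat_lit 0)) (Nat.add (x (nat_lit 43) (nat_lit 0) (nat_lit 0)) (x (nat_lit 44) (nat_lit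 0) (nat_lit 0)))) (Nat.add (Nat.add (x (nat_lit 45) (nat_lit 0) (nat_lit 0)) (x (nat_lit 46) (nat_lit 0) (nat_lit 0))) (Nat.add (x (nat_lit 47) (nat_lit 0) (nat_lit 0)) (x (nat_lit 48) (nat_lit 0) (nat_lit 0))))) (Nat.add (Nat.add (x (nat_lit 49) (nat_lit 0) (nat_lit 0)) (Nat.add (x (nat_lit 50) (nat_lit 0) (nat_lit 0)) (x (nat_lit 51) (nat_lit 0) (nat_lit 0)))) (Nat.add (Nat.add (x (nat_lit 52) (nat_lit 0) (nat_lit 0)) (x (nat_lit 53) (nat_lit 0) (nat_lit 0))) (Nat.add (x (nat_lit 54) (nat_lit 0) (nat_lit 0)) (x (nat_lit 55) (nat_lit 0) (nat_lit 0))))))))⟩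
  (TL.cons ⟨fun x => (Nat.add (Nat.add (Nat.add (Nat.add (Nat.add (x (nat_lit 0) (nat_lit 0) (nat_lit 0)) (Nat.add (x (nat_lit 1) (nat_lit 0) (nat_lit 0)) (x (nat_lit 2) (nat_lit 0) (nat_lit 0)))) (Nat.add (Nat.add (x (nat_lit 3) (nat_lit 0) (nat_lit 0)) (x (nat_lit 4) (nat_lit 0) (nat_lit 0))) (Nat.add (x (nat_lit 5) (nat_lit 0) (nat_lit 0)) (x (nat_lit 6) (nat_lit 0) (nat_lit 0))))) (Nat.add (Nat.add (x (nat_lit 7) (nat_lit 0) (nat_lit 0)) (Nat.add (x (nat_lit 8) (nat_lit 0) (nat_lit 0)) (x (nat_lit 9) (nat_lit 0) (nat_lit 0)))) (Nat.add (Nat.add (x (nat_lit 10) (nat_lit 0) (nat_lit 0)) (x (nat_lit 11) (nat_lit 0) (nat_lit 0))) (Nat.add (x (nat_lit 12) (nat_lit 0) (nat_lit 0)) (x (nat_lit 13) (nat_lit 0) (nat_lit 0)))))) (Nat.add (Nat.add (Nat.add (x (nat_lit 14) (nat_lit 0) (nat_lit 0)) (Nat.add (x (nat_lit 15) (nat_lit 0) (nat_lit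 0)) (x (nat_lit 16) (nat_lit 0) (nat_lit 0)))) (Nat.add (Nat.add (x (nat_lit 17) (nat_lit 0) (nat_lit 0)) (x (nat_lit 18) (nat_lit 0) (nat_lit 0))) (Nat.add (x (nat_lit 19) (nat_lit 0) (nat_lit 0)) (x (nat_lit 20) (nat_lit 0) (nat_lit 0))))) (Nat.add (Nat.add (x (nat_lit 21) (nat_lit 0) (nat_lit 0)) (Nat.add (x (nat_lit 22) (nat_lit 0) (nat_lit 0)) (x (nat_lit 23) (nat_lit 0) (nat_lit 0)))) (Nat.add (Nat.add (x (nat_lit 24) (nat_lit 0) (nat_lit 0)) (x (nat_lit 25) (nat_lit 0) (nat_lit 0))) (Nat.add (x (nat_lit 26) (nat_lit 0) (nat_lit 0)) (x (nat_lit 27) (nat_lit 0) (nat_lit 0))))))) (Nat.add (Nat.add (Nat.add (Nat.add (x (nat_lit 28) (nat_lit 0) (nat_lit 0)) (Nat.add (x (nat_lit 29) (nat_lit 0) (nat_lit 0)) (x (nat_lit 30) (nat_lit 0) (nat_lit 0)))) (Nat.add (Nat.add (x (nat_lit 31) (nat_lit 0) (nat_lit 0)) (x (nat_lit 32) (nat_lit 0)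 (nat_lit 0))) (Nat.add (x (nat_lit 33) (nat_lit 0) (nat_lit 0)) (x (nat_lit 34) (nat_lit 0) (nat_lit 0))))) (Nat.add (Nat.add (x (nat_lit 35) (nat_lit 0) (nat_lit 0)) (Nat.add (x (nat_lit 36) (nat_lit 0) (nat_lit 0)) (x (nat_lit 37) (nat_lit 0) (nat_lit 0)))) (Nat.add (Nat.add (x (nat_lit 38) (nat_lit 0) (nat_lit 0)) (x (nat_lit 39) (nat_lit 0) (nat_lit 0))) (Nat.add (x (nat_lit 40) (nat_lit 0) (nat_lit 0)) (x (nat_lit 41) (nat_lit 0) (nat_lit 0)))))) (Nat.add (Nat.add (Nat.add (x (nat_lit 42) (nat_lit 0) (nat_lit 0)) (Nat.add (x (nat_lit 43) (nat_lit 0) (nat_lit 0)) (x (nat_lit 44) (nat_lit 0) (nat_lit 0)))) (Nat.add (Nat.add (x (nat_lit 45) (nat_lit 0) (nat_lit 0)) (x (nat_lit 46) (nat_lit 0) (nat_lit 0))) (Nat.add (x (nat_lit 47) (nat_lit 0) (nat_lit 0)) (x (nat_lit 48) (nat_lit 0) (nat_lit 0))))) (Nat.add (Nat.add (Nat.add (x (nat_lit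 49) (nat_lit 0) (nat_lit 0)) (x (nat_lit 50) (nat_lit 0) (nat_lit 0))) (Nat.add (x (nat_lit 51) (nat_lit 0) (nat_lit 0)) (x (nat_lit 52) (nat_lit 0) (nat_lit 0)))) (Nat.add (Nat.add (x (nat_lit 53) (nat_lit 0) (nat_lit 0)) (x (nat_lit 54) (nat_lit 0) (nat_lit 0))) (Nat.add (x (nat_lit 55) (nat_lit 0) (nat_lit 0)) (x (nat_lit 56) (nat_lit 0) (nat_lit 0))))))))⟩
  (TL.cons ⟨fun x => (Nat.add (Nat.add (Nat.add (Nat.add (Nat.add (x (nat_lit 0) (nat_lit 0) (nat_lit 0)) (Nat.add (x (nat_lit 1) (nat_lit 0) (nat_lit 0)) (x (nat_lit 2) (nat_lit 0) (nat_lit 0)))) (Nat.add (Nat.add (x (nat_lit 3) (nat_lit 0) (nat_lit 0)) (x (nat_lit 4) (nat_lit 0) (nat_lit 0))) (Nat.add (x (nat_lit 5) (nat_lit 0) (nat_lit 0)) (x (nat_lit 6) (nat_lit 0) (nat_lit 0))))) (Nat.add (Nat.add (x (nat_lit 7) (nat_lit 0) (nat_lit 0)) (Nat.add (x (nat_lit 8) (nat_lit 0) (nat_lit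 0)) (x (nat_lit 9) (nat_lit 0) (nat_lit 0)))) (Nat.add (Nat.add (x (nat_lit 10) (nat_lit 0) (nat_lit 0)) (x (nat_lit 11) (nat_lit 0) (nat_lit 0))) (Nat.add (x (nat_lit 12) (nat_lit 0) (nat_lit 0)) (x (nat_lit 13) (nat_lit 0) (nat_lit 0)))))) (Nat.add (Nat.add (Nat.add (x (nat_lit 14) (nat_lit 0) (nat_lit 0)) (Nat.add (x (nat_lit 15) (nat_lit 0) (nat_lit 0)) (x (nat_lit 16) (nat_lit 0) (nat_lit 0)))) (Nat.add (Nat.add (x (nat_lit 17) (nat_lit 0) (nat_lit 0)) (x (nat_lit 18) (nat_lit 0) (nat_lit 0))) (Nat.add (x (nat_lit 19) (nat_lit 0) (nat_lit 0)) (x (nat_lit 20) (nat_lit 0) (nat_lit 0))))) (Nat.add (Nat.add (Nat.add (x (nat_lit 21) (nat_lit 0) (nat_lit 0)) (x (nat_lit 22) (nat_lit 0) (nat_lit 0))) (Nat.add (x (nat_lit 23) (nat_lit 0) (nat_lit 0)) (x (nat_lit 24) (nat_lit 0) (nat_lit 0)))) (Nat.add (Nat.add (x (nat_lit 25) (nat_lit 0)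 (nat_lit 0)) (x (nat_lit 26) (nat_lit 0) (nat_lit 0))) (Nat.add (x (nat_lit 27) (nat_lit 0) (nat_lit 0)) (x (nat_lit 28) (nat_lit 0) (nat_lit 0))))))) (Nat.add (Nat.add (Nat.add (Nat.add (x (nat_lit 29) (nat_lit 0) (nat_lit 0)) (Nat.add (x (nat_lit 30) (nat_lit 0) (nat_lit 0)) (x (nat_lit 31) (nat_lit 0) (nat_lit 0)))) (Nat.add (Nat.add (x (nat_lit 32) (nat_lit 0) (nat_lit 0)) (x (nat_lit 33) (nat_lit 0) (nat_lit 0))) (Nat.add (x (nat_lit 34) (nat_lit 0) (nat_lit 0)) (x (nat_lit 35) (nat_lit 0) (nat_lit 0))))) (Nat.add (Nat.add (x (nat_lit 36) (nat_lit 0) (nat_lit 0)) (Nat.add (x (nat_lit 37) (nat_lit 0) (nat_lit 0)) (x (nat_lit 38) (nat_lit 0) (nat_lit 0)))) (Nat.add (Nat.add (x (nat_lit 39) (nat_lit 0) (nat_lit 0)) (x (nat_lit 40) (nat_lit 0) (nat_lit 0))) (Nat.add (x (nat_lit 41) (nat_lit 0) (nat_lit 0)) (x (nat_lit 42) (nat_lit 0)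 (nat_lit 0)))))) (Nat.add (Nat.add (Nat.add (x (nat_lit 43) (nat_lit 0) (nat_lit 0)) (Nat.add (x (nat_lit 44) (nat_lit 0) (nat_lit 0)) (x (nat_lit 45) (nat_lit 0) (nat_lit 0)))) (Nat.add (Nat.add (x (nat_lit 46) (nat_lit 0) (nat_lit 0)) (x (nat_lit 47) (nat_lit 0) (nat_lit 0))) (Nat.add (x (nat_lit 48) (nat_lit 0) (nat_lit 0)) (x (nat_lit 49) (nat_lit 0) (nat_lit 0))))) (Nat.add (Nat.add (Nat.add (x (nat_lit 50) (nat_lit 0) (nat_lit 0)) (x (nat_lit 51) (nat_lit 0) (nat_lit 0))) (Nat.add (x (nat_lit 52) (nat_lit 0) (nat_lit 0)) (x (nat_lit 53) (nat_lit 0) (nat_lit 0)))) (Nat.add (Nat.add (x (nat_lit 54) (nat_lit 0) (nat_lit 0)) (x (nat_lit 55) (nat_lit 0) (nat_lit 0))) (Nat.add (x (nat_lit 56) (nat_lit 0) (nat_lit 0)) (x (nat_lit 57) (nat_lit 0) (nat_lit 0))))))))⟩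
  (TL.cons ⟨fun x => (Nat.add (Nat.add (Nat.add (Nat.add (Nat.add (x (nat_lit 0) (nat_lit 0) (nat_lit 0)) (Nat.add (x (nat_lit 1) (nat_lit 0) (nat_lit 0)) (x (nat_lit 2) (nat_lit 0) (nat_lit 0)))) (Nat.add (Nat.add (x (nat_lit 3) (nat_lit 0) (nat_lit 0)) (x (nat_lit 4) (nat_lit 0) (nat_lit 0))) (Nat.add (x (nat_lit 5) (nat_lit 0) (nat_lit 0)) (x (nat_lit 6) (nat_lit 0) (nat_lit 0))))) (Nat.add (Nat.add (x (nat_lit 7) (nat_lit 0) (nat_lit 0)) (Nat.add (x (nat_lit 8) (nat_lit 0) (nat_lit 0)) (x (nat_lit 9) (nat_lit 0) (nat_lit 0)))) (Nat.add (Nat.add (x (nat_lit 10) (nat_lit 0) (nat_lit 0)) (x (nat_lit 11) (nat_lit 0) (nat_lit 0))) (Nat.add (x (nat_lit 12) (nat_lit 0) (nat_lit 0)) (x (nat_lit 13) (nat_lit 0) (nat_lit 0)))))) (Nat.add (Nat.add (Nat.add (x (nat_lit 14) (nat_lit 0) (nat_lit 0)) (Nat.add (x (nat_lit 15) (nat_lit 0) (nat_lit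 0)) (x (nat_lit 16) (nat_lit 0) (nat_lit 0)))) (Nat.add (Nat.add (x (nat_lit 17) (nat_lit 0) (nat_lit 0)) (x (nat_lit 18) (nat_lit 0) (nat_lit 0))) (Nat.add (x (nat_lit 19) (nat_lit 0) (nat_lit 0)) (x (nat_lit 20) (nat_lit 0) (nat_lit 0))))) (Nat.add (Nat.add (Nat.add (x (nat_lit 21) (nat_lit 0) (nat_lit 0)) (x (nat_lit 22) (nat_lit 0) (nat_lit 0))) (Nat.add (x (nat_lit 23) (nat_lit 0) (nat_lit 0)) (x (nat_lit 24) (nat_lit 0) (nat_lit 0)))) (Nat.add (Nat.add (x (nat_lit 25) (nat_lit 0) (nat_lit 0)) (x (nat_lit 26) (nat_lit 0) (nat_lit 0))) (Nat.add (x (nat_lit 27) (nat_lit 0) (nat_lit 0)) (x (nat_lit 28) (nat_lit 0) (nat_lit 0))))))) (Nat.add (Nat.add (Nat.add (Nat.add (x (nat_lit 29) (nat_lit 0) (nat_lit 0)) (Nat.add (x (nat_lit 30) (nat_lit 0) (nat_lit 0)) (x (nat_lit 31) (nat_lit 0) (nat_lit 0)))) (Nat.add (Nat.add (x (nat_lit 32) (nat_lit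 0) (nat_lit 0)) (x (nat_lit 33) (nat_lit 0) (nat_lit 0))) (Nat.add (x (nat_lit 34) (nat_lit 0) (nat_lit 0)) (x (nat_lit 35) (nat_lit 0) (nat_lit 0))))) (Nat.add (Nat.add (Nat.add (x (nat_lit 36) (nat_lit 0) (nat_lit 0)) (x (nat_lit 37) (nat_lit 0) (nat_lit 0))) (Nat.add (x (nat_lit 38) (nat_lit 0) (nat_lit 0)) (x (nat_lit 39) (nat_lit 0) (nat_lit 0)))) (Nat.add (Nat.add (x (nat_lit 40) (nat_lit 0) (nat_lit 0)) (x (nat_lit 41) (nat_lit 0) (nat_lit 0))) (Nat.add (x (nat_lit 42) (nat_lit 0) (nat_lit 0)) (x (nat_lit 43) (nat_lit 0) (nat_lit 0)))))) (Nat.add (Nat.add (Nat.add (x (nat_lit 44) (nat_lit 0) (nat_lit 0)) (Nat.add (x (nat_lit 45) (nat_lit 0) (nat_lit 0)) (x (nat_lit 46) (nat_lit 0) (nat_lit 0)))) (Nat.add (Nat.add (x (nat_lit 47) (nat_lit 0) (nat_lit 0)) (x (nat_lit 48) (nat_lit 0) (nat_lit 0))) (Nat.add (x (nat_lit 49) (nat_lit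 0) (nat_lit 0)) (x (nat_lit 50) (nat_lit 0) (nat_lit 0))))) (Nat.add (Nat.add (Nat.add (x (nat_lit 51) (nat_lit 0) (nat_lit 0)) (x (nat_lit 52) (nat_lit 0) (nat_lit 0))) (Nat.add (x (nat_lit 53) (nat_lit 0) (nat_lit 0)) (x (nat_lit 54) (nat_lit 0) (nat_lit 0)))) (Nat.add (Nat.add (x (nat_lit 55) (nat_lit 0) (nat_lit 0)) (x (nat_lit 56) (nat_lit 0) (nat_lit 0))) (Nat.add (x (nat_lit 57) (nat_lit 0) (nat_lit 0)) (x (nat_lit 58) (nat_lit 0) (nat_lit 0))))))))⟩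
  (TL.cons ⟨fun x => (Nat.add (Nat.add (Nat.add (Nat.add (Nat.add (x (nat_lit 0) (nat_lit 0) (nat_lit 0)) (Nat.add (x (nat_lit 1) (nat_lit 0) (nat_lit 0)) (x (nat_lit 2) (nat_lit 0) (nat_lit 0)))) (Nat.add (Nat.add (x (nat_lit 3) (nat_lit 0) (nat_lit 0)) (x (nat_lit 4) (nat_lit 0) (nat_lit 0))) (Nat.add (x (nat_lit 5) (nat_lit 0) (nat_lit 0)) (x (nat_lit 6) (nat_lit 0) (nat_lit 0))))) (Nat.add (Nat.add (Nat.add (x (nat_lit 7) (nat_lit 0) (nat_lit 0)) (x (nat_lit 8) (nat_lit 0) (nat_lit 0))) (Nat.add (x (nat_lit 9) (nat_lit 0) (nat_lit 0)) (x (nat_lit 10) (nat_lit 0) (nat_lit 0)))) (Nat.add (Nat.add (x (nat_lit 11) (nat_lit 0) (nat_lit 0)) (x (nat_lit 12) (nat_lit 0) (nat_lit 0))) (Nat.add (x (nat_lit 13) (nat_lit 0) (nat_lit 0)) (x (nat_lit 14) (nat_lit 0) (nat_lit 0)))))) (Nat.add (Nat.add (Nat.add (x (nat_lit 15) (nat_lit 0) (nat_lit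 0)) (Nat.add (x (nat_lit 16) (nat_lit 0) (nat_lit 0)) (x (nat_lit 17) (nat_lit 0) (nat_lit 0)))) (Nat.add (Nat.add (x (nat_lit 18) (nat_lit 0) (nat_lit 0)) (x (nat_lit 19) (nat_lit 0) (nat_lit 0))) (Nat.add (x (nat_lit 20) (nat_lit 0) (nat_lit 0)) (x (nat_lit 21) (nat_lit 0) (nat_lit 0))))) (Nat.add (Nat.add (Nat.add (x (nat_lit 22) (nat_lit 0) (nat_lit 0)) (x (nat_lit 23) (nat_lit 0) (nat_lit 0))) (Nat.add (x (nat_lit 24) (nat_lit 0) (nat_lit 0)) (x (nat_lit 25) (nat_lit 0) (nat_lit 0)))) (Nat.add (Nat.add (x (nat_lit 26) (nat_lit 0) (nat_lit 0)) (x (nat_lit 27) (nat_lit 0) (nat_lit 0))) (Nat.add (x (nat_lit 28) (nat_lit 0) (nat_lit 0)) (x (nat_lit 29) (nat_lit 0) (nat_lit 0))))))) (Nat.add (Nat.add (Nat.add (Nat.add (x (nat_lit 30) (nat_lit 0) (nat_lit 0)) (Nat.add (x (nat_lit 31) (nat_lit 0) (nat_lit 0)) (x (nat_lit 32) (nat_lit 0)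 (nat_lit 0)))) (Nat.add (Nat.add (x (nat_lit 33) (nat_lit 0) (nat_lit 0)) (x (nat_lit 34) (nat_lit 0) (nat_lit 0))) (Nat.add (x (nat_lit 35) (nat_lit 0) (nat_lit 0)) (x (nat_lit 36) (nat_lit 0) (nat_lit 0))))) (Nat.add (Nat.add (Nat.add (x (nat_lit 37) (nat_lit 0) (nat_lit 0)) (x (nat_lit 38) (nat_lit 0) (nat_lit 0))) (Nat.add (x (nat_lit 39) (nat_lit 0) (nat_lit 0)) (x (nat_lit 40) (nat_lit 0) (nat_lit 0)))) (Nat.add (Nat.add (x (nat_lit 41) (nat_lit 0) (nat_lit 0)) (x (nat_lit 42) (nat_lit 0) (nat_lit 0))) (Nat.add (x (nat_lit 43) (nat_lit 0) (nat_lit 0)) (x (nat_lit 44) (nat_lit 0) (nat_lit 0)))))) (Nat.add (Nat.add (Nat.add (x (nat_lit 45) (nat_lit 0) (nat_lit 0)) (Nat.add (x (nat_lit 46) (nat_lit 0) (nat_lit 0)) (x (nat_lit 47) (nat_lit 0) (nat_lit 0)))) (Nat.add (Nat.add (x (nat_lit 48) (nat_lit 0) (nat_lit 0)) (x (nat_lit 49) (nat_lit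 0) (nat_lit 0))) (Nat.add (x (nat_lit 50) (nat_lit 0) (nat_lit 0)) (x (nat_lit 51) (nat_lit 0) (nat_lit 0))))) (Nat.add (Nat.add (Nat.add (x (nat_lit 52) (nat_lit 0) (nat_lit 0)) (x (nat_lit 53) (nat_lit 0) (nat_lit 0))) (Nat.add (x (nat_lit 54) (nat_lit 0) (nat_lit 0)) (x (nat_lit 55) (nat_lit 0) (nat_lit 0)))) (Nat.add (Nat.add (x (nat_lit 56) (nat_lit 0) (nat_lit 0)) (x (nat_lit 57) (nat_lit 0) (nat_lit 0))) (Nat.add (x (nat_lit 58) (nat_lit 0) (nat_lit 0)) (x (nat_lit 59) (nat_lit 0) (nat_lit 0))))))))⟩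
  (TL.cons ⟨fun x => (Nat.add (Nat.add (Nat.add (Nat.add (Nat.add (x (nat_lit 0) (nat_lit 0) (nat_lit 0)) (Nat.add (x (nat_lit 1) (nat_lit 0) (nat_lit 0)) (x (nat_lit 2) (nat_lit 0) (nat_lit 0)))) (Nat.add (Nat.add (x (nat_lit 3) (nat_lit 0) (nat_lit 0)) (x (nat_lit 4) (nat_lit 0) (nat_lit 0))) (Nat.add (x (nat_lit 5) (nat_lit 0) (nat_lit 0)) (x (nat_lit 6) (nat_lit 0) (nat_lit 0))))) (Nat.add (Nat.add (Nat.add (x (nat_lit 7) (nat_lit 0) (nat_lit 0)) (x (nat_lit 8) (nat_lit 0) (nat_lit 0))) (Nat.add (x (nat_lit 9) (nat_lit 0) (nat_lit 0)) (x (nat_lit 10) (nat_lit 0) (nat_lit 0)))) (Nat.add (Nat.add (x (nat_lit 11) (nat_lit 0) (nat_lit 0)) (x (nat_lit 12) (nat_lit 0) (nat_lit 0))) (Nat.add (x (nat_lit 13) (nat_lit 0) (nat_lit 0)) (x (nat_lit 14) (nat_lit 0) (nat_lit 0)))))) (Nat.add (Nat.add (Nat.add (x (nat_lit 15) (nat_lit 0) (nat_lit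 0)) (Nat.add (x (nat_lit 16) (nat_lit 0) (nat_lit 0)) (x (nat_lit 17) (nat_lit 0) (nat_lit 0)))) (Nat.add (Nat.add (x (nat_lit 18) (nat_lit 0) (nat_lit 0)) (x (nat_lit 19) (nat_lit 0) (nat_lit 0))) (Nat.add (x (nat_lit 20) (nat_lit 0) (nat_lit 0)) (x (nat_lit 21) (nat_lit 0) (nat_lit 0))))) (Nat.add (Nat.add (Nat.add (x (nat_lit 22) (nat_lit 0) (nat_lit 0)) (x (nat_lit 23) (nat_lit 0) (nat_lit 0))) (Nat.add (x (nat_lit 24) (nat_lit 0) (nat_lit 0)) (x (nat_lit 25) (nat_lit 0) (nat_lit 0)))) (Nat.add (Nat.add (x (nat_lit 26) (nat_lit 0) (nat_lit 0)) (x (nat_lit 27) (nat_lit 0) (nat_lit 0))) (Nat.add (x (nat_lit 28) (nat_lit 0) (nat_lit 0)) (x (nat_lit 29) (nat_lit 0) (nat_lit 0))))))) (Nat.add (Nat.add (Nat.add (Nat.add (x (nat_lit 30) (nat_lit 0) (nat_lit 0)) (Nat.add (x (nat_lit 31) (nat_lit 0) (nat_lit 0)) (x (nat_lit 32) (nat_lit 0)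 (nat_lit 0)))) (Nat.add (Nat.add (x (nat_lit 33) (nat_lit 0) (nat_lit 0)) (x (nat_lit 34) (nat_lit 0) (nat_lit 0))) (Nat.add (x (nat_lit 35) (nat_lit 0) (nat_lit 0)) (x (nat_lit 36) (nat_lit 0) (nat_lit 0))))) (Nat.add (Nat.add (Nat.add (x (nat_lit 37) (nat_lit 0) (nat_lit 0)) (x (nat_lit 38) (nat_lit 0) (nat_lit 0))) (Nat.add (x (nat_lit 39) (nat_lit 0) (nat_lit 0)) (x (nat_lit 40) (nat_lit 0) (nat_lit 0)))) (Nat.add (Nat.add (x (nat_lit 41) (nat_lit 0) (nat_lit 0)) (x (nat_lit 42) (nat_lit 0) (nat_lit 0))) (Nat.add (x (nat_lit 43) (nat_lit 0) (nat_lit 0)) (x (nat_lit 44) (nat_lit 0) (nat_lit 0)))))) (Nat.add (Nat.add (Nat.add (Nat.add (x (nat_lit 45) (nat_lit 0) (nat_lit 0)) (x (nat_lit 46) (nat_lit 0) (nat_lit 0))) (Nat.add (x (nat_lit 47) (nat_lit 0) (nat_lit 0)) (x (nat_lit 48) (nat_lit 0) (nat_lit 0)))) (Nat.add (Nat.add (x (nat_lit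 49) (nat_lit 0) (nat_lit 0)) (x (nat_lit 50) (nat_lit 0) (nat_lit 0))) (Nat.add (x (nat_lit 51) (nat_lit 0) (nat_lit 0)) (x (nat_lit 52) (nat_lit 0) (nat_lit 0))))) (Nat.add (Nat.add (Nat.add (x (nat_lit 53) (nat_lit 0) (nat_lit 0)) (x (nat_lit 54) (nat_lit 0) (nat_lit 0))) (Nat.add (x (nat_lit 55) (nat_lit 0) (nat_lit 0)) (x (nat_lit 56) (nat_lit 0) (nat_lit 0)))) (Nat.add (Nat.add (x (nat_lit 57) (nat_lit 0) (nat_lit 0)) (x (nat_lit 58) (nat_lit 0) (nat_lit 0))) (Nat.add (x (nat_lit 59) (nat_lit 0) (nat_lit 0)) (x (nat_lit 60) (nat_lit 0) (nat_lit 0))))))))⟩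
  (TL.cons ⟨fun x => (Nat.add (Nat.add (Nat.add (Nat.add (Nat.add (x (nat_lit 0) (nat_lit 0) (nat_lit 0)) (Nat.add (x (nat_lit 1) (nat_lit 0) (nat_lit 0)) (x (nat_lit 2) (nat_lit 0) (nat_lit 0)))) (Nat.add (Nat.add (x (nat_lit 3) (nat_lit 0) (nat_lit 0)) (x (nat_lit 4) (nat_lit 0) (nat_lit 0))) (Nat.add (x (nat_lit 5) (nat_lit 0) (nat_lit 0)) (x (nat_lit 6) (nat_lit 0) (nat_lit 0))))) (Nat.add (Nat.add (Nat.add (x (nat_lit 7) (nat_lit 0) (nat_lit 0)) (x (nat_lit 8) (nat_lit 0) (nat_lit 0))) (Nat.add (x (nat_lit 9) (nat_lit 0) (nat_lit 0)) (x (nat_lit 10) (nat_lit 0) (nat_lit 0)))) (Nat.add (Nat.add (x (nat_lit 11) (nat_lit 0) (nat_lit 0)) (x (nat_lit 12) (nat_lit 0) (nat_lit 0))) (Nat.add (x (nat_lit 13) (nat_lit 0) (nat_lit 0)) (x (nat_lit 14) (nat_lit 0) (nat_lit 0)))))) (Nat.add (Nat.add (Nat.add (Nat.add (x (nat_lit 15) (nat_lit 0)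 (nat_lit 0)) (x (nat_lit 16) (nat_lit 0) (nat_lit 0))) (Nat.add (x (nat_lit 17) (nat_lit 0) (nat_lit 0)) (x (nat_lit 18) (nat_lit 0) (nat_lit 0)))) (Nat.add (Nat.add (x (nat_lit 19) (nat_lit 0) (nat_lit 0)) (x (nat_lit 20) (nat_lit 0) (nat_lit 0))) (Nat.add (x (nat_lit 21) (nat_lit 0) (nat_lit 0)) (x (nat_lit 22) (nat_lit 0) (nat_lit 0))))) (Nat.add (Nat.add (Nat.add (x (nat_lit 23) (nat_lit 0) (nat_lit 0)) (x (nat_lit 24) (nat_lit 0) (nat_lit 0))) (Nat.add (x (nat_lit 25) (nat_lit 0) (nat_lit 0)) (x (nat_lit 26) (nat_lit 0) (nat_lit 0)))) (Nat.add (Nat.add (x (nat_lit 27) (nat_lit 0) (nat_lit 0)) (x (nat_lit 28) (nat_lit 0) (nat_lit 0))) (Nat.add (x (nat_lit 29) (nat_lit 0) (nat_lit 0)) (x (nat_lit 30) (nat_lit 0) (nat_lit 0))))))) (Nat.add (Nat.add (Nat.add (Nat.add (x (nat_lit 31) (nat_lit 0) (nat_lit 0)) (Nat.add (x (nat_lit 32) (nat_lit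 0) (nat_lit 0)) (x (nat_lit 33) (nat_lit 0) (nat_lit 0)))) (Nat.add (Nat.add (x (nat_lit 34) (nat_lit 0) (nat_lit 0)) (x (nat_lit 35) (nat_lit 0) (nat_lit 0))) (Nat.add (x (nat_lit 36) (nat_lit 0) (nat_lit 0)) (x (nat_lit 37) (nat_lit 0) (nat_lit 0))))) (Nat.add (Nat.add (Nat.add (x (nat_lit 38) (nat_lit 0) (nat_lit 0)) (x (nat_lit 39) (nat_lit 0) (nat_lit 0))) (Nat.add (x (nat_lit 40) (nat_lit 0) (nat_lit 0)) (x (nat_lit 41) (nat_lit 0) (nat_lit 0)))) (Nat.add (Nat.add (x (nat_lit 42) (nat_lit 0) (nat_lit 0)) (x (nat_lit 43) (nat_lit 0) (nat_lit 0))) (Nat.add (x (nat_lit 44) (nat_lit 0) (nat_lit 0)) (x (nat_lit 45) (nat_lit 0) (nat_lit 0)))))) (Nat.add (Nat.add (Nat.add (Nat.add (x (nat_lit 46) (nat_lit 0) (nat_lit 0)) (x (nat_lit 47) (nat_lit 0) (nat_lit 0))) (Nat.add (x (nat_lit 48) (nat_lit 0) (nat_lit 0)) (x (nat_lit 49) (nat_lit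 0) (nat_lit 0)))) (Nat.add (Nat.add (x (nat_lit 50) (nat_lit 0) (nat_lit 0)) (x (nat_lit 51) (nat_lit 0) (nat_lit 0))) (Nat.add (x (nat_lit 52) (nat_lit 0) (nat_lit 0)) (x (nat_lit 53) (nat_lit 0) (nat_lit 0))))) (Nat.add (Nat.add (Nat.add (x (nat_lit 54) (nat_lit 0) (nat_lit 0)) (x (nat_lit 55) (nat_lit 0) (nat_lit 0))) (Nat.add (x (nat_lit 56) (nat_lit 0) (nat_lit 0)) (x (nat_lit 57) (nat_lit 0) (nat_lit 0)))) (Nat.add (Nat.add (x (nat_lit 58) (nat_lit 0) (nat_lit 0)) (x (nat_lit 59) (nat_lit 0) (nat_lit 0))) (Nat.add (x (nat_lit 60) (nat_lit 0) (nat_lit 0)) (x (nat_lit 61) (nat_lit 0) (nat_lit 0))))))))⟩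
  (TL.cons ⟨fun x => (Nat.add (Nat.add (Nat.add (Nat.add (Nat.add (x (nat_lit 0) (nat_lit 0) (nat_lit 0)) (Nat.add (x (nat_lit 1) (nat_lit 0) (nat_lit 0)) (x (nat_lit 2) (nat_lit 0) (nat_lit 0)))) (Nat.add (Nat.add (x (nat_lit 3) (nat_lit 0) (nat_lit 0)) (x (nat_lit 4) (nat_lit 0) (nat_lit 0))) (Nat.add (x (nat_lit 5) (nat_lit 0) (nat_lit 0)) (x (nat_lit 6) (nat_lit 0) (nat_lit 0))))) (Nat.add (Nat.add (Nat.add (x (nat_lit 7) (nat_lit 0) (nat_lit 0)) (x (nat_lit 8) (nat_lit 0) (nat_lit 0))) (Nat.add (x (nat_lit 9) (nat_lit 0) (nat_lit 0)) (x (nat_lit 10) (nat_lit 0) (nat_lit 0)))) (Nat.add (Nat.add (x (nat_lit 11) (nat_lit 0) (nat_lit 0)) (x (nat_lit 12) (nat_lit 0) (nat_lit 0))) (Nat.add (x (nat_lit 13) (nat_lit 0) (nat_lit 0)) (x (nat_lit 14) (nat_lit 0) (nat_lit 0)))))) (Nat.add (Nat.add (Nat.add (Nat.add (x (nat_lit 15) (nat_lit 0)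 (nat_lit 0)) (x (nat_lit 16) (nat_lit 0) (nat_lit 0))) (Nat.add (x (nat_lit 17) (nat_lit 0) (nat_lit 0)) (x (nat_lit 18) (nat_lit 0) (nat_lit 0)))) (Nat.add (Nat.add (x (nat_lit 19) (nat_lit 0) (nat_lit 0)) (x (nat_lit 20) (nat_lit 0) (nat_lit 0))) (Nat.add (x (nat_lit 21) (nat_lit 0) (nat_lit 0)) (x (nat_lit 22) (nat_lit 0) (nat_lit 0))))) (Nat.add (Nat.add (Nat.add (x (nat_lit 23) (nat_lit 0) (nat_lit 0)) (x (nat_lit 24) (nat_lit 0) (nat_lit 0))) (Nat.add (x (nat_lit 25) (nat_lit 0) (nat_lit 0)) (x (nat_lit 26) (nat_lit 0) (nat_lit 0)))) (Nat.add (Nat.add (x (nat_lit 27) (nat_lit 0) (nat_lit 0)) (x (nat_lit 28) (nat_lit 0) (nat_lit 0))) (Nat.add (x (nat_lit 29) (nat_lit 0) (nat_lit 0)) (x (nat_lit 30) (nat_lit 0) (nat_lit 0))))))) (Nat.add (Nat.add (Nat.add (Nat.add (Nat.add (x (nat_lit 31) (nat_lit 0) (nat_lit 0)) (x (nat_lit 32) (nat_lit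 0) (nat_lit 0))) (Nat.add (x (nat_lit 33) (nat_lit 0) (nat_lit 0)) (x (nat_lit 34) (nat_lit 0) (nat_lit 0)))) (Nat.add (Nat.add (x (nat_lit 35) (nat_lit 0) (nat_lit 0)) (x (nat_lit 36) (nat_lit 0) (nat_lit 0))) (Nat.add (x (nat_lit 37) (nat_lit 0) (nat_lit 0)) (x (nat_lit 38) (nat_lit 0) (nat_lit 0))))) (Nat.add (Nat.add (Nat.add (x (nat_lit 39) (nat_lit 0) (nat_lit 0)) (x (nat_lit 40) (nat_lit 0) (nat_lit 0))) (Nat.add (x (nat_lit 41) (nat_lit 0) (nat_lit 0)) (x (nat_lit 42) (nat_lit 0) (nat_lit 0)))) (Nat.add (Nat.add (x (nat_lit 43) (nat_lit 0) (nat_lit 0)) (x (nat_lit 44) (nat_lit 0) (nat_lit 0))) (Nat.add (x (nat_lit 45) (nat_lit 0) (nat_lit 0)) (x (nat_lit 46) (nat_lit 0) (nat_lit 0)))))) (Nat.add (Nat.add (Nat.add (Nat.add (x (nat_lit 47) (nat_lit 0) (nat_lit 0)) (x (nat_lit 48) (nat_lit 0) (nat_lit 0))) (Nat.add (x (nat_lit 49)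 (nat_lit 0) (nat_lit 0)) (x (nat_lit 50) (nat_lit 0) (nat_lit 0)))) (Nat.add (Nat.add (x (nat_lit 51) (nat_lit 0) (nat_lit 0)) (x (nat_lit 52) (nat_lit 0) (nat_lit 0))) (Nat.add (x (nat_lit 53) (nat_lit 0) (nat_lit 0)) (x (nat_lit 54) (nat_lit 0) (nat_lit 0))))) (Nat.add (Nat.add (Nat.add (x (nat_lit 55) (nat_lit 0) (nat_lit 0)) (x (nat_lit 56) (nat_lit 0) (nat_lit 0))) (Nat.add (x (nat_lit 57) (nat_lit 0) (nat_lit 0)) (x (nat_lit 58) (nat_lit 0) (nat_lit 0)))) (Nat.add (Nat.add (x (nat_lit 59) (nat_lit 0) (nat_lit 0)) (x (nat_lit 60) (nat_lit 0) (nat_lit 0))) (Nat.add (x (nat_lit 61) (nat_lit 0) (nat_lit 0)) (x (nat_lit 62) (nat_lit 0) (nat_lit 0))))))))⟩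
  (TL.cons ⟨fun x => (Nat.add (Nat.add (Nat.add (Nat.add (Nat.add (Nat.add (x (nat_lit 0) (nat_lit 0) (nat_lit 0)) (x (nat_lit 1) (nat_lit 0) (nat_lit 0))) (Nat.add (x (nat_lit 2) (nat_lit 0) (nat_lit 0)) (x (nat_lit 3) (nat_lit 0) (nat_lit 0)))) (Nat.add (Nat.add (x (nat_lit 4) (nat_lit 0) (nat_lit 0)) (x (nat_lit 5) (nat_lit 0) (nat_lit 0))) (Nat.add (x (nat_lit 6) (nat_lit 0) (nat_lit 0)) (x (nat_lit 7) (nat_lit 0) (nat_lit 0))))) (Nat.add (Nat.add (Nat.add (x (nat_lit 8) (nat_lit 0) (nat_lit 0)) (x (nat_lit 9) (nat_lit 0) (nat_lit 0))) (Nat.add (x (nat_lit 10) (nat_lit 0) (nat_lit 0)) (x (nat_lit 11) (nat_lit 0) (nat_lit 0)))) (Nat.add (Nat.add (x (nat_lit 12) (nat_lit 0) (nat_lit 0)) (x (nat_lit 13) (nat_lit 0) (nat_lit 0))) (Nat.add (x (nat_lit 14) (nat_lit 0) (nat_lit 0)) (x (nat_lit 15) (nat_lit 0) (nat_lit 0)))))) (Nat.add (Nat.add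 (Nat.add (Nat.add (x (nat_lit 16) (nat_lit 0) (nat_lit 0)) (x (nat_lit 17) (nat_lit 0) (nat_lit 0))) (Nat.add (x (nat_lit 18) (nat_lit 0) (nat_lit 0)) (x (nat_lit 19) (nat_lit 0) (nat_lit 0)))) (Nat.add (Nat.add (x (nat_lit 20) (nat_lit 0) (nat_lit 0)) (x (nat_lit 21) (nat_lit 0) (nat_lit 0))) (Nat.add (x (nat_lit 22) (nat_lit 0) (nat_lit 0)) (x (nat_lit 23) (nat_lit 0) (nat_lit 0))))) (Nat.add (Nat.add (Nat.add (x (nat_lit 24) (nat_lit 0) (nat_lit 0)) (x (nat_lit 25) (nat_lit 0) (nat_lit 0))) (Nat.add (x (nat_lit 26) (nat_lit 0) (nat_lit 0)) (x (nat_lit 27) (nat_lit 0) (nat_lit 0)))) (Nat.add (Nat.add (x (nat_lit 28) (nat_lit 0) (nat_lit 0)) (x (nat_lit 29) (nat_lit 0) (nat_lit 0))) (Nat.add (x (nat_lit 30) (nat_lit 0) (nat_lit 0)) (x (nat_lit 31) (nat_lit 0) (nat_lit 0))))))) (Nat.add (Nat.add (Nat.add (Nat.add (Nat.add (x (nat_lit 32)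 (nat_lit 0) (nat_lit 0)) (x (nat_lit 33) (nat_lit 0) (nat_lit 0))) (Nat.add (x (nat_lit 34) (nat_lit 0) (nat_lit 0)) (x (nat_lit 35) (nat_lit 0) (nat_lit 0)))) (Nat.add (Nat.add (x (nat_lit 36) (nat_lit 0) (nat_lit 0)) (x (nat_lit 37) (nat_lit 0) (nat_lit 0))) (Nat.add (x (nat_lit 38) (nat_lit 0) (nat_lit 0)) (x (nat_lit 39) (nat_lit 0) (nat_lit 0))))) (Nat.add (Nat.add (Nat.add (x (nat_lit 40) (nat_lit 0) (nat_lit 0)) (x (nat_lit 41) (nat_lit 0) (nat_lit 0))) (Nat.add (x (nat_lit 42) (nat_lit 0) (nat_lit 0)) (x (nat_lit 43) (nat_lit 0) (nat_lit 0)))) (Nat.add (Nat.add (x (nat_lit 44) (nat_lit 0) (nat_lit 0)) (x (nat_lit 45) (nat_lit 0) (nat_lit 0))) (Nat.add (x (nat_lit 46) (nat_lit 0) (nat_lit 0)) (x (nat_lit 47) (nat_lit 0) (nat_lit 0)))))) (Nat.add (Nat.add (Nat.add (Nat.add (x (nat_lit 48) (nat_lit 0) (nat_lit 0)) (x (nat_lit 49)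 (nat_lit 0) (nat_lit 0))) (Nat.add (x (nat_lit 50) (nat_lit 0) (nat_lit 0)) (x (nat_lit 51) (nat_lit 0) (nat_lit 0)))) (Nat.add (Nat.add (x (nat_lit 52) (nat_lit 0) (nat_lit 0)) (x (nat_lit 53) (nat_lit 0) (nat_lit 0))) (Nat.add (x (nat_lit 54) (nat_lit 0) (nat_lit 0)) (x (nat_lit 55) (nat_lit 0) (nat_lit 0))))) (Nat.add (Nat.add (Nat.add (x (nat_lit 56) (nat_lit 0) (nat_lit 0)) (x (nat_lit 57) (nat_lit 0) (nat_lit 0))) (Nat.add (x (nat_lit 58) (nat_lit 0) (nat_lit 0)) (x (nat_lit 59) (nat_lit 0) (nat_lit 0)))) (Nat.add (Nat.add (x (nat_lit 60) (nat_lit 0) (nat_lit 0)) (x (nat_lit 61) (nat_lit 0) (nat_lit 0))) (Nat.add (x (nat_lit 62) (nat_lit 0) (nat_lit 0)) (x (nat_lit 63) (nat_lit 0) (nat_lit 0))))))))⟩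
  (TL.cons ⟨fun x => (Nat.add (Nat.add (Nat.add (Nat.add (Nat.add (Nat.add (x (nat_lit 0) (nat_lit 0) (nat_lit 0)) (x (nat_lit 1) (nat_lit 0) (nat_lit 0))) (Nat.add (x (nat_lit 2) (nat_lit 0) (nat_lit 0)) (x (nat_lit 3) (nat_lit 0) (nat_lit 0)))) (Nat.add (Nat.add (x (nat_lit 4) (nat_lit 0) (nat_lit 0)) (x (nat_lit 5) (nat_lit 0) (nat_lit 0))) (Nat.add (x (nat_lit 6) (nat_lit 0) (nat_lit 0)) (x (nat_lit 7) (nat_lit 0) (nat_lit 0))))) (Nat.add (Nat.add (Nat.add (x (nat_lit 8) (nat_lit 0) (nat_lit 0)) (x (nat_lit 9) (nat_lit 0) (nat_lit 0))) (Nat.add (x (nat_lit 10) (nat_lit 0) (nat_lit 0)) (x (nat_lit 11) (nat_lit 0) (nat_lit 0)))) (Nat.add (Nat.add (x (nat_lit 12) (nat_lit 0) (nat_lit 0)) (x (nat_lit 13) (nat_lit 0) (nat_lit 0))) (Nat.add (x (nat_lit 14) (nat_lit 0) (nat_lit 0)) (x (nat_lit 15) (nat_lit 0) (nat_lit 0)))))) (Nat.add (Nat.add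 (Nat.add (Nat.add (x (nat_lit 16) (nat_lit 0) (nat_lit 0)) (x (nat_lit 17) (nat_lit 0) (nat_lit 0))) (Nat.add (x (nat_lit 18) (nat_lit 0) (nat_lit 0)) (x (nat_lit 19) (nat_lit 0) (nat_lit 0)))) (Nat.add (Nat.add (x (nat_lit 20) (nat_lit 0) (nat_lit 0)) (x (nat_lit 21) (nat_lit 0) (nat_lit 0))) (Nat.add (x (nat_lit 22) (nat_lit 0) (nat_lit 0)) (x (nat_lit 23) (nat_lit 0) (nat_lit 0))))) (Nat.add (Nat.add (Nat.add (x (nat_lit 24) (nat_lit 0) (nat_lit 0)) (x (nat_lit 25) (nat_lit 0) (nat_lit 0))) (Nat.add (x (nat_lit 26) (nat_lit 0) (nat_lit 0)) (x (nat_lit 27) (nat_lit 0) (nat_lit 0)))) (Nat.add (Nat.add (x (nat_lit 28) (nat_lit 0) (nat_lit 0)) (x (nat_lit 29) (nat_lit 0) (nat_lit 0))) (Nat.add (x (nat_lit 30) (nat_lit 0) (nat_lit 0)) (x (nat_lit 31) (nat_lit 0) (nat_lit 0))))))) (Nat.add (Nat.add (Nat.add (Nat.add (Nat.add (x (nat_lit 32)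 (nat_lit 0) (nat_lit 0)) (x (nat_lit 33) (nat_lit 0) (nat_lit 0))) (Nat.add (x (nat_lit 34) (nat_lit 0) (nat_lit 0)) (x (nat_lit 35) (nat_lit 0) (nat_lit 0)))) (Nat.add (Nat.add (x (nat_lit 36) (nat_lit 0) (nat_lit 0)) (x (nat_lit 37) (nat_lit 0) (nat_lit 0))) (Nat.add (x (nat_lit 38) (nat_lit 0) (nat_lit 0)) (x (nat_lit 39) (nat_lit 0) (nat_lit 0))))) (Nat.add (Nat.add (Nat.add (x (nat_lit 40) (nat_lit 0) (nat_lit 0)) (x (nat_lit 41) (nat_lit 0) (nat_lit 0))) (Nat.add (x (nat_lit 42) (nat_lit 0) (nat_lit 0)) (x (nat_lit 43) (nat_lit 0) (nat_lit 0)))) (Nat.add (Nat.add (x (nat_lit 44) (nat_lit 0) (nat_lit 0)) (x (nat_lit 45) (nat_lit 0) (nat_lit 0))) (Nat.add (x (nat_lit 46) (nat_lit 0) (nat_lit 0)) (x (nat_lit 47) (nat_lit 0) (nat_lit 0)))))) (Nat.add (Nat.add (Nat.add (Nat.add (x (nat_lit 48) (nat_lit 0) (nat_lit 0)) (x (nat_lit 49)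 (nat_lit 0) (nat_lit 0))) (Nat.add (x (nat_lit 50) (nat_lit 0) (nat_lit 0)) (x (nat_lit 51) (nat_lit 0) (nat_lit 0)))) (Nat.add (Nat.add (x (nat_lit 52) (nat_lit 0) (nat_lit 0)) (x (nat_lit 53) (nat_lit 0) (nat_lit 0))) (Nat.add (x (nat_lit 54) (nat_lit 0) (nat_lit 0)) (x (nat_lit 55) (nat_lit 0) (nat_lit 0))))) (Nat.add (Nat.add (Nat.add (x (nat_lit 56) (nat_lit 0) (nat_lit 0)) (x (nat_lit 57) (nat_lit 0) (nat_lit 0))) (Nat.add (x (nat_lit 58) (nat_lit 0) (nat_lit 0)) (x (nat_lit 59) (nat_lit 0) (nat_lit 0)))) (Nat.add (Nat.add (x (nat_lit 60) (nat_lit 0) (nat_lit 0)) (x (nat_lit 61) (nat_lit 0) (nat_lit 0))) (Nat.add (x (nat_lit 62) (nat_lit 0) (nat_lit 0)) (Nat.add (x (nat_lit 63) (nat_lit 0) (nat_lit 0)) (x (nat_lit 64) (nat_lit 0) (nat_lit 0)))))))))⟩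
  (TL.cons ⟨fun x => (Nat.add (Nat.add (Nat.add (Nat.add (Nat.add (Nat.add (x (nat_lit 0) (nat_lit 0) (nat_lit 0)) (x (nat_lit 1) (nat_lit 0) (nat_lit 0))) (Nat.add (x (nat_lit 2) (nat_lit 0) (nat_lit 0)) (x (nat_lit 3) (nat_lit 0) (nat_lit 0)))) (Nat.add (Nat.add (x (nat_lit 4) (nat_lit 0) (nat_lit 0)) (x (nat_lit 5) (nat_lit 0) (nat_lit 0))) (Nat.add (x (nat_lit 6) (nat_lit 0) (nat_lit 0)) (x (nat_lit 7) (nat_lit 0) (nat_lit 0))))) (Nat.add (Nat.add (Nat.add (x (nat_lit 8) (nat_lit 0) (nat_lit 0)) (x (nat_lit 9) (nat_lit 0) (nat_lit 0))) (Nat.add (x (nat_lit 10) (nat_lit 0) (nat_lit 0)) (x (nat_lit 11) (nat_lit 0) (nat_lit 0)))) (Nat.add (Nat.add (x (nat_lit 12) (nat_lit 0) (nat_lit 0)) (x (nat_lit 13) (nat_lit 0) (nat_lit 0))) (Nat.add (x (nat_lit 14) (nat_lit 0) (nat_lit 0)) (x (nat_lit 15) (nat_lit 0) (nat_lit 0)))))) (Nat.add (Nat.add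 (Nat.add (Nat.add (x (nat_lit 16) (nat_lit 0) (nat_lit 0)) (x (nat_lit 17) (nat_lit 0) (nat_lit 0))) (Nat.add (x (nat_lit 18) (nat_lit 0) (nat_lit 0)) (x (nat_lit 19) (nat_lit 0) (nat_lit 0)))) (Nat.add (Nat.add (x (nat_lit 20) (nat_lit 0) (nat_lit 0)) (x (nat_lit 21) (nat_lit 0) (nat_lit 0))) (Nat.add (x (nat_lit 22) (nat_lit 0) (nat_lit 0)) (x (nat_lit 23) (nat_lit 0) (nat_lit 0))))) (Nat.add (Nat.add (Nat.add (x (nat_lit 24) (nat_lit 0) (nat_lit 0)) (x (nat_lit 25) (nat_lit 0) (nat_lit 0))) (Nat.add (x (nat_lit 26) (nat_lit 0) (nat_lit 0)) (x (nat_lit 27) (nat_lit 0) (nat_lit 0)))) (Nat.add (Nat.add (x (nat_lit 28) (nat_lit 0) (nat_lit 0)) (x (nat_lit 29) (nat_lit 0) (nat_lit 0))) (Nat.add (x (nat_lit 30) (nat_lit 0) (nat_lit 0)) (Nat.add (x (nat_lit 31) (nat_lit 0) (nat_lit 0)) (x (nat_lit 32) (nat_lit 0) (nat_lit 0)))))))) (Nat.add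 (Nat.add (Nat.add (Nat.add (Nat.add (x (nat_lit 33) (nat_lit 0) (nat_lit 0)) (x (nat_lit 34) (nat_lit 0) (nat_lit 0))) (Nat.add (x (nat_lit 35) (nat_lit 0) (nat_lit 0)) (x (nat_lit 36) (nat_lit 0) (nat_lit 0)))) (Nat.add (Nat.add (x (nat_lit 37) (nat_lit 0) (nat_lit 0)) (x (nat_lit 38) (nat_lit 0) (nat_lit 0))) (Nat.add (x (nat_lit 39) (nat_lit 0) (nat_lit 0)) (x (nat_lit 40) (nat_lit 0) (nat_lit 0))))) (Nat.add (Nat.add (Nat.add (x (nat_lit 41) (nat_lit 0) (nat_lit 0)) (x (nat_lit 42) (nat_lit 0) (nat_lit 0))) (Nat.add (x (nat_lit 43) (nat_lit 0) (nat_lit 0)) (x (nat_lit 44) (nat_lit 0) (nat_lit 0)))) (Nat.add (Nat.add (x (nat_lit 45) (nat_lit 0) (nat_lit 0)) (x (nat_lit 46) (nat_lit 0) (nat_lit 0))) (Nat.add (x (nat_lit 47) (nat_lit 0) (nat_lit 0)) (x (nat_lit 48) (nat_lit 0) (nat_lit 0)))))) (Nat.add (Nat.add (Nat.add (Nat.add (x (nat_lit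 49) (nat_lit 0) (nat_lit 0)) (x (nat_lit 50) (nat_lit 0) (nat_lit 0))) (Nat.add (x (nat_lit 51) (nat_lit 0) (nat_lit 0)) (x (nat_lit 52) (nat_lit 0) (nat_lit 0)))) (Nat.add (Nat.add (x (nat_lit 53) (nat_lit 0) (nat_lit 0)) (x (nat_lit 54) (nat_lit 0) (nat_lit 0))) (Nat.add (x (nat_lit 55) (nat_lit 0) (nat_lit 0)) (x (nat_lit 56) (nat_lit 0) (nat_lit 0))))) (Nat.add (Nat.add (Nat.add (x (nat_lit 57) (nat_lit 0) (nat_lit 0)) (x (nat_lit 58) (nat_lit 0) (nat_lit 0))) (Nat.add (x (nat_lit 59) (nat_lit 0) (nat_lit 0)) (x (nat_lit 60) (nat_lit 0) (nat_lit 0)))) (Nat.add (Nat.add (x (nat_lit 61) (nat_lit 0) (nat_lit 0)) (x (nat_lit 62) (nat_lit 0) (nat_lit 0))) (Nat.add (x (nat_lit 63) (nat_lit 0) (nat_lit 0)) (Nat.add (x (nat_lit 64) (nat_lit 0) (nat_lit 0)) (x (nat_lit 65) (nat_lit 0) (nat_lit 0)))))))))⟩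
  (TL.cons ⟨fun x => (Nat.add (Nat.add (Nat.add (Nat.add (Nat.add (Nat.add (x (nat_lit 0) (nat_lit 0) (nat_lit 0)) (x (nat_lit 1) (nat_lit 0) (nat_lit 0))) (Nat.add (x (nat_lit 2) (nat_lit 0) (nat_lit 0)) (x (nat_lit 3) (nat_lit 0) (nat_lit 0)))) (Nat.add (Nat.add (x (nat_lit 4) (nat_lit 0) (nat_lit 0)) (x (nat_lit 5) (nat_lit 0) (nat_lit 0))) (Nat.add (x (nat_lit 6) (nat_lit 0) (nat_lit 0)) (x (nat_lit 7) (nat_lit 0) (nat_lit 0))))) (Nat.add (Nat.add (Nat.add (x (nat_lit 8) (nat_lit 0) (nat_lit 0)) (x (nat_lit 9) (nat_lit 0) (nat_lit 0))) (Nat.add (x (nat_lit 10) (nat_lit 0) (nat_lit 0)) (x (nat_lit 11) (nat_lit 0) (nat_lit 0)))) (Nat.add (Nat.add (x (nat_lit 12) (nat_lit 0) (nat_lit 0)) (x (nat_lit 13) (nat_lit 0) (nat_lit 0))) (Nat.add (x (nat_lit 14) (nat_lit 0) (nat_lit 0)) (x (nat_lit 15) (nat_lit 0) (nat_lit 0)))))) (Nat.add (Nat.add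 (Nat.add (Nat.add (x (nat_lit 16) (nat_lit 0) (nat_lit 0)) (x (nat_lit 17) (nat_lit 0) (nat_lit 0))) (Nat.add (x (nat_lit 18) (nat_lit 0) (nat_lit 0)) (x (nat_lit 19) (nat_lit 0) (nat_lit 0)))) (Nat.add (Nat.add (x (nat_lit 20) (nat_lit 0) (nat_lit 0)) (x (nat_lit 21) (nat_lit 0) (nat_lit 0))) (Nat.add (x (nat_lit 22) (nat_lit 0) (nat_lit 0)) (x (nat_lit 23) (nat_lit 0) (nat_lit 0))))) (Nat.add (Nat.add (Nat.add (x (nat_lit 24) (nat_lit 0) (nat_lit 0)) (x (nat_lit 25) (nat_lit 0) (nat_lit 0))) (Nat.add (x (nat_lit 26) (nat_lit 0) (nat_lit 0)) (x (nat_lit 27) (nat_lit 0) (nat_lit 0)))) (Nat.add (Nat.add (x (nat_lit 28) (nat_lit 0) (nat_lit 0)) (x (nat_lit 29) (nat_lit 0) (nat_lit 0))) (Nat.add (x (nat_lit 30) (nat_lit 0) (nat_lit 0)) (Nat.add (x (nat_lit 31) (nat_lit 0) (nat_lit 0)) (x (nat_lit 32) (nat_lit 0) (nat_lit 0)))))))) (Nat.add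 (Nat.add (Nat.add (Nat.add (Nat.add (x (nat_lit 33) (nat_lit 0) (nat_lit 0)) (x (nat_lit 34) (nat_lit 0) (nat_lit 0))) (Nat.add (x (nat_lit 35) (nat_lit 0) (nat_lit 0)) (x (nat_lit 36) (nat_lit 0) (nat_lit 0)))) (Nat.add (Nat.add (x (nat_lit 37) (nat_lit 0) (nat_lit 0)) (x (nat_lit 38) (nat_lit 0) (nat_lit 0))) (Nat.add (x (nat_lit 39) (nat_lit 0) (nat_lit 0)) (x (nat_lit 40) (nat_lit 0) (nat_lit 0))))) (Nat.add (Nat.add (Nat.add (x (nat_lit 41) (nat_lit 0) (nat_lit 0)) (x (nat_lit 42) (nat_lit 0) (nat_lit 0))) (Nat.add (x (nat_lit 43) (nat_lit 0) (nat_lit 0)) (x (nat_lit 44) (nat_lit 0) (nat_lit 0)))) (Nat.add (Nat.add (x (nat_lit 45) (nat_lit 0) (nat_lit 0)) (x (nat_lit 46) (nat_lit 0) (nat_lit 0))) (Nat.add (x (nat_lit 47) (nat_lit 0) (nat_lit 0)) (Nat.add (x (nat_lit 48) (nat_lit 0) (nat_lit 0)) (x (nat_lit 49) (nat_lit 0) (nat_lit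 0))))))) (Nat.add (Nat.add (Nat.add (Nat.add (x (nat_lit 50) (nat_lit 0) (nat_lit 0)) (x (nat_lit 51) (nat_lit 0) (nat_lit 0))) (Nat.add (x (nat_lit 52) (nat_lit 0) (nat_lit 0)) (x (nat_lit 53) (nat_lit 0) (nat_lit 0)))) (Nat.add (Nat.add (x (nat_lit 54) (nat_lit 0) (nat_lit 0)) (x (nat_lit 55) (nat_lit 0) (nat_lit 0))) (Nat.add (x (nat_lit 56) (nat_lit 0) (nat_lit 0)) (x (nat_lit 57) (nat_lit 0) (nat_lit 0))))) (Nat.add (Nat.add (Nat.add (x (nat_lit 58) (nat_lit 0) (nat_lit 0)) (x (nat_lit 59) (nat_lit 0) (nat_lit 0))) (Nat.add (x (nat_lit 60) (nat_lit 0) (nat_lit 0)) (x (nat_lit 61) (nat_lit 0) (nat_lit 0)))) (Nat.add (Nat.add (x (nat_lit 62) (nat_lit 0) (nat_lit 0)) (x (nat_lit 63) (nat_lit 0) (nat_lit 0))) (Nat.add (x (nat_lit 64) (nat_lit 0) (nat_lit 0)) (Nat.add (x (nat_lit 65) (nat_lit 0) (nat_lit 0)) (x (nat_lit 66) (nat_lit 0)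 (nat_lit 0)))))))))⟩
  (TL.cons ⟨fun x => (Nat.add (Nat.add (Nat.add (Nat.add (Nat.add (Nat.add (x (nat_lit 0) (nat_lit 0) (nat_lit 0)) (x (nat_lit 1) (nat_lit 0) (nat_lit 0))) (Nat.add (x (nat_lit 2) (nat_lit 0) (nat_lit 0)) (x (nat_lit 3) (nat_lit 0) (nat_lit 0)))) (Nat.add (Nat.add (x (nat_lit 4) (nat_lit 0) (nat_lit 0)) (x (nat_lit 5) (nat_lit 0) (nat_lit 0))) (Nat.add (x (nat_lit 6) (nat_lit 0) (nat_lit 0)) (x (nat_lit 7) (nat_lit 0) (nat_lit 0))))) (Nat.add (Nat.add (Nat.add (x (nat_lit 8) (nat_lit 0) (nat_lit 0)) (x (nat_lit 9) (nat_lit 0) (nat_lit 0))) (Nat.add (x (nat_lit 10) (nat_lit 0) (nat_lit 0)) (x (nat_lit 11) (nat_lit 0) (nat_lit 0)))) (Nat.add (Nat.add (x (nat_lit 12) (nat_lit 0) (nat_lit 0)) (x (nat_lit 13) (nat_lit 0) (nat_lit 0))) (Nat.add (x (nat_lit 14) (nat_lit 0) (nat_lit 0)) (Nat.add (x (nat_lit 15) (nat_lit 0)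 (nat_lit 0)) (x (nat_lit 16) (nat_lit 0) (nat_lit 0))))))) (Nat.add (Nat.add (Nat.add (Nat.add (x (nat_lit 17) (nat_lit 0) (nat_lit 0)) (x (nat_lit 18) (nat_lit 0) (nat_lit 0))) (Nat.add (x (nat_lit 19) (nat_lit 0) (nat_lit 0)) (x (nat_lit 20) (nat_lit 0) (nat_lit 0)))) (Nat.add (Nat.add (x (nat_lit 21) (nat_lit 0) (nat_lit 0)) (x (nat_lit 22) (nat_lit 0) (nat_lit 0))) (Nat.add (x (nat_lit 23) (nat_lit 0) (nat_lit 0)) (x (nat_lit 24) (nat_lit 0) (nat_lit 0))))) (Nat.add (Nat.add (Nat.add (x (nat_lit 25) (nat_lit 0) (nat_lit 0)) (x (nat_lit 26) (nat_lit 0) (nat_lit 0))) (Nat.add (x (nat_lit 27) (nat_lit 0) (nat_lit 0)) (x (nat_lit 28) (nat_lit 0) (nat_lit 0)))) (Nat.add (Nat.add (x (nat_lit 29) (nat_lit 0) (nat_lit 0)) (x (nat_lit 30) (nat_lit 0) (nat_lit 0))) (Nat.add (x (nat_lit 31) (nat_lit 0) (nat_lit 0)) (Nat.add (x (nat_lit 32) (nat_lit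 0) (nat_lit 0)) (x (nat_lit 33) (nat_lit 0) (nat_lit 0)))))))) (Nat.add (Nat.add (Nat.add (Nat.add (Nat.add (x (nat_lit 34) (nat_lit 0) (nat_lit 0)) (x (nat_lit 35) (nat_lit 0) (nat_lit 0))) (Nat.add (x (nat_lit 36) (nat_lit 0) (nat_lit 0)) (x (nat_lit 37) (nat_lit 0) (nat_lit 0)))) (Nat.add (Nat.add (x (nat_lit 38) (nat_lit 0) (nat_lit 0)) (x (nat_lit 39) (nat_lit 0) (nat_lit 0))) (Nat.add (x (nat_lit 40) (nat_lit 0) (nat_lit 0)) (x (nat_lit 41) (nat_lit 0) (nat_lit 0))))) (Nat.add (Nat.add (Nat.add (x (nat_lit 42) (nat_lit 0) (nat_lit 0)) (x (nat_lit 43) (nat_lit 0) (nat_lit 0))) (Nat.add (x (nat_lit 44) (nat_lit 0) (nat_lit 0)) (x (nat_lit 45) (nat_lit 0) (nat_lit 0)))) (Nat.add (Nat.add (x (nat_lit 46) (nat_lit 0) (nat_lit 0)) (x (nat_lit 47) (nat_lit 0) (nat_lit 0))) (Nat.add (x (nat_lit 48) (nat_lit 0) (nat_lit 0)) (Nat.add (x (nat_lit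 49) (nat_lit 0) (nat_lit 0)) (x (nat_lit 50) (nat_lit 0) (nat_lit 0))))))) (Nat.add (Nat.add (Nat.add (Nat.add (x (nat_lit 51) (nat_lit 0) (nat_lit 0)) (x (nat_lit 52) (nat_lit 0) (nat_lit 0))) (Nat.add (x (nat_lit 53) (nat_lit 0) (nat_lit 0)) (x (nat_lit 54) (nat_lit 0) (nat_lit 0)))) (Nat.add (Nat.add (x (nat_lit 55) (nat_lit 0) (nat_lit 0)) (x (nat_lit 56) (nat_lit 0) (nat_lit 0))) (Nat.add (x (nat_lit 57) (nat_lit 0) (nat_lit 0)) (x (nat_lit 58) (nat_lit 0) (nat_lit 0))))) (Nat.add (Nat.add (Nat.add (x (nat_lit 59) (nat_lit 0) (nat_lit 0)) (x (nat_lit 60) (nat_lit 0) (nat_lit 0))) (Nat.add (x (nat_lit 61) (nat_lit 0) (nat_lit 0)) (x (nat_lit 62) (nat_lit 0) (nat_lit 0)))) (Nat.add (Nat.add (x (nat_lit 63) (nat_lit 0) (nat_lit 0)) (x (nat_lit 64) (nat_lit 0) (nat_lit 0))) (Nat.add (x (nat_lit 65) (nat_lit 0) (nat_lit 0)) (Nat.add (x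 (nat_lit 66) (nat_lit 0) (nat_lit 0)) (x (nat_lit 67) (nat_lit 0) (nat_lit 0)))))))))⟩
  (TL.cons ⟨fun x => (Nat.add (Nat.add (Nat.add (Nat.add (Nat.add (Nat.add (x (nat_lit 0) (nat_lit 0) (nat_lit 0)) (x (nat_lit 1) (nat_lit 0) (nat_lit 0))) (Nat.add (x (nat_lit 2) (nat_lit 0) (nat_lit 0)) (x (nat_lit 3) (nat_lit 0) (nat_lit 0)))) (Nat.add (Nat.add (x (nat_lit 4) (nat_lit 0) (nat_lit 0)) (x (nat_lit 5) (nat_lit 0) (nat_lit 0))) (Nat.add (x (nat_lit 6) (nat_lit 0) (nat_lit 0)) (x (nat_lit 7) (nat_lit 0) (nat_lit 0))))) (Nat.add (Nat.add (Nat.add (x (nat_lit 8) (nat_lit 0) (nat_lit 0)) (x (nat_lit 9) (nat_lit 0) (nat_lit 0))) (Nat.add (x (nat_lit 10) (nat_lit 0) (nat_lit 0)) (x (nat_lit 11) (nat_lit 0) (nat_lit 0)))) (Nat.add (Nat.add (x (nat_lit 12) (nat_lit 0) (nat_lit 0)) (x (nat_lit 13) (nat_lit 0) (nat_lit 0))) (Nat.add (x (nat_lit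 14) (nat_lit 0) (nat_lit 0)) (Nat.add (x (nat_lit 15) (nat_lit 0) (nat_lit 0)) (x (nat_lit 16) (nat_lit 0) (nat_lit 0))))))) (Nat.add (Nat.add (Nat.add (Nat.add (x (nat_lit 17) (nat_lit 0) (nat_lit 0)) (x (nat_lit 18) (nat_lit 0) (nat_lit 0))) (Nat.add (x (nat_lit 19) (nat_lit 0) (nat_lit 0)) (x (nat_lit 20) (nat_lit 0) (nat_lit 0)))) (Nat.add (Nat.add (x (nat_lit 21) (nat_lit 0) (nat_lit 0)) (x (nat_lit 22) (nat_lit 0) (nat_lit 0))) (Nat.add (x (nat_lit 23) (nat_lit 0) (nat_lit 0)) (x (nat_lit 24) (nat_lit 0) (nat_lit 0))))) (Nat.add (Nat.add (Nat.add (x (nat_lit 25) (nat_lit 0) (nat_lit 0)) (x (nat_lit 26) (nat_lit 0) (nat_lit 0))) (Nat.add (x (nat_lit 27) (nat_lit 0) (nat_lit 0)) (x (nat_lit 28) (nat_lit 0) (nat_lit 0)))) (Nat.add (Nat.add (x (nat_lit 29) (nat_lit 0) (nat_lit 0)) (x (nat_lit 30) (nat_lit 0) (nat_lit 0))) (Nat.add (x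 (nat_lit 31) (nat_lit 0) (nat_lit 0)) (Nat.add (x (nat_lit 32) (nat_lit 0) (nat_lit 0)) (x (nat_lit 33) (nat_lit 0) (nat_lit 0)))))))) (Nat.add (Nat.add (Nat.add (Nat.add (Nat.add (x (nat_lit 34) (nat_lit 0) (nat_lit 0)) (x (nat_lit 35) (nat_lit 0) (nat_lit 0))) (Nat.add (x (nat_lit 36) (nat_lit 0) (nat_lit 0)) (x (nat_lit 37) (nat_lit 0) (nat_lit 0)))) (Nat.add (Nat.add (x (nat_lit 38) (nat_lit 0) (nat_lit 0)) (x (nat_lit 39) (nat_lit 0) (nat_lit 0))) (Nat.add (x (nat_lit 40) (nat_lit 0) (nat_lit 0)) (x (nat_lit 41) (nat_lit 0) (nat_lit 0))))) (Nat.add (Nat.add (Nat.add (x (nat_lit 42) (nat_lit 0) (nat_lit 0)) (x (nat_lit 43) (nat_lit 0) (nat_lit 0))) (Nat.add (x (nat_lit 44) (nat_lit 0) (nat_lit 0)) (x (nat_lit 45) (nat_lit 0) (nat_lit 0)))) (Nat.add (Nat.add (x (nat_lit 46) (nat_lit 0) (nat_lit 0)) (x (nat_lit 47) (nat_lit 0) (nat_lit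 0))) (Nat.add (x (nat_lit 48) (nat_lit 0) (nat_lit 0)) (Nat.add (x (nat_lit 49) (nat_lit 0) (nat_lit 0)) (x (nat_lit 50) (nat_lit 0) (nat_lit 0))))))) (Nat.add (Nat.add (Nat.add (Nat.add (x (nat_lit 51) (nat_lit 0) (nat_lit 0)) (x (nat_lit 52) (nat_lit 0) (nat_lit 0))) (Nat.add (x (nat_lit 53) (nat_lit 0) (nat_lit 0)) (x (nat_lit 54) (nat_lit 0) (nat_lit 0)))) (Nat.add (Nat.add (x (nat_lit 55) (nat_lit 0) (nat_lit 0)) (x (nat_lit 56) (nat_lit 0) (nat_lit 0))) (Nat.add (x (nat_lit 57) (nat_lit 0) (nat_lit 0)) (Nat.add (x (nat_lit 58) (nat_lit 0) (nat_lit 0)) (x (nat_lit 59) (nat_lit 0) (nat_lit 0)))))) (Nat.add (Nat.add (Nat.add (x (nat_lit 60) (nat_lit 0) (nat_lit 0)) (x (nat_lit 61) (nat_lit 0) (nat_lit 0))) (Nat.add (x (nat_lit 62) (nat_lit 0) (nat_lit 0)) (x (nat_lit 63) (nat_lit 0) (nat_lit 0)))) (Nat.add (Nat.add (x (nat_lit 64) (nat_lit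 0) (nat_lit 0)) (x (nat_lit 65) (nat_lit 0) (nat_lit 0))) (Nat.add (x (nat_lit 66) (nat_lit 0) (nat_lit 0)) (Nat.add (x (nat_lit 67) (nat_lit 0) (nat_lit 0)) (x (nat_lit 68) (nat_lit 0) (nat_lit 0)))))))))⟩
  (TL.cons ⟨fun x => (Nat.add (Nat.add (Nat.add (Nat.add (Nat.add (Nat.add (x (nat_lit 0) (nat_lit 0) (nat_lit 0)) (x (nat_lit 1) (nat_lit 0) (nat_lit 0))) (Nat.add (x (nat_lit 2) (nat_lit 0) (nat_lit 0)) (x (nat_lit 3) (nat_lit 0) (nat_lit 0)))) (Nat.add (Nat.add (x (nat_lit 4) (nat_lit 0) (nat_lit 0)) (x (nat_lit 5) (nat_lit 0) (nat_lit 0))) (Nat.add (x (nat_lit 6) (nat_lit 0) (nat_lit 0)) (x (nat_lit 7) (nat_lit 0) (nat_lit 0))))) (Nat.add (Nat.add (Nat.add (x (nat_lit 8) (nat_lit 0) (nat_lit 0)) (x (nat_lit 9) (nat_lit 0) (nat_lit 0))) (Nat.add (x (nat_lit 10) (nat_lit 0) (nat_lit 0)) (x (nat_lit 11) (nat_lit 0) (nat_lit 0)))) (Nat.add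 (Nat.add (x (nat_lit 12) (nat_lit 0) (nat_lit 0)) (x (nat_lit 13) (nat_lit 0) (nat_lit 0))) (Nat.add (x (nat_lit 14) (nat_lit 0) (nat_lit 0)) (Nat.add (x (nat_lit 15) (nat_lit 0) (nat_lit 0)) (x (nat_lit 16) (nat_lit 0) (nat_lit 0))))))) (Nat.add (Nat.add (Nat.add (Nat.add (x (nat_lit 17) (nat_lit 0) (nat_lit 0)) (x (nat_lit 18) (nat_lit 0) (nat_lit 0))) (Nat.add (x (nat_lit 19) (nat_lit 0) (nat_lit 0)) (x (nat_lit 20) (nat_lit 0) (nat_lit 0)))) (Nat.add (Nat.add (x (nat_lit 21) (nat_lit 0) (nat_lit 0)) (x (nat_lit 22) (nat_lit 0) (nat_lit 0))) (Nat.add (x (nat_lit 23) (nat_lit 0) (nat_lit 0)) (Nat.add (x (nat_lit 24) (nat_lit 0) (nat_lit 0)) (x (nat_lit 25) (nat_lit 0) (nat_lit 0)))))) (Nat.add (Nat.add (Nat.add (x (nat_lit 26) (nat_lit 0) (nat_lit 0)) (x (nat_lit 27) (nat_lit 0) (nat_lit 0))) (Nat.add (x (nat_lit 28) (nat_lit 0) (nat_lit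 0)) (x (nat_lit 29) (nat_lit 0) (nat_lit 0)))) (Nat.add (Nat.add (x (nat_lit 30) (nat_lit 0) (nat_lit 0)) (x (nat_lit 31) (nat_lit 0) (nat_lit 0))) (Nat.add (x (nat_lit 32) (nat_lit 0) (nat_lit 0)) (Nat.add (x (nat_lit 33) (nat_lit 0) (nat_lit 0)) (x (nat_lit 34) (nat_lit 0) (nat_lit 0)))))))) (Nat.add (Nat.add (Nat.add (Nat.add (Nat.add (x (nat_lit 35) (nat_lit 0) (nat_lit 0)) (x (nat_lit 36) (nat_lit 0) (nat_lit 0))) (Nat.add (x (nat_lit 37) (nat_lit 0) (nat_lit 0)) (x (nat_lit 38) (nat_lit 0) (nat_lit 0)))) (Nat.add (Nat.add (x (nat_lit 39) (nat_lit 0) (nat_lit 0)) (x (nat_lit 40) (nat_lit 0) (nat_lit 0))) (Nat.add (x (nat_lit 41) (nat_lit 0) (nat_lit 0)) (x (nat_lit 42) (nat_lit 0) (nat_lit 0))))) (Nat.add (Nat.add (Nat.add (x (nat_lit 43) (nat_lit 0) (nat_lit 0)) (x (nat_lit 44) (nat_lit 0) (nat_lit 0))) (Nat.add (x (nat_lit 45) (nat_lit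 0) (nat_lit 0)) (x (nat_lit 46) (nat_lit 0) (nat_lit 0)))) (Nat.add (Nat.add (x (nat_lit 47) (nat_lit 0) (nat_lit 0)) (x (nat_lit 48) (nat_lit 0) (nat_lit 0))) (Nat.add (x (nat_lit 49) (nat_lit 0) (nat_lit 0)) (Nat.add (x (nat_lit 50) (nat_lit 0) (nat_lit 0)) (x (nat_lit 51) (nat_lit 0) (nat_lit 0))))))) (Nat.add (Nat.add (Nat.add (Nat.add (x (nat_lit 52) (nat_lit 0) (nat_lit 0)) (x (nat_lit 53) (nat_lit 0) (nat_lit 0))) (Nat.add (x (nat_lit 54) (nat_lit 0) (nat_lit 0)) (x (nat_lit 55) (nat_lit 0) (nat_lit 0)))) (Nat.add (Nat.add (x (nat_lit 56) (nat_lit 0) (nat_lit 0)) (x (nat_lit 57) (nat_lit 0) (nat_lit 0))) (Nat.add (x (nat_lit 58) (nat_lit 0) (nat_lit 0)) (Nat.add (x (nat_lit 59) (nat_lit 0) (nat_lit 0)) (x (nat_lit 60) (nat_lit 0) (nat_lit 0)))))) (Nat.add (Nat.add (Nat.add (x (nat_lit 61) (nat_lit 0) (nat_lit 0)) (x (nat_lit 62)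 (nat_lit 0) (nat_lit 0))) (Nat.add (x (nat_lit 63) (nat_lit 0) (nat_lit 0)) (x (nat_lit 64) (nat_lit 0) (nat_lit 0)))) (Nat.add (Nat.add (x (nat_lit 65) (nat_lit 0) (nat_lit 0)) (x (nat_lit 66) (nat_lit 0) (nat_lit 0))) (Nat.add (x (nat_lit 67) (nat_lit 0) (nat_lit 0)) (Nat.add (x (nat_lit 68) (nat_lit 0) (nat_lit 0)) (x (nat_lit 69) (nat_lit 0) (nat_lit 0)))))))))⟩
  (TL.cons ⟨fun x => (Nat.add (Nat.add (Nat.add (Nat.add (Nat.add (Nat.add (x (nat_lit 0) (nat_lit 0) (nat_lit 0)) (x (nat_lit 1) (nat_lit 0) (nat_lit 0))) (Nat.add (x (nat_lit 2) (nat_lit 0) (nat_lit 0)) (x (nat_lit 3) (nat_lit 0) (nat_lit 0)))) (Nat.add (Nat.add (x (nat_lit 4) (nat_lit 0) (nat_lit 0)) (x (nat_lit 5) (nat_lit 0) (nat_lit 0))) (Nat.add (x (nat_lit 6) (nat_lit 0) (nat_lit 0)) (x (nat_lit 7) (nat_lit 0) (nat_lit 0))))) (Nat.add (Nat.add (Nat.add (x (nat_lit 8)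 (nat_lit 0) (nat_lit 0)) (x (nat_lit 9) (nat_lit 0) (nat_lit 0))) (Nat.add (x (nat_lit 10) (nat_lit 0) (nat_lit 0)) (x (nat_lit 11) (nat_lit 0) (nat_lit 0)))) (Nat.add (Nat.add (x (nat_lit 12) (nat_lit 0) (nat_lit 0)) (x (nat_lit 13) (nat_lit 0) (nat_lit 0))) (Nat.add (x (nat_lit 14) (nat_lit 0) (nat_lit 0)) (Nat.add (x (nat_lit 15) (nat_lit 0) (nat_lit 0)) (x (nat_lit 16) (nat_lit 0) (nat_lit 0))))))) (Nat.add (Nat.add (Nat.add (Nat.add (x (nat_lit 17) (nat_lit 0) (nat_lit 0)) (x (nat_lit 18) (nat_lit 0) (nat_lit 0))) (Nat.add (x (nat_lit 19) (nat_lit 0) (nat_lit 0)) (x (nat_lit 20) (nat_lit 0) (nat_lit 0)))) (Nat.add (Nat.add (x (nat_lit 21) (nat_lit 0) (nat_lit 0)) (x (nat_lit 22) (nat_lit 0) (nat_lit 0))) (Nat.add (x (nat_lit 23) (nat_lit 0) (nat_lit 0)) (Nat.add (x (nat_lit 24) (nat_lit 0) (nat_lit 0)) (x (nat_lit 25) (nat_lit 0)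 (nat_lit 0)))))) (Nat.add (Nat.add (Nat.add (x (nat_lit 26) (nat_lit 0) (nat_lit 0)) (x (nat_lit 27) (nat_lit 0) (nat_lit 0))) (Nat.add (x (nat_lit 28) (nat_lit 0) (nat_lit 0)) (x (nat_lit 29) (nat_lit 0) (nat_lit 0)))) (Nat.add (Nat.add (x (nat_lit 30) (nat_lit 0) (nat_lit 0)) (x (nat_lit 31) (nat_lit 0) (nat_lit 0))) (Nat.add (x (nat_lit 32) (nat_lit 0) (nat_lit 0)) (Nat.add (x (nat_lit 33) (nat_lit 0) (nat_lit 0)) (x (nat_lit 34) (nat_lit 0) (nat_lit 0)))))))) (Nat.add (Nat.add (Nat.add (Nat.add (Nat.add (x (nat_lit 35) (nat_lit 0) (nat_lit 0)) (x (nat_lit 36) (nat_lit 0) (nat_lit 0))) (Nat.add (x (nat_lit 37) (nat_lit 0) (nat_lit 0)) (x (nat_lit 38) (nat_lit 0) (nat_lit 0)))) (Nat.add (Nat.add (x (nat_lit 39) (nat_lit 0) (nat_lit 0)) (x (nat_lit 40) (nat_lit 0) (nat_lit 0))) (Nat.add (x (nat_lit 41) (nat_lit 0) (nat_lit 0)) (Nat.add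 (x (nat_lit 42) (nat_lit 0) (nat_lit 0)) (x (nat_lit 43) (nat_lit 0) (nat_lit 0)))))) (Nat.add (Nat.add (Nat.add (x (nat_lit 44) (nat_lit 0) (nat_lit 0)) (x (nat_lit 45) (nat_lit 0) (nat_lit 0))) (Nat.add (x (nat_lit 46) (nat_lit 0) (nat_lit 0)) (x (nat_lit 47) (nat_lit 0) (nat_lit 0)))) (Nat.add (Nat.add (x (nat_lit 48) (nat_lit 0) (nat_lit 0)) (x (nat_lit 49) (nat_lit 0) (nat_lit 0))) (Nat.add (x (nat_lit 50) (nat_lit 0) (nat_lit 0)) (Nat.add (x (nat_lit 51) (nat_lit 0) (nat_lit 0)) (x (nat_lit 52) (nat_lit 0) (nat_lit 0))))))) (Nat.add (Nat.add (Nat.add (Nat.add (x (nat_lit 53) (nat_lit 0) (nat_lit 0)) (x (nat_lit 54) (nat_lit 0) (nat_lit 0))) (Nat.add (x (nat_lit 55) (nat_lit 0) (nat_lit 0)) (x (nat_lit 56) (nat_lit 0) (nat_lit 0)))) (Nat.add (Nat.add (x (nat_lit 57) (nat_lit 0) (nat_lit 0)) (x (nat_lit 58) (nat_lit 0) (nat_lit 0)))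 (Nat.add (x (nat_lit 59) (nat_lit 0) (nat_lit 0)) (Nat.add (x (nat_lit 60) (nat_lit 0) (nat_lit 0)) (x (nat_lit 61) (nat_lit 0) (nat_lit 0)))))) (Nat.add (Nat.add (Nat.add (x (nat_lit 62) (nat_lit 0) (nat_lit 0)) (x (nat_lit 63) (nat_lit 0) (nat_lit 0))) (Nat.add (x (nat_lit 64) (nat_lit 0) (nat_lit 0)) (x (nat_lit 65) (nat_lit 0) (nat_lit 0)))) (Nat.add (Nat.add (x (nat_lit 66) (nat_lit 0) (nat_lit 0)) (x (nat_lit 67) (nat_lit 0) (nat_lit 0))) (Nat.add (x (nat_lit 68) (nat_lit 0) (nat_lit 0)) (Nat.add (x (nat_lit 69) (nat_lit 0) (nat_lit 0)) (x (nat_lit 70) (nat_lit 0) (nat_lit 0)))))))))⟩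
  (TL.cons ⟨fun x => (Nat.add (Nat.add (Nat.add (Nat.add (Nat.add (Nat.add (x (nat_lit 0) (nat_lit 0) (nat_lit 0)) (x (nat_lit 1) (nat_lit 0) (nat_lit 0))) (Nat.add (x (nat_lit 2) (nat_lit 0) (nat_lit 0)) (x (nat_lit 3) (nat_lit 0) (nat_lit 0)))) (Nat.add (Nat.add (x (nat_lit 4) (nat_lit 0) (nat_lit 0)) (x (nat_lit 5) (nat_lit 0) (nat_lit 0))) (Nat.add (x (nat_lit 6) (nat_lit 0) (nat_lit 0)) (Nat.add (x (nat_lit 7) (nat_lit 0) (nat_lit 0)) (x (nat_lit 8) (nat_lit 0) (nat_lit 0)))))) (Nat.add (Nat.add (Nat.add (x (nat_lit 9) (nat_lit 0) (nat_lit 0)) (x (nat_lit 10) (nat_lit 0) (nat_lit 0))) (Nat.add (x (nat_lit 11) (nat_lit 0) (nat_lit 0)) (x (nat_lit 12) (nat_lit 0) (nat_lit 0)))) (Nat.add (Nat.add (x (nat_lit 13) (nat_lit 0) (nat_lit 0)) (x (nat_lit 14) (nat_lit 0) (nat_lit 0))) (Nat.add (x (nat_lit 15) (nat_lit 0) (nat_lit 0)) (Nat.add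 (x (nat_lit 16) (nat_lit 0) (nat_lit 0)) (x (nat_lit 17) (nat_lit 0) (nat_lit 0))))))) (Nat.add (Nat.add (Nat.add (Nat.add (x (nat_lit 18) (nat_lit 0) (nat_lit 0)) (x (nat_lit 19) (nat_lit 0) (nat_lit 0))) (Nat.add (x (nat_lit 20) (nat_lit 0) (nat_lit 0)) (x (nat_lit 21) (nat_lit 0) (nat_lit 0)))) (Nat.add (Nat.add (x (nat_lit 22) (nat_lit 0) (nat_lit 0)) (x (nat_lit 23) (nat_lit 0) (nat_lit 0))) (Nat.add (x (nat_lit 24) (nat_lit 0) (nat_lit 0)) (Nat.add (x (nat_lit 25) (nat_lit 0) (nat_lit 0)) (x (nat_lit 26) (nat_lit 0) (nat_lit 0)))))) (Nat.add (Nat.add (Nat.add (x (nat_lit 27) (nat_lit 0) (nat_lit 0)) (x (nat_lit 28) (nat_lit 0) (nat_lit 0))) (Nat.add (x (nat_lit 29) (nat_lit 0) (nat_lit 0)) (x (nat_lit 30) (nat_lit 0) (nat_lit 0)))) (Nat.add (Nat.add (x (nat_lit 31) (nat_lit 0) (nat_lit 0)) (x (nat_lit 32) (nat_lit 0) (nat_lit 0)))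 (Nat.add (x (nat_lit 33) (nat_lit 0) (nat_lit 0)) (Nat.add (x (nat_lit 34) (nat_lit 0) (nat_lit 0)) (x (nat_lit 35) (nat_lit 0) (nat_lit 0)))))))) (Nat.add (Nat.add (Nat.add (Nat.add (Nat.add (x (nat_lit 36) (nat_lit 0) (nat_lit 0)) (x (nat_lit 37) (nat_lit 0) (nat_lit 0))) (Nat.add (x (nat_lit 38) (nat_lit 0) (nat_lit 0)) (x (nat_lit 39) (nat_lit 0) (nat_lit 0)))) (Nat.add (Nat.add (x (nat_lit 40) (nat_lit 0) (nat_lit 0)) (x (nat_lit 41) (nat_lit 0) (nat_lit 0))) (Nat.add (x (nat_lit 42) (nat_lit 0) (nat_lit 0)) (Nat.add (x (nat_lit 43) (nat_lit 0) (nat_lit 0)) (x (nat_lit 44) (nat_lit 0) (nat_lit 0)))))) (Nat.add (Nat.add (Nat.add (x (nat_lit 45) (nat_lit 0) (nat_lit 0)) (x (nat_lit 46) (nat_lit 0) (nat_lit 0))) (Nat.add (x (nat_lit 47) (nat_lit 0) (nat_lit 0)) (x (nat_lit 48) (nat_lit 0) (nat_lit 0)))) (Nat.add (Nat.add (x (nat_lit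 49) (nat_lit 0) (nat_lit 0)) (x (nat_lit 50) (nat_lit 0) (nat_lit 0))) (Nat.add (x (nat_lit 51) (nat_lit 0) (nat_lit 0)) (Nat.add (x (nat_lit 52) (nat_lit 0) (nat_lit 0)) (x (nat_lit 53) (nat_lit 0) (nat_lit 0))))))) (Nat.add (Nat.add (Nat.add (Nat.add (x (nat_lit 54) (nat_lit 0) (nat_lit 0)) (x (nat_lit 55) (nat_lit 0) (nat_lit 0))) (Nat.add (x (nat_lit 56) (nat_lit 0) (nat_lit 0)) (x (nat_lit 57) (nat_lit 0) (nat_lit 0)))) (Nat.add (Nat.add (x (nat_lit 58) (nat_lit 0) (nat_lit 0)) (x (nat_lit 59) (nat_lit 0) (nat_lit 0))) (Nat.add (x (nat_lit 60) (nat_lit 0) (nat_lit 0)) (Nat.add (x (nat_lit 61) (nat_lit 0) (nat_lit 0)) (x (nat_lit 62) (nat_lit 0) (nat_lit 0)))))) (Nat.add (Nat.add (Nat.add (x (nat_lit 63) (nat_lit 0) (nat_lit 0)) (x (nat_lit 64) (nat_lit 0) (nat_lit 0))) (Nat.add (x (nat_lit 65) (nat_lit 0) (nat_lit 0)) (x (nat_lit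 66) (nat_lit 0) (nat_lit 0)))) (Nat.add (Nat.add (x (nat_lit 67) (nat_lit 0) (nat_lit 0)) (x (nat_lit 68) (nat_lit 0) (nat_lit 0))) (Nat.add (x (nat_lit 69) (nat_lit 0) (nat_lit 0)) (Nat.add (x (nat_lit 70) (nat_lit 0) (nat_lit 0)) (x (nat_lit 71) (nat_lit 0) (nat_lit 0)))))))))⟩
  (TL.cons ⟨fun x => (Nat.add (Nat.add (Nat.add (Nat.add (Nat.add (Nat.add (x (nat_lit 0) (nat_lit 0) (nat_lit 0)) (x (nat_lit 1) (nat_lit 0) (nat_lit 0))) (Nat.add (x (nat_lit 2) (nat_lit 0) (nat_lit 0)) (x (nat_lit 3) (nat_lit 0) (nat_lit 0)))) (Nat.add (Nat.add (x (nat_lit 4) (nat_lit 0) (nat_lit 0)) (x (nat_lit 5) (nat_lit 0) (nat_lit 0))) (Nat.add (x (nat_lit 6) (nat_lit 0) (nat_lit 0)) (Nat.add (x (nat_lit 7) (nat_lit 0) (nat_lit 0)) (x (nat_lit 8) (nat_lit 0) (nat_lit 0)))))) (Nat.add (Nat.add (Nat.add (x (nat_lit 9) (nat_lit 0) (nat_lit 0)) (x (nat_lit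 10) (nat_lit 0) (nat_lit 0))) (Nat.add (x (nat_lit 11) (nat_lit 0) (nat_lit 0)) (x (nat_lit 12) (nat_lit 0) (nat_lit 0)))) (Nat.add (Nat.add (x (nat_lit 13) (nat_lit 0) (nat_lit 0)) (x (nat_lit 14) (nat_lit 0) (nat_lit 0))) (Nat.add (x (nat_lit 15) (nat_lit 0) (nat_lit 0)) (Nat.add (x (nat_lit 16) (nat_lit 0) (nat_lit 0)) (x (nat_lit 17) (nat_lit 0) (nat_lit 0))))))) (Nat.add (Nat.add (Nat.add (Nat.add (x (nat_lit 18) (nat_lit 0) (nat_lit 0)) (x (nat_lit 19) (nat_lit 0) (nat_lit 0))) (Nat.add (x (nat_lit 20) (nat_lit 0) (nat_lit 0)) (x (nat_lit 21) (nat_lit 0) (nat_lit 0)))) (Nat.add (Nat.add (x (nat_lit 22) (nat_lit 0) (nat_lit 0)) (x (nat_lit 23) (nat_lit 0) (nat_lit 0))) (Nat.add (x (nat_lit 24) (nat_lit 0) (nat_lit 0)) (Nat.add (x (nat_lit 25) (nat_lit 0) (nat_lit 0)) (x (nat_lit 26) (nat_lit 0) (nat_lit 0)))))) (Nat.add (Nat.add (Nat.add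 (x (nat_lit 27) (nat_lit 0) (nat_lit 0)) (x (nat_lit 28) (nat_lit 0) (nat_lit 0))) (Nat.add (x (nat_lit 29) (nat_lit 0) (nat_lit 0)) (x (nat_lit 30) (nat_lit 0) (nat_lit 0)))) (Nat.add (Nat.add (x (nat_lit 31) (nat_lit 0) (nat_lit 0)) (x (nat_lit 32) (nat_lit 0) (nat_lit 0))) (Nat.add (x (nat_lit 33) (nat_lit 0) (nat_lit 0)) (Nat.add (x (nat_lit 34) (nat_lit 0) (nat_lit 0)) (x (nat_lit 35) (nat_lit 0) (nat_lit 0)))))))) (Nat.add (Nat.add (Nat.add (Nat.add (Nat.add (x (nat_lit 36) (nat_lit 0) (nat_lit 0)) (x (nat_lit 37) (nat_lit 0) (nat_lit 0))) (Nat.add (x (nat_lit 38) (nat_lit 0) (nat_lit 0)) (x (nat_lit 39) (nat_lit 0) (nat_lit 0)))) (Nat.add (Nat.add (x (nat_lit 40) (nat_lit 0) (nat_lit 0)) (x (nat_lit 41) (nat_lit 0) (nat_lit 0))) (Nat.add (x (nat_lit 42) (nat_lit 0) (nat_lit 0)) (Nat.add (x (nat_lit 43) (nat_lit 0) (nat_lit 0)) (x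 (nat_lit 44) (nat_lit 0) (nat_lit 0)))))) (Nat.add (Nat.add (Nat.add (x (nat_lit 45) (nat_lit 0) (nat_lit 0)) (x (nat_lit 46) (nat_lit 0) (nat_lit 0))) (Nat.add (x (nat_lit 47) (nat_lit 0) (nat_lit 0)) (x (nat_lit 48) (nat_lit 0) (nat_lit 0)))) (Nat.add (Nat.add (x (nat_lit 49) (nat_lit 0) (nat_lit 0)) (x (nat_lit 50) (nat_lit 0) (nat_lit 0))) (Nat.add (x (nat_lit 51) (nat_lit 0) (nat_lit 0)) (Nat.add (x (nat_lit 52) (nat_lit 0) (nat_lit 0)) (x (nat_lit 53) (nat_lit 0) (nat_lit 0))))))) (Nat.add (Nat.add (Nat.add (Nat.add (x (nat_lit 54) (nat_lit 0) (nat_lit 0)) (x (nat_lit 55) (nat_lit 0) (nat_lit 0))) (Nat.add (x (nat_lit 56) (nat_lit 0) (nat_lit 0)) (x (nat_lit 57) (nat_lit 0) (nat_lit 0)))) (Nat.add (Nat.add (x (nat_lit 58) (nat_lit 0) (nat_lit 0)) (x (nat_lit 59) (nat_lit 0) (nat_lit 0))) (Nat.add (x (nat_lit 60) (nat_lit 0) (nat_lit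 0)) (Nat.add (x (nat_lit 61) (nat_lit 0) (nat_lit 0)) (x (nat_lit 62) (nat_lit 0) (nat_lit 0)))))) (Nat.add (Nat.add (Nat.add (x (nat_lit 63) (nat_lit 0) (nat_lit 0)) (x (nat_lit 64) (nat_lit 0) (nat_lit 0))) (Nat.add (x (nat_lit 65) (nat_lit 0) (nat_lit 0)) (Nat.add (x (nat_lit 66) (nat_lit 0) (nat_lit 0)) (x (nat_lit 67) (nat_lit 0) (nat_lit 0))))) (Nat.add (Nat.add (x (nat_lit 68) (nat_lit 0) (nat_lit 0)) (x (nat_lit 69) (nat_lit 0) (nat_lit 0))) (Nat.add (x (nat_lit 70) (nat_lit 0) (nat_lit 0)) (Nat.add (x (nat_lit 71) (nat_lit 0) (nat_lit 0)) (x (nat_lit 72) (nat_lit 0) (nat_lit 0)))))))))⟩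
  (TL.cons ⟨fun x => (Nat.add (Nat.add (Nat.add (Nat.add (Nat.add (Nat.add (x (nat_lit 0) (nat_lit 0) (nat_lit 0)) (x (nat_lit 1) (nat_lit 0) (nat_lit 0))) (Nat.add (x (nat_lit 2) (nat_lit 0) (nat_lit 0)) (x (nat_lit 3) (nat_lit 0) (nat_lit 0)))) (Nat.add (Nat.add (x (nat_lit 4) (nat_lit 0) (nat_lit 0)) (x (nat_lit 5) (nat_lit 0) (nat_lit 0))) (Nat.add (x (nat_lit 6) (nat_lit 0) (nat_lit 0)) (Nat.add (x (nat_lit 7) (nat_lit 0) (nat_lit 0)) (x (nat_lit 8) (nat_lit 0) (nat_lit 0)))))) (Nat.add (Nat.add (Nat.add (x (nat_lit 9) (nat_lit 0) (nat_lit 0)) (x (nat_lit 10) (nat_lit 0) (nat_lit 0))) (Nat.add (x (nat_lit 11) (nat_lit 0) (nat_lit 0)) (x (nat_lit 12) (nat_lit 0) (nat_lit 0)))) (Nat.add (Nat.add (x (nat_lit 13) (nat_lit 0) (nat_lit 0)) (x (nat_lit 14) (nat_lit 0) (nat_lit 0))) (Nat.add (x (nat_lit 15) (nat_lit 0) (nat_lit 0)) (Nat.add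 (x (nat_lit 16) (nat_lit 0) (nat_lit 0)) (x (nat_lit 17) (nat_lit 0) (nat_lit 0))))))) (Nat.add (Nat.add (Nat.add (Nat.add (x (nat_lit 18) (nat_lit 0) (nat_lit 0)) (x (nat_lit 19) (nat_lit 0) (nat_lit 0))) (Nat.add (x (nat_lit 20) (nat_lit 0) (nat_lit 0)) (x (nat_lit 21) (nat_lit 0) (nat_lit 0)))) (Nat.add (Nat.add (x (nat_lit 22) (nat_lit 0) (nat_lit 0)) (x (nat_lit 23) (nat_lit 0) (nat_lit 0))) (Nat.add (x (nat_lit 24) (nat_lit 0) (nat_lit 0)) (Nat.add (x (nat_lit 25) (nat_lit 0) (nat_lit 0)) (x (nat_lit 26) (nat_lit 0) (nat_lit 0)))))) (Nat.add (Nat.add (Nat.add (x (nat_lit 27) (nat_lit 0) (nat_lit 0)) (x (nat_lit 28) (nat_lit 0) (nat_lit 0))) (Nat.add (x (nat_lit 29) (nat_lit 0) (nat_lit 0)) (Nat.add (x (nat_lit 30) (nat_lit 0) (nat_lit 0)) (x (nat_lit 31) (nat_lit 0) (nat_lit 0))))) (Nat.add (Nat.add (x (nat_lit 32) (nat_lit 0) (nat_lit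 0)) (x (nat_lit 33) (nat_lit 0) (nat_lit 0))) (Nat.add (x (nat_lit 34) (nat_lit 0) (nat_lit 0)) (Nat.add (x (nat_lit 35) (nat_lit 0) (nat_lit 0)) (x (nat_lit 36) (nat_lit 0) (nat_lit 0)))))))) (Nat.add (Nat.add (Nat.add (Nat.add (Nat.add (x (nat_lit 37) (nat_lit 0) (nat_lit 0)) (x (nat_lit 38) (nat_lit 0) (nat_lit 0))) (Nat.add (x (nat_lit 39) (nat_lit 0) (nat_lit 0)) (x (nat_lit 40) (nat_lit 0) (nat_lit 0)))) (Nat.add (Nat.add (x (nat_lit 41) (nat_lit 0) (nat_lit 0)) (x (nat_lit 42) (nat_lit 0) (nat_lit 0))) (Nat.add (x (nat_lit 43) (nat_lit 0) (nat_lit 0)) (Nat.add (x (nat_lit 44) (nat_lit 0) (nat_lit 0)) (x (nat_lit 45) (nat_lit 0) (nat_lit 0)))))) (Nat.add (Nat.add (Nat.add (x (nat_lit 46) (nat_lit 0) (nat_lit 0)) (x (nat_lit 47) (nat_lit 0) (nat_lit 0))) (Nat.add (x (nat_lit 48) (nat_lit 0) (nat_lit 0)) (x (nat_lit 49) (nat_lit 0)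 (nat_lit 0)))) (Nat.add (Nat.add (x (nat_lit 50) (nat_lit 0) (nat_lit 0)) (x (nat_lit 51) (nat_lit 0) (nat_lit 0))) (Nat.add (x (nat_lit 52) (nat_lit 0) (nat_lit 0)) (Nat.add (x (nat_lit 53) (nat_lit 0) (nat_lit 0)) (x (nat_lit 54) (nat_lit 0) (nat_lit 0))))))) (Nat.add (Nat.add (Nat.add (Nat.add (x (nat_lit 55) (nat_lit 0) (nat_lit 0)) (x (nat_lit 56) (nat_lit 0) (nat_lit 0))) (Nat.add (x (nat_lit 57) (nat_lit 0) (nat_lit 0)) (x (nat_lit 58) (nat_lit 0) (nat_lit 0)))) (Nat.add (Nat.add (x (nat_lit 59) (nat_lit 0) (nat_lit 0)) (x (nat_lit 60) (nat_lit 0) (nat_lit 0))) (Nat.add (x (nat_lit 61) (nat_lit 0) (nat_lit 0)) (Nat.add (x (nat_lit 62) (nat_lit 0) (nat_lit 0)) (x (nat_lit 63) (nat_lit 0) (nat_lit 0)))))) (Nat.add (Nat.add (Nat.add (x (nat_lit 64) (nat_lit 0) (nat_lit 0)) (x (nat_lit 65) (nat_lit 0) (nat_lit 0))) (Nat.add (x (nat_lit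 66) (nat_lit 0) (nat_lit 0)) (Nat.add (x (nat_lit 67) (nat_lit 0) (nat_lit 0)) (x (nat_lit 68) (nat_lit 0) (nat_lit 0))))) (Nat.add (Nat.add (x (nat_lit 69) (nat_lit 0) (nat_lit 0)) (x (nat_lit 70) (nat_lit 0) (nat_lit 0))) (Nat.add (x (nat_lit 71) (nat_lit 0) (nat_lit 0)) (Nat.add (x (nat_lit 72) (nat_lit 0) (nat_lit 0)) (x (nat_lit 73) (nat_lit 0) (nat_lit 0)))))))))⟩
  (TL.cons ⟨fun x => (Nat.add (Nat.add (Nat.add (Nat.add (Nat.add (Nat.add (x (nat_lit 0) (nat_lit 0) (nat_lit 0)) (x (nat_lit 1) (nat_lit 0) (nat_lit 0))) (Nat.add (x (nat_lit 2) (nat_lit 0) (nat_lit 0)) (x (nat_lit 3) (nat_lit 0) (nat_lit 0)))) (Nat.add (Nat.add (x (nat_lit 4) (nat_lit 0) (nat_lit 0)) (x (nat_lit 5) (nat_lit 0) (nat_lit 0))) (Nat.add (x (nat_lit 6) (nat_lit 0) (nat_lit 0)) (Nat.add (x (nat_lit 7) (nat_lit 0) (nat_lit 0)) (x (nat_lit 8) (nat_lit 0) (nat_lit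 0)))))) (Nat.add (Nat.add (Nat.add (x (nat_lit 9) (nat_lit 0) (nat_lit 0)) (x (nat_lit 10) (nat_lit 0) (nat_lit 0))) (Nat.add (x (nat_lit 11) (nat_lit 0) (nat_lit 0)) (x (nat_lit 12) (nat_lit 0) (nat_lit 0)))) (Nat.add (Nat.add (x (nat_lit 13) (nat_lit 0) (nat_lit 0)) (x (nat_lit 14) (nat_lit 0) (nat_lit 0))) (Nat.add (x (nat_lit 15) (nat_lit 0) (nat_lit 0)) (Nat.add (x (nat_lit 16) (nat_lit 0) (nat_lit 0)) (x (nat_lit 17) (nat_lit 0) (nat_lit 0))))))) (Nat.add (Nat.add (Nat.add (Nat.add (x (nat_lit 18) (nat_lit 0) (nat_lit 0)) (x (nat_lit 19) (nat_lit 0) (nat_lit 0))) (Nat.add (x (nat_lit 20) (nat_lit 0) (nat_lit 0)) (x (nat_lit 21) (nat_lit 0) (nat_lit 0)))) (Nat.add (Nat.add (x (nat_lit 22) (nat_lit 0) (nat_lit 0)) (x (nat_lit 23) (nat_lit 0) (nat_lit 0))) (Nat.add (x (nat_lit 24) (nat_lit 0) (nat_lit 0)) (Nat.add (x (nat_lit 25) (nat_lit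 0) (nat_lit 0)) (x (nat_lit 26) (nat_lit 0) (nat_lit 0)))))) (Nat.add (Nat.add (Nat.add (x (nat_lit 27) (nat_lit 0) (nat_lit 0)) (x (nat_lit 28) (nat_lit 0) (nat_lit 0))) (Nat.add (x (nat_lit 29) (nat_lit 0) (nat_lit 0)) (Nat.add (x (nat_lit 30) (nat_lit 0) (nat_lit 0)) (x (nat_lit 31) (nat_lit 0) (nat_lit 0))))) (Nat.add (Nat.add (x (nat_lit 32) (nat_lit 0) (nat_lit 0)) (x (nat_lit 33) (nat_lit 0) (nat_lit 0))) (Nat.add (x (nat_lit 34) (nat_lit 0) (nat_lit 0)) (Nat.add (x (nat_lit 35) (nat_lit 0) (nat_lit 0)) (x (nat_lit 36) (nat_lit 0) (nat_lit 0)))))))) (Nat.add (Nat.add (Nat.add (Nat.add (Nat.add (x (nat_lit 37) (nat_lit 0) (nat_lit 0)) (x (nat_lit 38) (nat_lit 0) (nat_lit 0))) (Nat.add (x (nat_lit 39) (nat_lit 0) (nat_lit 0)) (x (nat_lit 40) (nat_lit 0) (nat_lit 0)))) (Nat.add (Nat.add (x (nat_lit 41) (nat_lit 0) (nat_lit 0)) (x (nat_lit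 42) (nat_lit 0) (nat_lit 0))) (Nat.add (x (nat_lit 43) (nat_lit 0) (nat_lit 0)) (Nat.add (x (nat_lit 44) (nat_lit 0) (nat_lit 0)) (x (nat_lit 45) (nat_lit 0) (nat_lit 0)))))) (Nat.add (Nat.add (Nat.add (x (nat_lit 46) (nat_lit 0) (nat_lit 0)) (x (nat_lit 47) (nat_lit 0) (nat_lit 0))) (Nat.add (x (nat_lit 48) (nat_lit 0) (nat_lit 0)) (Nat.add (x (nat_lit 49) (nat_lit 0) (nat_lit 0)) (x (nat_lit 50) (nat_lit 0) (nat_lit 0))))) (Nat.add (Nat.add (x (nat_lit 51) (nat_lit 0) (nat_lit 0)) (x (nat_lit 52) (nat_lit 0) (nat_lit 0))) (Nat.add (x (nat_lit 53) (nat_lit 0) (nat_lit 0)) (Nat.add (x (nat_lit 54) (nat_lit 0) (nat_lit 0)) (x (nat_lit 55) (nat_lit 0) (nat_lit 0))))))) (Nat.add (Nat.add (Nat.add (Nat.add (x (nat_lit 56) (nat_lit 0) (nat_lit 0)) (x (nat_lit 57) (nat_lit 0) (nat_lit 0))) (Nat.add (x (nat_lit 58) (nat_lit 0) (nat_lit 0)) (x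 (nat_lit 59) (nat_lit 0) (nat_lit 0)))) (Nat.add (Nat.add (x (nat_lit 60) (nat_lit 0) (nat_lit 0)) (x (nat_lit 61) (nat_lit 0) (nat_lit 0))) (Nat.add (x (nat_lit 62) (nat_lit 0) (nat_lit 0)) (Nat.add (x (nat_lit 63) (nat_lit 0) (nat_lit 0)) (x (nat_lit 64) (nat_lit 0) (nat_lit 0)))))) (Nat.add (Nat.add (Nat.add (x (nat_lit 65) (nat_lit 0) (nat_lit 0)) (x (nat_lit 66) (nat_lit 0) (nat_lit 0))) (Nat.add (x (nat_lit 67) (nat_lit 0) (nat_lit 0)) (Nat.add (x (nat_lit 68) (nat_lit 0) (nat_lit 0)) (x (nat_lit 69) (nat_lit 0) (nat_lit 0))))) (Nat.add (Nat.add (x (nat_lit 70) (nat_lit 0) (nat_lit 0)) (x (nat_lit 71) (nat_lit 0) (nat_lit 0))) (Nat.add (x (nat_lit 72) (nat_lit 0) (nat_lit 0)) (Nat.add (x (nat_lit 73) (nat_lit 0) (nat_lit 0)) (x (nat_lit 74) (nat_lit 0) (nat_lit 0)))))))))⟩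
  (TL.cons ⟨fun x => (Nat.add (Nat.add (Nat.add (Nat.add (Nat.add (Nat.add (x (nat_lit 0) (nat_lit 0) (nat_lit 0)) (x (nat_lit 1) (nat_lit 0) (nat_lit 0))) (Nat.add (x (nat_lit 2) (nat_lit 0) (nat_lit 0)) (x (nat_lit 3) (nat_lit 0) (nat_lit 0)))) (Nat.add (Nat.add (x (nat_lit 4) (nat_lit 0) (nat_lit 0)) (x (nat_lit 5) (nat_lit 0) (nat_lit 0))) (Nat.add (x (nat_lit 6) (nat_lit 0) (nat_lit 0)) (Nat.add (x (nat_lit 7) (nat_lit 0) (nat_lit 0)) (x (nat_lit 8) (nat_lit 0) (nat_lit 0)))))) (Nat.add (Nat.add (Nat.add (x (nat_lit 9) (nat_lit 0) (nat_lit 0)) (x (nat_lit 10) (nat_lit 0) (nat_lit 0))) (Nat.add (x (nat_lit 11) (nat_lit 0) (nat_lit 0)) (Nat.add (x (nat_lit 12) (nat_lit 0) (nat_lit 0)) (x (nat_lit 13) (nat_lit 0) (nat_lit 0))))) (Nat.add (Nat.add (x (nat_lit 14) (nat_lit 0) (nat_lit 0)) (x (nat_lit 15) (nat_lit 0) (nat_lit 0))) (Nat.add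 (x (nat_lit 16) (nat_lit 0) (nat_lit 0)) (Nat.add (x (nat_lit 17) (nat_lit 0) (nat_lit 0)) (x (nat_lit 18) (nat_lit 0) (nat_lit 0))))))) (Nat.add (Nat.add (Nat.add (Nat.add (x (nat_lit 19) (nat_lit 0) (nat_lit 0)) (x (nat_lit 20) (nat_lit 0) (nat_lit 0))) (Nat.add (x (nat_lit 21) (nat_lit 0) (nat_lit 0)) (x (nat_lit 22) (nat_lit 0) (nat_lit 0)))) (Nat.add (Nat.add (x (nat_lit 23) (nat_lit 0) (nat_lit 0)) (x (nat_lit 24) (nat_lit 0) (nat_lit 0))) (Nat.add (x (nat_lit 25) (nat_lit 0) (nat_lit 0)) (Nat.add (x (nat_lit 26) (nat_lit 0) (nat_lit 0)) (x (nat_lit 27) (nat_lit 0) (nat_lit 0)))))) (Nat.add (Nat.add (Nat.add (x (nat_lit 28) (nat_lit 0) (nat_lit 0)) (x (nat_lit 29) (nat_lit 0) (nat_lit 0))) (Nat.add (x (nat_lit 30) (nat_lit 0) (nat_lit 0)) (Nat.add (x (nat_lit 31) (nat_lit 0) (nat_lit 0)) (x (nat_lit 32) (nat_lit 0) (nat_lit 0)))))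 (Nat.add (Nat.add (x (nat_lit 33) (nat_lit 0) (nat_lit 0)) (x (nat_lit 34) (nat_lit 0) (nat_lit 0))) (Nat.add (x (nat_lit 35) (nat_lit 0) (nat_lit 0)) (Nat.add (x (nat_lit 36) (nat_lit 0) (nat_lit 0)) (x (nat_lit 37) (nat_lit 0) (nat_lit 0)))))))) (Nat.add (Nat.add (Nat.add (Nat.add (Nat.add (x (nat_lit 38) (nat_lit 0) (nat_lit 0)) (x (nat_lit 39) (nat_lit 0) (nat_lit 0))) (Nat.add (x (nat_lit 40) (nat_lit 0) (nat_lit 0)) (x (nat_lit 41) (nat_lit 0) (nat_lit 0)))) (Nat.add (Nat.add (x (nat_lit 42) (nat_lit 0) (nat_lit 0)) (x (nat_lit 43) (nat_lit 0) (nat_lit 0))) (Nat.add (x (nat_lit 44) (nat_lit 0) (nat_lit 0)) (Nat.add (x (nat_lit 45) (nat_lit 0) (nat_lit 0)) (x (nat_lit 46) (nat_lit 0) (nat_lit 0)))))) (Nat.add (Nat.add (Nat.add (x (nat_lit 47) (nat_lit 0) (nat_lit 0)) (x (nat_lit 48) (nat_lit 0) (nat_lit 0))) (Nat.add (x (nat_lit 49)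 (nat_lit 0) (nat_lit 0)) (Nat.add (x (nat_lit 50) (nat_lit 0) (nat_lit 0)) (x (nat_lit 51) (nat_lit 0) (nat_lit 0))))) (Nat.add (Nat.add (x (nat_lit 52) (nat_lit 0) (nat_lit 0)) (x (nat_lit 53) (nat_lit 0) (nat_lit 0))) (Nat.add (x (nat_lit 54) (nat_lit 0) (nat_lit 0)) (Nat.add (x (nat_lit 55) (nat_lit 0) (nat_lit 0)) (x (nat_lit 56) (nat_lit 0) (nat_lit 0))))))) (Nat.add (Nat.add (Nat.add (Nat.add (x (nat_lit 57) (nat_lit 0) (nat_lit 0)) (x (nat_lit 58) (nat_lit 0) (nat_lit 0))) (Nat.add (x (nat_lit 59) (nat_lit 0) (nat_lit 0)) (x (nat_lit 60) (nat_lit 0) (nat_lit 0)))) (Nat.add (Nat.add (x (nat_lit 61) (nat_lit 0) (nat_lit 0)) (x (nat_lit 62) (nat_lit 0) (nat_lit 0))) (Nat.add (x (nat_lit 63) (nat_lit 0) (nat_lit 0)) (Nat.add (x (nat_lit 64) (nat_lit 0) (nat_lit 0)) (x (nat_lit 65) (nat_lit 0) (nat_lit 0)))))) (Nat.add (Nat.add (Nat.add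 (x (nat_lit 66) (nat_lit 0) (nat_lit 0)) (x (nat_lit 67) (nat_lit 0) (nat_lit 0))) (Nat.add (x (nat_lit 68) (nat_lit 0) (nat_lit 0)) (Nat.add (x (nat_lit 69) (nat_lit 0) (nat_lit 0)) (x (nat_lit 70) (nat_lit 0) (nat_lit 0))))) (Nat.add (Nat.add (x (nat_lit 71) (nat_lit 0) (nat_lit 0)) (x (nat_lit 72) (nat_lit 0) (nat_lit 0))) (Nat.add (x (nat_lit 73) (nat_lit 0) (nat_lit 0)) (Nat.add (x (nat_lit 74) (nat_lit 0) (nat_lit 0)) (x (nat_lit 75) (nat_lit 0) (nat_lit 0)))))))))⟩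
  (TL.cons ⟨fun x => (Nat.add (Nat.add (Nat.add (Nat.add (Nat.add (Nat.add (x (nat_lit 0) (nat_lit 0) (nat_lit 0)) (x (nat_lit 1) (nat_lit 0) (nat_lit 0))) (Nat.add (x (nat_lit 2) (nat_lit 0) (nat_lit 0)) (x (nat_lit 3) (nat_lit 0) (nat_lit 0)))) (Nat.add (Nat.add (x (nat_lit 4) (nat_lit 0) (nat_lit 0)) (x (nat_lit 5) (nat_lit 0) (nat_lit 0))) (Nat.add (x (nat_lit 6) (nat_lit 0) (nat_lit 0)) (Nat.add (x (nat_lit 7) (nat_lit 0) (nat_lit 0)) (x (nat_lit 8) (nat_lit 0) (nat_lit 0)))))) (Nat.add (Nat.add (Nat.add (x (nat_lit 9) (nat_lit 0) (nat_lit 0)) (x (nat_lit 10) (nat_lit 0) (nat_lit 0))) (Nat.add (x (nat_lit 11) (nat_lit 0) (nat_lit 0)) (Nat.add (x (nat_lit 12) (nat_lit 0) (nat_lit 0)) (x (nat_lit 13) (nat_lit 0) (nat_lit 0))))) (Nat.add (Nat.add (x (nat_lit 14) (nat_lit 0) (nat_lit 0)) (x (nat_lit 15) (nat_lit 0) (nat_lit 0))) (Nat.add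 (x (nat_lit 16) (nat_lit 0) (nat_lit 0)) (Nat.add (x (nat_lit 17) (nat_lit 0) (nat_lit 0)) (x (nat_lit 18) (nat_lit 0) (nat_lit 0))))))) (Nat.add (Nat.add (Nat.add (Nat.add (x (nat_lit 19) (nat_lit 0) (nat_lit 0)) (x (nat_lit 20) (nat_lit 0) (nat_lit 0))) (Nat.add (x (nat_lit 21) (nat_lit 0) (nat_lit 0)) (x (nat_lit 22) (nat_lit 0) (nat_lit 0)))) (Nat.add (Nat.add (x (nat_lit 23) (nat_lit 0) (nat_lit 0)) (x (nat_lit 24) (nat_lit 0) (nat_lit 0))) (Nat.add (x (nat_lit 25) (nat_lit 0) (nat_lit 0)) (Nat.add (x (nat_lit 26) (nat_lit 0) (nat_lit 0)) (x (nat_lit 27) (nat_lit 0) (nat_lit 0)))))) (Nat.add (Nat.add (Nat.add (x (nat_lit 28) (nat_lit 0) (nat_lit 0)) (x (nat_lit 29) (nat_lit 0) (nat_lit 0))) (Nat.add (x (nat_lit 30) (nat_lit 0) (nat_lit 0)) (Nat.add (x (nat_lit 31) (nat_lit 0) (nat_lit 0)) (x (nat_lit 32) (nat_lit 0) (nat_lit 0)))))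 (Nat.add (Nat.add (x (nat_lit 33) (nat_lit 0) (nat_lit 0)) (x (nat_lit 34) (nat_lit 0) (nat_lit 0))) (Nat.add (x (nat_lit 35) (nat_lit 0) (nat_lit 0)) (Nat.add (x (nat_lit 36) (nat_lit 0) (nat_lit 0)) (x (nat_lit 37) (nat_lit 0) (nat_lit 0)))))))) (Nat.add (Nat.add (Nat.add (Nat.add (Nat.add (x (nat_lit 38) (nat_lit 0) (nat_lit 0)) (x (nat_lit 39) (nat_lit 0) (nat_lit 0))) (Nat.add (x (nat_lit 40) (nat_lit 0) (nat_lit 0)) (x (nat_lit 41) (nat_lit 0) (nat_lit 0)))) (Nat.add (Nat.add (x (nat_lit 42) (nat_lit 0) (nat_lit 0)) (x (nat_lit 43) (nat_lit 0) (nat_lit 0))) (Nat.add (x (nat_lit 44) (nat_lit 0) (nat_lit 0)) (Nat.add (x (nat_lit 45) (nat_lit 0) (nat_lit 0)) (x (nat_lit 46) (nat_lit 0) (nat_lit 0)))))) (Nat.add (Nat.add (Nat.add (x (nat_lit 47) (nat_lit 0) (nat_lit 0)) (x (nat_lit 48) (nat_lit 0) (nat_lit 0))) (Nat.add (x (nat_lit 49)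 (nat_lit 0) (nat_lit 0)) (Nat.add (x (nat_lit 50) (nat_lit 0) (nat_lit 0)) (x (nat_lit 51) (nat_lit 0) (nat_lit 0))))) (Nat.add (Nat.add (x (nat_lit 52) (nat_lit 0) (nat_lit 0)) (x (nat_lit 53) (nat_lit 0) (nat_lit 0))) (Nat.add (x (nat_lit 54) (nat_lit 0) (nat_lit 0)) (Nat.add (x (nat_lit 55) (nat_lit 0) (nat_lit 0)) (x (nat_lit 56) (nat_lit 0) (nat_lit 0))))))) (Nat.add (Nat.add (Nat.add (Nat.add (x (nat_lit 57) (nat_lit 0) (nat_lit 0)) (x (nat_lit 58) (nat_lit 0) (nat_lit 0))) (Nat.add (x (nat_lit 59) (nat_lit 0) (nat_lit 0)) (Nat.add (x (nat_lit 60) (nat_lit 0) (nat_lit 0)) (x (nat_lit 61) (nat_lit 0) (nat_lit 0))))) (Nat.add (Nat.add (x (nat_lit 62) (nat_lit 0) (nat_lit 0)) (x (nat_lit 63) (nat_lit 0) (nat_lit 0))) (Nat.add (x (nat_lit 64) (nat_lit 0) (nat_lit 0)) (Nat.add (x (nat_lit 65) (nat_lit 0) (nat_lit 0)) (x (nat_lit 66) (nat_lit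 0) (nat_lit 0)))))) (Nat.add (Nat.add (Nat.add (x (nat_lit 67) (nat_lit 0) (nat_lit 0)) (x (nat_lit 68) (nat_lit 0) (nat_lit 0))) (Nat.add (x (nat_lit 69) (nat_lit 0) (nat_lit 0)) (Nat.add (x (nat_lit 70) (nat_lit 0) (nat_lit 0)) (x (nat_lit 71) (nat_lit 0) (nat_lit 0))))) (Nat.add (Nat.add (x (nat_lit 72) (nat_lit 0) (nat_lit 0)) (x (nat_lit 73) (nat_lit 0) (nat_lit 0))) (Nat.add (x (nat_lit 74) (nat_lit 0) (nat_lit 0)) (Nat.add (x (nat_lit 75) (nat_lit 0) (nat_lit 0)) (x (nat_lit 76) (nat_lit 0) (nat_lit 0)))))))))⟩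
  (TL.cons ⟨fun x => (Nat.add (Nat.add (Nat.add (Nat.add (Nat.add (Nat.add (x (nat_lit 0) (nat_lit 0) (nat_lit 0)) (x (nat_lit 1) (nat_lit 0) (nat_lit 0))) (Nat.add (x (nat_lit 2) (nat_lit 0) (nat_lit 0)) (x (nat_lit 3) (nat_lit 0) (nat_lit 0)))) (Nat.add (Nat.add (x (nat_lit 4) (nat_lit 0) (nat_lit 0)) (x (nat_lit 5) (nat_lit 0) (nat_lit 0))) (Nat.add (x (nat_lit 6) (nat_lit 0) (nat_lit 0)) (Nat.add (x (nat_lit 7) (nat_lit 0) (nat_lit 0)) (x (nat_lit 8) (nat_lit 0) (nat_lit 0)))))) (Nat.add (Nat.add (Nat.add (x (nat_lit 9) (nat_lit 0) (nat_lit 0)) (x (nat_lit 10) (nat_lit 0) (nat_lit 0))) (Nat.add (x (nat_lit 11) (nat_lit 0) (nat_lit 0)) (Nat.add (x (nat_lit 12) (nat_lit 0) (nat_lit 0)) (x (nat_lit 13) (nat_lit 0) (nat_lit 0))))) (Nat.add (Nat.add (x (nat_lit 14) (nat_lit 0) (nat_lit 0)) (x (nat_lit 15) (nat_lit 0) (nat_lit 0))) (Nat.add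 (x (nat_lit 16) (nat_lit 0) (nat_lit 0)) (Nat.add (x (nat_lit 17) (nat_lit 0) (nat_lit 0)) (x (nat_lit 18) (nat_lit 0) (nat_lit 0))))))) (Nat.add (Nat.add (Nat.add (Nat.add (x (nat_lit 19) (nat_lit 0) (nat_lit 0)) (x (nat_lit 20) (nat_lit 0) (nat_lit 0))) (Nat.add (x (nat_lit 21) (nat_lit 0) (nat_lit 0)) (Nat.add (x (nat_lit 22) (nat_lit 0) (nat_lit 0)) (x (nat_lit 23) (nat_lit 0) (nat_lit 0))))) (Nat.add (Nat.add (x (nat_lit 24) (nat_lit 0) (nat_lit 0)) (x (nat_lit 25) (nat_lit 0) (nat_lit 0))) (Nat.add (x (nat_lit 26) (nat_lit 0) (nat_lit 0)) (Nat.add (x (nat_lit 27) (nat_lit 0) (nat_lit 0)) (x (nat_lit 28) (nat_lit 0) (nat_lit 0)))))) (Nat.add (Nat.add (Nat.add (x (nat_lit 29) (nat_lit 0) (nat_lit 0)) (x (nat_lit 30) (nat_lit 0) (nat_lit 0))) (Nat.add (x (nat_lit 31) (nat_lit 0) (nat_lit 0)) (Nat.add (x (nat_lit 32) (nat_lit 0) (nat_lit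 0)) (x (nat_lit 33) (nat_lit 0) (nat_lit 0))))) (Nat.add (Nat.add (x (nat_lit 34) (nat_lit 0) (nat_lit 0)) (x (nat_lit 35) (nat_lit 0) (nat_lit 0))) (Nat.add (x (nat_lit 36) (nat_lit 0) (nat_lit 0)) (Nat.add (x (nat_lit 37) (nat_lit 0) (nat_lit 0)) (x (nat_lit 38) (nat_lit 0) (nat_lit 0)))))))) (Nat.add (Nat.add (Nat.add (Nat.add (Nat.add (x (nat_lit 39) (nat_lit 0) (nat_lit 0)) (x (nat_lit 40) (nat_lit 0) (nat_lit 0))) (Nat.add (x (nat_lit 41) (nat_lit 0) (nat_lit 0)) (x (nat_lit 42) (nat_lit 0) (nat_lit 0)))) (Nat.add (Nat.add (x (nat_lit 43) (nat_lit 0) (nat_lit 0)) (x (nat_lit 44) (nat_lit 0) (nat_lit 0))) (Nat.add (x (nat_lit 45) (nat_lit 0) (nat_lit 0)) (Nat.add (x (nat_lit 46) (nat_lit 0) (nat_lit 0)) (x (nat_lit 47) (nat_lit 0) (nat_lit 0)))))) (Nat.add (Nat.add (Nat.add (x (nat_lit 48) (nat_lit 0) (nat_lit 0)) (x (nat_lit 49)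 (nat_lit 0) (nat_lit 0))) (Nat.add (x (nat_lit 50) (nat_lit 0) (nat_lit 0)) (Nat.add (x (nat_lit 51) (nat_lit 0) (nat_lit 0)) (x (nat_lit 52) (nat_lit 0) (nat_lit 0))))) (Nat.add (Nat.add (x (nat_lit 53) (nat_lit 0) (nat_lit 0)) (x (nat_lit 54) (nat_lit 0) (nat_lit 0))) (Nat.add (x (nat_lit 55) (nat_lit 0) (nat_lit 0)) (Nat.add (x (nat_lit 56) (nat_lit 0) (nat_lit 0)) (x (nat_lit 57) (nat_lit 0) (nat_lit 0))))))) (Nat.add (Nat.add (Nat.add (Nat.add (x (nat_lit 58) (nat_lit 0) (nat_lit 0)) (x (nat_lit 59) (nat_lit 0) (nat_lit 0))) (Nat.add (x (nat_lit 60) (nat_lit 0) (nat_lit 0)) (Nat.add (x (nat_lit 61) (nat_lit 0) (nat_lit 0)) (x (nat_lit 62) (nat_lit 0) (nat_lit 0))))) (Nat.add (Nat.add (x (nat_lit 63) (nat_lit 0) (nat_lit 0)) (x (nat_lit 64) (nat_lit 0) (nat_lit 0))) (Nat.add (x (nat_lit 65) (nat_lit 0) (nat_lit 0)) (Nat.add (x (nat_lit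 66) (nat_lit 0) (nat_lit 0)) (x (nat_lit 67) (nat_lit 0) (nat_lit 0)))))) (Nat.add (Nat.add (Nat.add (x (nat_lit 68) (nat_lit 0) (nat_lit 0)) (x (nat_lit 69) (nat_lit 0) (nat_lit 0))) (Nat.add (x (nat_lit 70) (nat_lit 0) (nat_lit 0)) (Nat.add (x (nat_lit 71) (nat_lit 0) (nat_lit 0)) (x (nat_lit 72) (nat_lit 0) (nat_lit 0))))) (Nat.add (Nat.add (x (nat_lit 73) (nat_lit 0) (nat_lit 0)) (x (nat_lit 74) (nat_lit 0) (nat_lit 0))) (Nat.add (x (nat_lit 75) (nat_lit 0) (nat_lit 0)) (Nat.add (x (nat_lit 76) (nat_lit 0) (nat_lit 0)) (x (nat_lit 77) (nat_lit 0) (nat_lit 0)))))))))⟩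
  (TL.cons ⟨fun x => (Nat.add (Nat.add (Nat.add (Nat.add (Nat.add (Nat.add (x (nat_lit 0) (nat_lit 0) (nat_lit 0)) (x (nat_lit 1) (nat_lit 0) (nat_lit 0))) (Nat.add (x (nat_lit 2) (nat_lit 0) (nat_lit 0)) (x (nat_lit 3) (nat_lit 0) (nat_lit 0)))) (Nat.add (Nat.add (x (nat_lit 4) (nat_lit 0) (nat_lit 0)) (x (nat_lit 5) (nat_lit 0) (nat_lit 0))) (Nat.add (x (nat_lit 6) (nat_lit 0) (nat_lit 0)) (Nat.add (x (nat_lit 7) (nat_lit 0) (nat_lit 0)) (x (nat_lit 8) (nat_lit 0) (nat_lit 0)))))) (Nat.add (Nat.add (Nat.add (x (nat_lit 9) (nat_lit 0) (nat_lit 0)) (x (nat_lit 10) (nat_lit 0) (nat_lit 0))) (Nat.add (x (nat_lit 11) (nat_lit 0) (nat_lit 0)) (Nat.add (x (nat_lit 12) (nat_lit 0) (nat_lit 0)) (x (nat_lit 13) (nat_lit 0) (nat_lit 0))))) (Nat.add (Nat.add (x (nat_lit 14) (nat_lit 0) (nat_lit 0)) (x (nat_lit 15) (nat_lit 0) (nat_lit 0))) (Nat.add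 (x (nat_lit 16) (nat_lit 0) (nat_lit 0)) (Nat.add (x (nat_lit 17) (nat_lit 0) (nat_lit 0)) (x (nat_lit 18) (nat_lit 0) (nat_lit 0))))))) (Nat.add (Nat.add (Nat.add (Nat.add (x (nat_lit 19) (nat_lit 0) (nat_lit 0)) (x (nat_lit 20) (nat_lit 0) (nat_lit 0))) (Nat.add (x (nat_lit 21) (nat_lit 0) (nat_lit 0)) (Nat.add (x (nat_lit 22) (nat_lit 0) (nat_lit 0)) (x (nat_lit 23) (nat_lit 0) (nat_lit 0))))) (Nat.add (Nat.add (x (nat_lit 24) (nat_lit 0) (nat_lit 0)) (x (nat_lit 25) (nat_lit 0) (nat_lit 0))) (Nat.add (x (nat_lit 26) (nat_lit 0) (nat_lit 0)) (Nat.add (x (nat_lit 27) (nat_lit 0) (nat_lit 0)) (x (nat_lit 28) (nat_lit 0) (nat_lit 0)))))) (Nat.add (Nat.add (Nat.add (x (nat_lit 29) (nat_lit 0) (nat_lit 0)) (x (nat_lit 30) (nat_lit 0) (nat_lit 0))) (Nat.add (x (nat_lit 31) (nat_lit 0) (nat_lit 0)) (Nat.add (x (nat_lit 32) (nat_lit 0) (nat_lit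 0)) (x (nat_lit 33) (nat_lit 0) (nat_lit 0))))) (Nat.add (Nat.add (x (nat_lit 34) (nat_lit 0) (nat_lit 0)) (x (nat_lit 35) (nat_lit 0) (nat_lit 0))) (Nat.add (x (nat_lit 36) (nat_lit 0) (nat_lit 0)) (Nat.add (x (nat_lit 37) (nat_lit 0) (nat_lit 0)) (x (nat_lit 38) (nat_lit 0) (nat_lit 0)))))))) (Nat.add (Nat.add (Nat.add (Nat.add (Nat.add (x (nat_lit 39) (nat_lit 0) (nat_lit 0)) (x (nat_lit 40) (nat_lit 0) (nat_lit 0))) (Nat.add (x (nat_lit 41) (nat_lit 0) (nat_lit 0)) (Nat.add (x (nat_lit 42) (nat_lit 0) (nat_lit 0)) (x (nat_lit 43) (nat_lit 0) (nat_lit 0))))) (Nat.add (Nat.add (x (nat_lit 44) (nat_lit 0) (nat_lit 0)) (x (nat_lit 45) (nat_lit 0) (nat_lit 0))) (Nat.add (x (nat_lit 46) (nat_lit 0) (nat_lit 0)) (Nat.add (x (nat_lit 47) (nat_lit 0) (nat_lit 0)) (x (nat_lit 48) (nat_lit 0) (nat_lit 0)))))) (Nat.add (Nat.add (Nat.add (x (nat_lit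 49) (nat_lit 0) (nat_lit 0)) (x (nat_lit 50) (nat_lit 0) (nat_lit 0))) (Nat.add (x (nat_lit 51) (nat_lit 0) (nat_lit 0)) (Nat.add (x (nat_lit 52) (nat_lit 0) (nat_lit 0)) (x (nat_lit 53) (nat_lit 0) (nat_lit 0))))) (Nat.add (Nat.add (x (nat_lit 54) (nat_lit 0) (nat_lit 0)) (x (nat_lit 55) (nat_lit 0) (nat_lit 0))) (Nat.add (x (nat_lit 56) (nat_lit 0) (nat_lit 0)) (Nat.add (x (nat_lit 57) (nat_lit 0) (nat_lit 0)) (x (nat_lit 58) (nat_lit 0) (nat_lit 0))))))) (Nat.add (Nat.add (Nat.add (Nat.add (x (nat_lit 59) (nat_lit 0) (nat_lit 0)) (x (nat_lit 60) (nat_lit 0) (nat_lit 0))) (Nat.add (x (nat_lit 61) (nat_lit 0) (nat_lit 0)) (Nat.add (x (nat_lit 62) (nat_lit 0) (nat_lit 0)) (x (nat_lit 63) (nat_lit 0) (nat_lit 0))))) (Nat.add (Nat.add (x (nat_lit 64) (nat_lit 0) (nat_lit 0)) (x (nat_lit 65) (nat_lit 0) (nat_lit 0))) (Nat.add (x (nat_lit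 66) (nat_lit 0) (nat_lit 0)) (Nat.add (x (nat_lit 67) (nat_lit 0) (nat_lit 0)) (x (nat_lit 68) (nat_lit 0) (nat_lit 0)))))) (Nat.add (Nat.add (Nat.add (x (nat_lit 69) (nat_lit 0) (nat_lit 0)) (x (nat_lit 70) (nat_lit 0) (nat_lit 0))) (Nat.add (x (nat_lit 71) (nat_lit 0) (nat_lit 0)) (Nat.add (x (nat_lit 72) (nat_lit 0) (nat_lit 0)) (x (nat_lit 73) (nat_lit 0) (nat_lit 0))))) (Nat.add (Nat.add (x (nat_lit 74) (nat_lit 0) (nat_lit 0)) (x (nat_lit 75) (nat_lit 0) (nat_lit 0))) (Nat.add (x (nat_lit 76) (nat_lit 0) (nat_lit 0)) (Nat.add (x (nat_lit 77) (nat_lit 0) (nat_lit 0)) (x (nat_lit 78) (nat_lit 0) (nat_lit 0)))))))))⟩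
  (TL.cons ⟨fun x => (Nat.add (Nat.add (Nat.add (Nat.add (Nat.add (Nat.add (x (nat_lit 0) (nat_lit 0) (nat_lit 0)) (x (nat_lit 1) (nat_lit 0) (nat_lit 0))) (Nat.add (x (nat_lit 2) (nat_lit 0) (nat_lit 0)) (Nat.add (x (nat_lit 3) (nat_lit 0) (nat_lit 0)) (x (nat_lit 4) (nat_lit 0) (nat_lit 0))))) (Nat.add (Nat.add (x (nat_lit 5) (nat_lit 0) (nat_lit 0)) (x (nat_lit 6) (nat_lit 0) (nat_lit 0))) (Nat.add (x (nat_lit 7) (nat_lit 0) (nat_lit 0)) (Nat.add (x (nat_lit 8) (nat_lit 0) (nat_lit 0)) (x (nat_lit 9) (nat_lit 0) (nat_lit 0)))))) (Nat.add (Nat.add (Nat.add (x (nat_lit 10) (nat_lit 0) (nat_lit 0)) (x (nat_lit 11) (nat_lit 0) (nat_lit 0))) (Nat.add (x (nat_lit 12) (nat_lit 0) (nat_lit 0)) (Nat.add (x (nat_lit 13) (nat_lit 0) (nat_lit 0)) (x (nat_lit 14) (nat_lit 0) (nat_lit 0))))) (Nat.add (Nat.add (x (nat_lit 15) (nat_lit 0) (nat_lit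 0)) (x (nat_lit 16) (nat_lit 0) (nat_lit 0))) (Nat.add (x (nat_lit 17) (nat_lit 0) (nat_lit 0)) (Nat.add (x (nat_lit 18) (nat_lit 0) (nat_lit 0)) (x (nat_lit 19) (nat_lit 0) (nat_lit 0))))))) (Nat.add (Nat.add (Nat.add (Nat.add (x (nat_lit 20) (nat_lit 0) (nat_lit 0)) (x (nat_lit 21) (nat_lit 0) (nat_lit 0))) (Nat.add (x (nat_lit 22) (nat_lit 0) (nat_lit 0)) (Nat.add (x (nat_lit 23) (nat_lit 0) (nat_lit 0)) (x (nat_lit 24) (nat_lit 0) (nat_lit 0))))) (Nat.add (Nat.add (x (nat_lit 25) (nat_lit 0) (nat_lit 0)) (x (nat_lit 26) (nat_lit 0) (nat_lit 0))) (Nat.add (x (nat_lit 27) (nat_lit 0) (nat_lit 0)) (Nat.add (x (nat_lit 28) (nat_lit 0) (nat_lit 0)) (x (nat_lit 29) (nat_lit 0) (nat_lit 0)))))) (Nat.add (Nat.add (Nat.add (x (nat_lit 30) (nat_lit 0) (nat_lit 0)) (x (nat_lit 31) (nat_lit 0) (nat_lit 0))) (Nat.add (x (nat_lit 32) (nat_lit 0)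 (nat_lit 0)) (Nat.add (x (nat_lit 33) (nat_lit 0) (nat_lit 0)) (x (nat_lit 34) (nat_lit 0) (nat_lit 0))))) (Nat.add (Nat.add (x (nat_lit 35) (nat_lit 0) (nat_lit 0)) (x (nat_lit 36) (nat_lit 0) (nat_lit 0))) (Nat.add (x (nat_lit 37) (nat_lit 0) (nat_lit 0)) (Nat.add (x (nat_lit 38) (nat_lit 0) (nat_lit 0)) (x (nat_lit 39) (nat_lit 0) (nat_lit 0)))))))) (Nat.add (Nat.add (Nat.add (Nat.add (Nat.add (x (nat_lit 40) (nat_lit 0) (nat_lit 0)) (x (nat_lit 41) (nat_lit 0) (nat_lit 0))) (Nat.add (x (nat_lit 42) (nat_lit 0) (nat_lit 0)) (Nat.add (x (nat_lit 43) (nat_lit 0) (nat_lit 0)) (x (nat_lit 44) (nat_lit 0) (nat_lit 0))))) (Nat.add (Nat.add (x (nat_lit 45) (nat_lit 0) (nat_lit 0)) (x (nat_lit 46) (nat_lit 0) (nat_lit 0))) (Nat.add (x (nat_lit 47) (nat_lit 0) (nat_lit 0)) (Nat.add (x (nat_lit 48) (nat_lit 0) (nat_lit 0)) (x (nat_lit 49) (nat_lit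 0) (nat_lit 0)))))) (Nat.add (Nat.add (Nat.add (x (nat_lit 50) (nat_lit 0) (nat_lit 0)) (x (nat_lit 51) (nat_lit 0) (nat_lit 0))) (Nat.add (x (nat_lit 52) (nat_lit 0) (nat_lit 0)) (Nat.add (x (nat_lit 53) (nat_lit 0) (nat_lit 0)) (x (nat_lit 54) (nat_lit 0) (nat_lit 0))))) (Nat.add (Nat.add (x (nat_lit 55) (nat_lit 0) (nat_lit 0)) (x (nat_lit 56) (nat_lit 0) (nat_lit 0))) (Nat.add (x (nat_lit 57) (nat_lit 0) (nat_lit 0)) (Nat.add (x (nat_lit 58) (nat_lit 0) (nat_lit 0)) (x (nat_lit 59) (nat_lit 0) (nat_lit 0))))))) (Nat.add (Nat.add (Nat.add (Nat.add (x (nat_lit 60) (nat_lit 0) (nat_lit 0)) (x (nat_lit 61) (nat_lit 0) (nat_lit 0))) (Nat.add (x (nat_lit 62) (nat_lit 0) (nat_lit 0)) (Nat.add (x (nat_lit 63) (nat_lit 0) (nat_lit 0)) (x (nat_lit 64) (nat_lit 0) (nat_lit 0))))) (Nat.add (Nat.add (x (nat_lit 65) (nat_lit 0) (nat_lit 0)) (x (nat_lit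 66) (nat_lit 0) (nat_lit 0))) (Nat.add (x (nat_lit 67) (nat_lit 0) (nat_lit 0)) (Nat.add (x (nat_lit 68) (nat_lit 0) (nat_lit 0)) (x (nat_lit 69) (nat_lit 0) (nat_lit 0)))))) (Nat.add (Nat.add (Nat.add (x (nat_lit 70) (nat_lit 0) (nat_lit 0)) (x (nat_lit 71) (nat_lit 0) (nat_lit 0))) (Nat.add (x (nat_lit 72) (nat_lit 0) (nat_lit 0)) (Nat.add (x (nat_lit 73) (nat_lit 0) (nat_lit 0)) (x (nat_lit 74) (nat_lit 0) (nat_lit 0))))) (Nat.add (Nat.add (x (nat_lit 75) (nat_lit 0) (nat_lit 0)) (x (nat_lit 76) (nat_lit 0) (nat_lit 0))) (Nat.add (x (nat_lit 77) (nat_lit 0) (nat_lit 0)) (Nat.add (x (nat_lit 78) (nat_lit 0) (nat_lit 0)) (x (nat_lit 79) (nat_lit 0) (nat_lit 0)))))))))⟩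
  (TL.cons ⟨fun x => (Nat.add (Nat.add (Nat.add (Nat.add (Nat.add (Nat.add (x (nat_lit 0) (nat_lit 0) (nat_lit 0)) (x (nat_lit 1) (nat_lit 0) (nat_lit 0))) (Nat.add (x (nat_lit 2) (nat_lit 0) (nat_lit 0)) (Nat.add (x (nat_lit 3) (nat_lit 0) (nat_lit 0)) (x (nat_lit 4) (nat_lit 0) (nat_lit 0))))) (Nat.add (Nat.add (x (nat_lit 5) (nat_lit 0) (nat_lit 0)) (x (nat_lit 6) (nat_lit 0) (nat_lit 0))) (Nat.add (x (nat_lit 7) (nat_lit 0) (nat_lit 0)) (Nat.add (x (nat_lit 8) (nat_lit 0) (nat_lit 0)) (x (nat_lit 9) (nat_lit 0) (nat_lit 0)))))) (Nat.add (Nat.add (Nat.add (x (nat_lit 10) (nat_lit 0) (nat_lit 0)) (x (nat_lit 11) (nat_lit 0) (nat_lit 0))) (Nat.add (x (nat_lit 12) (nat_lit 0) (nat_lit 0)) (Nat.add (x (nat_lit 13) (nat_lit 0) (nat_lit 0)) (x (nat_lit 14) (nat_lit 0) (nat_lit 0))))) (Nat.add (Nat.add (x (nat_lit 15) (nat_lit 0) (nat_lit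 0)) (x (nat_lit 16) (nat_lit 0) (nat_lit 0))) (Nat.add (x (nat_lit 17) (nat_lit 0) (nat_lit 0)) (Nat.add (x (nat_lit 18) (nat_lit 0) (nat_lit 0)) (x (nat_lit 19) (nat_lit 0) (nat_lit 0))))))) (Nat.add (Nat.add (Nat.add (Nat.add (x (nat_lit 20) (nat_lit 0) (nat_lit 0)) (x (nat_lit 21) (nat_lit 0) (nat_lit 0))) (Nat.add (x (nat_lit 22) (nat_lit 0) (nat_lit 0)) (Nat.add (x (nat_lit 23) (nat_lit 0) (nat_lit 0)) (x (nat_lit 24) (nat_lit 0) (nat_lit 0))))) (Nat.add (Nat.add (x (nat_lit 25) (nat_lit 0) (nat_lit 0)) (x (nat_lit 26) (nat_lit 0) (nat_lit 0))) (Nat.add (x (nat_lit 27) (nat_lit 0) (nat_lit 0)) (Nat.add (x (nat_lit 28) (nat_lit 0) (nat_lit 0)) (x (nat_lit 29) (nat_lit 0) (nat_lit 0)))))) (Nat.add (Nat.add (Nat.add (x (nat_lit 30) (nat_lit 0) (nat_lit 0)) (x (nat_lit 31) (nat_lit 0) (nat_lit 0))) (Nat.add (x (nat_lit 32) (nat_lit 0)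 (nat_lit 0)) (Nat.add (x (nat_lit 33) (nat_lit 0) (nat_lit 0)) (x (nat_lit 34) (nat_lit 0) (nat_lit 0))))) (Nat.add (Nat.add (x (nat_lit 35) (nat_lit 0) (nat_lit 0)) (x (nat_lit 36) (nat_lit 0) (nat_lit 0))) (Nat.add (x (nat_lit 37) (nat_lit 0) (nat_lit 0)) (Nat.add (x (nat_lit 38) (nat_lit 0) (nat_lit 0)) (x (nat_lit 39) (nat_lit 0) (nat_lit 0)))))))) (Nat.add (Nat.add (Nat.add (Nat.add (Nat.add (x (nat_lit 40) (nat_lit 0) (nat_lit 0)) (x (nat_lit 41) (nat_lit 0) (nat_lit 0))) (Nat.add (x (nat_lit 42) (nat_lit 0) (nat_lit 0)) (Nat.add (x (nat_lit 43) (nat_lit 0) (nat_lit 0)) (x (nat_lit 44) (nat_lit 0) (nat_lit 0))))) (Nat.add (Nat.add (x (nat_lit 45) (nat_lit 0) (nat_lit 0)) (x (nat_lit 46) (nat_lit 0) (nat_lit 0))) (Nat.add (x (nat_lit 47) (nat_lit 0) (nat_lit 0)) (Nat.add (x (nat_lit 48) (nat_lit 0) (nat_lit 0)) (x (nat_lit 49) (nat_lit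 0) (nat_lit 0)))))) (Nat.add (Nat.add (Nat.add (x (nat_lit 50) (nat_lit 0) (nat_lit 0)) (x (nat_lit 51) (nat_lit 0) (nat_lit 0))) (Nat.add (x (nat_lit 52) (nat_lit 0) (nat_lit 0)) (Nat.add (x (nat_lit 53) (nat_lit 0) (nat_lit 0)) (x (nat_lit 54) (nat_lit 0) (nat_lit 0))))) (Nat.add (Nat.add (x (nat_lit 55) (nat_lit 0) (nat_lit 0)) (x (nat_lit 56) (nat_lit 0) (nat_lit 0))) (Nat.add (x (nat_lit 57) (nat_lit 0) (nat_lit 0)) (Nat.add (x (nat_lit 58) (nat_lit 0) (nat_lit 0)) (x (nat_lit 59) (nat_lit 0) (nat_lit 0))))))) (Nat.add (Nat.add (Nat.add (Nat.add (x (nat_lit 60) (nat_lit 0) (nat_lit 0)) (x (nat_lit 61) (nat_lit 0) (nat_lit 0))) (Nat.add (x (nat_lit 62) (nat_lit 0) (nat_lit 0)) (Nat.add (x (nat_lit 63) (nat_lit 0) (nat_lit 0)) (x (nat_lit 64) (nat_lit 0) (nat_lit 0))))) (Nat.add (Nat.add (x (nat_lit 65) (nat_lit 0) (nat_lit 0)) (x (nat_lit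 66) (nat_lit 0) (nat_lit 0))) (Nat.add (x (nat_lit 67) (nat_lit 0) (nat_lit 0)) (Nat.add (x (nat_lit 68) (nat_lit 0) (nat_lit 0)) (x (nat_lit 69) (nat_lit 0) (nat_lit 0)))))) (Nat.add (Nat.add (Nat.add (x (nat_lit 70) (nat_lit 0) (nat_lit 0)) (x (nat_lit 71) (nat_lit 0) (nat_lit 0))) (Nat.add (x (nat_lit 72) (nat_lit 0) (nat_lit 0)) (Nat.add (x (nat_lit 73) (nat_lit 0) (nat_lit 0)) (x (nat_lit 74) (nat_lit 0) (nat_lit 0))))) (Nat.add (Nat.add (x (nat_lit 75) (nat_lit 0) (nat_lit 0)) (Nat.add (x (nat_lit 76) (nat_lit 0) (nat_lit 0)) (x (nat_lit 77) (nat_lit 0) (nat_lit 0)))) (Nat.add (x (nat_lit 78) (nat_lit 0) (nat_lit 0)) (Nat.add (x (nat_lit 79) (nat_lit 0) (nat_lit 0)) (x (nat_lit 80) (nat_lit 0) (nat_lit 0)))))))))⟩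
  (TL.cons ⟨fun x => (Nat.add (Nat.add (Nat.add (Nat.add (Nat.add (Nat.add (x (nat_lit 0) (nat_lit 0) (nat_lit 0)) (x (nat_lit 1) (nat_lit 0) (nat_lit 0))) (Nat.add (x (nat_lit 2) (nat_lit 0) (nat_lit 0)) (Nat.add (x (nat_lit 3) (nat_lit 0) (nat_lit 0)) (x (nat_lit 4) (nat_lit 0) (nat_lit 0))))) (Nat.add (Nat.add (x (nat_lit 5) (nat_lit 0) (nat_lit 0)) (x (nat_lit 6) (nat_lit 0) (nat_lit 0))) (Nat.add (x (nat_lit 7) (nat_lit 0) (nat_lit 0)) (Nat.add (x (nat_lit 8) (nat_lit 0) (nat_lit 0)) (x (nat_lit 9) (nat_lit 0) (nat_lit 0)))))) (Nat.add (Nat.add (Nat.add (x (nat_lit 10) (nat_lit 0) (nat_lit 0)) (x (nat_lit 11) (nat_lit 0) (nat_lit 0))) (Nat.add (x (nat_lit 12) (nat_lit 0) (nat_lit 0)) (Nat.add (x (nat_lit 13) (nat_lit 0) (nat_lit 0)) (x (nat_lit 14) (nat_lit 0) (nat_lit 0))))) (Nat.add (Nat.add (x (nat_lit 15) (nat_lit 0) (nat_lit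 0)) (x (nat_lit 16) (nat_lit 0) (nat_lit 0))) (Nat.add (x (nat_lit 17) (nat_lit 0) (nat_lit 0)) (Nat.add (x (nat_lit 18) (nat_lit 0) (nat_lit 0)) (x (nat_lit 19) (nat_lit 0) (nat_lit 0))))))) (Nat.add (Nat.add (Nat.add (Nat.add (x (nat_lit 20) (nat_lit 0) (nat_lit 0)) (x (nat_lit 21) (nat_lit 0) (nat_lit 0))) (Nat.add (x (nat_lit 22) (nat_lit 0) (nat_lit 0)) (Nat.add (x (nat_lit 23) (nat_lit 0) (nat_lit 0)) (x (nat_lit 24) (nat_lit 0) (nat_lit 0))))) (Nat.add (Nat.add (x (nat_lit 25) (nat_lit 0) (nat_lit 0)) (x (nat_lit 26) (nat_lit 0) (nat_lit 0))) (Nat.add (x (nat_lit 27) (nat_lit 0) (nat_lit 0)) (Nat.add (x (nat_lit 28) (nat_lit 0) (nat_lit 0)) (x (nat_lit 29) (nat_lit 0) (nat_lit 0)))))) (Nat.add (Nat.add (Nat.add (x (nat_lit 30) (nat_lit 0) (nat_lit 0)) (x (nat_lit 31) (nat_lit 0) (nat_lit 0))) (Nat.add (x (nat_lit 32) (nat_lit 0)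 (nat_lit 0)) (Nat.add (x (nat_lit 33) (nat_lit 0) (nat_lit 0)) (x (nat_lit 34) (nat_lit 0) (nat_lit 0))))) (Nat.add (Nat.add (x (nat_lit 35) (nat_lit 0) (nat_lit 0)) (Nat.add (x (nat_lit 36) (nat_lit 0) (nat_lit 0)) (x (nat_lit 37) (nat_lit 0) (nat_lit 0)))) (Nat.add (x (nat_lit 38) (nat_lit 0) (nat_lit 0)) (Nat.add (x (nat_lit 39) (nat_lit 0) (nat_lit 0)) (x (nat_lit 40) (nat_lit 0) (nat_lit 0)))))))) (Nat.add (Nat.add (Nat.add (Nat.add (Nat.add (x (nat_lit 41) (nat_lit 0) (nat_lit 0)) (x (nat_lit 42) (nat_lit 0) (nat_lit 0))) (Nat.add (x (nat_lit 43) (nat_lit 0) (nat_lit 0)) (Nat.add (x (nat_lit 44) (nat_lit 0) (nat_lit 0)) (x (nat_lit 45) (nat_lit 0) (nat_lit 0))))) (Nat.add (Nat.add (x (nat_lit 46) (nat_lit 0) (nat_lit 0)) (x (nat_lit 47) (nat_lit 0) (nat_lit 0))) (Nat.add (x (nat_lit 48) (nat_lit 0) (nat_lit 0)) (Nat.add (x (nat_lit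 49) (nat_lit 0) (nat_lit 0)) (x (nat_lit 50) (nat_lit 0) (nat_lit 0)))))) (Nat.add (Nat.add (Nat.add (x (nat_lit 51) (nat_lit 0) (nat_lit 0)) (x (nat_lit 52) (nat_lit 0) (nat_lit 0))) (Nat.add (x (nat_lit 53) (nat_lit 0) (nat_lit 0)) (Nat.add (x (nat_lit 54) (nat_lit 0) (nat_lit 0)) (x (nat_lit 55) (nat_lit 0) (nat_lit 0))))) (Nat.add (Nat.add (x (nat_lit 56) (nat_lit 0) (nat_lit 0)) (x (nat_lit 57) (nat_lit 0) (nat_lit 0))) (Nat.add (x (nat_lit 58) (nat_lit 0) (nat_lit 0)) (Nat.add (x (nat_lit 59) (nat_lit 0) (nat_lit 0)) (x (nat_lit 60) (nat_lit 0) (nat_lit 0))))))) (Nat.add (Nat.add (Nat.add (Nat.add (x (nat_lit 61) (nat_lit 0) (nat_lit 0)) (x (nat_lit 62) (nat_lit 0) (nat_lit 0))) (Nat.add (x (nat_lit 63) (nat_lit 0) (nat_lit 0)) (Nat.add (x (nat_lit 64) (nat_lit 0) (nat_lit 0)) (x (nat_lit 65) (nat_lit 0) (nat_lit 0))))) (Nat.add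 (Nat.add (x (nat_lit 66) (nat_lit 0) (nat_lit 0)) (x (nat_lit 67) (nat_lit 0) (nat_lit 0))) (Nat.add (x (nat_lit 68) (nat_lit 0) (nat_lit 0)) (Nat.add (x (nat_lit 69) (nat_lit 0) (nat_lit 0)) (x (nat_lit 70) (nat_lit 0) (nat_lit 0)))))) (Nat.add (Nat.add (Nat.add (x (nat_lit 71) (nat_lit 0) (nat_lit 0)) (x (nat_lit 72) (nat_lit 0) (nat_lit 0))) (Nat.add (x (nat_lit 73) (nat_lit 0) (nat_lit 0)) (Nat.add (x (nat_lit 74) (nat_lit 0) (nat_lit 0)) (x (nat_lit 75) (nat_lit 0) (nat_lit 0))))) (Nat.add (Nat.add (x (nat_lit 76) (nat_lit 0) (nat_lit 0)) (Nat.add (x (nat_lit 77) (nat_lit 0) (nat_lit 0)) (x (nat_lit 78) (nat_lit 0) (nat_lit 0)))) (Nat.add (x (nat_lit 79) (nat_lit 0) (nat_lit 0)) (Nat.add (x (nat_lit 80) (nat_lit 0) (nat_lit 0)) (x (nat_lit 81) (nat_lit 0) (nat_lit 0)))))))))⟩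
  (TL.cons ⟨fun x => (Nat.add (Nat.add (Nat.add (Nat.add (Nat.add (Nat.add (x (nat_lit 0) (nat_lit 0) (nat_lit 0)) (x (nat_lit 1) (nat_lit 0) (nat_lit 0))) (Nat.add (x (nat_lit 2) (nat_lit 0) (nat_lit 0)) (Nat.add (x (nat_lit 3) (nat_lit 0) (nat_lit 0)) (x (nat_lit 4) (nat_lit 0) (nat_lit 0))))) (Nat.add (Nat.add (x (nat_lit 5) (nat_lit 0) (nat_lit 0)) (x (nat_lit 6) (nat_lit 0) (nat_lit 0))) (Nat.add (x (nat_lit 7) (nat_lit 0) (nat_lit 0)) (Nat.add (x (nat_lit 8) (nat_lit 0) (nat_lit 0)) (x (nat_lit 9) (nat_lit 0) (nat_lit 0)))))) (Nat.add (Nat.add (Nat.add (x (nat_lit 10) (nat_lit 0) (nat_lit 0)) (x (nat_lit 11) (nat_lit 0) (nat_lit 0))) (Nat.add (x (nat_lit 12) (nat_lit 0) (nat_lit 0)) (Nat.add (x (nat_lit 13) (nat_lit 0) (nat_lit 0)) (x (nat_lit 14) (nat_lit 0) (nat_lit 0))))) (Nat.add (Nat.add (x (nat_lit 15) (nat_lit 0) (nat_lit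 0)) (x (nat_lit 16) (nat_lit 0) (nat_lit 0))) (Nat.add (x (nat_lit 17) (nat_lit 0) (nat_lit 0)) (Nat.add (x (nat_lit 18) (nat_lit 0) (nat_lit 0)) (x (nat_lit 19) (nat_lit 0) (nat_lit 0))))))) (Nat.add (Nat.add (Nat.add (Nat.add (x (nat_lit 20) (nat_lit 0) (nat_lit 0)) (x (nat_lit 21) (nat_lit 0) (nat_lit 0))) (Nat.add (x (nat_lit 22) (nat_lit 0) (nat_lit 0)) (Nat.add (x (nat_lit 23) (nat_lit 0) (nat_lit 0)) (x (nat_lit 24) (nat_lit 0) (nat_lit 0))))) (Nat.add (Nat.add (x (nat_lit 25) (nat_lit 0) (nat_lit 0)) (x (nat_lit 26) (nat_lit 0) (nat_lit 0))) (Nat.add (x (nat_lit 27) (nat_lit 0) (nat_lit 0)) (Nat.add (x (nat_lit 28) (nat_lit 0) (nat_lit 0)) (x (nat_lit 29) (nat_lit 0) (nat_lit 0)))))) (Nat.add (Nat.add (Nat.add (x (nat_lit 30) (nat_lit 0) (nat_lit 0)) (x (nat_lit 31) (nat_lit 0) (nat_lit 0))) (Nat.add (x (nat_lit 32) (nat_lit 0)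 (nat_lit 0)) (Nat.add (x (nat_lit 33) (nat_lit 0) (nat_lit 0)) (x (nat_lit 34) (nat_lit 0) (nat_lit 0))))) (Nat.add (Nat.add (x (nat_lit 35) (nat_lit 0) (nat_lit 0)) (Nat.add (x (nat_lit 36) (nat_lit 0) (nat_lit 0)) (x (nat_lit 37) (nat_lit 0) (nat_lit 0)))) (Nat.add (x (nat_lit 38) (nat_lit 0) (nat_lit 0)) (Nat.add (x (nat_lit 39) (nat_lit 0) (nat_lit 0)) (x (nat_lit 40) (nat_lit 0) (nat_lit 0)))))))) (Nat.add (Nat.add (Nat.add (Nat.add (Nat.add (x (nat_lit 41) (nat_lit 0) (nat_lit 0)) (x (nat_lit 42) (nat_lit 0) (nat_lit 0))) (Nat.add (x (nat_lit 43) (nat_lit 0) (nat_lit 0)) (Nat.add (x (nat_lit 44) (nat_lit 0) (nat_lit 0)) (x (nat_lit 45) (nat_lit 0) (nat_lit 0))))) (Nat.add (Nat.add (x (nat_lit 46) (nat_lit 0) (nat_lit 0)) (x (nat_lit 47) (nat_lit 0) (nat_lit 0))) (Nat.add (x (nat_lit 48) (nat_lit 0) (nat_lit 0)) (Nat.add (x (nat_lit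 49) (nat_lit 0) (nat_lit 0)) (x (nat_lit 50) (nat_lit 0) (nat_lit 0)))))) (Nat.add (Nat.add (Nat.add (x (nat_lit 51) (nat_lit 0) (nat_lit 0)) (x (nat_lit 52) (nat_lit 0) (nat_lit 0))) (Nat.add (x (nat_lit 53) (nat_lit 0) (nat_lit 0)) (Nat.add (x (nat_lit 54) (nat_lit 0) (nat_lit 0)) (x (nat_lit 55) (nat_lit 0) (nat_lit 0))))) (Nat.add (Nat.add (x (nat_lit 56) (nat_lit 0) (nat_lit 0)) (Nat.add (x (nat_lit 57) (nat_lit 0) (nat_lit 0)) (x (nat_lit 58) (nat_lit 0) (nat_lit 0)))) (Nat.add (x (nat_lit 59) (nat_lit 0) (nat_lit 0)) (Nat.add (x (nat_lit 60) (nat_lit 0) (nat_lit 0)) (x (nat_lit 61) (nat_lit 0) (nat_lit 0))))))) (Nat.add (Nat.add (Nat.add (Nat.add (x (nat_lit 62) (nat_lit 0) (nat_lit 0)) (x (nat_lit 63) (nat_lit 0) (nat_lit 0))) (Nat.add (x (nat_lit 64) (nat_lit 0) (nat_lit 0)) (Nat.add (x (nat_lit 65) (nat_lit 0) (nat_lit 0)) (x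 (nat_lit 66) (nat_lit 0) (nat_lit 0))))) (Nat.add (Nat.add (x (nat_lit 67) (nat_lit 0) (nat_lit 0)) (x (nat_lit 68) (nat_lit 0) (nat_lit 0))) (Nat.add (x (nat_lit 69) (nat_lit 0) (nat_lit 0)) (Nat.add (x (nat_lit 70) (nat_lit 0) (nat_lit 0)) (x (nat_lit 71) (nat_lit 0) (nat_lit 0)))))) (Nat.add (Nat.add (Nat.add (x (nat_lit 72) (nat_lit 0) (nat_lit 0)) (x (nat_lit 73) (nat_lit 0) (nat_lit 0))) (Nat.add (x (nat_lit 74) (nat_lit 0) (nat_lit 0)) (Nat.add (x (nat_lit 75) (nat_lit 0) (nat_lit 0)) (x (nat_lit 76) (nat_lit 0) (nat_lit 0))))) (Nat.add (Nat.add (x (nat_lit 77) (nat_lit 0) (nat_lit 0)) (Nat.add (x (nat_lit 78) (nat_lit 0) (nat_lit 0)) (x (nat_lit 79) (nat_lit 0) (nat_lit 0)))) (Nat.add (x (nat_lit 80) (nat_lit 0) (nat_lit 0)) (Nat.add (x (nat_lit 81) (nat_lit 0) (nat_lit 0)) (x (nat_lit 82) (nat_lit 0) (nat_lit 0)))))))))⟩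
  (TL.cons ⟨fun x => (Nat.add (Nat.add (Nat.add (Nat.add (Nat.add (Nat.add (x (nat_lit 0) (nat_lit 0) (nat_lit 0)) (x (nat_lit 1) (nat_lit 0) (nat_lit 0))) (Nat.add (x (nat_lit 2) (nat_lit 0) (nat_lit 0)) (Nat.add (x (nat_lit 3) (nat_lit 0) (nat_lit 0)) (x (nat_lit 4) (nat_lit 0) (nat_lit 0))))) (Nat.add (Nat.add (x (nat_lit 5) (nat_lit 0) (nat_lit 0)) (x (nat_lit 6) (nat_lit 0) (nat_lit 0))) (Nat.add (x (nat_lit 7) (nat_lit 0) (nat_lit 0)) (Nat.add (x (nat_lit 8) (nat_lit 0) (nat_lit 0)) (x (nat_lit 9) (nat_lit 0) (nat_lit 0)))))) (Nat.add (Nat.add (Nat.add (x (nat_lit 10) (nat_lit 0) (nat_lit 0)) (x (nat_lit 11) (nat_lit 0) (nat_lit 0))) (Nat.add (x (nat_lit 12) (nat_lit 0) (nat_lit 0)) (Nat.add (x (nat_lit 13) (nat_lit 0) (nat_lit 0)) (x (nat_lit 14) (nat_lit 0) (nat_lit 0))))) (Nat.add (Nat.add (x (nat_lit 15) (nat_lit 0) (nat_lit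 0)) (Nat.add (x (nat_lit 16) (nat_lit 0) (nat_lit 0)) (x (nat_lit 17) (nat_lit 0) (nat_lit 0)))) (Nat.add (x (nat_lit 18) (nat_lit 0) (nat_lit 0)) (Nat.add (x (nat_lit 19) (nat_lit 0) (nat_lit 0)) (x (nat_lit 20) (nat_lit 0) (nat_lit 0))))))) (Nat.add (Nat.add (Nat.add (Nat.add (x (nat_lit 21) (nat_lit 0) (nat_lit 0)) (x (nat_lit 22) (nat_lit 0) (nat_lit 0))) (Nat.add (x (nat_lit 23) (nat_lit 0) (nat_lit 0)) (Nat.add (x (nat_lit 24) (nat_lit 0) (nat_lit 0)) (x (nat_lit 25) (nat_lit 0) (nat_lit 0))))) (Nat.add (Nat.add (x (nat_lit 26) (nat_lit 0) (nat_lit 0)) (x (nat_lit 27) (nat_lit 0) (nat_lit 0))) (Nat.add (x (nat_lit 28) (nat_lit 0) (nat_lit 0)) (Nat.add (x (nat_lit 29) (nat_lit 0) (nat_lit 0)) (x (nat_lit 30) (nat_lit 0) (nat_lit 0)))))) (Nat.add (Nat.add (Nat.add (x (nat_lit 31) (nat_lit 0) (nat_lit 0)) (x (nat_lit 32) (nat_lit 0)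 (nat_lit 0))) (Nat.add (x (nat_lit 33) (nat_lit 0) (nat_lit 0)) (Nat.add (x (nat_lit 34) (nat_lit 0) (nat_lit 0)) (x (nat_lit 35) (nat_lit 0) (nat_lit 0))))) (Nat.add (Nat.add (x (nat_lit 36) (nat_lit 0) (nat_lit 0)) (Nat.add (x (nat_lit 37) (nat_lit 0) (nat_lit 0)) (x (nat_lit 38) (nat_lit 0) (nat_lit 0)))) (Nat.add (x (nat_lit 39) (nat_lit 0) (nat_lit 0)) (Nat.add (x (nat_lit 40) (nat_lit 0) (nat_lit 0)) (x (nat_lit 41) (nat_lit 0) (nat_lit 0)))))))) (Nat.add (Nat.add (Nat.add (Nat.add (Nat.add (x (nat_lit 42) (nat_lit 0) (nat_lit 0)) (x (nat_lit 43) (nat_lit 0) (nat_lit 0))) (Nat.add (x (nat_lit 44) (nat_lit 0) (nat_lit 0)) (Nat.add (x (nat_lit 45) (nat_lit 0) (nat_lit 0)) (x (nat_lit 46) (nat_lit 0) (nat_lit 0))))) (Nat.add (Nat.add (x (nat_lit 47) (nat_lit 0) (nat_lit 0)) (x (nat_lit 48) (nat_lit 0) (nat_lit 0))) (Nat.add (x (nat_lit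 49) (nat_lit 0) (nat_lit 0)) (Nat.add (x (nat_lit 50) (nat_lit 0) (nat_lit 0)) (x (nat_lit 51) (nat_lit 0) (nat_lit 0)))))) (Nat.add (Nat.add (Nat.add (x (nat_lit 52) (nat_lit 0) (nat_lit 0)) (x (nat_lit 53) (nat_lit 0) (nat_lit 0))) (Nat.add (x (nat_lit 54) (nat_lit 0) (nat_lit 0)) (Nat.add (x (nat_lit 55) (nat_lit 0) (nat_lit 0)) (x (nat_lit 56) (nat_lit 0) (nat_lit 0))))) (Nat.add (Nat.add (x (nat_lit 57) (nat_lit 0) (nat_lit 0)) (Nat.add (x (nat_lit 58) (nat_lit 0) (nat_lit 0)) (x (nat_lit 59) (nat_lit 0) (nat_lit 0)))) (Nat.add (x (nat_lit 60) (nat_lit 0) (nat_lit 0)) (Nat.add (x (nat_lit 61) (nat_lit 0) (nat_lit 0)) (x (nat_lit 62) (nat_lit 0) (nat_lit 0))))))) (Nat.add (Nat.add (Nat.add (Nat.add (x (nat_lit 63) (nat_lit 0) (nat_lit 0)) (x (nat_lit 64) (nat_lit 0) (nat_lit 0))) (Nat.add (x (nat_lit 65) (nat_lit 0) (nat_lit 0)) (Nat.add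 (x (nat_lit 66) (nat_lit 0) (nat_lit 0)) (x (nat_lit 67) (nat_lit 0) (nat_lit 0))))) (Nat.add (Nat.add (x (nat_lit 68) (nat_lit 0) (nat_lit 0)) (x (nat_lit 69) (nat_lit 0) (nat_lit 0))) (Nat.add (x (nat_lit 70) (nat_lit 0) (nat_lit 0)) (Nat.add (x (nat_lit 71) (nat_lit 0) (nat_lit 0)) (x (nat_lit 72) (nat_lit 0) (nat_lit 0)))))) (Nat.add (Nat.add (Nat.add (x (nat_lit 73) (nat_lit 0) (nat_lit 0)) (x (nat_lit 74) (nat_lit 0) (nat_lit 0))) (Nat.add (x (nat_lit 75) (nat_lit 0) (nat_lit 0)) (Nat.add (x (nat_lit 76) (nat_lit 0) (nat_lit 0)) (x (nat_lit 77) (nat_lit 0) (nat_lit 0))))) (Nat.add (Nat.add (x (nat_lit 78) (nat_lit 0) (nat_lit 0)) (Nat.add (x (nat_lit 79) (nat_lit 0) (nat_lit 0)) (x (nat_lit 80) (nat_lit 0) (nat_lit 0)))) (Nat.add (x (nat_lit 81) (nat_lit 0) (nat_lit 0)) (Nat.add (x (nat_lit 82) (nat_lit 0) (nat_lit 0)) (x (nat_lit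 83) (nat_lit 0) (nat_lit 0)))))))))⟩
  (TL.cons ⟨fun x => (Nat.add (Nat.add (Nat.add (Nat.add (Nat.add (Nat.add (x (nat_lit 0) (nat_lit 0) (nat_lit 0)) (x (nat_lit 1) (nat_lit 0) (nat_lit 0))) (Nat.add (x (nat_lit 2) (nat_lit 0) (nat_lit 0)) (Nat.add (x (nat_lit 3) (nat_lit 0) (nat_lit 0)) (x (nat_lit 4) (nat_lit 0) (nat_lit 0))))) (Nat.add (Nat.add (x (nat_lit 5) (nat_lit 0) (nat_lit 0)) (x (nat_lit 6) (nat_lit 0) (nat_lit 0))) (Nat.add (x (nat_lit 7) (nat_lit 0) (nat_lit 0)) (Nat.add (x (nat_lit 8) (nat_lit 0) (nat_lit 0)) (x (nat_lit 9) (nat_lit 0) (nat_lit 0)))))) (Nat.add (Nat.add (Nat.add (x (nat_lit 10) (nat_lit 0) (nat_lit 0)) (x (nat_lit 11) (nat_lit 0) (nat_lit 0))) (Nat.add (x (nat_lit 12) (nat_lit 0) (nat_lit 0)) (Nat.add (x (nat_lit 13) (nat_lit 0) (nat_lit 0)) (x (nat_lit 14) (nat_lit 0) (nat_lit 0))))) (Nat.add (Nat.add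 (x (nat_lit 15) (nat_lit 0) (nat_lit 0)) (Nat.add (x (nat_lit 16) (nat_lit 0) (nat_lit 0)) (x (nat_lit 17) (nat_lit 0) (nat_lit 0)))) (Nat.add (x (nat_lit 18) (nat_lit 0) (nat_lit 0)) (Nat.add (x (nat_lit 19) (nat_lit 0) (nat_lit 0)) (x (nat_lit 20) (nat_lit 0) (nat_lit 0))))))) (Nat.add (Nat.add (Nat.add (Nat.add (x (nat_lit 21) (nat_lit 0) (nat_lit 0)) (x (nat_lit 22) (nat_lit 0) (nat_lit 0))) (Nat.add (x (nat_lit 23) (nat_lit 0) (nat_lit 0)) (Nat.add (x (nat_lit 24) (nat_lit 0) (nat_lit 0)) (x (nat_lit 25) (nat_lit 0) (nat_lit 0))))) (Nat.add (Nat.add (x (nat_lit 26) (nat_lit 0) (nat_lit 0)) (x (nat_lit 27) (nat_lit 0) (nat_lit 0))) (Nat.add (x (nat_lit 28) (nat_lit 0) (nat_lit 0)) (Nat.add (x (nat_lit 29) (nat_lit 0) (nat_lit 0)) (x (nat_lit 30) (nat_lit 0) (nat_lit 0)))))) (Nat.add (Nat.add (Nat.add (x (nat_lit 31) (nat_lit 0) (nat_lit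 0)) (x (nat_lit 32) (nat_lit 0) (nat_lit 0))) (Nat.add (x (nat_lit 33) (nat_lit 0) (nat_lit 0)) (Nat.add (x (nat_lit 34) (nat_lit 0) (nat_lit 0)) (x (nat_lit 35) (nat_lit 0) (nat_lit 0))))) (Nat.add (Nat.add (x (nat_lit 36) (nat_lit 0) (nat_lit 0)) (Nat.add (x (nat_lit 37) (nat_lit 0) (nat_lit 0)) (x (nat_lit 38) (nat_lit 0) (nat_lit 0)))) (Nat.add (x (nat_lit 39) (nat_lit 0) (nat_lit 0)) (Nat.add (x (nat_lit 40) (nat_lit 0) (nat_lit 0)) (x (nat_lit 41) (nat_lit 0) (nat_lit 0)))))))) (Nat.add (Nat.add (Nat.add (Nat.add (Nat.add (x (nat_lit 42) (nat_lit 0) (nat_lit 0)) (x (nat_lit 43) (nat_lit 0) (nat_lit 0))) (Nat.add (x (nat_lit 44) (nat_lit 0) (nat_lit 0)) (Nat.add (x (nat_lit 45) (nat_lit 0) (nat_lit 0)) (x (nat_lit 46) (nat_lit 0) (nat_lit 0))))) (Nat.add (Nat.add (x (nat_lit 47) (nat_lit 0) (nat_lit 0)) (x (nat_lit 48) (nat_lit 0)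 (nat_lit 0))) (Nat.add (x (nat_lit 49) (nat_lit 0) (nat_lit 0)) (Nat.add (x (nat_lit 50) (nat_lit 0) (nat_lit 0)) (x (nat_lit 51) (nat_lit 0) (nat_lit 0)))))) (Nat.add (Nat.add (Nat.add (x (nat_lit 52) (nat_lit 0) (nat_lit 0)) (x (nat_lit 53) (nat_lit 0) (nat_lit 0))) (Nat.add (x (nat_lit 54) (nat_lit 0) (nat_lit 0)) (Nat.add (x (nat_lit 55) (nat_lit 0) (nat_lit 0)) (x (nat_lit 56) (nat_lit 0) (nat_lit 0))))) (Nat.add (Nat.add (x (nat_lit 57) (nat_lit 0) (nat_lit 0)) (Nat.add (x (nat_lit 58) (nat_lit 0) (nat_lit 0)) (x (nat_lit 59) (nat_lit 0) (nat_lit 0)))) (Nat.add (x (nat_lit 60) (nat_lit 0) (nat_lit 0)) (Nat.add (x (nat_lit 61) (nat_lit 0) (nat_lit 0)) (x (nat_lit 62) (nat_lit 0) (nat_lit 0))))))) (Nat.add (Nat.add (Nat.add (Nat.add (x (nat_lit 63) (nat_lit 0) (nat_lit 0)) (x (nat_lit 64) (nat_lit 0) (nat_lit 0))) (Nat.add (x (nat_lit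 65) (nat_lit 0) (nat_lit 0)) (Nat.add (x (nat_lit 66) (nat_lit 0) (nat_lit 0)) (x (nat_lit 67) (nat_lit 0) (nat_lit 0))))) (Nat.add (Nat.add (x (nat_lit 68) (nat_lit 0) (nat_lit 0)) (Nat.add (x (nat_lit 69) (nat_lit 0) (nat_lit 0)) (x (nat_lit 70) (nat_lit 0) (nat_lit 0)))) (Nat.add (x (nat_lit 71) (nat_lit 0) (nat_lit 0)) (Nat.add (x (nat_lit 72) (nat_lit 0) (nat_lit 0)) (x (nat_lit 73) (nat_lit 0) (nat_lit 0)))))) (Nat.add (Nat.add (Nat.add (x (nat_lit 74) (nat_lit 0) (nat_lit 0)) (x (nat_lit 75) (nat_lit 0) (nat_lit 0))) (Nat.add (x (nat_lit 76) (nat_lit 0) (nat_lit 0)) (Nat.add (x (nat_lit 77) (nat_lit 0) (nat_lit 0)) (x (nat_lit 78) (nat_lit 0) (nat_lit 0))))) (Nat.add (Nat.add (x (nat_lit 79) (nat_lit 0) (nat_lit 0)) (Nat.add (x (nat_lit 80) (nat_lit 0) (nat_lit 0)) (x (nat_lit 81) (nat_lit 0) (nat_lit 0)))) (Nat.add (x (nat_lit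 82) (nat_lit 0) (nat_lit 0)) (Nat.add (x (nat_lit 83) (nat_lit 0) (nat_lit 0)) (x (nat_lit 84) (nat_lit 0) (nat_lit 0)))))))))⟩
  (TL.cons ⟨fun x => (Nat.add (Nat.add (Nat.add (Nat.add (Nat.add (Nat.add (x (nat_lit 0) (nat_lit 0) (nat_lit 0)) (x (nat_lit 1) (nat_lit 0) (nat_lit 0))) (Nat.add (x (nat_lit 2) (nat_lit 0) (nat_lit 0)) (Nat.add (x (nat_lit 3) (nat_lit 0) (nat_lit 0)) (x (nat_lit 4) (nat_lit 0) (nat_lit 0))))) (Nat.add (Nat.add (x (nat_lit 5) (nat_lit 0) (nat_lit 0)) (x (nat_lit 6) (nat_lit 0) (nat_lit 0))) (Nat.add (x (nat_lit 7) (nat_lit 0) (nat_lit 0)) (Nat.add (x (nat_lit 8) (nat_lit 0) (nat_lit 0)) (x (nat_lit 9) (nat_lit 0) (nat_lit 0)))))) (Nat.add (Nat.add (Nat.add (x (nat_lit 10) (nat_lit 0) (nat_lit 0)) (x (nat_lit 11) (nat_lit 0) (nat_lit 0))) (Nat.add (x (nat_lit 12) (nat_lit 0) (nat_lit 0)) (Nat.add (x (nat_lit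 13) (nat_lit 0) (nat_lit 0)) (x (nat_lit 14) (nat_lit 0) (nat_lit 0))))) (Nat.add (Nat.add (x (nat_lit 15) (nat_lit 0) (nat_lit 0)) (Nat.add (x (nat_lit 16) (nat_lit 0) (nat_lit 0)) (x (nat_lit 17) (nat_lit 0) (nat_lit 0)))) (Nat.add (x (nat_lit 18) (nat_lit 0) (nat_lit 0)) (Nat.add (x (nat_lit 19) (nat_lit 0) (nat_lit 0)) (x (nat_lit 20) (nat_lit 0) (nat_lit 0))))))) (Nat.add (Nat.add (Nat.add (Nat.add (x (nat_lit 21) (nat_lit 0) (nat_lit 0)) (x (nat_lit 22) (nat_lit 0) (nat_lit 0))) (Nat.add (x (nat_lit 23) (nat_lit 0) (nat_lit 0)) (Nat.add (x (nat_lit 24) (nat_lit 0) (nat_lit 0)) (x (nat_lit 25) (nat_lit 0) (nat_lit 0))))) (Nat.add (Nat.add (x (nat_lit 26) (nat_lit 0) (nat_lit 0)) (Nat.add (x (nat_lit 27) (nat_lit 0) (nat_lit 0)) (x (nat_lit 28) (nat_lit 0) (nat_lit 0)))) (Nat.add (x (nat_lit 29) (nat_lit 0) (nat_lit 0)) (Nat.add (x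 (nat_lit 30) (nat_lit 0) (nat_lit 0)) (x (nat_lit 31) (nat_lit 0) (nat_lit 0)))))) (Nat.add (Nat.add (Nat.add (x (nat_lit 32) (nat_lit 0) (nat_lit 0)) (x (nat_lit 33) (nat_lit 0) (nat_lit 0))) (Nat.add (x (nat_lit 34) (nat_lit 0) (nat_lit 0)) (Nat.add (x (nat_lit 35) (nat_lit 0) (nat_lit 0)) (x (nat_lit 36) (nat_lit 0) (nat_lit 0))))) (Nat.add (Nat.add (x (nat_lit 37) (nat_lit 0) (nat_lit 0)) (Nat.add (x (nat_lit 38) (nat_lit 0) (nat_lit 0)) (x (nat_lit 39) (nat_lit 0) (nat_lit 0)))) (Nat.add (x (nat_lit 40) (nat_lit 0) (nat_lit 0)) (Nat.add (x (nat_lit 41) (nat_lit 0) (nat_lit 0)) (x (nat_lit 42) (nat_lit 0) (nat_lit 0)))))))) (Nat.add (Nat.add (Nat.add (Nat.add (Nat.add (x (nat_lit 43) (nat_lit 0) (nat_lit 0)) (x (nat_lit 44) (nat_lit 0) (nat_lit 0))) (Nat.add (x (nat_lit 45) (nat_lit 0) (nat_lit 0)) (Nat.add (x (nat_lit 46) (nat_lit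 0) (nat_lit 0)) (x (nat_lit 47) (nat_lit 0) (nat_lit 0))))) (Nat.add (Nat.add (x (nat_lit 48) (nat_lit 0) (nat_lit 0)) (x (nat_lit 49) (nat_lit 0) (nat_lit 0))) (Nat.add (x (nat_lit 50) (nat_lit 0) (nat_lit 0)) (Nat.add (x (nat_lit 51) (nat_lit 0) (nat_lit 0)) (x (nat_lit 52) (nat_lit 0) (nat_lit 0)))))) (Nat.add (Nat.add (Nat.add (x (nat_lit 53) (nat_lit 0) (nat_lit 0)) (x (nat_lit 54) (nat_lit 0) (nat_lit 0))) (Nat.add (x (nat_lit 55) (nat_lit 0) (nat_lit 0)) (Nat.add (x (nat_lit 56) (nat_lit 0) (nat_lit 0)) (x (nat_lit 57) (nat_lit 0) (nat_lit 0))))) (Nat.add (Nat.add (x (nat_lit 58) (nat_lit 0) (nat_lit 0)) (Nat.add (x (nat_lit 59) (nat_lit 0) (nat_lit 0)) (x (nat_lit 60) (nat_lit 0) (nat_lit 0)))) (Nat.add (x (nat_lit 61) (nat_lit 0) (nat_lit 0)) (Nat.add (x (nat_lit 62) (nat_lit 0) (nat_lit 0)) (x (nat_lit 63) (nat_lit 0) (nat_lit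 0))))))) (Nat.add (Nat.add (Nat.add (Nat.add (x (nat_lit 64) (nat_lit 0) (nat_lit 0)) (x (nat_lit 65) (nat_lit 0) (nat_lit 0))) (Nat.add (x (nat_lit 66) (nat_lit 0) (nat_lit 0)) (Nat.add (x (nat_lit 67) (nat_lit 0) (nat_lit 0)) (x (nat_lit 68) (nat_lit 0) (nat_lit 0))))) (Nat.add (Nat.add (x (nat_lit 69) (nat_lit 0) (nat_lit 0)) (Nat.add (x (nat_lit 70) (nat_lit 0) (nat_lit 0)) (x (nat_lit 71) (nat_lit 0) (nat_lit 0)))) (Nat.add (x (nat_lit 72) (nat_lit 0) (nat_lit 0)) (Nat.add (x (nat_lit 73) (nat_lit 0) (nat_lit 0)) (x (nat_lit 74) (nat_lit 0) (nat_lit 0)))))) (Nat.add (Nat.add (Nat.add (x (nat_lit 75) (nat_lit 0) (nat_lit 0)) (x (nat_lit 76) (nat_lit 0) (nat_lit 0))) (Nat.add (x (nat_lit 77) (nat_lit 0) (nat_lit 0)) (Nat.add (x (nat_lit 78) (nat_lit 0) (nat_lit 0)) (x (nat_lit 79) (nat_lit 0) (nat_lit 0))))) (Nat.add (Nat.add (x (nat_lit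 80) (nat_lit 0) (nat_lit 0)) (Nat.add (x (nat_lit 81) (nat_lit 0) (nat_lit 0)) (x (nat_lit 82) (nat_lit 0) (nat_lit 0)))) (Nat.add (x (nat_lit 83) (nat_lit 0) (nat_lit 0)) (Nat.add (x (nat_lit 84) (nat_lit 0) (nat_lit 0)) (x (nat_lit 85) (nat_lit 0) (nat_lit 0)))))))))⟩
  (TL.cons ⟨fun x => (Nat.add (Nat.add (Nat.add (Nat.add (Nat.add (Nat.add (x (nat_lit 0) (nat_lit 0) (nat_lit 0)) (x (nat_lit 1) (nat_lit 0) (nat_lit 0))) (Nat.add (x (nat_lit 2) (nat_lit 0) (nat_lit 0)) (Nat.add (x (nat_lit 3) (nat_lit 0) (nat_lit 0)) (x (nat_lit 4) (nat_lit 0) (nat_lit 0))))) (Nat.add (Nat.add (x (nat_lit 5) (nat_lit 0) (nat_lit 0)) (x (nat_lit 6) (nat_lit 0) (nat_lit 0))) (Nat.add (x (nat_lit 7) (nat_lit 0) (nat_lit 0)) (Nat.add (x (nat_lit 8) (nat_lit 0) (nat_lit 0)) (x (nat_lit 9) (nat_lit 0) (nat_lit 0)))))) (Nat.add (Nat.add (Nat.add (x (nat_lit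 10) (nat_lit 0) (nat_lit 0)) (x (nat_lit 11) (nat_lit 0) (nat_lit 0))) (Nat.add (x (nat_lit 12) (nat_lit 0) (nat_lit 0)) (Nat.add (x (nat_lit 13) (nat_lit 0) (nat_lit 0)) (x (nat_lit 14) (nat_lit 0) (nat_lit 0))))) (Nat.add (Nat.add (x (nat_lit 15) (nat_lit 0) (nat_lit 0)) (Nat.add (x (nat_lit 16) (nat_lit 0) (nat_lit 0)) (x (nat_lit 17) (nat_lit 0) (nat_lit 0)))) (Nat.add (x (nat_lit 18) (nat_lit 0) (nat_lit 0)) (Nat.add (x (nat_lit 19) (nat_lit 0) (nat_lit 0)) (x (nat_lit 20) (nat_lit 0) (nat_lit 0))))))) (Nat.add (Nat.add (Nat.add (Nat.add (x (nat_lit 21) (nat_lit 0) (nat_lit 0)) (x (nat_lit 22) (nat_lit 0) (nat_lit 0))) (Nat.add (x (nat_lit 23) (nat_lit 0) (nat_lit 0)) (Nat.add (x (nat_lit 24) (nat_lit 0) (nat_lit 0)) (x (nat_lit 25) (nat_lit 0) (nat_lit 0))))) (Nat.add (Nat.add (x (nat_lit 26) (nat_lit 0) (nat_lit 0)) (Nat.add (x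 (nat_lit 27) (nat_lit 0) (nat_lit 0)) (x (nat_lit 28) (nat_lit 0) (nat_lit 0)))) (Nat.add (x (nat_lit 29) (nat_lit 0) (nat_lit 0)) (Nat.add (x (nat_lit 30) (nat_lit 0) (nat_lit 0)) (x (nat_lit 31) (nat_lit 0) (nat_lit 0)))))) (Nat.add (Nat.add (Nat.add (x (nat_lit 32) (nat_lit 0) (nat_lit 0)) (x (nat_lit 33) (nat_lit 0) (nat_lit 0))) (Nat.add (x (nat_lit 34) (nat_lit 0) (nat_lit 0)) (Nat.add (x (nat_lit 35) (nat_lit 0) (nat_lit 0)) (x (nat_lit 36) (nat_lit 0) (nat_lit 0))))) (Nat.add (Nat.add (x (nat_lit 37) (nat_lit 0) (nat_lit 0)) (Nat.add (x (nat_lit 38) (nat_lit 0) (nat_lit 0)) (x (nat_lit 39) (nat_lit 0) (nat_lit 0)))) (Nat.add (x (nat_lit 40) (nat_lit 0) (nat_lit 0)) (Nat.add (x (nat_lit 41) (nat_lit 0) (nat_lit 0)) (x (nat_lit 42) (nat_lit 0) (nat_lit 0)))))))) (Nat.add (Nat.add (Nat.add (Nat.add (Nat.add (x (nat_lit 43) (nat_lit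 0) (nat_lit 0)) (x (nat_lit 44) (nat_lit 0) (nat_lit 0))) (Nat.add (x (nat_lit 45) (nat_lit 0) (nat_lit 0)) (Nat.add (x (nat_lit 46) (nat_lit 0) (nat_lit 0)) (x (nat_lit 47) (nat_lit 0) (nat_lit 0))))) (Nat.add (Nat.add (x (nat_lit 48) (nat_lit 0) (nat_lit 0)) (Nat.add (x (nat_lit 49) (nat_lit 0) (nat_lit 0)) (x (nat_lit 50) (nat_lit 0) (nat_lit 0)))) (Nat.add (x (nat_lit 51) (nat_lit 0) (nat_lit 0)) (Nat.add (x (nat_lit 52) (nat_lit 0) (nat_lit 0)) (x (nat_lit 53) (nat_lit 0) (nat_lit 0)))))) (Nat.add (Nat.add (Nat.add (x (nat_lit 54) (nat_lit 0) (nat_lit 0)) (x (nat_lit 55) (nat_lit 0) (nat_lit 0))) (Nat.add (x (nat_lit 56) (nat_lit 0) (nat_lit 0)) (Nat.add (x (nat_lit 57) (nat_lit 0) (nat_lit 0)) (x (nat_lit 58) (nat_lit 0) (nat_lit 0))))) (Nat.add (Nat.add (x (nat_lit 59) (nat_lit 0) (nat_lit 0)) (Nat.add (x (nat_lit 60) (nat_lit 0)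 (nat_lit 0)) (x (nat_lit 61) (nat_lit 0) (nat_lit 0)))) (Nat.add (x (nat_lit 62) (nat_lit 0) (nat_lit 0)) (Nat.add (x (nat_lit 63) (nat_lit 0) (nat_lit 0)) (x (nat_lit 64) (nat_lit 0) (nat_lit 0))))))) (Nat.add (Nat.add (Nat.add (Nat.add (x (nat_lit 65) (nat_lit 0) (nat_lit 0)) (x (nat_lit 66) (nat_lit 0) (nat_lit 0))) (Nat.add (x (nat_lit 67) (nat_lit 0) (nat_lit 0)) (Nat.add (x (nat_lit 68) (nat_lit 0) (nat_lit 0)) (x (nat_lit 69) (nat_lit 0) (nat_lit 0))))) (Nat.add (Nat.add (x (nat_lit 70) (nat_lit 0) (nat_lit 0)) (Nat.add (x (nat_lit 71) (nat_lit 0) (nat_lit 0)) (x (nat_lit 72) (nat_lit 0) (nat_lit 0)))) (Nat.add (x (nat_lit 73) (nat_lit 0) (nat_lit 0)) (Nat.add (x (nat_lit 74) (nat_lit 0) (nat_lit 0)) (x (nat_lit 75) (nat_lit 0) (nat_lit 0)))))) (Nat.add (Nat.add (Nat.add (x (nat_lit 76) (nat_lit 0) (nat_lit 0)) (x (nat_lit 77) (nat_lit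 0) (nat_lit 0))) (Nat.add (x (nat_lit 78) (nat_lit 0) (nat_lit 0)) (Nat.add (x (nat_lit 79) (nat_lit 0) (nat_lit 0)) (x (nat_lit 80) (nat_lit 0) (nat_lit 0))))) (Nat.add (Nat.add (x (nat_lit 81) (nat_lit 0) (nat_lit 0)) (Nat.add (x (nat_lit 82) (nat_lit 0) (nat_lit 0)) (x (nat_lit 83) (nat_lit 0) (nat_lit 0)))) (Nat.add (x (nat_lit 84) (nat_lit 0) (nat_lit 0)) (Nat.add (x (nat_lit 85) (nat_lit 0) (nat_lit 0)) (x (nat_lit 86) (nat_lit 0) (nat_lit 0)))))))))⟩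
  (TL.cons ⟨fun x => (Nat.add (Nat.add (Nat.add (Nat.add (Nat.add (Nat.add (x (nat_lit 0) (nat_lit 0) (nat_lit 0)) (x (nat_lit 1) (nat_lit 0) (nat_lit 0))) (Nat.add (x (nat_lit 2) (nat_lit 0) (nat_lit 0)) (Nat.add (x (nat_lit 3) (nat_lit 0) (nat_lit 0)) (x (nat_lit 4) (nat_lit 0) (nat_lit 0))))) (Nat.add (Nat.add (x (nat_lit 5) (nat_lit 0) (nat_lit 0)) (Nat.add (x (nat_lit 6) (nat_lit 0) (nat_lit 0)) (x (nat_lit 7) (nat_lit 0) (nat_lit 0)))) (Nat.add (x (nat_lit 8) (nat_lit 0) (nat_lit 0)) (Nat.add (x (nat_lit 9) (nat_lit 0) (nat_lit 0)) (x (nat_lit 10) (nat_lit 0) (nat_lit 0)))))) (Nat.add (Nat.add (Nat.add (x (nat_lit 11) (nat_lit 0) (nat_lit 0)) (x (nat_lit 12) (nat_lit 0) (nat_lit 0))) (Nat.add (x (nat_lit 13) (nat_lit 0) (nat_lit 0)) (Nat.add (x (nat_lit 14) (nat_lit 0) (nat_lit 0)) (x (nat_lit 15) (nat_lit 0) (nat_lit 0))))) (Nat.add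 (Nat.add (x (nat_lit 16) (nat_lit 0) (nat_lit 0)) (Nat.add (x (nat_lit 17) (nat_lit 0) (nat_lit 0)) (x (nat_lit 18) (nat_lit 0) (nat_lit 0)))) (Nat.add (x (nat_lit 19) (nat_lit 0) (nat_lit 0)) (Nat.add (x (nat_lit 20) (nat_lit 0) (nat_lit 0)) (x (nat_lit 21) (nat_lit 0) (nat_lit 0))))))) (Nat.add (Nat.add (Nat.add (Nat.add (x (nat_lit 22) (nat_lit 0) (nat_lit 0)) (x (nat_lit 23) (nat_lit 0) (nat_lit 0))) (Nat.add (x (nat_lit 24) (nat_lit 0) (nat_lit 0)) (Nat.add (x (nat_lit 25) (nat_lit 0) (nat_lit 0)) (x (nat_lit 26) (nat_lit 0) (nat_lit 0))))) (Nat.add (Nat.add (x (nat_lit 27) (nat_lit 0) (nat_lit 0)) (Nat.add (x (nat_lit 28) (nat_lit 0) (nat_lit 0)) (x (nat_lit 29) (nat_lit 0) (nat_lit 0)))) (Nat.add (x (nat_lit 30) (nat_lit 0) (nat_lit 0)) (Nat.add (x (nat_lit 31) (nat_lit 0) (nat_lit 0)) (x (nat_lit 32) (nat_lit 0) (nat_lit 0))))))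 (Nat.add (Nat.add (Nat.add (x (nat_lit 33) (nat_lit 0) (nat_lit 0)) (x (nat_lit 34) (nat_lit 0) (nat_lit 0))) (Nat.add (x (nat_lit 35) (nat_lit 0) (nat_lit 0)) (Nat.add (x (nat_lit 36) (nat_lit 0) (nat_lit 0)) (x (nat_lit 37) (nat_lit 0) (nat_lit 0))))) (Nat.add (Nat.add (x (nat_lit 38) (nat_lit 0) (nat_lit 0)) (Nat.add (x (nat_lit 39) (nat_lit 0) (nat_lit 0)) (x (nat_lit 40) (nat_lit 0) (nat_lit 0)))) (Nat.add (x (nat_lit 41) (nat_lit 0) (nat_lit 0)) (Nat.add (x (nat_lit 42) (nat_lit 0) (nat_lit 0)) (x (nat_lit 43) (nat_lit 0) (nat_lit 0)))))))) (Nat.add (Nat.add (Nat.add (Nat.add (Nat.add (x (nat_lit 44) (nat_lit 0) (nat_lit 0)) (x (nat_lit 45) (nat_lit 0) (nat_lit 0))) (Nat.add (x (nat_lit 46) (nat_lit 0) (nat_lit 0)) (Nat.add (x (nat_lit 47) (nat_lit 0) (nat_lit 0)) (x (nat_lit 48) (nat_lit 0) (nat_lit 0))))) (Nat.add (Nat.add (x (nat_lit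 49) (nat_lit 0) (nat_lit 0)) (Nat.add (x (nat_lit 50) (nat_lit 0) (nat_lit 0)) (x (nat_lit 51) (nat_lit 0) (nat_lit 0)))) (Nat.add (x (nat_lit 52) (nat_lit 0) (nat_lit 0)) (Nat.add (x (nat_lit 53) (nat_lit 0) (nat_lit 0)) (x (nat_lit 54) (nat_lit 0) (nat_lit 0)))))) (Nat.add (Nat.add (Nat.add (x (nat_lit 55) (nat_lit 0) (nat_lit 0)) (x (nat_lit 56) (nat_lit 0) (nat_lit 0))) (Nat.add (x (nat_lit 57) (nat_lit 0) (nat_lit 0)) (Nat.add (x (nat_lit 58) (nat_lit 0) (nat_lit 0)) (x (nat_lit 59) (nat_lit 0) (nat_lit 0))))) (Nat.add (Nat.add (x (nat_lit 60) (nat_lit 0) (nat_lit 0)) (Nat.add (x (nat_lit 61) (nat_lit 0) (nat_lit 0)) (x (nat_lit 62) (nat_lit 0) (nat_lit 0)))) (Nat.add (x (nat_lit 63) (nat_lit 0) (nat_lit 0)) (Nat.add (x (nat_lit 64) (nat_lit 0) (nat_lit 0)) (x (nat_lit 65) (nat_lit 0) (nat_lit 0))))))) (Nat.add (Nat.add (Nat.add (Nat.add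 (x (nat_lit 66) (nat_lit 0) (nat_lit 0)) (x (nat_lit 67) (nat_lit 0) (nat_lit 0))) (Nat.add (x (nat_lit 68) (nat_lit 0) (nat_lit 0)) (Nat.add (x (nat_lit 69) (nat_lit 0) (nat_lit 0)) (x (nat_lit 70) (nat_lit 0) (nat_lit 0))))) (Nat.add (Nat.add (x (nat_lit 71) (nat_lit 0) (nat_lit 0)) (Nat.add (x (nat_lit 72) (nat_lit 0) (nat_lit 0)) (x (nat_lit 73) (nat_lit 0) (nat_lit 0)))) (Nat.add (x (nat_lit 74) (nat_lit 0) (nat_lit 0)) (Nat.add (x (nat_lit 75) (nat_lit 0) (nat_lit 0)) (x (nat_lit 76) (nat_lit 0) (nat_lit 0)))))) (Nat.add (Nat.add (Nat.add (x (nat_lit 77) (nat_lit 0) (nat_lit 0)) (x (nat_lit 78) (nat_lit 0) (nat_lit 0))) (Nat.add (x (nat_lit 79) (nat_lit 0) (nat_lit 0)) (Nat.add (x (nat_lit 80) (nat_lit 0) (nat_lit 0)) (x (nat_lit 81) (nat_lit 0) (nat_lit 0))))) (Nat.add (Nat.add (x (nat_lit 82) (nat_lit 0) (nat_lit 0)) (Nat.add (x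 (nat_lit 83) (nat_lit 0) (nat_lit 0)) (x (nat_lit 84) (nat_lit 0) (nat_lit 0)))) (Nat.add (x (nat_lit 85) (nat_lit 0) (nat_lit 0)) (Nat.add (x (nat_lit 86) (nat_lit 0) (nat_lit 0)) (x (nat_lit 87) (nat_lit 0) (nat_lit 0)))))))))⟩
  (TL.cons ⟨fun x => (Nat.add (Nat.add (Nat.add (Nat.add (Nat.add (Nat.add (x (nat_lit 0) (nat_lit 0) (nat_lit 0)) (x (nat_lit 1) (nat_lit 0) (nat_lit 0))) (Nat.add (x (nat_lit 2) (nat_lit 0) (nat_lit 0)) (Nat.add (x (nat_lit 3) (nat_lit 0) (nat_lit 0)) (x (nat_lit 4) (nat_lit 0) (nat_lit 0))))) (Nat.add (Nat.add (x (nat_lit 5) (nat_lit 0) (nat_lit 0)) (Nat.add (x (nat_lit 6) (nat_lit 0) (nat_lit 0)) (x (nat_lit 7) (nat_lit 0) (nat_lit 0)))) (Nat.add (x (nat_lit 8) (nat_lit 0) (nat_lit 0)) (Nat.add (x (nat_lit 9) (nat_lit 0) (nat_lit 0)) (x (nat_lit 10) (nat_lit 0) (nat_lit 0)))))) (Nat.add (Nat.add (Nat.add (x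 (nat_lit 11) (nat_lit 0) (nat_lit 0)) (x (nat_lit 12) (nat_lit 0) (nat_lit 0))) (Nat.add (x (nat_lit 13) (nat_lit 0) (nat_lit 0)) (Nat.add (x (nat_lit 14) (nat_lit 0) (nat_lit 0)) (x (nat_lit 15) (nat_lit 0) (nat_lit 0))))) (Nat.add (Nat.add (x (nat_lit 16) (nat_lit 0) (nat_lit 0)) (Nat.add (x (nat_lit 17) (nat_lit 0) (nat_lit 0)) (x (nat_lit 18) (nat_lit 0) (nat_lit 0)))) (Nat.add (x (nat_lit 19) (nat_lit 0) (nat_lit 0)) (Nat.add (x (nat_lit 20) (nat_lit 0) (nat_lit 0)) (x (nat_lit 21) (nat_lit 0) (nat_lit 0))))))) (Nat.add (Nat.add (Nat.add (Nat.add (x (nat_lit 22) (nat_lit 0) (nat_lit 0)) (x (nat_lit 23) (nat_lit 0) (nat_lit 0))) (Nat.add (x (nat_lit 24) (nat_lit 0) (nat_lit 0)) (Nat.add (x (nat_lit 25) (nat_lit 0) (nat_lit 0)) (x (nat_lit 26) (nat_lit 0) (nat_lit 0))))) (Nat.add (Nat.add (x (nat_lit 27) (nat_lit 0) (nat_lit 0)) (Nat.add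 (x (nat_lit 28) (nat_lit 0) (nat_lit 0)) (x (nat_lit 29) (nat_lit 0) (nat_lit 0)))) (Nat.add (x (nat_lit 30) (nat_lit 0) (nat_lit 0)) (Nat.add (x (nat_lit 31) (nat_lit 0) (nat_lit 0)) (x (nat_lit 32) (nat_lit 0) (nat_lit 0)))))) (Nat.add (Nat.add (Nat.add (x (nat_lit 33) (nat_lit 0) (nat_lit 0)) (x (nat_lit 34) (nat_lit 0) (nat_lit 0))) (Nat.add (x (nat_lit 35) (nat_lit 0) (nat_lit 0)) (Nat.add (x (nat_lit 36) (nat_lit 0) (nat_lit 0)) (x (nat_lit 37) (nat_lit 0) (nat_lit 0))))) (Nat.add (Nat.add (x (nat_lit 38) (nat_lit 0) (nat_lit 0)) (Nat.add (x (nat_lit 39) (nat_lit 0) (nat_lit 0)) (x (nat_lit 40) (nat_lit 0) (nat_lit 0)))) (Nat.add (x (nat_lit 41) (nat_lit 0) (nat_lit 0)) (Nat.add (x (nat_lit 42) (nat_lit 0) (nat_lit 0)) (x (nat_lit 43) (nat_lit 0) (nat_lit 0)))))))) (Nat.add (Nat.add (Nat.add (Nat.add (Nat.add (x (nat_lit 44) (nat_lit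 0) (nat_lit 0)) (x (nat_lit 45) (nat_lit 0) (nat_lit 0))) (Nat.add (x (nat_lit 46) (nat_lit 0) (nat_lit 0)) (Nat.add (x (nat_lit 47) (nat_lit 0) (nat_lit 0)) (x (nat_lit 48) (nat_lit 0) (nat_lit 0))))) (Nat.add (Nat.add (x (nat_lit 49) (nat_lit 0) (nat_lit 0)) (Nat.add (x (nat_lit 50) (nat_lit 0) (nat_lit 0)) (x (nat_lit 51) (nat_lit 0) (nat_lit 0)))) (Nat.add (x (nat_lit 52) (nat_lit 0) (nat_lit 0)) (Nat.add (x (nat_lit 53) (nat_lit 0) (nat_lit 0)) (x (nat_lit 54) (nat_lit 0) (nat_lit 0)))))) (Nat.add (Nat.add (Nat.add (x (nat_lit 55) (nat_lit 0) (nat_lit 0)) (x (nat_lit 56) (nat_lit 0) (nat_lit 0))) (Nat.add (x (nat_lit 57) (nat_lit 0) (nat_lit 0)) (Nat.add (x (nat_lit 58) (nat_lit 0) (nat_lit 0)) (x (nat_lit 59) (nat_lit 0) (nat_lit 0))))) (Nat.add (Nat.add (x (nat_lit 60) (nat_lit 0) (nat_lit 0)) (Nat.add (x (nat_lit 61) (nat_lit 0)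 (nat_lit 0)) (x (nat_lit 62) (nat_lit 0) (nat_lit 0)))) (Nat.add (x (nat_lit 63) (nat_lit 0) (nat_lit 0)) (Nat.add (x (nat_lit 64) (nat_lit 0) (nat_lit 0)) (x (nat_lit 65) (nat_lit 0) (nat_lit 0))))))) (Nat.add (Nat.add (Nat.add (Nat.add (x (nat_lit 66) (nat_lit 0) (nat_lit 0)) (x (nat_lit 67) (nat_lit 0) (nat_lit 0))) (Nat.add (x (nat_lit 68) (nat_lit 0) (nat_lit 0)) (Nat.add (x (nat_lit 69) (nat_lit 0) (nat_lit 0)) (x (nat_lit 70) (nat_lit 0) (nat_lit 0))))) (Nat.add (Nat.add (x (nat_lit 71) (nat_lit 0) (nat_lit 0)) (Nat.add (x (nat_lit 72) (nat_lit 0) (nat_lit 0)) (x (nat_lit 73) (nat_lit 0) (nat_lit 0)))) (Nat.add (x (nat_lit 74) (nat_lit 0) (nat_lit 0)) (Nat.add (x (nat_lit 75) (nat_lit 0) (nat_lit 0)) (x (nat_lit 76) (nat_lit 0) (nat_lit 0)))))) (Nat.add (Nat.add (Nat.add (x (nat_lit 77) (nat_lit 0) (nat_lit 0)) (Nat.add (x (nat_lit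 78) (nat_lit 0) (nat_lit 0)) (x (nat_lit 79) (nat_lit 0) (nat_lit 0)))) (Nat.add (x (nat_lit 80) (nat_lit 0) (nat_lit 0)) (Nat.add (x (nat_lit 81) (nat_lit 0) (nat_lit 0)) (x (nat_lit 82) (nat_lit 0) (nat_lit 0))))) (Nat.add (Nat.add (x (nat_lit 83) (nat_lit 0) (nat_lit 0)) (Nat.add (x (nat_lit 84) (nat_lit 0) (nat_lit 0)) (x (nat_lit 85) (nat_lit 0) (nat_lit 0)))) (Nat.add (x (nat_lit 86) (nat_lit 0) (nat_lit 0)) (Nat.add (x (nat_lit 87) (nat_lit 0) (nat_lit 0)) (x (nat_lit 88) (nat_lit 0) (nat_lit 0)))))))))⟩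
  (TL.cons ⟨fun x => (Nat.add (Nat.add (Nat.add (Nat.add (Nat.add (Nat.add (x (nat_lit 0) (nat_lit 0) (nat_lit 0)) (x (nat_lit 1) (nat_lit 0) (nat_lit 0))) (Nat.add (x (nat_lit 2) (nat_lit 0) (nat_lit 0)) (Nat.add (x (nat_lit 3) (nat_lit 0) (nat_lit 0)) (x (nat_lit 4) (nat_lit 0) (nat_lit 0))))) (Nat.add (Nat.add (x (nat_lit 5) (nat_lit 0) (nat_lit 0)) (Nat.add (x (nat_lit 6) (nat_lit 0) (nat_lit 0)) (x (nat_lit 7) (nat_lit 0) (nat_lit 0)))) (Nat.add (x (nat_lit 8) (nat_lit 0) (nat_lit 0)) (Nat.add (x (nat_lit 9) (nat_lit 0) (nat_lit 0)) (x (nat_lit 10) (nat_lit 0) (nat_lit 0)))))) (Nat.add (Nat.add (Nat.add (x (nat_lit 11) (nat_lit 0) (nat_lit 0)) (x (nat_lit 12) (nat_lit 0) (nat_lit 0))) (Nat.add (x (nat_lit 13) (nat_lit 0) (nat_lit 0)) (Nat.add (x (nat_lit 14) (nat_lit 0) (nat_lit 0)) (x (nat_lit 15) (nat_lit 0) (nat_lit 0))))) (Nat.add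 (Nat.add (x (nat_lit 16) (nat_lit 0) (nat_lit 0)) (Nat.add (x (nat_lit 17) (nat_lit 0) (nat_lit 0)) (x (nat_lit 18) (nat_lit 0) (nat_lit 0)))) (Nat.add (x (nat_lit 19) (nat_lit 0) (nat_lit 0)) (Nat.add (x (nat_lit 20) (nat_lit 0) (nat_lit 0)) (x (nat_lit 21) (nat_lit 0) (nat_lit 0))))))) (Nat.add (Nat.add (Nat.add (Nat.add (x (nat_lit 22) (nat_lit 0) (nat_lit 0)) (x (nat_lit 23) (nat_lit 0) (nat_lit 0))) (Nat.add (x (nat_lit 24) (nat_lit 0) (nat_lit 0)) (Nat.add (x (nat_lit 25) (nat_lit 0) (nat_lit 0)) (x (nat_lit 26) (nat_lit 0) (nat_lit 0))))) (Nat.add (Nat.add (x (nat_lit 27) (nat_lit 0) (nat_lit 0)) (Nat.add (x (nat_lit 28) (nat_lit 0) (nat_lit 0)) (x (nat_lit 29) (nat_lit 0) (nat_lit 0)))) (Nat.add (x (nat_lit 30) (nat_lit 0) (nat_lit 0)) (Nat.add (x (nat_lit 31) (nat_lit 0) (nat_lit 0)) (x (nat_lit 32) (nat_lit 0) (nat_lit 0))))))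 (Nat.add (Nat.add (Nat.add (x (nat_lit 33) (nat_lit 0) (nat_lit 0)) (Nat.add (x (nat_lit 34) (nat_lit 0) (nat_lit 0)) (x (nat_lit 35) (nat_lit 0) (nat_lit 0)))) (Nat.add (x (nat_lit 36) (nat_lit 0) (nat_lit 0)) (Nat.add (x (nat_lit 37) (nat_lit 0) (nat_lit 0)) (x (nat_lit 38) (nat_lit 0) (nat_lit 0))))) (Nat.add (Nat.add (x (nat_lit 39) (nat_lit 0) (nat_lit 0)) (Nat.add (x (nat_lit 40) (nat_lit 0) (nat_lit 0)) (x (nat_lit 41) (nat_lit 0) (nat_lit 0)))) (Nat.add (x (nat_lit 42) (nat_lit 0) (nat_lit 0)) (Nat.add (x (nat_lit 43) (nat_lit 0) (nat_lit 0)) (x (nat_lit 44) (nat_lit 0) (nat_lit 0)))))))) (Nat.add (Nat.add (Nat.add (Nat.add (Nat.add (x (nat_lit 45) (nat_lit 0) (nat_lit 0)) (x (nat_lit 46) (nat_lit 0) (nat_lit 0))) (Nat.add (x (nat_lit 47) (nat_lit 0) (nat_lit 0)) (Nat.add (x (nat_lit 48) (nat_lit 0) (nat_lit 0)) (x (nat_lit 49)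 (nat_lit 0) (nat_lit 0))))) (Nat.add (Nat.add (x (nat_lit 50) (nat_lit 0) (nat_lit 0)) (Nat.add (x (nat_lit 51) (nat_lit 0) (nat_lit 0)) (x (nat_lit 52) (nat_lit 0) (nat_lit 0)))) (Nat.add (x (nat_lit 53) (nat_lit 0) (nat_lit 0)) (Nat.add (x (nat_lit 54) (nat_lit 0) (nat_lit 0)) (x (nat_lit 55) (nat_lit 0) (nat_lit 0)))))) (Nat.add (Nat.add (Nat.add (x (nat_lit 56) (nat_lit 0) (nat_lit 0)) (x (nat_lit 57) (nat_lit 0) (nat_lit 0))) (Nat.add (x (nat_lit 58) (nat_lit 0) (nat_lit 0)) (Nat.add (x (nat_lit 59) (nat_lit 0) (nat_lit 0)) (x (nat_lit 60) (nat_lit 0) (nat_lit 0))))) (Nat.add (Nat.add (x (nat_lit 61) (nat_lit 0) (nat_lit 0)) (Nat.add (x (nat_lit 62) (nat_lit 0) (nat_lit 0)) (x (nat_lit 63) (nat_lit 0) (nat_lit 0)))) (Nat.add (x (nat_lit 64) (nat_lit 0) (nat_lit 0)) (Nat.add (x (nat_lit 65) (nat_lit 0) (nat_lit 0)) (x (nat_lit 66)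 (nat_lit 0) (nat_lit 0))))))) (Nat.add (Nat.add (Nat.add (Nat.add (x (nat_lit 67) (nat_lit 0) (nat_lit 0)) (x (nat_lit 68) (nat_lit 0) (nat_lit 0))) (Nat.add (x (nat_lit 69) (nat_lit 0) (nat_lit 0)) (Nat.add (x (nat_lit 70) (nat_lit 0) (nat_lit 0)) (x (nat_lit 71) (nat_lit 0) (nat_lit 0))))) (Nat.add (Nat.add (x (nat_lit 72) (nat_lit 0) (nat_lit 0)) (Nat.add (x (nat_lit 73) (nat_lit 0) (nat_lit 0)) (x (nat_lit 74) (nat_lit 0) (nat_lit 0)))) (Nat.add (x (nat_lit 75) (nat_lit 0) (nat_lit 0)) (Nat.add (x (nat_lit 76) (nat_lit 0) (nat_lit 0)) (x (nat_lit 77) (nat_lit 0) (nat_lit 0)))))) (Nat.add (Nat.add (Nat.add (x (nat_lit 78) (nat_lit 0) (nat_lit 0)) (Nat.add (x (nat_lit 79) (nat_lit 0) (nat_lit 0)) (x (nat_lit 80) (nat_lit 0) (nat_lit 0)))) (Nat.add (x (nat_lit 81) (nat_lit 0) (nat_lit 0)) (Nat.add (x (nat_lit 82) (nat_lit 0) (nat_lit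 0)) (x (nat_lit 83) (nat_lit 0) (nat_lit 0))))) (Nat.add (Nat.add (x (nat_lit 84) (nat_lit 0) (nat_lit 0)) (Nat.add (x (nat_lit 85) (nat_lit 0) (nat_lit 0)) (x (nat_lit 86) (nat_lit 0) (nat_lit 0)))) (Nat.add (x (nat_lit 87) (nat_lit 0) (nat_lit 0)) (Nat.add (x (nat_lit 88) (nat_lit 0) (nat_lit 0)) (x (nat_lit 89) (nat_lit 0) (nat_lit 0)))))))))⟩
  (TL.cons ⟨fun x => (Nat.add (Nat.add (Nat.add (Nat.add (Nat.add (Nat.add (x (nat_lit 0) (nat_lit 0) (nat_lit 0)) (x (nat_lit 1) (nat_lit 0) (nat_lit 0))) (Nat.add (x (nat_lit 2) (nat_lit 0) (nat_lit 0)) (Nat.add (x (nat_lit 3) (nat_lit 0) (nat_lit 0)) (x (nat_lit 4) (nat_lit 0) (nat_lit 0))))) (Nat.add (Nat.add (x (nat_lit 5) (nat_lit 0) (nat_lit 0)) (Nat.add (x (nat_lit 6) (nat_lit 0) (nat_lit 0)) (x (nat_lit 7) (nat_lit 0) (nat_lit 0)))) (Nat.add (x (nat_lit 8) (nat_lit 0) (nat_lit 0)) (Nat.add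 (x (nat_lit 9) (nat_lit 0) (nat_lit 0)) (x (nat_lit 10) (nat_lit 0) (nat_lit 0)))))) (Nat.add (Nat.add (Nat.add (x (nat_lit 11) (nat_lit 0) (nat_lit 0)) (x (nat_lit 12) (nat_lit 0) (nat_lit 0))) (Nat.add (x (nat_lit 13) (nat_lit 0) (nat_lit 0)) (Nat.add (x (nat_lit 14) (nat_lit 0) (nat_lit 0)) (x (nat_lit 15) (nat_lit 0) (nat_lit 0))))) (Nat.add (Nat.add (x (nat_lit 16) (nat_lit 0) (nat_lit 0)) (Nat.add (x (nat_lit 17) (nat_lit 0) (nat_lit 0)) (x (nat_lit 18) (nat_lit 0) (nat_lit 0)))) (Nat.add (x (nat_lit 19) (nat_lit 0) (nat_lit 0)) (Nat.add (x (nat_lit 20) (nat_lit 0) (nat_lit 0)) (x (nat_lit 21) (nat_lit 0) (nat_lit 0))))))) (Nat.add (Nat.add (Nat.add (Nat.add (x (nat_lit 22) (nat_lit 0) (nat_lit 0)) (x (nat_lit 23) (nat_lit 0) (nat_lit 0))) (Nat.add (x (nat_lit 24) (nat_lit 0) (nat_lit 0)) (Nat.add (x (nat_lit 25) (nat_lit 0) (nat_lit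 0)) (x (nat_lit 26) (nat_lit 0) (nat_lit 0))))) (Nat.add (Nat.add (x (nat_lit 27) (nat_lit 0) (nat_lit 0)) (Nat.add (x (nat_lit 28) (nat_lit 0) (nat_lit 0)) (x (nat_lit 29) (nat_lit 0) (nat_lit 0)))) (Nat.add (x (nat_lit 30) (nat_lit 0) (nat_lit 0)) (Nat.add (x (nat_lit 31) (nat_lit 0) (nat_lit 0)) (x (nat_lit 32) (nat_lit 0) (nat_lit 0)))))) (Nat.add (Nat.add (Nat.add (x (nat_lit 33) (nat_lit 0) (nat_lit 0)) (Nat.add (x (nat_lit 34) (nat_lit 0) (nat_lit 0)) (x (nat_lit 35) (nat_lit 0) (nat_lit 0)))) (Nat.add (x (nat_lit 36) (nat_lit 0) (nat_lit 0)) (Nat.add (x (nat_lit 37) (nat_lit 0) (nat_lit 0)) (x (nat_lit 38) (nat_lit 0) (nat_lit 0))))) (Nat.add (Nat.add (x (nat_lit 39) (nat_lit 0) (nat_lit 0)) (Nat.add (x (nat_lit 40) (nat_lit 0) (nat_lit 0)) (x (nat_lit 41) (nat_lit 0) (nat_lit 0)))) (Nat.add (x (nat_lit 42) (nat_lit 0) (nat_lit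 0)) (Nat.add (x (nat_lit 43) (nat_lit 0) (nat_lit 0)) (x (nat_lit 44) (nat_lit 0) (nat_lit 0)))))))) (Nat.add (Nat.add (Nat.add (Nat.add (Nat.add (x (nat_lit 45) (nat_lit 0) (nat_lit 0)) (x (nat_lit 46) (nat_lit 0) (nat_lit 0))) (Nat.add (x (nat_lit 47) (nat_lit 0) (nat_lit 0)) (Nat.add (x (nat_lit 48) (nat_lit 0) (nat_lit 0)) (x (nat_lit 49) (nat_lit 0) (nat_lit 0))))) (Nat.add (Nat.add (x (nat_lit 50) (nat_lit 0) (nat_lit 0)) (Nat.add (x (nat_lit 51) (nat_lit 0) (nat_lit 0)) (x (nat_lit 52) (nat_lit 0) (nat_lit 0)))) (Nat.add (x (nat_lit 53) (nat_lit 0) (nat_lit 0)) (Nat.add (x (nat_lit 54) (nat_lit 0) (nat_lit 0)) (x (nat_lit 55) (nat_lit 0) (nat_lit 0)))))) (Nat.add (Nat.add (Nat.add (x (nat_lit 56) (nat_lit 0) (nat_lit 0)) (Nat.add (x (nat_lit 57) (nat_lit 0) (nat_lit 0)) (x (nat_lit 58) (nat_lit 0) (nat_lit 0)))) (Nat.add (x (nat_lit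 59) (nat_lit 0) (nat_lit 0)) (Nat.add (x (nat_lit 60) (nat_lit 0) (nat_lit 0)) (x (nat_lit 61) (nat_lit 0) (nat_lit 0))))) (Nat.add (Nat.add (x (nat_lit 62) (nat_lit 0) (nat_lit 0)) (Nat.add (x (nat_lit 63) (nat_lit 0) (nat_lit 0)) (x (nat_lit 64) (nat_lit 0) (nat_lit 0)))) (Nat.add (x (nat_lit 65) (nat_lit 0) (nat_lit 0)) (Nat.add (x (nat_lit 66) (nat_lit 0) (nat_lit 0)) (x (nat_lit 67) (nat_lit 0) (nat_lit 0))))))) (Nat.add (Nat.add (Nat.add (Nat.add (x (nat_lit 68) (nat_lit 0) (nat_lit 0)) (x (nat_lit 69) (nat_lit 0) (nat_lit 0))) (Nat.add (x (nat_lit 70) (nat_lit 0) (nat_lit 0)) (Nat.add (x (nat_lit 71) (nat_lit 0) (nat_lit 0)) (x (nat_lit 72) (nat_lit 0) (nat_lit 0))))) (Nat.add (Nat.add (x (nat_lit 73) (nat_lit 0) (nat_lit 0)) (Nat.add (x (nat_lit 74) (nat_lit 0) (nat_lit 0)) (x (nat_lit 75) (nat_lit 0) (nat_lit 0)))) (Nat.add (x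 (nat_lit 76) (nat_lit 0) (nat_lit 0)) (Nat.add (x (nat_lit 77) (nat_lit 0) (nat_lit 0)) (x (nat_lit 78) (nat_lit 0) (nat_lit 0)))))) (Nat.add (Nat.add (Nat.add (x (nat_lit 79) (nat_lit 0) (nat_lit 0)) (Nat.add (x (nat_lit 80) (nat_lit 0) (nat_lit 0)) (x (nat_lit 81) (nat_lit 0) (nat_lit 0)))) (Nat.add (x (nat_lit 82) (nat_lit 0) (nat_lit 0)) (Nat.add (x (nat_lit 83) (nat_lit 0) (nat_lit 0)) (x (nat_lit 84) (nat_lit 0) (nat_lit 0))))) (Nat.add (Nat.add (x (nat_lit 85) (nat_lit 0) (nat_lit 0)) (Nat.add (x (nat_lit 86) (nat_lit 0) (nat_lit 0)) (x (nat_lit 87) (nat_lit 0) (nat_lit 0)))) (Nat.add (x (nat_lit 88) (nat_lit 0) (nat_lit 0)) (Nat.add (x (nat_lit 89) (nat_lit 0) (nat_lit 0)) (x (nat_lit 90) (nat_lit 0) (nat_lit 0)))))))))⟩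
  (TL.cons ⟨fun x => (Nat.add (Nat.add (Nat.add (Nat.add (Nat.add (Nat.add (x (nat_lit 0) (nat_lit 0) (nat_lit 0)) (x (nat_lit 1) (nat_lit 0) (nat_lit 0))) (Nat.add (x (nat_lit 2) (nat_lit 0) (nat_lit 0)) (Nat.add (x (nat_lit 3) (nat_lit 0) (nat_lit 0)) (x (nat_lit 4) (nat_lit 0) (nat_lit 0))))) (Nat.add (Nat.add (x (nat_lit 5) (nat_lit 0) (nat_lit 0)) (Nat.add (x (nat_lit 6) (nat_lit 0) (nat_lit 0)) (x (nat_lit 7) (nat_lit 0) (nat_lit 0)))) (Nat.add (x (nat_lit 8) (nat_lit 0) (nat_lit 0)) (Nat.add (x (nat_lit 9) (nat_lit 0) (nat_lit 0)) (x (nat_lit 10) (nat_lit 0) (nat_lit 0)))))) (Nat.add (Nat.add (Nat.add (x (nat_lit 11) (nat_lit 0) (nat_lit 0)) (Nat.add (x (nat_lit 12) (nat_lit 0) (nat_lit 0)) (x (nat_lit 13) (nat_lit 0) (nat_lit 0)))) (Nat.add (x (nat_lit 14) (nat_lit 0) (nat_lit 0)) (Nat.add (x (nat_lit 15) (nat_lit 0) (nat_lit 0))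 (x (nat_lit 16) (nat_lit 0) (nat_lit 0))))) (Nat.add (Nat.add (x (nat_lit 17) (nat_lit 0) (nat_lit 0)) (Nat.add (x (nat_lit 18) (nat_lit 0) (nat_lit 0)) (x (nat_lit 19) (nat_lit 0) (nat_lit 0)))) (Nat.add (x (nat_lit 20) (nat_lit 0) (nat_lit 0)) (Nat.add (x (nat_lit 21) (nat_lit 0) (nat_lit 0)) (x (nat_lit 22) (nat_lit 0) (nat_lit 0))))))) (Nat.add (Nat.add (Nat.add (Nat.add (x (nat_lit 23) (nat_lit 0) (nat_lit 0)) (x (nat_lit 24) (nat_lit 0) (nat_lit 0))) (Nat.add (x (nat_lit 25) (nat_lit 0) (nat_lit 0)) (Nat.add (x (nat_lit 26) (nat_lit 0) (nat_lit 0)) (x (nat_lit 27) (nat_lit 0) (nat_lit 0))))) (Nat.add (Nat.add (x (nat_lit 28) (nat_lit 0) (nat_lit 0)) (Nat.add (x (nat_lit 29) (nat_lit 0) (nat_lit 0)) (x (nat_lit 30) (nat_lit 0) (nat_lit 0)))) (Nat.add (x (nat_lit 31) (nat_lit 0) (nat_lit 0)) (Nat.add (x (nat_lit 32) (nat_lit 0) (nat_lit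 0)) (x (nat_lit 33) (nat_lit 0) (nat_lit 0)))))) (Nat.add (Nat.add (Nat.add (x (nat_lit 34) (nat_lit 0) (nat_lit 0)) (Nat.add (x (nat_lit 35) (nat_lit 0) (nat_lit 0)) (x (nat_lit 36) (nat_lit 0) (nat_lit 0)))) (Nat.add (x (nat_lit 37) (nat_lit 0) (nat_lit 0)) (Nat.add (x (nat_lit 38) (nat_lit 0) (nat_lit 0)) (x (nat_lit 39) (nat_lit 0) (nat_lit 0))))) (Nat.add (Nat.add (x (nat_lit 40) (nat_lit 0) (nat_lit 0)) (Nat.add (x (nat_lit 41) (nat_lit 0) (nat_lit 0)) (x (nat_lit 42) (nat_lit 0) (nat_lit 0)))) (Nat.add (x (nat_lit 43) (nat_lit 0) (nat_lit 0)) (Nat.add (x (nat_lit 44) (nat_lit 0) (nat_lit 0)) (x (nat_lit 45) (nat_lit 0) (nat_lit 0)))))))) (Nat.add (Nat.add (Nat.add (Nat.add (Nat.add (x (nat_lit 46) (nat_lit 0) (nat_lit 0)) (x (nat_lit 47) (nat_lit 0) (nat_lit 0))) (Nat.add (x (nat_lit 48) (nat_lit 0) (nat_lit 0)) (Nat.add (x (nat_lit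 49) (nat_lit 0) (nat_lit 0)) (x (nat_lit 50) (nat_lit 0) (nat_lit 0))))) (Nat.add (Nat.add (x (nat_lit 51) (nat_lit 0) (nat_lit 0)) (Nat.add (x (nat_lit 52) (nat_lit 0) (nat_lit 0)) (x (nat_lit 53) (nat_lit 0) (nat_lit 0)))) (Nat.add (x (nat_lit 54) (nat_lit 0) (nat_lit 0)) (Nat.add (x (nat_lit 55) (nat_lit 0) (nat_lit 0)) (x (nat_lit 56) (nat_lit 0) (nat_lit 0)))))) (Nat.add (Nat.add (Nat.add (x (nat_lit 57) (nat_lit 0) (nat_lit 0)) (Nat.add (x (nat_lit 58) (nat_lit 0) (nat_lit 0)) (x (nat_lit 59) (nat_lit 0) (nat_lit 0)))) (Nat.add (x (nat_lit 60) (nat_lit 0) (nat_lit 0)) (Nat.add (x (nat_lit 61) (nat_lit 0) (nat_lit 0)) (x (nat_lit 62) (nat_lit 0) (nat_lit 0))))) (Nat.add (Nat.add (x (nat_lit 63) (nat_lit 0) (nat_lit 0)) (Nat.add (x (nat_lit 64) (nat_lit 0) (nat_lit 0)) (x (nat_lit 65) (nat_lit 0) (nat_lit 0)))) (Nat.add (x (nat_lit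 66) (nat_lit 0) (nat_lit 0)) (Nat.add (x (nat_lit 67) (nat_lit 0) (nat_lit 0)) (x (nat_lit 68) (nat_lit 0) (nat_lit 0))))))) (Nat.add (Nat.add (Nat.add (Nat.add (x (nat_lit 69) (nat_lit 0) (nat_lit 0)) (x (nat_lit 70) (nat_lit 0) (nat_lit 0))) (Nat.add (x (nat_lit 71) (nat_lit 0) (nat_lit 0)) (Nat.add (x (nat_lit 72) (nat_lit 0) (nat_lit 0)) (x (nat_lit 73) (nat_lit 0) (nat_lit 0))))) (Nat.add (Nat.add (x (nat_lit 74) (nat_lit 0) (nat_lit 0)) (Nat.add (x (nat_lit 75) (nat_lit 0) (nat_lit 0)) (x (nat_lit 76) (nat_lit 0) (nat_lit 0)))) (Nat.add (x (nat_lit 77) (nat_lit 0) (nat_lit 0)) (Nat.add (x (nat_lit 78) (nat_lit 0) (nat_lit 0)) (x (nat_lit 79) (nat_lit 0) (nat_lit 0)))))) (Nat.add (Nat.add (Nat.add (x (nat_lit 80) (nat_lit 0) (nat_lit 0)) (Nat.add (x (nat_lit 81) (nat_lit 0) (nat_lit 0)) (x (nat_lit 82) (nat_lit 0) (nat_lit 0)))) (Nat.add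 (x (nat_lit 83) (nat_lit 0) (nat_lit 0)) (Nat.add (x (nat_lit 84) (nat_lit 0) (nat_lit 0)) (x (nat_lit 85) (nat_lit 0) (nat_lit 0))))) (Nat.add (Nat.add (x (nat_lit 86) (nat_lit 0) (nat_lit 0)) (Nat.add (x (nat_lit 87) (nat_lit 0) (nat_lit 0)) (x (nat_lit 88) (nat_lit 0) (nat_lit 0)))) (Nat.add (x (nat_lit 89) (nat_lit 0) (nat_lit 0)) (Nat.add (x (nat_lit 90) (nat_lit 0) (nat_lit 0)) (x (nat_lit 91) (nat_lit 0) (nat_lit 0)))))))))⟩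
  (TL.cons ⟨fun x => (Nat.add (Nat.add (Nat.add (Nat.add (Nat.add (Nat.add (x (nat_lit 0) (nat_lit 0) (nat_lit 0)) (x (nat_lit 1) (nat_lit 0) (nat_lit 0))) (Nat.add (x (nat_lit 2) (nat_lit 0) (nat_lit 0)) (Nat.add (x (nat_lit 3) (nat_lit 0) (nat_lit 0)) (x (nat_lit 4) (nat_lit 0) (nat_lit 0))))) (Nat.add (Nat.add (x (nat_lit 5) (nat_lit 0) (nat_lit 0)) (Nat.add (x (nat_lit 6) (nat_lit 0) (nat_lit 0)) (x (nat_lit 7) (nat_lit 0) (nat_lit 0)))) (Nat.add (x (nat_lit 8) (nat_lit 0) (nat_lit 0)) (Nat.add (x (nat_lit 9) (nat_lit 0) (nat_lit 0)) (x (nat_lit 10) (nat_lit 0) (nat_lit 0)))))) (Nat.add (Nat.add (Nat.add (x (nat_lit 11) (nat_lit 0) (nat_lit 0)) (Nat.add (x (nat_lit 12) (nat_lit 0) (nat_lit 0)) (x (nat_lit 13) (nat_lit 0) (nat_lit 0)))) (Nat.add (x (nat_lit 14) (nat_lit 0) (nat_lit 0)) (Nat.add (x (nat_lit 15) (nat_lit 0) (nat_lit 0))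 (x (nat_lit 16) (nat_lit 0) (nat_lit 0))))) (Nat.add (Nat.add (x (nat_lit 17) (nat_lit 0) (nat_lit 0)) (Nat.add (x (nat_lit 18) (nat_lit 0) (nat_lit 0)) (x (nat_lit 19) (nat_lit 0) (nat_lit 0)))) (Nat.add (x (nat_lit 20) (nat_lit 0) (nat_lit 0)) (Nat.add (x (nat_lit 21) (nat_lit 0) (nat_lit 0)) (x (nat_lit 22) (nat_lit 0) (nat_lit 0))))))) (Nat.add (Nat.add (Nat.add (Nat.add (x (nat_lit 23) (nat_lit 0) (nat_lit 0)) (x (nat_lit 24) (nat_lit 0) (nat_lit 0))) (Nat.add (x (nat_lit 25) (nat_lit 0) (nat_lit 0)) (Nat.add (x (nat_lit 26) (nat_lit 0) (nat_lit 0)) (x (nat_lit 27) (nat_lit 0) (nat_lit 0))))) (Nat.add (Nat.add (x (nat_lit 28) (nat_lit 0) (nat_lit 0)) (Nat.add (x (nat_lit 29) (nat_lit 0) (nat_lit 0)) (x (nat_lit 30) (nat_lit 0) (nat_lit 0)))) (Nat.add (x (nat_lit 31) (nat_lit 0) (nat_lit 0)) (Nat.add (x (nat_lit 32) (nat_lit 0) (nat_lit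 0)) (x (nat_lit 33) (nat_lit 0) (nat_lit 0)))))) (Nat.add (Nat.add (Nat.add (x (nat_lit 34) (nat_lit 0) (nat_lit 0)) (Nat.add (x (nat_lit 35) (nat_lit 0) (nat_lit 0)) (x (nat_lit 36) (nat_lit 0) (nat_lit 0)))) (Nat.add (x (nat_lit 37) (nat_lit 0) (nat_lit 0)) (Nat.add (x (nat_lit 38) (nat_lit 0) (nat_lit 0)) (x (nat_lit 39) (nat_lit 0) (nat_lit 0))))) (Nat.add (Nat.add (x (nat_lit 40) (nat_lit 0) (nat_lit 0)) (Nat.add (x (nat_lit 41) (nat_lit 0) (nat_lit 0)) (x (nat_lit 42) (nat_lit 0) (nat_lit 0)))) (Nat.add (x (nat_lit 43) (nat_lit 0) (nat_lit 0)) (Nat.add (x (nat_lit 44) (nat_lit 0) (nat_lit 0)) (x (nat_lit 45) (nat_lit 0) (nat_lit 0)))))))) (Nat.add (Nat.add (Nat.add (Nat.add (Nat.add (x (nat_lit 46) (nat_lit 0) (nat_lit 0)) (x (nat_lit 47) (nat_lit 0) (nat_lit 0))) (Nat.add (x (nat_lit 48) (nat_lit 0) (nat_lit 0)) (Nat.add (x (nat_lit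 49) (nat_lit 0) (nat_lit 0)) (x (nat_lit 50) (nat_lit 0) (nat_lit 0))))) (Nat.add (Nat.add (x (nat_lit 51) (nat_lit 0) (nat_lit 0)) (Nat.add (x (nat_lit 52) (nat_lit 0) (nat_lit 0)) (x (nat_lit 53) (nat_lit 0) (nat_lit 0)))) (Nat.add (x (nat_lit 54) (nat_lit 0) (nat_lit 0)) (Nat.add (x (nat_lit 55) (nat_lit 0) (nat_lit 0)) (x (nat_lit 56) (nat_lit 0) (nat_lit 0)))))) (Nat.add (Nat.add (Nat.add (x (nat_lit 57) (nat_lit 0) (nat_lit 0)) (Nat.add (x (nat_lit 58) (nat_lit 0) (nat_lit 0)) (x (nat_lit 59) (nat_lit 0) (nat_lit 0)))) (Nat.add (x (nat_lit 60) (nat_lit 0) (nat_lit 0)) (Nat.add (x (nat_lit 61) (nat_lit 0) (nat_lit 0)) (x (nat_lit 62) (nat_lit 0) (nat_lit 0))))) (Nat.add (Nat.add (x (nat_lit 63) (nat_lit 0) (nat_lit 0)) (Nat.add (x (nat_lit 64) (nat_lit 0) (nat_lit 0)) (x (nat_lit 65) (nat_lit 0) (nat_lit 0)))) (Nat.add (x (nat_lit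 66) (nat_lit 0) (nat_lit 0)) (Nat.add (x (nat_lit 67) (nat_lit 0) (nat_lit 0)) (x (nat_lit 68) (nat_lit 0) (nat_lit 0))))))) (Nat.add (Nat.add (Nat.add (Nat.add (x (nat_lit 69) (nat_lit 0) (nat_lit 0)) (Nat.add (x (nat_lit 70) (nat_lit 0) (nat_lit 0)) (x (nat_lit 71) (nat_lit 0) (nat_lit 0)))) (Nat.add (x (nat_lit 72) (nat_lit 0) (nat_lit 0)) (Nat.add (x (nat_lit 73) (nat_lit 0) (nat_lit 0)) (x (nat_lit 74) (nat_lit 0) (nat_lit 0))))) (Nat.add (Nat.add (x (nat_lit 75) (nat_lit 0) (nat_lit 0)) (Nat.add (x (nat_lit 76) (nat_lit 0) (nat_lit 0)) (x (nat_lit 77) (nat_lit 0) (nat_lit 0)))) (Nat.add (x (nat_lit 78) (nat_lit 0) (nat_lit 0)) (Nat.add (x (nat_lit 79) (nat_lit 0) (nat_lit 0)) (x (nat_lit 80) (nat_lit 0) (nat_lit 0)))))) (Nat.add (Nat.add (Nat.add (x (nat_lit 81) (nat_lit 0) (nat_lit 0)) (Nat.add (x (nat_lit 82) (nat_lit 0) (nat_lit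 0)) (x (nat_lit 83) (nat_lit 0) (nat_lit 0)))) (Nat.add (x (nat_lit 84) (nat_lit 0) (nat_lit 0)) (Nat.add (x (nat_lit 85) (nat_lit 0) (nat_lit 0)) (x (nat_lit 86) (nat_lit 0) (nat_lit 0))))) (Nat.add (Nat.add (x (nat_lit 87) (nat_lit 0) (nat_lit 0)) (Nat.add (x (nat_lit 88) (nat_lit 0) (nat_lit 0)) (x (nat_lit 89) (nat_lit 0) (nat_lit 0)))) (Nat.add (x (nat_lit 90) (nat_lit 0) (nat_lit 0)) (Nat.add (x (nat_lit 91) (nat_lit 0) (nat_lit 0)) (x (nat_lit 92) (nat_lit 0) (nat_lit 0)))))))))⟩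
  (TL.cons ⟨fun x => (Nat.add (Nat.add (Nat.add (Nat.add (Nat.add (Nat.add (x (nat_lit 0) (nat_lit 0) (nat_lit 0)) (x (nat_lit 1) (nat_lit 0) (nat_lit 0))) (Nat.add (x (nat_lit 2) (nat_lit 0) (nat_lit 0)) (Nat.add (x (nat_lit 3) (nat_lit 0) (nat_lit 0)) (x (nat_lit 4) (nat_lit 0) (nat_lit 0))))) (Nat.add (Nat.add (x (nat_lit 5) (nat_lit 0) (nat_lit 0)) (Nat.add (x (nat_lit 6) (nat_lit 0) (nat_lit 0)) (x (nat_lit 7) (nat_lit 0) (nat_lit 0)))) (Nat.add (x (nat_lit 8) (nat_lit 0) (nat_lit 0)) (Nat.add (x (nat_lit 9) (nat_lit 0) (nat_lit 0)) (x (nat_lit 10) (nat_lit 0) (nat_lit 0)))))) (Nat.add (Nat.add (Nat.add (x (nat_lit 11) (nat_lit 0) (nat_lit 0)) (Nat.add (x (nat_lit 12) (nat_lit 0) (nat_lit 0)) (x (nat_lit 13) (nat_lit 0) (nat_lit 0)))) (Nat.add (x (nat_lit 14) (nat_lit 0) (nat_lit 0)) (Nat.add (x (nat_lit 15) (nat_lit 0) (nat_lit 0))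 (x (nat_lit 16) (nat_lit 0) (nat_lit 0))))) (Nat.add (Nat.add (x (nat_lit 17) (nat_lit 0) (nat_lit 0)) (Nat.add (x (nat_lit 18) (nat_lit 0) (nat_lit 0)) (x (nat_lit 19) (nat_lit 0) (nat_lit 0)))) (Nat.add (x (nat_lit 20) (nat_lit 0) (nat_lit 0)) (Nat.add (x (nat_lit 21) (nat_lit 0) (nat_lit 0)) (x (nat_lit 22) (nat_lit 0) (nat_lit 0))))))) (Nat.add (Nat.add (Nat.add (Nat.add (x (nat_lit 23) (nat_lit 0) (nat_lit 0)) (Nat.add (x (nat_lit 24) (nat_lit 0) (nat_lit 0)) (x (nat_lit 25) (nat_lit 0) (nat_lit 0)))) (Nat.add (x (nat_lit 26) (nat_lit 0) (nat_lit 0)) (Nat.add (x (nat_lit 27) (nat_lit 0) (nat_lit 0)) (x (nat_lit 28) (nat_lit 0) (nat_lit 0))))) (Nat.add (Nat.add (x (nat_lit 29) (nat_lit 0) (nat_lit 0)) (Nat.add (x (nat_lit 30) (nat_lit 0) (nat_lit 0)) (x (nat_lit 31) (nat_lit 0) (nat_lit 0)))) (Nat.add (x (nat_lit 32) (nat_lit 0) (nat_lit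 0)) (Nat.add (x (nat_lit 33) (nat_lit 0) (nat_lit 0)) (x (nat_lit 34) (nat_lit 0) (nat_lit 0)))))) (Nat.add (Nat.add (Nat.add (x (nat_lit 35) (nat_lit 0) (nat_lit 0)) (Nat.add (x (nat_lit 36) (nat_lit 0) (nat_lit 0)) (x (nat_lit 37) (nat_lit 0) (nat_lit 0)))) (Nat.add (x (nat_lit 38) (nat_lit 0) (nat_lit 0)) (Nat.add (x (nat_lit 39) (nat_lit 0) (nat_lit 0)) (x (nat_lit 40) (nat_lit 0) (nat_lit 0))))) (Nat.add (Nat.add (x (nat_lit 41) (nat_lit 0) (nat_lit 0)) (Nat.add (x (nat_lit 42) (nat_lit 0) (nat_lit 0)) (x (nat_lit 43) (nat_lit 0) (nat_lit 0)))) (Nat.add (x (nat_lit 44) (nat_lit 0) (nat_lit 0)) (Nat.add (x (nat_lit 45) (nat_lit 0) (nat_lit 0)) (x (nat_lit 46) (nat_lit 0) (nat_lit 0)))))))) (Nat.add (Nat.add (Nat.add (Nat.add (Nat.add (x (nat_lit 47) (nat_lit 0) (nat_lit 0)) (x (nat_lit 48) (nat_lit 0) (nat_lit 0))) (Nat.add (x (nat_lit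 49) (nat_lit 0) (nat_lit 0)) (Nat.add (x (nat_lit 50) (nat_lit 0) (nat_lit 0)) (x (nat_lit 51) (nat_lit 0) (nat_lit 0))))) (Nat.add (Nat.add (x (nat_lit 52) (nat_lit 0) (nat_lit 0)) (Nat.add (x (nat_lit 53) (nat_lit 0) (nat_lit 0)) (x (nat_lit 54) (nat_lit 0) (nat_lit 0)))) (Nat.add (x (nat_lit 55) (nat_lit 0) (nat_lit 0)) (Nat.add (x (nat_lit 56) (nat_lit 0) (nat_lit 0)) (x (nat_lit 57) (nat_lit 0) (nat_lit 0)))))) (Nat.add (Nat.add (Nat.add (x (nat_lit 58) (nat_lit 0) (nat_lit 0)) (Nat.add (x (nat_lit 59) (nat_lit 0) (nat_lit 0)) (x (nat_lit 60) (nat_lit 0) (nat_lit 0)))) (Nat.add (x (nat_lit 61) (nat_lit 0) (nat_lit 0)) (Nat.add (x (nat_lit 62) (nat_lit 0) (nat_lit 0)) (x (nat_lit 63) (nat_lit 0) (nat_lit 0))))) (Nat.add (Nat.add (x (nat_lit 64) (nat_lit 0) (nat_lit 0)) (Nat.add (x (nat_lit 65) (nat_lit 0) (nat_lit 0)) (x (nat_lit 66)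 (nat_lit 0) (nat_lit 0)))) (Nat.add (x (nat_lit 67) (nat_lit 0) (nat_lit 0)) (Nat.add (x (nat_lit 68) (nat_lit 0) (nat_lit 0)) (x (nat_lit 69) (nat_lit 0) (nat_lit 0))))))) (Nat.add (Nat.add (Nat.add (Nat.add (x (nat_lit 70) (nat_lit 0) (nat_lit 0)) (Nat.add (x (nat_lit 71) (nat_lit 0) (nat_lit 0)) (x (nat_lit 72) (nat_lit 0) (nat_lit 0)))) (Nat.add (x (nat_lit 73) (nat_lit 0) (nat_lit 0)) (Nat.add (x (nat_lit 74) (nat_lit 0) (nat_lit 0)) (x (nat_lit 75) (nat_lit 0) (nat_lit 0))))) (Nat.add (Nat.add (x (nat_lit 76) (nat_lit 0) (nat_lit 0)) (Nat.add (x (nat_lit 77) (nat_lit 0) (nat_lit 0)) (x (nat_lit 78) (nat_lit 0) (nat_lit 0)))) (Nat.add (x (nat_lit 79) (nat_lit 0) (nat_lit 0)) (Nat.add (x (nat_lit 80) (nat_lit 0) (nat_lit 0)) (x (nat_lit 81) (nat_lit 0) (nat_lit 0)))))) (Nat.add (Nat.add (Nat.add (x (nat_lit 82) (nat_lit 0) (nat_lit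 0)) (Nat.add (x (nat_lit 83) (nat_lit 0) (nat_lit 0)) (x (nat_lit 84) (nat_lit 0) (nat_lit 0)))) (Nat.add (x (nat_lit 85) (nat_lit 0) (nat_lit 0)) (Nat.add (x (nat_lit 86) (nat_lit 0) (nat_lit 0)) (x (nat_lit 87) (nat_lit 0) (nat_lit 0))))) (Nat.add (Nat.add (x (nat_lit 88) (nat_lit 0) (nat_lit 0)) (Nat.add (x (nat_lit 89) (nat_lit 0) (nat_lit 0)) (x (nat_lit 90) (nat_lit 0) (nat_lit 0)))) (Nat.add (x (nat_lit 91) (nat_lit 0) (nat_lit 0)) (Nat.add (x (nat_lit 92) (nat_lit 0) (nat_lit 0)) (x (nat_lit 93) (nat_lit 0) (nat_lit 0)))))))))⟩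
  (TL.cons ⟨fun x => (Nat.add (Nat.add (Nat.add (Nat.add (Nat.add (Nat.add (x (nat_lit 0) (nat_lit 0) (nat_lit 0)) (x (nat_lit 1) (nat_lit 0) (nat_lit 0))) (Nat.add (x (nat_lit 2) (nat_lit 0) (nat_lit 0)) (Nat.add (x (nat_lit 3) (nat_lit 0) (nat_lit 0)) (x (nat_lit 4) (nat_lit 0) (nat_lit 0))))) (Nat.add (Nat.add (x (nat_lit 5) (nat_lit 0) (nat_lit 0)) (Nat.add (x (nat_lit 6) (nat_lit 0) (nat_lit 0)) (x (nat_lit 7) (nat_lit 0) (nat_lit 0)))) (Nat.add (x (nat_lit 8) (nat_lit 0) (nat_lit 0)) (Nat.add (x (nat_lit 9) (nat_lit 0) (nat_lit 0)) (x (nat_lit 10) (nat_lit 0) (nat_lit 0)))))) (Nat.add (Nat.add (Nat.add (x (nat_lit 11) (nat_lit 0) (nat_lit 0)) (Nat.add (x (nat_lit 12) (nat_lit 0) (nat_lit 0)) (x (nat_lit 13) (nat_lit 0) (nat_lit 0)))) (Nat.add (x (nat_lit 14) (nat_lit 0) (nat_lit 0)) (Nat.add (x (nat_lit 15) (nat_lit 0) (nat_lit 0))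 (x (nat_lit 16) (nat_lit 0) (nat_lit 0))))) (Nat.add (Nat.add (x (nat_lit 17) (nat_lit 0) (nat_lit 0)) (Nat.add (x (nat_lit 18) (nat_lit 0) (nat_lit 0)) (x (nat_lit 19) (nat_lit 0) (nat_lit 0)))) (Nat.add (x (nat_lit 20) (nat_lit 0) (nat_lit 0)) (Nat.add (x (nat_lit 21) (nat_lit 0) (nat_lit 0)) (x (nat_lit 22) (nat_lit 0) (nat_lit 0))))))) (Nat.add (Nat.add (Nat.add (Nat.add (x (nat_lit 23) (nat_lit 0) (nat_lit 0)) (Nat.add (x (nat_lit 24) (nat_lit 0) (nat_lit 0)) (x (nat_lit 25) (nat_lit 0) (nat_lit 0)))) (Nat.add (x (nat_lit 26) (nat_lit 0) (nat_lit 0)) (Nat.add (x (nat_lit 27) (nat_lit 0) (nat_lit 0)) (x (nat_lit 28) (nat_lit 0) (nat_lit 0))))) (Nat.add (Nat.add (x (nat_lit 29) (nat_lit 0) (nat_lit 0)) (Nat.add (x (nat_lit 30) (nat_lit 0) (nat_lit 0)) (x (nat_lit 31) (nat_lit 0) (nat_lit 0)))) (Nat.add (x (nat_lit 32) (nat_lit 0) (nat_lit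 0)) (Nat.add (x (nat_lit 33) (nat_lit 0) (nat_lit 0)) (x (nat_lit 34) (nat_lit 0) (nat_lit 0)))))) (Nat.add (Nat.add (Nat.add (x (nat_lit 35) (nat_lit 0) (nat_lit 0)) (Nat.add (x (nat_lit 36) (nat_lit 0) (nat_lit 0)) (x (nat_lit 37) (nat_lit 0) (nat_lit 0)))) (Nat.add (x (nat_lit 38) (nat_lit 0) (nat_lit 0)) (Nat.add (x (nat_lit 39) (nat_lit 0) (nat_lit 0)) (x (nat_lit 40) (nat_lit 0) (nat_lit 0))))) (Nat.add (Nat.add (x (nat_lit 41) (nat_lit 0) (nat_lit 0)) (Nat.add (x (nat_lit 42) (nat_lit 0) (nat_lit 0)) (x (nat_lit 43) (nat_lit 0) (nat_lit 0)))) (Nat.add (x (nat_lit 44) (nat_lit 0) (nat_lit 0)) (Nat.add (x (nat_lit 45) (nat_lit 0) (nat_lit 0)) (x (nat_lit 46) (nat_lit 0) (nat_lit 0)))))))) (Nat.add (Nat.add (Nat.add (Nat.add (Nat.add (x (nat_lit 47) (nat_lit 0) (nat_lit 0)) (Nat.add (x (nat_lit 48) (nat_lit 0) (nat_lit 0)) (x (nat_lit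 49) (nat_lit 0) (nat_lit 0)))) (Nat.add (x (nat_lit 50) (nat_lit 0) (nat_lit 0)) (Nat.add (x (nat_lit 51) (nat_lit 0) (nat_lit 0)) (x (nat_lit 52) (nat_lit 0) (nat_lit 0))))) (Nat.add (Nat.add (x (nat_lit 53) (nat_lit 0) (nat_lit 0)) (Nat.add (x (nat_lit 54) (nat_lit 0) (nat_lit 0)) (x (nat_lit 55) (nat_lit 0) (nat_lit 0)))) (Nat.add (x (nat_lit 56) (nat_lit 0) (nat_lit 0)) (Nat.add (x (nat_lit 57) (nat_lit 0) (nat_lit 0)) (x (nat_lit 58) (nat_lit 0) (nat_lit 0)))))) (Nat.add (Nat.add (Nat.add (x (nat_lit 59) (nat_lit 0) (nat_lit 0)) (Nat.add (x (nat_lit 60) (nat_lit 0) (nat_lit 0)) (x (nat_lit 61) (nat_lit 0) (nat_lit 0)))) (Nat.add (x (nat_lit 62) (nat_lit 0) (nat_lit 0)) (Nat.add (x (nat_lit 63) (nat_lit 0) (nat_lit 0)) (x (nat_lit 64) (nat_lit 0) (nat_lit 0))))) (Nat.add (Nat.add (x (nat_lit 65) (nat_lit 0) (nat_lit 0)) (Nat.add (x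 (nat_lit 66) (nat_lit 0) (nat_lit 0)) (x (nat_lit 67) (nat_lit 0) (nat_lit 0)))) (Nat.add (x (nat_lit 68) (nat_lit 0) (nat_lit 0)) (Nat.add (x (nat_lit 69) (nat_lit 0) (nat_lit 0)) (x (nat_lit 70) (nat_lit 0) (nat_lit 0))))))) (Nat.add (Nat.add (Nat.add (Nat.add (x (nat_lit 71) (nat_lit 0) (nat_lit 0)) (Nat.add (x (nat_lit 72) (nat_lit 0) (nat_lit 0)) (x (nat_lit 73) (nat_lit 0) (nat_lit 0)))) (Nat.add (x (nat_lit 74) (nat_lit 0) (nat_lit 0)) (Nat.add (x (nat_lit 75) (nat_lit 0) (nat_lit 0)) (x (nat_lit 76) (nat_lit 0) (nat_lit 0))))) (Nat.add (Nat.add (x (nat_lit 77) (nat_lit 0) (nat_lit 0)) (Nat.add (x (nat_lit 78) (nat_lit 0) (nat_lit 0)) (x (nat_lit 79) (nat_lit 0) (nat_lit 0)))) (Nat.add (x (nat_lit 80) (nat_lit 0) (nat_lit 0)) (Nat.add (x (nat_lit 81) (nat_lit 0) (nat_lit 0)) (x (nat_lit 82) (nat_lit 0) (nat_lit 0)))))) (Nat.add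 (Nat.add (Nat.add (x (nat_lit 83) (nat_lit 0) (nat_lit 0)) (Nat.add (x (nat_lit 84) (nat_lit 0) (nat_lit 0)) (x (nat_lit 85) (nat_lit 0) (nat_lit 0)))) (Nat.add (x (nat_lit 86) (nat_lit 0) (nat_lit 0)) (Nat.add (x (nat_lit 87) (nat_lit 0) (nat_lit 0)) (x (nat_lit 88) (nat_lit 0) (nat_lit 0))))) (Nat.add (Nat.add (x (nat_lit 89) (nat_lit 0) (nat_lit 0)) (Nat.add (x (nat_lit 90) (nat_lit 0) (nat_lit 0)) (x (nat_lit 91) (nat_lit 0) (nat_lit 0)))) (Nat.add (x (nat_lit 92) (nat_lit 0) (nat_lit 0)) (Nat.add (x (nat_lit 93) (nat_lit 0) (nat_lit 0)) (x (nat_lit 94) (nat_lit 0) (nat_lit 0)))))))))⟩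
  (TL.cons ⟨fun x => (Nat.add (Nat.add (Nat.add (Nat.add (Nat.add (Nat.add (x (nat_lit 0) (nat_lit 0) (nat_lit 0)) (Nat.add (x (nat_lit 1) (nat_lit 0) (nat_lit 0)) (x (nat_lit 2) (nat_lit 0) (nat_lit 0)))) (Nat.add (x (nat_lit 3) (nat_lit 0) (nat_lit 0)) (Nat.add (x (nat_lit 4) (nat_lit 0) (nat_lit 0)) (x (nat_lit 5) (nat_lit 0) (nat_lit 0))))) (Nat.add (Nat.add (x (nat_lit 6) (nat_lit 0) (nat_lit 0)) (Nat.add (x (nat_lit 7) (nat_lit 0) (nat_lit 0)) (x (nat_lit 8) (nat_lit 0) (nat_lit 0)))) (Nat.add (x (nat_lit 9) (nat_lit 0) (nat_lit 0)) (Nat.add (x (nat_lit 10) (nat_lit 0) (nat_lit 0)) (x (nat_lit 11) (nat_lit 0) (nat_lit 0)))))) (Nat.add (Nat.add (Nat.add (x (nat_lit 12) (nat_lit 0) (nat_lit 0)) (Nat.add (x (nat_lit 13) (nat_lit 0) (nat_lit 0)) (x (nat_lit 14) (nat_lit 0) (nat_lit 0)))) (Nat.add (x (nat_lit 15) (nat_lit 0) (nat_lit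 0)) (Nat.add (x (nat_lit 16) (nat_lit 0) (nat_lit 0)) (x (nat_lit 17) (nat_lit 0) (nat_lit 0))))) (Nat.add (Nat.add (x (nat_lit 18) (nat_lit 0) (nat_lit 0)) (Nat.add (x (nat_lit 19) (nat_lit 0) (nat_lit 0)) (x (nat_lit 20) (nat_lit 0) (nat_lit 0)))) (Nat.add (x (nat_lit 21) (nat_lit 0) (nat_lit 0)) (Nat.add (x (nat_lit 22) (nat_lit 0) (nat_lit 0)) (x (nat_lit 23) (nat_lit 0) (nat_lit 0))))))) (Nat.add (Nat.add (Nat.add (Nat.add (x (nat_lit 24) (nat_lit 0) (nat_lit 0)) (Nat.add (x (nat_lit 25) (nat_lit 0) (nat_lit 0)) (x (nat_lit 26) (nat_lit 0) (nat_lit 0)))) (Nat.add (x (nat_lit 27) (nat_lit 0) (nat_lit 0)) (Nat.add (x (nat_lit 28) (nat_lit 0) (nat_lit 0)) (x (nat_lit 29) (nat_lit 0) (nat_lit 0))))) (Nat.add (Nat.add (x (nat_lit 30) (nat_lit 0) (nat_lit 0)) (Nat.add (x (nat_lit 31) (nat_lit 0) (nat_lit 0)) (x (nat_lit 32) (nat_lit 0)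 (nat_lit 0)))) (Nat.add (x (nat_lit 33) (nat_lit 0) (nat_lit 0)) (Nat.add (x (nat_lit 34) (nat_lit 0) (nat_lit 0)) (x (nat_lit 35) (nat_lit 0) (nat_lit 0)))))) (Nat.add (Nat.add (Nat.add (x (nat_lit 36) (nat_lit 0) (nat_lit 0)) (Nat.add (x (nat_lit 37) (nat_lit 0) (nat_lit 0)) (x (nat_lit 38) (nat_lit 0) (nat_lit 0)))) (Nat.add (x (nat_lit 39) (nat_lit 0) (nat_lit 0)) (Nat.add (x (nat_lit 40) (nat_lit 0) (nat_lit 0)) (x (nat_lit 41) (nat_lit 0) (nat_lit 0))))) (Nat.add (Nat.add (x (nat_lit 42) (nat_lit 0) (nat_lit 0)) (Nat.add (x (nat_lit 43) (nat_lit 0) (nat_lit 0)) (x (nat_lit 44) (nat_lit 0) (nat_lit 0)))) (Nat.add (x (nat_lit 45) (nat_lit 0) (nat_lit 0)) (Nat.add (x (nat_lit 46) (nat_lit 0) (nat_lit 0)) (x (nat_lit 47) (nat_lit 0) (nat_lit 0)))))))) (Nat.add (Nat.add (Nat.add (Nat.add (Nat.add (x (nat_lit 48) (nat_lit 0) (nat_lit 0))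 (Nat.add (x (nat_lit 49) (nat_lit 0) (nat_lit 0)) (x (nat_lit 50) (nat_lit 0) (nat_lit 0)))) (Nat.add (x (nat_lit 51) (nat_lit 0) (nat_lit 0)) (Nat.add (x (nat_lit 52) (nat_lit 0) (nat_lit 0)) (x (nat_lit 53) (nat_lit 0) (nat_lit 0))))) (Nat.add (Nat.add (x (nat_lit 54) (nat_lit 0) (nat_lit 0)) (Nat.add (x (nat_lit 55) (nat_lit 0) (nat_lit 0)) (x (nat_lit 56) (nat_lit 0) (nat_lit 0)))) (Nat.add (x (nat_lit 57) (nat_lit 0) (nat_lit 0)) (Nat.add (x (nat_lit 58) (nat_lit 0) (nat_lit 0)) (x (nat_lit 59) (nat_lit 0) (nat_lit 0)))))) (Nat.add (Nat.add (Nat.add (x (nat_lit 60) (nat_lit 0) (nat_lit 0)) (Nat.add (x (nat_lit 61) (nat_lit 0) (nat_lit 0)) (x (nat_lit 62) (nat_lit 0) (nat_lit 0)))) (Nat.add (x (nat_lit 63) (nat_lit 0) (nat_lit 0)) (Nat.add (x (nat_lit 64) (nat_lit 0) (nat_lit 0)) (x (nat_lit 65) (nat_lit 0) (nat_lit 0))))) (Nat.add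 (Nat.add (x (nat_lit 66) (nat_lit 0) (nat_lit 0)) (Nat.add (x (nat_lit 67) (nat_lit 0) (nat_lit 0)) (x (nat_lit 68) (nat_lit 0) (nat_lit 0)))) (Nat.add (x (nat_lit 69) (nat_lit 0) (nat_lit 0)) (Nat.add (x (nat_lit 70) (nat_lit 0) (nat_lit 0)) (x (nat_lit 71) (nat_lit 0) (nat_lit 0))))))) (Nat.add (Nat.add (Nat.add (Nat.add (x (nat_lit 72) (nat_lit 0) (nat_lit 0)) (Nat.add (x (nat_lit 73) (nat_lit 0) (nat_lit 0)) (x (nat_lit 74) (nat_lit 0) (nat_lit 0)))) (Nat.add (x (nat_lit 75) (nat_lit 0) (nat_lit 0)) (Nat.add (x (nat_lit 76) (nat_lit 0) (nat_lit 0)) (x (nat_lit 77) (nat_lit 0) (nat_lit 0))))) (Nat.add (Nat.add (x (nat_lit 78) (nat_lit 0) (nat_lit 0)) (Nat.add (x (nat_lit 79) (nat_lit 0) (nat_lit 0)) (x (nat_lit 80) (nat_lit 0) (nat_lit 0)))) (Nat.add (x (nat_lit 81) (nat_lit 0) (nat_lit 0)) (Nat.add (x (nat_lit 82) (nat_lit 0) (nat_lit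 0)) (x (nat_lit 83) (nat_lit 0) (nat_lit 0)))))) (Nat.add (Nat.add (Nat.add (x (nat_lit 84) (nat_lit 0) (nat_lit 0)) (Nat.add (x (nat_lit 85) (nat_lit 0) (nat_lit 0)) (x (nat_lit 86) (nat_lit 0) (nat_lit 0)))) (Nat.add (x (nat_lit 87) (nat_lit 0) (nat_lit 0)) (Nat.add (x (nat_lit 88) (nat_lit 0) (nat_lit 0)) (x (nat_lit 89) (nat_lit 0) (nat_lit 0))))) (Nat.add (Nat.add (x (nat_lit 90) (nat_lit 0) (nat_lit 0)) (Nat.add (x (nat_lit 91) (nat_lit 0) (nat_lit 0)) (x (nat_lit 92) (nat_lit 0) (nat_lit 0)))) (Nat.add (x (nat_lit 93) (nat_lit 0) (nat_lit 0)) (Nat.add (x (nat_lit 94) (nat_lit 0) (nat_lit 0)) (x (nat_lit 95) (nat_lit 0) (nat_lit 0)))))))))⟩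
  (TL.cons ⟨fun x => (Nat.add (Nat.add (Nat.add (Nat.add (Nat.add (Nat.add (x (nat_lit 0) (nat_lit 0) (nat_lit 0)) (Nat.add (x (nat_lit 1) (nat_lit 0) (nat_lit 0)) (x (nat_lit 2) (nat_lit 0) (nat_lit 0)))) (Nat.add (x (nat_lit 3) (nat_lit 0) (nat_lit 0)) (Nat.add (x (nat_lit 4) (nat_lit 0) (nat_lit 0)) (x (nat_lit 5) (nat_lit 0) (nat_lit 0))))) (Nat.add (Nat.add (x (nat_lit 6) (nat_lit 0) (nat_lit 0)) (Nat.add (x (nat_lit 7) (nat_lit 0) (nat_lit 0)) (x (nat_lit 8) (nat_lit 0) (nat_lit 0)))) (Nat.add (x (nat_lit 9) (nat_lit 0) (nat_lit 0)) (Nat.add (x (nat_lit 10) (nat_lit 0) (nat_lit 0)) (x (nat_lit 11) (nat_lit 0) (nat_lit 0)))))) (Nat.add (Nat.add (Nat.add (x (nat_lit 12) (nat_lit 0) (nat_lit 0)) (Nat.add (x (nat_lit 13) (nat_lit 0) (nat_lit 0)) (x (nat_lit 14) (nat_lit 0) (nat_lit 0)))) (Nat.add (x (nat_lit 15) (nat_lit 0) (nat_lit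 0)) (Nat.add (x (nat_lit 16) (nat_lit 0) (nat_lit 0)) (x (nat_lit 17) (nat_lit 0) (nat_lit 0))))) (Nat.add (Nat.add (x (nat_lit 18) (nat_lit 0) (nat_lit 0)) (Nat.add (x (nat_lit 19) (nat_lit 0) (nat_lit 0)) (x (nat_lit 20) (nat_lit 0) (nat_lit 0)))) (Nat.add (x (nat_lit 21) (nat_lit 0) (nat_lit 0)) (Nat.add (x (nat_lit 22) (nat_lit 0) (nat_lit 0)) (x (nat_lit 23) (nat_lit 0) (nat_lit 0))))))) (Nat.add (Nat.add (Nat.add (Nat.add (x (nat_lit 24) (nat_lit 0) (nat_lit 0)) (Nat.add (x (nat_lit 25) (nat_lit 0) (nat_lit 0)) (x (nat_lit 26) (nat_lit 0) (nat_lit 0)))) (Nat.add (x (nat_lit 27) (nat_lit 0) (nat_lit 0)) (Nat.add (x (nat_lit 28) (nat_lit 0) (nat_lit 0)) (x (nat_lit 29) (nat_lit 0) (nat_lit 0))))) (Nat.add (Nat.add (x (nat_lit 30) (nat_lit 0) (nat_lit 0)) (Nat.add (x (nat_lit 31) (nat_lit 0) (nat_lit 0)) (x (nat_lit 32) (nat_lit 0)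 (nat_lit 0)))) (Nat.add (x (nat_lit 33) (nat_lit 0) (nat_lit 0)) (Nat.add (x (nat_lit 34) (nat_lit 0) (nat_lit 0)) (x (nat_lit 35) (nat_lit 0) (nat_lit 0)))))) (Nat.add (Nat.add (Nat.add (x (nat_lit 36) (nat_lit 0) (nat_lit 0)) (Nat.add (x (nat_lit 37) (nat_lit 0) (nat_lit 0)) (x (nat_lit 38) (nat_lit 0) (nat_lit 0)))) (Nat.add (x (nat_lit 39) (nat_lit 0) (nat_lit 0)) (Nat.add (x (nat_lit 40) (nat_lit 0) (nat_lit 0)) (x (nat_lit 41) (nat_lit 0) (nat_lit 0))))) (Nat.add (Nat.add (x (nat_lit 42) (nat_lit 0) (nat_lit 0)) (Nat.add (x (nat_lit 43) (nat_lit 0) (nat_lit 0)) (x (nat_lit 44) (nat_lit 0) (nat_lit 0)))) (Nat.add (x (nat_lit 45) (nat_lit 0) (nat_lit 0)) (Nat.add (x (nat_lit 46) (nat_lit 0) (nat_lit 0)) (x (nat_lit 47) (nat_lit 0) (nat_lit 0)))))))) (Nat.add (Nat.add (Nat.add (Nat.add (Nat.add (x (nat_lit 48) (nat_lit 0) (nat_lit 0))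 (Nat.add (x (nat_lit 49) (nat_lit 0) (nat_lit 0)) (x (nat_lit 50) (nat_lit 0) (nat_lit 0)))) (Nat.add (x (nat_lit 51) (nat_lit 0) (nat_lit 0)) (Nat.add (x (nat_lit 52) (nat_lit 0) (nat_lit 0)) (x (nat_lit 53) (nat_lit 0) (nat_lit 0))))) (Nat.add (Nat.add (x (nat_lit 54) (nat_lit 0) (nat_lit 0)) (Nat.add (x (nat_lit 55) (nat_lit 0) (nat_lit 0)) (x (nat_lit 56) (nat_lit 0) (nat_lit 0)))) (Nat.add (x (nat_lit 57) (nat_lit 0) (nat_lit 0)) (Nat.add (x (nat_lit 58) (nat_lit 0) (nat_lit 0)) (x (nat_lit 59) (nat_lit 0) (nat_lit 0)))))) (Nat.add (Nat.add (Nat.add (x (nat_lit 60) (nat_lit 0) (nat_lit 0)) (Nat.add (x (nat_lit 61) (nat_lit 0) (nat_lit 0)) (x (nat_lit 62) (nat_lit 0) (nat_lit 0)))) (Nat.add (x (nat_lit 63) (nat_lit 0) (nat_lit 0)) (Nat.add (x (nat_lit 64) (nat_lit 0) (nat_lit 0)) (x (nat_lit 65) (nat_lit 0) (nat_lit 0))))) (Nat.add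 (Nat.add (x (nat_lit 66) (nat_lit 0) (nat_lit 0)) (Nat.add (x (nat_lit 67) (nat_lit 0) (nat_lit 0)) (x (nat_lit 68) (nat_lit 0) (nat_lit 0)))) (Nat.add (x (nat_lit 69) (nat_lit 0) (nat_lit 0)) (Nat.add (x (nat_lit 70) (nat_lit 0) (nat_lit 0)) (x (nat_lit 71) (nat_lit 0) (nat_lit 0))))))) (Nat.add (Nat.add (Nat.add (Nat.add (x (nat_lit 72) (nat_lit 0) (nat_lit 0)) (Nat.add (x (nat_lit 73) (nat_lit 0) (nat_lit 0)) (x (nat_lit 74) (nat_lit 0) (nat_lit 0)))) (Nat.add (x (nat_lit 75) (nat_lit 0) (nat_lit 0)) (Nat.add (x (nat_lit 76) (nat_lit 0) (nat_lit 0)) (x (nat_lit 77) (nat_lit 0) (nat_lit 0))))) (Nat.add (Nat.add (x (nat_lit 78) (nat_lit 0) (nat_lit 0)) (Nat.add (x (nat_lit 79) (nat_lit 0) (nat_lit 0)) (x (nat_lit 80) (nat_lit 0) (nat_lit 0)))) (Nat.add (x (nat_lit 81) (nat_lit 0) (nat_lit 0)) (Nat.add (x (nat_lit 82) (nat_lit 0) (nat_lit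 0)) (x (nat_lit 83) (nat_lit 0) (nat_lit 0)))))) (Nat.add (Nat.add (Nat.add (x (nat_lit 84) (nat_lit 0) (nat_lit 0)) (Nat.add (x (nat_lit 85) (nat_lit 0) (nat_lit 0)) (x (nat_lit 86) (nat_lit 0) (nat_lit 0)))) (Nat.add (x (nat_lit 87) (nat_lit 0) (nat_lit 0)) (Nat.add (x (nat_lit 88) (nat_lit 0) (nat_lit 0)) (x (nat_lit 89) (nat_lit 0) (nat_lit 0))))) (Nat.add (Nat.add (x (nat_lit 90) (nat_lit 0) (nat_lit 0)) (Nat.add (x (nat_lit 91) (nat_lit 0) (nat_lit 0)) (x (nat_lit 92) (nat_lit 0) (nat_lit 0)))) (Nat.add (Nat.add (x (nat_lit 93) (nat_lit 0) (nat_lit 0)) (x (nat_lit 94) (nat_lit 0) (nat_lit 0))) (Nat.add (x (nat_lit 95) (nat_lit 0) (nat_lit 0)) (x (nat_lit 96) (nat_lit 0) (nat_lit 0)))))))))⟩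
  (TL.cons ⟨fun x => (Nat.add (Nat.add (Nat.add (Nat.add (Nat.add (Nat.add (x (nat_lit 0) (nat_lit 0) (nat_lit 0)) (Nat.add (x (nat_lit 1) (nat_lit 0) (nat_lit 0)) (x (nat_lit 2) (nat_lit 0) (nat_lit 0)))) (Nat.add (x (nat_lit 3) (nat_lit 0) (nat_lit 0)) (Nat.add (x (nat_lit 4) (nat_lit 0) (nat_lit 0)) (x (nat_lit 5) (nat_lit 0) (nat_lit 0))))) (Nat.add (Nat.add (x (nat_lit 6) (nat_lit 0) (nat_lit 0)) (Nat.add (x (nat_lit 7) (nat_lit 0) (nat_lit 0)) (x (nat_lit 8) (nat_lit 0) (nat_lit 0)))) (Nat.add (x (nat_lit 9) (nat_lit 0) (nat_lit 0)) (Nat.add (x (nat_lit 10) (nat_lit 0) (nat_lit 0)) (x (nat_lit 11) (nat_lit 0) (nat_lit 0)))))) (Nat.add (Nat.add (Nat.add (x (nat_lit 12) (nat_lit 0) (nat_lit 0)) (Nat.add (x (nat_lit 13) (nat_lit 0) (nat_lit 0)) (x (nat_lit 14) (nat_lit 0) (nat_lit 0)))) (Nat.add (x (nat_lit 15) (nat_lit 0) (nat_lit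 0)) (Nat.add (x (nat_lit 16) (nat_lit 0) (nat_lit 0)) (x (nat_lit 17) (nat_lit 0) (nat_lit 0))))) (Nat.add (Nat.add (x (nat_lit 18) (nat_lit 0) (nat_lit 0)) (Nat.add (x (nat_lit 19) (nat_lit 0) (nat_lit 0)) (x (nat_lit 20) (nat_lit 0) (nat_lit 0)))) (Nat.add (x (nat_lit 21) (nat_lit 0) (nat_lit 0)) (Nat.add (x (nat_lit 22) (nat_lit 0) (nat_lit 0)) (x (nat_lit 23) (nat_lit 0) (nat_lit 0))))))) (Nat.add (Nat.add (Nat.add (Nat.add (x (nat_lit 24) (nat_lit 0) (nat_lit 0)) (Nat.add (x (nat_lit 25) (nat_lit 0) (nat_lit 0)) (x (nat_lit 26) (nat_lit 0) (nat_lit 0)))) (Nat.add (x (nat_lit 27) (nat_lit 0) (nat_lit 0)) (Nat.add (x (nat_lit 28) (nat_lit 0) (nat_lit 0)) (x (nat_lit 29) (nat_lit 0) (nat_lit 0))))) (Nat.add (Nat.add (x (nat_lit 30) (nat_lit 0) (nat_lit 0)) (Nat.add (x (nat_lit 31) (nat_lit 0) (nat_lit 0)) (x (nat_lit 32) (nat_lit 0)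 (nat_lit 0)))) (Nat.add (x (nat_lit 33) (nat_lit 0) (nat_lit 0)) (Nat.add (x (nat_lit 34) (nat_lit 0) (nat_lit 0)) (x (nat_lit 35) (nat_lit 0) (nat_lit 0)))))) (Nat.add (Nat.add (Nat.add (x (nat_lit 36) (nat_lit 0) (nat_lit 0)) (Nat.add (x (nat_lit 37) (nat_lit 0) (nat_lit 0)) (x (nat_lit 38) (nat_lit 0) (nat_lit 0)))) (Nat.add (x (nat_lit 39) (nat_lit 0) (nat_lit 0)) (Nat.add (x (nat_lit 40) (nat_lit 0) (nat_lit 0)) (x (nat_lit 41) (nat_lit 0) (nat_lit 0))))) (Nat.add (Nat.add (x (nat_lit 42) (nat_lit 0) (nat_lit 0)) (Nat.add (x (nat_lit 43) (nat_lit 0) (nat_lit 0)) (x (nat_lit 44) (nat_lit 0) (nat_lit 0)))) (Nat.add (Nat.add (x (nat_lit 45) (nat_lit 0) (nat_lit 0)) (x (nat_lit 46) (nat_lit 0) (nat_lit 0))) (Nat.add (x (nat_lit 47) (nat_lit 0) (nat_lit 0)) (x (nat_lit 48) (nat_lit 0) (nat_lit 0)))))))) (Nat.add (Nat.add (Nat.add (Nat.add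 (Nat.add (x (nat_lit 49) (nat_lit 0) (nat_lit 0)) (Nat.add (x (nat_lit 50) (nat_lit 0) (nat_lit 0)) (x (nat_lit 51) (nat_lit 0) (nat_lit 0)))) (Nat.add (x (nat_lit 52) (nat_lit 0) (nat_lit 0)) (Nat.add (x (nat_lit 53) (nat_lit 0) (nat_lit 0)) (x (nat_lit 54) (nat_lit 0) (nat_lit 0))))) (Nat.add (Nat.add (x (nat_lit 55) (nat_lit 0) (nat_lit 0)) (Nat.add (x (nat_lit 56) (nat_lit 0) (nat_lit 0)) (x (nat_lit 57) (nat_lit 0) (nat_lit 0)))) (Nat.add (x (nat_lit 58) (nat_lit 0) (nat_lit 0)) (Nat.add (x (nat_lit 59) (nat_lit 0) (nat_lit 0)) (x (nat_lit 60) (nat_lit 0) (nat_lit 0)))))) (Nat.add (Nat.add (Nat.add (x (nat_lit 61) (nat_lit 0) (nat_lit 0)) (Nat.add (x (nat_lit 62) (nat_lit 0) (nat_lit 0)) (x (nat_lit 63) (nat_lit 0) (nat_lit 0)))) (Nat.add (x (nat_lit 64) (nat_lit 0) (nat_lit 0)) (Nat.add (x (nat_lit 65) (nat_lit 0) (nat_lit 0)) (x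 (nat_lit 66) (nat_lit 0) (nat_lit 0))))) (Nat.add (Nat.add (x (nat_lit 67) (nat_lit 0) (nat_lit 0)) (Nat.add (x (nat_lit 68) (nat_lit 0) (nat_lit 0)) (x (nat_lit 69) (nat_lit 0) (nat_lit 0)))) (Nat.add (x (nat_lit 70) (nat_lit 0) (nat_lit 0)) (Nat.add (x (nat_lit 71) (nat_lit 0) (nat_lit 0)) (x (nat_lit 72) (nat_lit 0) (nat_lit 0))))))) (Nat.add (Nat.add (Nat.add (Nat.add (x (nat_lit 73) (nat_lit 0) (nat_lit 0)) (Nat.add (x (nat_lit 74) (nat_lit 0) (nat_lit 0)) (x (nat_lit 75) (nat_lit 0) (nat_lit 0)))) (Nat.add (x (nat_lit 76) (nat_lit 0) (nat_lit 0)) (Nat.add (x (nat_lit 77) (nat_lit 0) (nat_lit 0)) (x (nat_lit 78) (nat_lit 0) (nat_lit 0))))) (Nat.add (Nat.add (x (nat_lit 79) (nat_lit 0) (nat_lit 0)) (Nat.add (x (nat_lit 80) (nat_lit 0) (nat_lit 0)) (x (nat_lit 81) (nat_lit 0) (nat_lit 0)))) (Nat.add (x (nat_lit 82) (nat_lit 0) (nat_lit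 0)) (Nat.add (x (nat_lit 83) (nat_lit 0) (nat_lit 0)) (x (nat_lit 84) (nat_lit 0) (nat_lit 0)))))) (Nat.add (Nat.add (Nat.add (x (nat_lit 85) (nat_lit 0) (nat_lit 0)) (Nat.add (x (nat_lit 86) (nat_lit 0) (nat_lit 0)) (x (nat_lit 87) (nat_lit 0) (nat_lit 0)))) (Nat.add (x (nat_lit 88) (nat_lit 0) (nat_lit 0)) (Nat.add (x (nat_lit 89) (nat_lit 0) (nat_lit 0)) (x (nat_lit 90) (nat_lit 0) (nat_lit 0))))) (Nat.add (Nat.add (x (nat_lit 91) (nat_lit 0) (nat_lit 0)) (Nat.add (x (nat_lit 92) (nat_lit 0) (nat_lit 0)) (x (nat_lit 93) (nat_lit 0) (nat_lit 0)))) (Nat.add (Nat.add (x (nat_lit 94) (nat_lit 0) (nat_lit 0)) (x (nat_lit 95) (nat_lit 0) (nat_lit 0))) (Nat.add (x (nat_lit 96) (nat_lit 0) (nat_lit 0)) (x (nat_lit 97) (nat_lit 0) (nat_lit 0)))))))))⟩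
  (TL.cons ⟨fun x => (Nat.add (Nat.add (Nat.add (Nat.add (Nat.add (Nat.add (x (nat_lit 0) (nat_lit 0) (nat_lit 0)) (Nat.add (x (nat_lit 1) (nat_lit 0) (nat_lit 0)) (x (nat_lit 2) (nat_lit 0) (nat_lit 0)))) (Nat.add (x (nat_lit 3) (nat_lit 0) (nat_lit 0)) (Nat.add (x (nat_lit 4) (nat_lit 0) (nat_lit 0)) (x (nat_lit 5) (nat_lit 0) (nat_lit 0))))) (Nat.add (Nat.add (x (nat_lit 6) (nat_lit 0) (nat_lit 0)) (Nat.add (x (nat_lit 7) (nat_lit 0) (nat_lit 0)) (x (nat_lit 8) (nat_lit 0) (nat_lit 0)))) (Nat.add (x (nat_lit 9) (nat_lit 0) (nat_lit 0)) (Nat.add (x (nat_lit 10) (nat_lit 0) (nat_lit 0)) (x (nat_lit 11) (nat_lit 0) (nat_lit 0)))))) (Nat.add (Nat.add (Nat.add (x (nat_lit 12) (nat_lit 0) (nat_lit 0)) (Nat.add (x (nat_lit 13) (nat_lit 0) (nat_lit 0)) (x (nat_lit 14) (nat_lit 0) (nat_lit 0)))) (Nat.add (x (nat_lit 15) (nat_lit 0) (nat_lit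 0)) (Nat.add (x (nat_lit 16) (nat_lit 0) (nat_lit 0)) (x (nat_lit 17) (nat_lit 0) (nat_lit 0))))) (Nat.add (Nat.add (x (nat_lit 18) (nat_lit 0) (nat_lit 0)) (Nat.add (x (nat_lit 19) (nat_lit 0) (nat_lit 0)) (x (nat_lit 20) (nat_lit 0) (nat_lit 0)))) (Nat.add (x (nat_lit 21) (nat_lit 0) (nat_lit 0)) (Nat.add (x (nat_lit 22) (nat_lit 0) (nat_lit 0)) (x (nat_lit 23) (nat_lit 0) (nat_lit 0))))))) (Nat.add (Nat.add (Nat.add (Nat.add (x (nat_lit 24) (nat_lit 0) (nat_lit 0)) (Nat.add (x (nat_lit 25) (nat_lit 0) (nat_lit 0)) (x (nat_lit 26) (nat_lit 0) (nat_lit 0)))) (Nat.add (x (nat_lit 27) (nat_lit 0) (nat_lit 0)) (Nat.add (x (nat_lit 28) (nat_lit 0) (nat_lit 0)) (x (nat_lit 29) (nat_lit 0) (nat_lit 0))))) (Nat.add (Nat.add (x (nat_lit 30) (nat_lit 0) (nat_lit 0)) (Nat.add (x (nat_lit 31) (nat_lit 0) (nat_lit 0)) (x (nat_lit 32) (nat_lit 0)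 (nat_lit 0)))) (Nat.add (x (nat_lit 33) (nat_lit 0) (nat_lit 0)) (Nat.add (x (nat_lit 34) (nat_lit 0) (nat_lit 0)) (x (nat_lit 35) (nat_lit 0) (nat_lit 0)))))) (Nat.add (Nat.add (Nat.add (x (nat_lit 36) (nat_lit 0) (nat_lit 0)) (Nat.add (x (nat_lit 37) (nat_lit 0) (nat_lit 0)) (x (nat_lit 38) (nat_lit 0) (nat_lit 0)))) (Nat.add (x (nat_lit 39) (nat_lit 0) (nat_lit 0)) (Nat.add (x (nat_lit 40) (nat_lit 0) (nat_lit 0)) (x (nat_lit 41) (nat_lit 0) (nat_lit 0))))) (Nat.add (Nat.add (x (nat_lit 42) (nat_lit 0) (nat_lit 0)) (Nat.add (x (nat_lit 43) (nat_lit 0) (nat_lit 0)) (x (nat_lit 44) (nat_lit 0) (nat_lit 0)))) (Nat.add (Nat.add (x (nat_lit 45) (nat_lit 0) (nat_lit 0)) (x (nat_lit 46) (nat_lit 0) (nat_lit 0))) (Nat.add (x (nat_lit 47) (nat_lit 0) (nat_lit 0)) (x (nat_lit 48) (nat_lit 0) (nat_lit 0)))))))) (Nat.add (Nat.add (Nat.add (Nat.add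 (Nat.add (x (nat_lit 49) (nat_lit 0) (nat_lit 0)) (Nat.add (x (nat_lit 50) (nat_lit 0) (nat_lit 0)) (x (nat_lit 51) (nat_lit 0) (nat_lit 0)))) (Nat.add (x (nat_lit 52) (nat_lit 0) (nat_lit 0)) (Nat.add (x (nat_lit 53) (nat_lit 0) (nat_lit 0)) (x (nat_lit 54) (nat_lit 0) (nat_lit 0))))) (Nat.add (Nat.add (x (nat_lit 55) (nat_lit 0) (nat_lit 0)) (Nat.add (x (nat_lit 56) (nat_lit 0) (nat_lit 0)) (x (nat_lit 57) (nat_lit 0) (nat_lit 0)))) (Nat.add (x (nat_lit 58) (nat_lit 0) (nat_lit 0)) (Nat.add (x (nat_lit 59) (nat_lit 0) (nat_lit 0)) (x (nat_lit 60) (nat_lit 0) (nat_lit 0)))))) (Nat.add (Nat.add (Nat.add (x (nat_lit 61) (nat_lit 0) (nat_lit 0)) (Nat.add (x (nat_lit 62) (nat_lit 0) (nat_lit 0)) (x (nat_lit 63) (nat_lit 0) (nat_lit 0)))) (Nat.add (x (nat_lit 64) (nat_lit 0) (nat_lit 0)) (Nat.add (x (nat_lit 65) (nat_lit 0) (nat_lit 0)) (x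 (nat_lit 66) (nat_lit 0) (nat_lit 0))))) (Nat.add (Nat.add (x (nat_lit 67) (nat_lit 0) (nat_lit 0)) (Nat.add (x (nat_lit 68) (nat_lit 0) (nat_lit 0)) (x (nat_lit 69) (nat_lit 0) (nat_lit 0)))) (Nat.add (Nat.add (x (nat_lit 70) (nat_lit 0) (nat_lit 0)) (x (nat_lit 71) (nat_lit 0) (nat_lit 0))) (Nat.add (x (nat_lit 72) (nat_lit 0) (nat_lit 0)) (x (nat_lit 73) (nat_lit 0) (nat_lit 0))))))) (Nat.add (Nat.add (Nat.add (Nat.add (x (nat_lit 74) (nat_lit 0) (nat_lit 0)) (Nat.add (x (nat_lit 75) (nat_lit 0) (nat_lit 0)) (x (nat_lit 76) (nat_lit 0) (nat_lit 0)))) (Nat.add (x (nat_lit 77) (nat_lit 0) (nat_lit 0)) (Nat.add (x (nat_lit 78) (nat_lit 0) (nat_lit 0)) (x (nat_lit 79) (nat_lit 0) (nat_lit 0))))) (Nat.add (Nat.add (x (nat_lit 80) (nat_lit 0) (nat_lit 0)) (Nat.add (x (nat_lit 81) (nat_lit 0) (nat_lit 0)) (x (nat_lit 82) (nat_lit 0) (nat_lit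 0)))) (Nat.add (x (nat_lit 83) (nat_lit 0) (nat_lit 0)) (Nat.add (x (nat_lit 84) (nat_lit 0) (nat_lit 0)) (x (nat_lit 85) (nat_lit 0) (nat_lit 0)))))) (Nat.add (Nat.add (Nat.add (x (nat_lit 86) (nat_lit 0) (nat_lit 0)) (Nat.add (x (nat_lit 87) (nat_lit 0) (nat_lit 0)) (x (nat_lit 88) (nat_lit 0) (nat_lit 0)))) (Nat.add (x (nat_lit 89) (nat_lit 0) (nat_lit 0)) (Nat.add (x (nat_lit 90) (nat_lit 0) (nat_lit 0)) (x (nat_lit 91) (nat_lit 0) (nat_lit 0))))) (Nat.add (Nat.add (x (nat_lit 92) (nat_lit 0) (nat_lit 0)) (Nat.add (x (nat_lit 93) (nat_lit 0) (nat_lit 0)) (x (nat_lit 94) (nat_lit 0) (nat_lit 0)))) (Nat.add (Nat.add (x (nat_lit 95) (nat_lit 0) (nat_lit 0)) (x (nat_lit 96) (nat_lit 0) (nat_lit 0))) (Nat.add (x (nat_lit 97) (nat_lit 0) (nat_lit 0)) (x (nat_lit 98) (nat_lit 0) (nat_lit 0)))))))))⟩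
  (TL.cons ⟨fun x => (Nat.add (Nat.add (Nat.add (Nat.add (Nat.add (Nat.add (x (nat_lit 0) (nat_lit 0) (nat_lit 0)) (Nat.add (x (nat_lit 1) (nat_lit 0) (nat_lit 0)) (x (nat_lit 2) (nat_lit 0) (nat_lit 0)))) (Nat.add (x (nat_lit 3) (nat_lit 0) (nat_lit 0)) (Nat.add (x (nat_lit 4) (nat_lit 0) (nat_lit 0)) (x (nat_lit 5) (nat_lit 0) (nat_lit 0))))) (Nat.add (Nat.add (x (nat_lit 6) (nat_lit 0) (nat_lit 0)) (Nat.add (x (nat_lit 7) (nat_lit 0) (nat_lit 0)) (x (nat_lit 8) (nat_lit 0) (nat_lit 0)))) (Nat.add (x (nat_lit 9) (nat_lit 0) (nat_lit 0)) (Nat.add (x (nat_lit 10) (nat_lit 0) (nat_lit 0)) (x (nat_lit 11) (nat_lit 0) (nat_lit 0)))))) (Nat.add (Nat.add (Nat.add (x (nat_lit 12) (nat_lit 0) (nat_lit 0)) (Nat.add (x (nat_lit 13) (nat_lit 0) (nat_lit 0)) (x (nat_lit 14) (nat_lit 0) (nat_lit 0)))) (Nat.add (x (nat_lit 15) (nat_lit 0) (nat_lit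 0)) (Nat.add (x (nat_lit 16) (nat_lit 0) (nat_lit 0)) (x (nat_lit 17) (nat_lit 0) (nat_lit 0))))) (Nat.add (Nat.add (x (nat_lit 18) (nat_lit 0) (nat_lit 0)) (Nat.add (x (nat_lit 19) (nat_lit 0) (nat_lit 0)) (x (nat_lit 20) (nat_lit 0) (nat_lit 0)))) (Nat.add (Nat.add (x (nat_lit 21) (nat_lit 0) (nat_lit 0)) (x (nat_lit 22) (nat_lit 0) (nat_lit 0))) (Nat.add (x (nat_lit 23) (nat_lit 0) (nat_lit 0)) (x (nat_lit 24) (nat_lit 0) (nat_lit 0))))))) (Nat.add (Nat.add (Nat.add (Nat.add (x (nat_lit 25) (nat_lit 0) (nat_lit 0)) (Nat.add (x (nat_lit 26) (nat_lit 0) (nat_lit 0)) (x (nat_lit 27) (nat_lit 0) (nat_lit 0)))) (Nat.add (x (nat_lit 28) (nat_lit 0) (nat_lit 0)) (Nat.add (x (nat_lit 29) (nat_lit 0) (nat_lit 0)) (x (nat_lit 30) (nat_lit 0) (nat_lit 0))))) (Nat.add (Nat.add (x (nat_lit 31) (nat_lit 0) (nat_lit 0)) (Nat.add (x (nat_lit 32) (nat_lit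 0) (nat_lit 0)) (x (nat_lit 33) (nat_lit 0) (nat_lit 0)))) (Nat.add (x (nat_lit 34) (nat_lit 0) (nat_lit 0)) (Nat.add (x (nat_lit 35) (nat_lit 0) (nat_lit 0)) (x (nat_lit 36) (nat_lit 0) (nat_lit 0)))))) (Nat.add (Nat.add (Nat.add (x (nat_lit 37) (nat_lit 0) (nat_lit 0)) (Nat.add (x (nat_lit 38) (nat_lit 0) (nat_lit 0)) (x (nat_lit 39) (nat_lit 0) (nat_lit 0)))) (Nat.add (x (nat_lit 40) (nat_lit 0) (nat_lit 0)) (Nat.add (x (nat_lit 41) (nat_lit 0) (nat_lit 0)) (x (nat_lit 42) (nat_lit 0) (nat_lit 0))))) (Nat.add (Nat.add (x (nat_lit 43) (nat_lit 0) (nat_lit 0)) (Nat.add (x (nat_lit 44) (nat_lit 0) (nat_lit 0)) (x (nat_lit 45) (nat_lit 0) (nat_lit 0)))) (Nat.add (Nat.add (x (nat_lit 46) (nat_lit 0) (nat_lit 0)) (x (nat_lit 47) (nat_lit 0) (nat_lit 0))) (Nat.add (x (nat_lit 48) (nat_lit 0) (nat_lit 0)) (x (nat_lit 49) (nat_lit 0) (nat_lit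 0)))))))) (Nat.add (Nat.add (Nat.add (Nat.add (Nat.add (x (nat_lit 50) (nat_lit 0) (nat_lit 0)) (Nat.add (x (nat_lit 51) (nat_lit 0) (nat_lit 0)) (x (nat_lit 52) (nat_lit 0) (nat_lit 0)))) (Nat.add (x (nat_lit 53) (nat_lit 0) (nat_lit 0)) (Nat.add (x (nat_lit 54) (nat_lit 0) (nat_lit 0)) (x (nat_lit 55) (nat_lit 0) (nat_lit 0))))) (Nat.add (Nat.add (x (nat_lit 56) (nat_lit 0) (nat_lit 0)) (Nat.add (x (nat_lit 57) (nat_lit 0) (nat_lit 0)) (x (nat_lit 58) (nat_lit 0) (nat_lit 0)))) (Nat.add (x (nat_lit 59) (nat_lit 0) (nat_lit 0)) (Nat.add (x (nat_lit 60) (nat_lit 0) (nat_lit 0)) (x (nat_lit 61) (nat_lit 0) (nat_lit 0)))))) (Nat.add (Nat.add (Nat.add (x (nat_lit 62) (nat_lit 0) (nat_lit 0)) (Nat.add (x (nat_lit 63) (nat_lit 0) (nat_lit 0)) (x (nat_lit 64) (nat_lit 0) (nat_lit 0)))) (Nat.add (x (nat_lit 65) (nat_lit 0) (nat_lit 0)) (Nat.add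 (x (nat_lit 66) (nat_lit 0) (nat_lit 0)) (x (nat_lit 67) (nat_lit 0) (nat_lit 0))))) (Nat.add (Nat.add (x (nat_lit 68) (nat_lit 0) (nat_lit 0)) (Nat.add (x (nat_lit 69) (nat_lit 0) (nat_lit 0)) (x (nat_lit 70) (nat_lit 0) (nat_lit 0)))) (Nat.add (Nat.add (x (nat_lit 71) (nat_lit 0) (nat_lit 0)) (x (nat_lit 72) (nat_lit 0) (nat_lit 0))) (Nat.add (x (nat_lit 73) (nat_lit 0) (nat_lit 0)) (x (nat_lit 74) (nat_lit 0) (nat_lit 0))))))) (Nat.add (Nat.add (Nat.add (Nat.add (x (nat_lit 75) (nat_lit 0) (nat_lit 0)) (Nat.add (x (nat_lit 76) (nat_lit 0) (nat_lit 0)) (x (nat_lit 77) (nat_lit 0) (nat_lit 0)))) (Nat.add (x (nat_lit 78) (nat_lit 0) (nat_lit 0)) (Nat.add (x (nat_lit 79) (nat_lit 0) (nat_lit 0)) (x (nat_lit 80) (nat_lit 0) (nat_lit 0))))) (Nat.add (Nat.add (x (nat_lit 81) (nat_lit 0) (nat_lit 0)) (Nat.add (x (nat_lit 82) (nat_lit 0) (nat_lit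 0)) (x (nat_lit 83) (nat_lit 0) (nat_lit 0)))) (Nat.add (x (nat_lit 84) (nat_lit 0) (nat_lit 0)) (Nat.add (x (nat_lit 85) (nat_lit 0) (nat_lit 0)) (x (nat_lit 86) (nat_lit 0) (nat_lit 0)))))) (Nat.add (Nat.add (Nat.add (x (nat_lit 87) (nat_lit 0) (nat_lit 0)) (Nat.add (x (nat_lit 88) (nat_lit 0) (nat_lit 0)) (x (nat_lit 89) (nat_lit 0) (nat_lit 0)))) (Nat.add (x (nat_lit 90) (nat_lit 0) (nat_lit 0)) (Nat.add (x (nat_lit 91) (nat_lit 0) (nat_lit 0)) (x (nat_lit 92) (nat_lit 0) (nat_lit 0))))) (Nat.add (Nat.add (x (nat_lit 93) (nat_lit 0) (nat_lit 0)) (Nat.add (x (nat_lit 94) (nat_lit 0) (nat_lit 0)) (x (nat_lit 95) (nat_lit 0) (nat_lit 0)))) (Nat.add (Nat.add (x (nat_lit 96) (nat_lit 0) (nat_lit 0)) (x (nat_lit 97) (nat_lit 0) (nat_lit 0))) (Nat.add (x (nat_lit 98) (nat_lit 0) (nat_lit 0)) (x (nat_lit 99) (nat_lit 0) (nat_lit 0)))))))))⟩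
  (TL.cons ⟨fun x => (Nat.add (Nat.add (Nat.add (Nat.add (Nat.add (Nat.add (x (nat_lit 0) (nat_lit 0) (nat_lit 0)) (Nat.add (x (nat_lit 1) (nat_lit 0) (nat_lit 0)) (x (nat_lit 2) (nat_lit 0) (nat_lit 0)))) (Nat.add (x (nat_lit 3) (nat_lit 0) (nat_lit 0)) (Nat.add (x (nat_lit 4) (nat_lit 0) (nat_lit 0)) (x (nat_lit 5) (nat_lit 0) (nat_lit 0))))) (Nat.add (Nat.add (x (nat_lit 6) (nat_lit 0) (nat_lit 0)) (Nat.add (x (nat_lit 7) (nat_lit 0) (nat_lit 0)) (x (nat_lit 8) (nat_lit 0) (nat_lit 0)))) (Nat.add (x (nat_lit 9) (nat_lit 0) (nat_lit 0)) (Nat.add (x (nat_lit 10) (nat_lit 0) (nat_lit 0)) (x (nat_lit 11) (nat_lit 0) (nat_lit 0)))))) (Nat.add (Nat.add (Nat.add (x (nat_lit 12) (nat_lit 0) (nat_lit 0)) (Nat.add (x (nat_lit 13) (nat_lit 0) (nat_lit 0)) (x (nat_lit 14) (nat_lit 0) (nat_lit 0)))) (Nat.add (x (nat_lit 15) (nat_lit 0) (nat_lit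 0)) (Nat.add (x (nat_lit 16) (nat_lit 0) (nat_lit 0)) (x (nat_lit 17) (nat_lit 0) (nat_lit 0))))) (Nat.add (Nat.add (x (nat_lit 18) (nat_lit 0) (nat_lit 0)) (Nat.add (x (nat_lit 19) (nat_lit 0) (nat_lit 0)) (x (nat_lit 20) (nat_lit 0) (nat_lit 0)))) (Nat.add (Nat.add (x (nat_lit 21) (nat_lit 0) (nat_lit 0)) (x (nat_lit 22) (nat_lit 0) (nat_lit 0))) (Nat.add (x (nat_lit 23) (nat_lit 0) (nat_lit 0)) (x (nat_lit 24) (nat_lit 0) (nat_lit 0))))))) (Nat.add (Nat.add (Nat.add (Nat.add (x (nat_lit 25) (nat_lit 0) (nat_lit 0)) (Nat.add (x (nat_lit 26) (nat_lit 0) (nat_lit 0)) (x (nat_lit 27) (nat_lit 0) (nat_lit 0)))) (Nat.add (x (nat_lit 28) (nat_lit 0) (nat_lit 0)) (Nat.add (x (nat_lit 29) (nat_lit 0) (nat_lit 0)) (x (nat_lit 30) (nat_lit 0) (nat_lit 0))))) (Nat.add (Nat.add (x (nat_lit 31) (nat_lit 0) (nat_lit 0)) (Nat.add (x (nat_lit 32) (nat_lit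 0) (nat_lit 0)) (x (nat_lit 33) (nat_lit 0) (nat_lit 0)))) (Nat.add (x (nat_lit 34) (nat_lit 0) (nat_lit 0)) (Nat.add (x (nat_lit 35) (nat_lit 0) (nat_lit 0)) (x (nat_lit 36) (nat_lit 0) (nat_lit 0)))))) (Nat.add (Nat.add (Nat.add (x (nat_lit 37) (nat_lit 0) (nat_lit 0)) (Nat.add (x (nat_lit 38) (nat_lit 0) (nat_lit 0)) (x (nat_lit 39) (nat_lit 0) (nat_lit 0)))) (Nat.add (x (nat_lit 40) (nat_lit 0) (nat_lit 0)) (Nat.add (x (nat_lit 41) (nat_lit 0) (nat_lit 0)) (x (nat_lit 42) (nat_lit 0) (nat_lit 0))))) (Nat.add (Nat.add (x (nat_lit 43) (nat_lit 0) (nat_lit 0)) (Nat.add (x (nat_lit 44) (nat_lit 0) (nat_lit 0)) (x (nat_lit 45) (nat_lit 0) (nat_lit 0)))) (Nat.add (Nat.add (x (nat_lit 46) (nat_lit 0) (nat_lit 0)) (x (nat_lit 47) (nat_lit 0) (nat_lit 0))) (Nat.add (x (nat_lit 48) (nat_lit 0) (nat_lit 0)) (x (nat_lit 49) (nat_lit 0) (nat_lit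 0)))))))) (Nat.add (Nat.add (Nat.add (Nat.add (Nat.add (x (nat_lit 50) (nat_lit 0) (nat_lit 0)) (Nat.add (x (nat_lit 51) (nat_lit 0) (nat_lit 0)) (x (nat_lit 52) (nat_lit 0) (nat_lit 0)))) (Nat.add (x (nat_lit 53) (nat_lit 0) (nat_lit 0)) (Nat.add (x (nat_lit 54) (nat_lit 0) (nat_lit 0)) (x (nat_lit 55) (nat_lit 0) (nat_lit 0))))) (Nat.add (Nat.add (x (nat_lit 56) (nat_lit 0) (nat_lit 0)) (Nat.add (x (nat_lit 57) (nat_lit 0) (nat_lit 0)) (x (nat_lit 58) (nat_lit 0) (nat_lit 0)))) (Nat.add (x (nat_lit 59) (nat_lit 0) (nat_lit 0)) (Nat.add (x (nat_lit 60) (nat_lit 0) (nat_lit 0)) (x (nat_lit 61) (nat_lit 0) (nat_lit 0)))))) (Nat.add (Nat.add (Nat.add (x (nat_lit 62) (nat_lit 0) (nat_lit 0)) (Nat.add (x (nat_lit 63) (nat_lit 0) (nat_lit 0)) (x (nat_lit 64) (nat_lit 0) (nat_lit 0)))) (Nat.add (x (nat_lit 65) (nat_lit 0) (nat_lit 0)) (Nat.add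 (x (nat_lit 66) (nat_lit 0) (nat_lit 0)) (x (nat_lit 67) (nat_lit 0) (nat_lit 0))))) (Nat.add (Nat.add (x (nat_lit 68) (nat_lit 0) (nat_lit 0)) (Nat.add (x (nat_lit 69) (nat_lit 0) (nat_lit 0)) (x (nat_lit 70) (nat_lit 0) (nat_lit 0)))) (Nat.add (Nat.add (x (nat_lit 71) (nat_lit 0) (nat_lit 0)) (x (nat_lit 72) (nat_lit 0) (nat_lit 0))) (Nat.add (x (nat_lit 73) (nat_lit 0) (nat_lit 0)) (x (nat_lit 74) (nat_lit 0) (nat_lit 0))))))) (Nat.add (Nat.add (Nat.add (Nat.add (x (nat_lit 75) (nat_lit 0) (nat_lit 0)) (Nat.add (x (nat_lit 76) (nat_lit 0) (nat_lit 0)) (x (nat_lit 77) (nat_lit 0) (nat_lit 0)))) (Nat.add (x (nat_lit 78) (nat_lit 0) (nat_lit 0)) (Nat.add (x (nat_lit 79) (nat_lit 0) (nat_lit 0)) (x (nat_lit 80) (nat_lit 0) (nat_lit 0))))) (Nat.add (Nat.add (x (nat_lit 81) (nat_lit 0) (nat_lit 0)) (Nat.add (x (nat_lit 82) (nat_lit 0) (nat_lit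 0)) (x (nat_lit 83) (nat_lit 0) (nat_lit 0)))) (Nat.add (Nat.add (x (nat_lit 84) (nat_lit 0) (nat_lit 0)) (x (nat_lit 85) (nat_lit 0) (nat_lit 0))) (Nat.add (x (nat_lit 86) (nat_lit 0) (nat_lit 0)) (x (nat_lit 87) (nat_lit 0) (nat_lit 0)))))) (Nat.add (Nat.add (Nat.add (x (nat_lit 88) (nat_lit 0) (nat_lit 0)) (Nat.add (x (nat_lit 89) (nat_lit 0) (nat_lit 0)) (x (nat_lit 90) (nat_lit 0) (nat_lit 0)))) (Nat.add (x (nat_lit 91) (nat_lit 0) (nat_lit 0)) (Nat.add (x (nat_lit 92) (nat_lit 0) (nat_lit 0)) (x (nat_lit 93) (nat_lit 0) (nat_lit 0))))) (Nat.add (Nat.add (x (nat_lit 94) (nat_lit 0) (nat_lit 0)) (Nat.add (x (nat_lit 95) (nat_lit 0) (nat_lit 0)) (x (nat_lit 96) (nat_lit 0) (nat_lit 0)))) (Nat.add (Nat.add (x (nat_lit 97) (nat_lit 0) (nat_lit 0)) (x (nat_lit 98) (nat_lit 0) (nat_lit 0))) (Nat.add (x (nat_lit 99) (nat_lit 0) (nat_lit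 0)) (x (nat_lit 100) (nat_lit 0) (nat_lit 0)))))))))⟩
  (TL.cons ⟨fun x => (Nat.add (Nat.add (Nat.add (Nat.add (Nat.add (Nat.add (x (nat_lit 0) (nat_lit 0) (nat_lit 0)) (Nat.add (x (nat_lit 1) (nat_lit 0) (nat_lit 0)) (x (nat_lit 2) (nat_lit 0) (nat_lit 0)))) (Nat.add (x (nat_lit 3) (nat_lit 0) (nat_lit 0)) (Nat.add (x (nat_lit 4) (nat_lit 0) (nat_lit 0)) (x (nat_lit 5) (nat_lit 0) (nat_lit 0))))) (Nat.add (Nat.add (x (nat_lit 6) (nat_lit 0) (nat_lit 0)) (Nat.add (x (nat_lit 7) (nat_lit 0) (nat_lit 0)) (x (nat_lit 8) (nat_lit 0) (nat_lit 0)))) (Nat.add (x (nat_lit 9) (nat_lit 0) (nat_lit 0)) (Nat.add (x (nat_lit 10) (nat_lit 0) (nat_lit 0)) (x (nat_lit 11) (nat_lit 0) (nat_lit 0)))))) (Nat.add (Nat.add (Nat.add (x (nat_lit 12) (nat_lit 0) (nat_lit 0)) (Nat.add (x (nat_lit 13) (nat_lit 0) (nat_lit 0)) (x (nat_lit 14) (nat_lit 0) (nat_lit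 0)))) (Nat.add (x (nat_lit 15) (nat_lit 0) (nat_lit 0)) (Nat.add (x (nat_lit 16) (nat_lit 0) (nat_lit 0)) (x (nat_lit 17) (nat_lit 0) (nat_lit 0))))) (Nat.add (Nat.add (x (nat_lit 18) (nat_lit 0) (nat_lit 0)) (Nat.add (x (nat_lit 19) (nat_lit 0) (nat_lit 0)) (x (nat_lit 20) (nat_lit 0) (nat_lit 0)))) (Nat.add (Nat.add (x (nat_lit 21) (nat_lit 0) (nat_lit 0)) (x (nat_lit 22) (nat_lit 0) (nat_lit 0))) (Nat.add (x (nat_lit 23) (nat_lit 0) (nat_lit 0)) (x (nat_lit 24) (nat_lit 0) (nat_lit 0))))))) (Nat.add (Nat.add (Nat.add (Nat.add (x (nat_lit 25) (nat_lit 0) (nat_lit 0)) (Nat.add (x (nat_lit 26) (nat_lit 0) (nat_lit 0)) (x (nat_lit 27) (nat_lit 0) (nat_lit 0)))) (Nat.add (x (nat_lit 28) (nat_lit 0) (nat_lit 0)) (Nat.add (x (nat_lit 29) (nat_lit 0) (nat_lit 0)) (x (nat_lit 30) (nat_lit 0) (nat_lit 0))))) (Nat.add (Nat.add (x (nat_lit 31)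 (nat_lit 0) (nat_lit 0)) (Nat.add (x (nat_lit 32) (nat_lit 0) (nat_lit 0)) (x (nat_lit 33) (nat_lit 0) (nat_lit 0)))) (Nat.add (Nat.add (x (nat_lit 34) (nat_lit 0) (nat_lit 0)) (x (nat_lit 35) (nat_lit 0) (nat_lit 0))) (Nat.add (x (nat_lit 36) (nat_lit 0) (nat_lit 0)) (x (nat_lit 37) (nat_lit 0) (nat_lit 0)))))) (Nat.add (Nat.add (Nat.add (x (nat_lit 38) (nat_lit 0) (nat_lit 0)) (Nat.add (x (nat_lit 39) (nat_lit 0) (nat_lit 0)) (x (nat_lit 40) (nat_lit 0) (nat_lit 0)))) (Nat.add (x (nat_lit 41) (nat_lit 0) (nat_lit 0)) (Nat.add (x (nat_lit 42) (nat_lit 0) (nat_lit 0)) (x (nat_lit 43) (nat_lit 0) (nat_lit 0))))) (Nat.add (Nat.add (x (nat_lit 44) (nat_lit 0) (nat_lit 0)) (Nat.add (x (nat_lit 45) (nat_lit 0) (nat_lit 0)) (x (nat_lit 46) (nat_lit 0) (nat_lit 0)))) (Nat.add (Nat.add (x (nat_lit 47) (nat_lit 0) (nat_lit 0)) (x (nat_lit 48) (nat_lit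 0) (nat_lit 0))) (Nat.add (x (nat_lit 49) (nat_lit 0) (nat_lit 0)) (x (nat_lit 50) (nat_lit 0) (nat_lit 0)))))))) (Nat.add (Nat.add (Nat.add (Nat.add (Nat.add (x (nat_lit 51) (nat_lit 0) (nat_lit 0)) (Nat.add (x (nat_lit 52) (nat_lit 0) (nat_lit 0)) (x (nat_lit 53) (nat_lit 0) (nat_lit 0)))) (Nat.add (x (nat_lit 54) (nat_lit 0) (nat_lit 0)) (Nat.add (x (nat_lit 55) (nat_lit 0) (nat_lit 0)) (x (nat_lit 56) (nat_lit 0) (nat_lit 0))))) (Nat.add (Nat.add (x (nat_lit 57) (nat_lit 0) (nat_lit 0)) (Nat.add (x (nat_lit 58) (nat_lit 0) (nat_lit 0)) (x (nat_lit 59) (nat_lit 0) (nat_lit 0)))) (Nat.add (x (nat_lit 60) (nat_lit 0) (nat_lit 0)) (Nat.add (x (nat_lit 61) (nat_lit 0) (nat_lit 0)) (x (nat_lit 62) (nat_lit 0) (nat_lit 0)))))) (Nat.add (Nat.add (Nat.add (x (nat_lit 63) (nat_lit 0) (nat_lit 0)) (Nat.add (x (nat_lit 64) (nat_lit 0) (nat_lit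 0)) (x (nat_lit 65) (nat_lit 0) (nat_lit 0)))) (Nat.add (x (nat_lit 66) (nat_lit 0) (nat_lit 0)) (Nat.add (x (nat_lit 67) (nat_lit 0) (nat_lit 0)) (x (nat_lit 68) (nat_lit 0) (nat_lit 0))))) (Nat.add (Nat.add (x (nat_lit 69) (nat_lit 0) (nat_lit 0)) (Nat.add (x (nat_lit 70) (nat_lit 0) (nat_lit 0)) (x (nat_lit 71) (nat_lit 0) (nat_lit 0)))) (Nat.add (Nat.add (x (nat_lit 72) (nat_lit 0) (nat_lit 0)) (x (nat_lit 73) (nat_lit 0) (nat_lit 0))) (Nat.add (x (nat_lit 74) (nat_lit 0) (nat_lit 0)) (x (nat_lit 75) (nat_lit 0) (nat_lit 0))))))) (Nat.add (Nat.add (Nat.add (Nat.add (x (nat_lit 76) (nat_lit 0) (nat_lit 0)) (Nat.add (x (nat_lit 77) (nat_lit 0) (nat_lit 0)) (x (nat_lit 78) (nat_lit 0) (nat_lit 0)))) (Nat.add (x (nat_lit 79) (nat_lit 0) (nat_lit 0)) (Nat.add (x (nat_lit 80) (nat_lit 0) (nat_lit 0)) (x (nat_lit 81) (nat_lit 0) (nat_lit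 0))))) (Nat.add (Nat.add (x (nat_lit 82) (nat_lit 0) (nat_lit 0)) (Nat.add (x (nat_lit 83) (nat_lit 0) (nat_lit 0)) (x (nat_lit 84) (nat_lit 0) (nat_lit 0)))) (Nat.add (Nat.add (x (nat_lit 85) (nat_lit 0) (nat_lit 0)) (x (nat_lit 86) (nat_lit 0) (nat_lit 0))) (Nat.add (x (nat_lit 87) (nat_lit 0) (nat_lit 0)) (x (nat_lit 88) (nat_lit 0) (nat_lit 0)))))) (Nat.add (Nat.add (Nat.add (x (nat_lit 89) (nat_lit 0) (nat_lit 0)) (Nat.add (x (nat_lit 90) (nat_lit 0) (nat_lit 0)) (x (nat_lit 91) (nat_lit 0) (nat_lit 0)))) (Nat.add (x (nat_lit 92) (nat_lit 0) (nat_lit 0)) (Nat.add (x (nat_lit 93) (nat_lit 0) (nat_lit 0)) (x (nat_lit 94) (nat_lit 0) (nat_lit 0))))) (Nat.add (Nat.add (x (nat_lit 95) (nat_lit 0) (nat_lit 0)) (Nat.add (x (nat_lit 96) (nat_lit 0) (nat_lit 0)) (x (nat_lit 97) (nat_lit 0) (nat_lit 0)))) (Nat.add (Nat.add (x (nat_lit 98) (nat_lit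 0) (nat_lit 0)) (x (nat_lit 99) (nat_lit 0) (nat_lit 0))) (Nat.add (x (nat_lit 100) (nat_lit 0) (nat_lit 0)) (x (nat_lit 101) (nat_lit 0) (nat_lit 0)))))))))⟩
  (TL.cons ⟨fun x => (Nat.add (Nat.add (Nat.add (Nat.add (Nat.add (Nat.add (x (nat_lit 0) (nat_lit 0) (nat_lit 0)) (Nat.add (x (nat_lit 1) (nat_lit 0) (nat_lit 0)) (x (nat_lit 2) (nat_lit 0) (nat_lit 0)))) (Nat.add (x (nat_lit 3) (nat_lit 0) (nat_lit 0)) (Nat.add (x (nat_lit 4) (nat_lit 0) (nat_lit 0)) (x (nat_lit 5) (nat_lit 0) (nat_lit 0))))) (Nat.add (Nat.add (x (nat_lit 6) (nat_lit 0) (nat_lit 0)) (Nat.add (x (nat_lit 7) (nat_lit 0) (nat_lit 0)) (x (nat_lit 8) (nat_lit 0) (nat_lit 0)))) (Nat.add (x (nat_lit 9) (nat_lit 0) (nat_lit 0)) (Nat.add (x (nat_lit 10) (nat_lit 0) (nat_lit 0)) (x (nat_lit 11) (nat_lit 0) (nat_lit 0)))))) (Nat.add (Nat.add (Nat.add (x (nat_lit 12) (nat_lit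 0) (nat_lit 0)) (Nat.add (x (nat_lit 13) (nat_lit 0) (nat_lit 0)) (x (nat_lit 14) (nat_lit 0) (nat_lit 0)))) (Nat.add (x (nat_lit 15) (nat_lit 0) (nat_lit 0)) (Nat.add (x (nat_lit 16) (nat_lit 0) (nat_lit 0)) (x (nat_lit 17) (nat_lit 0) (nat_lit 0))))) (Nat.add (Nat.add (x (nat_lit 18) (nat_lit 0) (nat_lit 0)) (Nat.add (x (nat_lit 19) (nat_lit 0) (nat_lit 0)) (x (nat_lit 20) (nat_lit 0) (nat_lit 0)))) (Nat.add (Nat.add (x (nat_lit 21) (nat_lit 0) (nat_lit 0)) (x (nat_lit 22) (nat_lit 0) (nat_lit 0))) (Nat.add (x (nat_lit 23) (nat_lit 0) (nat_lit 0)) (x (nat_lit 24) (nat_lit 0) (nat_lit 0))))))) (Nat.add (Nat.add (Nat.add (Nat.add (x (nat_lit 25) (nat_lit 0) (nat_lit 0)) (Nat.add (x (nat_lit 26) (nat_lit 0) (nat_lit 0)) (x (nat_lit 27) (nat_lit 0) (nat_lit 0)))) (Nat.add (x (nat_lit 28) (nat_lit 0) (nat_lit 0)) (Nat.add (x (nat_lit 29)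 (nat_lit 0) (nat_lit 0)) (x (nat_lit 30) (nat_lit 0) (nat_lit 0))))) (Nat.add (Nat.add (x (nat_lit 31) (nat_lit 0) (nat_lit 0)) (Nat.add (x (nat_lit 32) (nat_lit 0) (nat_lit 0)) (x (nat_lit 33) (nat_lit 0) (nat_lit 0)))) (Nat.add (Nat.add (x (nat_lit 34) (nat_lit 0) (nat_lit 0)) (x (nat_lit 35) (nat_lit 0) (nat_lit 0))) (Nat.add (x (nat_lit 36) (nat_lit 0) (nat_lit 0)) (x (nat_lit 37) (nat_lit 0) (nat_lit 0)))))) (Nat.add (Nat.add (Nat.add (x (nat_lit 38) (nat_lit 0) (nat_lit 0)) (Nat.add (x (nat_lit 39) (nat_lit 0) (nat_lit 0)) (x (nat_lit 40) (nat_lit 0) (nat_lit 0)))) (Nat.add (x (nat_lit 41) (nat_lit 0) (nat_lit 0)) (Nat.add (x (nat_lit 42) (nat_lit 0) (nat_lit 0)) (x (nat_lit 43) (nat_lit 0) (nat_lit 0))))) (Nat.add (Nat.add (x (nat_lit 44) (nat_lit 0) (nat_lit 0)) (Nat.add (x (nat_lit 45) (nat_lit 0) (nat_lit 0)) (x (nat_lit 46)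 (nat_lit 0) (nat_lit 0)))) (Nat.add (Nat.add (x (nat_lit 47) (nat_lit 0) (nat_lit 0)) (x (nat_lit 48) (nat_lit 0) (nat_lit 0))) (Nat.add (x (nat_lit 49) (nat_lit 0) (nat_lit 0)) (x (nat_lit 50) (nat_lit 0) (nat_lit 0)))))))) (Nat.add (Nat.add (Nat.add (Nat.add (Nat.add (x (nat_lit 51) (nat_lit 0) (nat_lit 0)) (Nat.add (x (nat_lit 52) (nat_lit 0) (nat_lit 0)) (x (nat_lit 53) (nat_lit 0) (nat_lit 0)))) (Nat.add (x (nat_lit 54) (nat_lit 0) (nat_lit 0)) (Nat.add (x (nat_lit 55) (nat_lit 0) (nat_lit 0)) (x (nat_lit 56) (nat_lit 0) (nat_lit 0))))) (Nat.add (Nat.add (x (nat_lit 57) (nat_lit 0) (nat_lit 0)) (Nat.add (x (nat_lit 58) (nat_lit 0) (nat_lit 0)) (x (nat_lit 59) (nat_lit 0) (nat_lit 0)))) (Nat.add (Nat.add (x (nat_lit 60) (nat_lit 0) (nat_lit 0)) (x (nat_lit 61) (nat_lit 0) (nat_lit 0))) (Nat.add (x (nat_lit 62) (nat_lit 0) (nat_lit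 0)) (x (nat_lit 63) (nat_lit 0) (nat_lit 0)))))) (Nat.add (Nat.add (Nat.add (x (nat_lit 64) (nat_lit 0) (nat_lit 0)) (Nat.add (x (nat_lit 65) (nat_lit 0) (nat_lit 0)) (x (nat_lit 66) (nat_lit 0) (nat_lit 0)))) (Nat.add (x (nat_lit 67) (nat_lit 0) (nat_lit 0)) (Nat.add (x (nat_lit 68) (nat_lit 0) (nat_lit 0)) (x (nat_lit 69) (nat_lit 0) (nat_lit 0))))) (Nat.add (Nat.add (x (nat_lit 70) (nat_lit 0) (nat_lit 0)) (Nat.add (x (nat_lit 71) (nat_lit 0) (nat_lit 0)) (x (nat_lit 72) (nat_lit 0) (nat_lit 0)))) (Nat.add (Nat.add (x (nat_lit 73) (nat_lit 0) (nat_lit 0)) (x (nat_lit 74) (nat_lit 0) (nat_lit 0))) (Nat.add (x (nat_lit 75) (nat_lit 0) (nat_lit 0)) (x (nat_lit 76) (nat_lit 0) (nat_lit 0))))))) (Nat.add (Nat.add (Nat.add (Nat.add (x (nat_lit 77) (nat_lit 0) (nat_lit 0)) (Nat.add (x (nat_lit 78) (nat_lit 0) (nat_lit 0)) (x (nat_lit 79) (nat_lit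 0) (nat_lit 0)))) (Nat.add (x (nat_lit 80) (nat_lit 0) (nat_lit 0)) (Nat.add (x (nat_lit 81) (nat_lit 0) (nat_lit 0)) (x (nat_lit 82) (nat_lit 0) (nat_lit 0))))) (Nat.add (Nat.add (x (nat_lit 83) (nat_lit 0) (nat_lit 0)) (Nat.add (x (nat_lit 84) (nat_lit 0) (nat_lit 0)) (x (nat_lit 85) (nat_lit 0) (nat_lit 0)))) (Nat.add (Nat.add (x (nat_lit 86) (nat_lit 0) (nat_lit 0)) (x (nat_lit 87) (nat_lit 0) (nat_lit 0))) (Nat.add (x (nat_lit 88) (nat_lit 0) (nat_lit 0)) (x (nat_lit 89) (nat_lit 0) (nat_lit 0)))))) (Nat.add (Nat.add (Nat.add (x (nat_lit 90) (nat_lit 0) (nat_lit 0)) (Nat.add (x (nat_lit 91) (nat_lit 0) (nat_lit 0)) (x (nat_lit 92) (nat_lit 0) (nat_lit 0)))) (Nat.add (x (nat_lit 93) (nat_lit 0) (nat_lit 0)) (Nat.add (x (nat_lit 94) (nat_lit 0) (nat_lit 0)) (x (nat_lit 95) (nat_lit 0) (nat_lit 0))))) (Nat.add (Nat.add (x (nat_lit 96)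 (nat_lit 0) (nat_lit 0)) (Nat.add (x (nat_lit 97) (nat_lit 0) (nat_lit 0)) (x (nat_lit 98) (nat_lit 0) (nat_lit 0)))) (Nat.add (Nat.add (x (nat_lit 99) (nat_lit 0) (nat_lit 0)) (x (nat_lit 100) (nat_lit 0) (nat_lit 0))) (Nat.add (x (nat_lit 101) (nat_lit 0) (nat_lit 0)) (x (nat_lit 102) (nat_lit 0) (nat_lit 0)))))))))⟩
  (TL.cons ⟨fun x => (Nat.add (Nat.add (Nat.add (Nat.add (Nat.add (Nat.add (x (nat_lit 0) (nat_lit 0) (nat_lit 0)) (Nat.add (x (nat_lit 1) (nat_lit 0) (nat_lit 0)) (x (nat_lit 2) (nat_lit 0) (nat_lit 0)))) (Nat.add (x (nat_lit 3) (nat_lit 0) (nat_lit 0)) (Nat.add (x (nat_lit 4) (nat_lit 0) (nat_lit 0)) (x (nat_lit 5) (nat_lit 0) (nat_lit 0))))) (Nat.add (Nat.add (x (nat_lit 6) (nat_lit 0) (nat_lit 0)) (Nat.add (x (nat_lit 7) (nat_lit 0) (nat_lit 0)) (x (nat_lit 8) (nat_lit 0) (nat_lit 0)))) (Nat.add (Nat.add (x (nat_lit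 9) (nat_lit 0) (nat_lit 0)) (x (nat_lit 10) (nat_lit 0) (nat_lit 0))) (Nat.add (x (nat_lit 11) (nat_lit 0) (nat_lit 0)) (x (nat_lit 12) (nat_lit 0) (nat_lit 0)))))) (Nat.add (Nat.add (Nat.add (x (nat_lit 13) (nat_lit 0) (nat_lit 0)) (Nat.add (x (nat_lit 14) (nat_lit 0) (nat_lit 0)) (x (nat_lit 15) (nat_lit 0) (nat_lit 0)))) (Nat.add (x (nat_lit 16) (nat_lit 0) (nat_lit 0)) (Nat.add (x (nat_lit 17) (nat_lit 0) (nat_lit 0)) (x (nat_lit 18) (nat_lit 0) (nat_lit 0))))) (Nat.add (Nat.add (x (nat_lit 19) (nat_lit 0) (nat_lit 0)) (Nat.add (x (nat_lit 20) (nat_lit 0) (nat_lit 0)) (x (nat_lit 21) (nat_lit 0) (nat_lit 0)))) (Nat.add (Nat.add (x (nat_lit 22) (nat_lit 0) (nat_lit 0)) (x (nat_lit 23) (nat_lit 0) (nat_lit 0))) (Nat.add (x (nat_lit 24) (nat_lit 0) (nat_lit 0)) (x (nat_lit 25) (nat_lit 0) (nat_lit 0))))))) (Nat.add (Nat.add (Nat.add (Nat.add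 (x (nat_lit 26) (nat_lit 0) (nat_lit 0)) (Nat.add (x (nat_lit 27) (nat_lit 0) (nat_lit 0)) (x (nat_lit 28) (nat_lit 0) (nat_lit 0)))) (Nat.add (x (nat_lit 29) (nat_lit 0) (nat_lit 0)) (Nat.add (x (nat_lit 30) (nat_lit 0) (nat_lit 0)) (x (nat_lit 31) (nat_lit 0) (nat_lit 0))))) (Nat.add (Nat.add (x (nat_lit 32) (nat_lit 0) (nat_lit 0)) (Nat.add (x (nat_lit 33) (nat_lit 0) (nat_lit 0)) (x (nat_lit 34) (nat_lit 0) (nat_lit 0)))) (Nat.add (Nat.add (x (nat_lit 35) (nat_lit 0) (nat_lit 0)) (x (nat_lit 36) (nat_lit 0) (nat_lit 0))) (Nat.add (x (nat_lit 37) (nat_lit 0) (nat_lit 0)) (x (nat_lit 38) (nat_lit 0) (nat_lit 0)))))) (Nat.add (Nat.add (Nat.add (x (nat_lit 39) (nat_lit 0) (nat_lit 0)) (Nat.add (x (nat_lit 40) (nat_lit 0) (nat_lit 0)) (x (nat_lit 41) (nat_lit 0) (nat_lit 0)))) (Nat.add (x (nat_lit 42) (nat_lit 0) (nat_lit 0)) (Nat.add (x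 (nat_lit 43) (nat_lit 0) (nat_lit 0)) (x (nat_lit 44) (nat_lit 0) (nat_lit 0))))) (Nat.add (Nat.add (x (nat_lit 45) (nat_lit 0) (nat_lit 0)) (Nat.add (x (nat_lit 46) (nat_lit 0) (nat_lit 0)) (x (nat_lit 47) (nat_lit 0) (nat_lit 0)))) (Nat.add (Nat.add (x (nat_lit 48) (nat_lit 0) (nat_lit 0)) (x (nat_lit 49) (nat_lit 0) (nat_lit 0))) (Nat.add (x (nat_lit 50) (nat_lit 0) (nat_lit 0)) (x (nat_lit 51) (nat_lit 0) (nat_lit 0)))))))) (Nat.add (Nat.add (Nat.add (Nat.add (Nat.add (x (nat_lit 52) (nat_lit 0) (nat_lit 0)) (Nat.add (x (nat_lit 53) (nat_lit 0) (nat_lit 0)) (x (nat_lit 54) (nat_lit 0) (nat_lit 0)))) (Nat.add (x (nat_lit 55) (nat_lit 0) (nat_lit 0)) (Nat.add (x (nat_lit 56) (nat_lit 0) (nat_lit 0)) (x (nat_lit 57) (nat_lit 0) (nat_lit 0))))) (Nat.add (Nat.add (x (nat_lit 58) (nat_lit 0) (nat_lit 0)) (Nat.add (x (nat_lit 59) (nat_lit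 0) (nat_lit 0)) (x (nat_lit 60) (nat_lit 0) (nat_lit 0)))) (Nat.add (Nat.add (x (nat_lit 61) (nat_lit 0) (nat_lit 0)) (x (nat_lit 62) (nat_lit 0) (nat_lit 0))) (Nat.add (x (nat_lit 63) (nat_lit 0) (nat_lit 0)) (x (nat_lit 64) (nat_lit 0) (nat_lit 0)))))) (Nat.add (Nat.add (Nat.add (x (nat_lit 65) (nat_lit 0) (nat_lit 0)) (Nat.add (x (nat_lit 66) (nat_lit 0) (nat_lit 0)) (x (nat_lit 67) (nat_lit 0) (nat_lit 0)))) (Nat.add (x (nat_lit 68) (nat_lit 0) (nat_lit 0)) (Nat.add (x (nat_lit 69) (nat_lit 0) (nat_lit 0)) (x (nat_lit 70) (nat_lit 0) (nat_lit 0))))) (Nat.add (Nat.add (x (nat_lit 71) (nat_lit 0) (nat_lit 0)) (Nat.add (x (nat_lit 72) (nat_lit 0) (nat_lit 0)) (x (nat_lit 73) (nat_lit 0) (nat_lit 0)))) (Nat.add (Nat.add (x (nat_lit 74) (nat_lit 0) (nat_lit 0)) (x (nat_lit 75) (nat_lit 0) (nat_lit 0))) (Nat.add (x (nat_lit 76) (nat_lit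 0) (nat_lit 0)) (x (nat_lit 77) (nat_lit 0) (nat_lit 0))))))) (Nat.add (Nat.add (Nat.add (Nat.add (x (nat_lit 78) (nat_lit 0) (nat_lit 0)) (Nat.add (x (nat_lit 79) (nat_lit 0) (nat_lit 0)) (x (nat_lit 80) (nat_lit 0) (nat_lit 0)))) (Nat.add (x (nat_lit 81) (nat_lit 0) (nat_lit 0)) (Nat.add (x (nat_lit 82) (nat_lit 0) (nat_lit 0)) (x (nat_lit 83) (nat_lit 0) (nat_lit 0))))) (Nat.add (Nat.add (x (nat_lit 84) (nat_lit 0) (nat_lit 0)) (Nat.add (x (nat_lit 85) (nat_lit 0) (nat_lit 0)) (x (nat_lit 86) (nat_lit 0) (nat_lit 0)))) (Nat.add (Nat.add (x (nat_lit 87) (nat_lit 0) (nat_lit 0)) (x (nat_lit 88) (nat_lit 0) (nat_lit 0))) (Nat.add (x (nat_lit 89) (nat_lit 0) (nat_lit 0)) (x (nat_lit 90) (nat_lit 0) (nat_lit 0)))))) (Nat.add (Nat.add (Nat.add (x (nat_lit 91) (nat_lit 0) (nat_lit 0)) (Nat.add (x (nat_lit 92) (nat_lit 0) (nat_lit 0)) (x (nat_lit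 93) (nat_lit 0) (nat_lit 0)))) (Nat.add (x (nat_lit 94) (nat_lit 0) (nat_lit 0)) (Nat.add (x (nat_lit 95) (nat_lit 0) (nat_lit 0)) (x (nat_lit 96) (nat_lit 0) (nat_lit 0))))) (Nat.add (Nat.add (x (nat_lit 97) (nat_lit 0) (nat_lit 0)) (Nat.add (x (nat_lit 98) (nat_lit 0) (nat_lit 0)) (x (nat_lit 99) (nat_lit 0) (nat_lit 0)))) (Nat.add (Nat.add (x (nat_lit 100) (nat_lit 0) (nat_lit 0)) (x (nat_lit 101) (nat_lit 0) (nat_lit 0))) (Nat.add (x (nat_lit 102) (nat_lit 0) (nat_lit 0)) (x (nat_lit 103) (nat_lit 0) (nat_lit 0)))))))))⟩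
  (TL.cons ⟨fun x => (Nat.add (Nat.add (Nat.add (Nat.add (Nat.add (Nat.add (x (nat_lit 0) (nat_lit 0) (nat_lit 0)) (Nat.add (x (nat_lit 1) (nat_lit 0) (nat_lit 0)) (x (nat_lit 2) (nat_lit 0) (nat_lit 0)))) (Nat.add (x (nat_lit 3) (nat_lit 0) (nat_lit 0)) (Nat.add (x (nat_lit 4) (nat_lit 0) (nat_lit 0)) (x (nat_lit 5) (nat_lit 0) (nat_lit 0))))) (Nat.add (Nat.add (x (nat_lit 6) (nat_lit 0) (nat_lit 0)) (Nat.add (x (nat_lit 7) (nat_lit 0) (nat_lit 0)) (x (nat_lit 8) (nat_lit 0) (nat_lit 0)))) (Nat.add (Nat.add (x (nat_lit 9) (nat_lit 0) (nat_lit 0)) (x (nat_lit 10) (nat_lit 0) (nat_lit 0))) (Nat.add (x (nat_lit 11) (nat_lit 0) (nat_lit 0)) (x (nat_lit 12) (nat_lit 0) (nat_lit 0)))))) (Nat.add (Nat.add (Nat.add (x (nat_lit 13) (nat_lit 0) (nat_lit 0)) (Nat.add (x (nat_lit 14) (nat_lit 0) (nat_lit 0)) (x (nat_lit 15) (nat_lit 0) (nat_lit 0))))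 (Nat.add (x (nat_lit 16) (nat_lit 0) (nat_lit 0)) (Nat.add (x (nat_lit 17) (nat_lit 0) (nat_lit 0)) (x (nat_lit 18) (nat_lit 0) (nat_lit 0))))) (Nat.add (Nat.add (x (nat_lit 19) (nat_lit 0) (nat_lit 0)) (Nat.add (x (nat_lit 20) (nat_lit 0) (nat_lit 0)) (x (nat_lit 21) (nat_lit 0) (nat_lit 0)))) (Nat.add (Nat.add (x (nat_lit 22) (nat_lit 0) (nat_lit 0)) (x (nat_lit 23) (nat_lit 0) (nat_lit 0))) (Nat.add (x (nat_lit 24) (nat_lit 0) (nat_lit 0)) (x (nat_lit 25) (nat_lit 0) (nat_lit 0))))))) (Nat.add (Nat.add (Nat.add (Nat.add (x (nat_lit 26) (nat_lit 0) (nat_lit 0)) (Nat.add (x (nat_lit 27) (nat_lit 0) (nat_lit 0)) (x (nat_lit 28) (nat_lit 0) (nat_lit 0)))) (Nat.add (x (nat_lit 29) (nat_lit 0) (nat_lit 0)) (Nat.add (x (nat_lit 30) (nat_lit 0) (nat_lit 0)) (x (nat_lit 31) (nat_lit 0) (nat_lit 0))))) (Nat.add (Nat.add (x (nat_lit 32) (nat_lit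 0) (nat_lit 0)) (Nat.add (x (nat_lit 33) (nat_lit 0) (nat_lit 0)) (x (nat_lit 34) (nat_lit 0) (nat_lit 0)))) (Nat.add (Nat.add (x (nat_lit 35) (nat_lit 0) (nat_lit 0)) (x (nat_lit 36) (nat_lit 0) (nat_lit 0))) (Nat.add (x (nat_lit 37) (nat_lit 0) (nat_lit 0)) (x (nat_lit 38) (nat_lit 0) (nat_lit 0)))))) (Nat.add (Nat.add (Nat.add (x (nat_lit 39) (nat_lit 0) (nat_lit 0)) (Nat.add (x (nat_lit 40) (nat_lit 0) (nat_lit 0)) (x (nat_lit 41) (nat_lit 0) (nat_lit 0)))) (Nat.add (x (nat_lit 42) (nat_lit 0) (nat_lit 0)) (Nat.add (x (nat_lit 43) (nat_lit 0) (nat_lit 0)) (x (nat_lit 44) (nat_lit 0) (nat_lit 0))))) (Nat.add (Nat.add (x (nat_lit 45) (nat_lit 0) (nat_lit 0)) (Nat.add (x (nat_lit 46) (nat_lit 0) (nat_lit 0)) (x (nat_lit 47) (nat_lit 0) (nat_lit 0)))) (Nat.add (Nat.add (x (nat_lit 48) (nat_lit 0) (nat_lit 0)) (x (nat_lit 49) (nat_lit 0)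 (nat_lit 0))) (Nat.add (x (nat_lit 50) (nat_lit 0) (nat_lit 0)) (x (nat_lit 51) (nat_lit 0) (nat_lit 0)))))))) (Nat.add (Nat.add (Nat.add (Nat.add (Nat.add (x (nat_lit 52) (nat_lit 0) (nat_lit 0)) (Nat.add (x (nat_lit 53) (nat_lit 0) (nat_lit 0)) (x (nat_lit 54) (nat_lit 0) (nat_lit 0)))) (Nat.add (x (nat_lit 55) (nat_lit 0) (nat_lit 0)) (Nat.add (x (nat_lit 56) (nat_lit 0) (nat_lit 0)) (x (nat_lit 57) (nat_lit 0) (nat_lit 0))))) (Nat.add (Nat.add (x (nat_lit 58) (nat_lit 0) (nat_lit 0)) (Nat.add (x (nat_lit 59) (nat_lit 0) (nat_lit 0)) (x (nat_lit 60) (nat_lit 0) (nat_lit 0)))) (Nat.add (Nat.add (x (nat_lit 61) (nat_lit 0) (nat_lit 0)) (x (nat_lit 62) (nat_lit 0) (nat_lit 0))) (Nat.add (x (nat_lit 63) (nat_lit 0) (nat_lit 0)) (x (nat_lit 64) (nat_lit 0) (nat_lit 0)))))) (Nat.add (Nat.add (Nat.add (x (nat_lit 65) (nat_lit 0) (nat_lit 0))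 (Nat.add (x (nat_lit 66) (nat_lit 0) (nat_lit 0)) (x (nat_lit 67) (nat_lit 0) (nat_lit 0)))) (Nat.add (x (nat_lit 68) (nat_lit 0) (nat_lit 0)) (Nat.add (x (nat_lit 69) (nat_lit 0) (nat_lit 0)) (x (nat_lit 70) (nat_lit 0) (nat_lit 0))))) (Nat.add (Nat.add (x (nat_lit 71) (nat_lit 0) (nat_lit 0)) (Nat.add (x (nat_lit 72) (nat_lit 0) (nat_lit 0)) (x (nat_lit 73) (nat_lit 0) (nat_lit 0)))) (Nat.add (Nat.add (x (nat_lit 74) (nat_lit 0) (nat_lit 0)) (x (nat_lit 75) (nat_lit 0) (nat_lit 0))) (Nat.add (x (nat_lit 76) (nat_lit 0) (nat_lit 0)) (x (nat_lit 77) (nat_lit 0) (nat_lit 0))))))) (Nat.add (Nat.add (Nat.add (Nat.add (x (nat_lit 78) (nat_lit 0) (nat_lit 0)) (Nat.add (x (nat_lit 79) (nat_lit 0) (nat_lit 0)) (x (nat_lit 80) (nat_lit 0) (nat_lit 0)))) (Nat.add (x (nat_lit 81) (nat_lit 0) (nat_lit 0)) (Nat.add (x (nat_lit 82) (nat_lit 0) (nat_lit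 0)) (x (nat_lit 83) (nat_lit 0) (nat_lit 0))))) (Nat.add (Nat.add (x (nat_lit 84) (nat_lit 0) (nat_lit 0)) (Nat.add (x (nat_lit 85) (nat_lit 0) (nat_lit 0)) (x (nat_lit 86) (nat_lit 0) (nat_lit 0)))) (Nat.add (Nat.add (x (nat_lit 87) (nat_lit 0) (nat_lit 0)) (x (nat_lit 88) (nat_lit 0) (nat_lit 0))) (Nat.add (x (nat_lit 89) (nat_lit 0) (nat_lit 0)) (x (nat_lit 90) (nat_lit 0) (nat_lit 0)))))) (Nat.add (Nat.add (Nat.add (x (nat_lit 91) (nat_lit 0) (nat_lit 0)) (Nat.add (x (nat_lit 92) (nat_lit 0) (nat_lit 0)) (x (nat_lit 93) (nat_lit 0) (nat_lit 0)))) (Nat.add (Nat.add (x (nat_lit 94) (nat_lit 0) (nat_lit 0)) (x (nat_lit 95) (nat_lit 0) (nat_lit 0))) (Nat.add (x (nat_lit 96) (nat_lit 0) (nat_lit 0)) (x (nat_lit 97) (nat_lit 0) (nat_lit 0))))) (Nat.add (Nat.add (x (nat_lit 98) (nat_lit 0) (nat_lit 0)) (Nat.add (x (nat_lit 99) (nat_lit 0)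 (nat_lit 0)) (x (nat_lit 100) (nat_lit 0) (nat_lit 0)))) (Nat.add (Nat.add (x (nat_lit 101) (nat_lit 0) (nat_lit 0)) (x (nat_lit 102) (nat_lit 0) (nat_lit 0))) (Nat.add (x (nat_lit 103) (nat_lit 0) (nat_lit 0)) (x (nat_lit 104) (nat_lit 0) (nat_lit 0)))))))))⟩
  (TL.cons ⟨fun x => (Nat.add (Nat.add (Nat.add (Nat.add (Nat.add (Nat.add (x (nat_lit 0) (nat_lit 0) (nat_lit 0)) (Nat.add (x (nat_lit 1) (nat_lit 0) (nat_lit 0)) (x (nat_lit 2) (nat_lit 0) (nat_lit 0)))) (Nat.add (x (nat_lit 3) (nat_lit 0) (nat_lit 0)) (Nat.add (x (nat_lit 4) (nat_lit 0) (nat_lit 0)) (x (nat_lit 5) (nat_lit 0) (nat_lit 0))))) (Nat.add (Nat.add (x (nat_lit 6) (nat_lit 0) (nat_lit 0)) (Nat.add (x (nat_lit 7) (nat_lit 0) (nat_lit 0)) (x (nat_lit 8) (nat_lit 0) (nat_lit 0)))) (Nat.add (Nat.add (x (nat_lit 9) (nat_lit 0) (nat_lit 0)) (x (nat_lit 10) (nat_lit 0) (nat_lit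 0))) (Nat.add (x (nat_lit 11) (nat_lit 0) (nat_lit 0)) (x (nat_lit 12) (nat_lit 0) (nat_lit 0)))))) (Nat.add (Nat.add (Nat.add (x (nat_lit 13) (nat_lit 0) (nat_lit 0)) (Nat.add (x (nat_lit 14) (nat_lit 0) (nat_lit 0)) (x (nat_lit 15) (nat_lit 0) (nat_lit 0)))) (Nat.add (x (nat_lit 16) (nat_lit 0) (nat_lit 0)) (Nat.add (x (nat_lit 17) (nat_lit 0) (nat_lit 0)) (x (nat_lit 18) (nat_lit 0) (nat_lit 0))))) (Nat.add (Nat.add (x (nat_lit 19) (nat_lit 0) (nat_lit 0)) (Nat.add (x (nat_lit 20) (nat_lit 0) (nat_lit 0)) (x (nat_lit 21) (nat_lit 0) (nat_lit 0)))) (Nat.add (Nat.add (x (nat_lit 22) (nat_lit 0) (nat_lit 0)) (x (nat_lit 23) (nat_lit 0) (nat_lit 0))) (Nat.add (x (nat_lit 24) (nat_lit 0) (nat_lit 0)) (x (nat_lit 25) (nat_lit 0) (nat_lit 0))))))) (Nat.add (Nat.add (Nat.add (Nat.add (x (nat_lit 26) (nat_lit 0) (nat_lit 0)) (Nat.add (x (nat_lit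 27) (nat_lit 0) (nat_lit 0)) (x (nat_lit 28) (nat_lit 0) (nat_lit 0)))) (Nat.add (x (nat_lit 29) (nat_lit 0) (nat_lit 0)) (Nat.add (x (nat_lit 30) (nat_lit 0) (nat_lit 0)) (x (nat_lit 31) (nat_lit 0) (nat_lit 0))))) (Nat.add (Nat.add (x (nat_lit 32) (nat_lit 0) (nat_lit 0)) (Nat.add (x (nat_lit 33) (nat_lit 0) (nat_lit 0)) (x (nat_lit 34) (nat_lit 0) (nat_lit 0)))) (Nat.add (Nat.add (x (nat_lit 35) (nat_lit 0) (nat_lit 0)) (x (nat_lit 36) (nat_lit 0) (nat_lit 0))) (Nat.add (x (nat_lit 37) (nat_lit 0) (nat_lit 0)) (x (nat_lit 38) (nat_lit 0) (nat_lit 0)))))) (Nat.add (Nat.add (Nat.add (x (nat_lit 39) (nat_lit 0) (nat_lit 0)) (Nat.add (x (nat_lit 40) (nat_lit 0) (nat_lit 0)) (x (nat_lit 41) (nat_lit 0) (nat_lit 0)))) (Nat.add (Nat.add (x (nat_lit 42) (nat_lit 0) (nat_lit 0)) (x (nat_lit 43) (nat_lit 0) (nat_lit 0))) (Nat.add (x (nat_lit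 44) (nat_lit 0) (nat_lit 0)) (x (nat_lit 45) (nat_lit 0) (nat_lit 0))))) (Nat.add (Nat.add (x (nat_lit 46) (nat_lit 0) (nat_lit 0)) (Nat.add (x (nat_lit 47) (nat_lit 0) (nat_lit 0)) (x (nat_lit 48) (nat_lit 0) (nat_lit 0)))) (Nat.add (Nat.add (x (nat_lit 49) (nat_lit 0) (nat_lit 0)) (x (nat_lit 50) (nat_lit 0) (nat_lit 0))) (Nat.add (x (nat_lit 51) (nat_lit 0) (nat_lit 0)) (x (nat_lit 52) (nat_lit 0) (nat_lit 0)))))))) (Nat.add (Nat.add (Nat.add (Nat.add (Nat.add (x (nat_lit 53) (nat_lit 0) (nat_lit 0)) (Nat.add (x (nat_lit 54) (nat_lit 0) (nat_lit 0)) (x (nat_lit 55) (nat_lit 0) (nat_lit 0)))) (Nat.add (x (nat_lit 56) (nat_lit 0) (nat_lit 0)) (Nat.add (x (nat_lit 57) (nat_lit 0) (nat_lit 0)) (x (nat_lit 58) (nat_lit 0) (nat_lit 0))))) (Nat.add (Nat.add (x (nat_lit 59) (nat_lit 0) (nat_lit 0)) (Nat.add (x (nat_lit 60) (nat_lit 0) (nat_lit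 0)) (x (nat_lit 61) (nat_lit 0) (nat_lit 0)))) (Nat.add (Nat.add (x (nat_lit 62) (nat_lit 0) (nat_lit 0)) (x (nat_lit 63) (nat_lit 0) (nat_lit 0))) (Nat.add (x (nat_lit 64) (nat_lit 0) (nat_lit 0)) (x (nat_lit 65) (nat_lit 0) (nat_lit 0)))))) (Nat.add (Nat.add (Nat.add (x (nat_lit 66) (nat_lit 0) (nat_lit 0)) (Nat.add (x (nat_lit 67) (nat_lit 0) (nat_lit 0)) (x (nat_lit 68) (nat_lit 0) (nat_lit 0)))) (Nat.add (x (nat_lit 69) (nat_lit 0) (nat_lit 0)) (Nat.add (x (nat_lit 70) (nat_lit 0) (nat_lit 0)) (x (nat_lit 71) (nat_lit 0) (nat_lit 0))))) (Nat.add (Nat.add (x (nat_lit 72) (nat_lit 0) (nat_lit 0)) (Nat.add (x (nat_lit 73) (nat_lit 0) (nat_lit 0)) (x (nat_lit 74) (nat_lit 0) (nat_lit 0)))) (Nat.add (Nat.add (x (nat_lit 75) (nat_lit 0) (nat_lit 0)) (x (nat_lit 76) (nat_lit 0) (nat_lit 0))) (Nat.add (x (nat_lit 77) (nat_lit 0) (nat_lit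 0)) (x (nat_lit 78) (nat_lit 0) (nat_lit 0))))))) (Nat.add (Nat.add (Nat.add (Nat.add (x (nat_lit 79) (nat_lit 0) (nat_lit 0)) (Nat.add (x (nat_lit 80) (nat_lit 0) (nat_lit 0)) (x (nat_lit 81) (nat_lit 0) (nat_lit 0)))) (Nat.add (x (nat_lit 82) (nat_lit 0) (nat_lit 0)) (Nat.add (x (nat_lit 83) (nat_lit 0) (nat_lit 0)) (x (nat_lit 84) (nat_lit 0) (nat_lit 0))))) (Nat.add (Nat.add (x (nat_lit 85) (nat_lit 0) (nat_lit 0)) (Nat.add (x (nat_lit 86) (nat_lit 0) (nat_lit 0)) (x (nat_lit 87) (nat_lit 0) (nat_lit 0)))) (Nat.add (Nat.add (x (nat_lit 88) (nat_lit 0) (nat_lit 0)) (x (nat_lit 89) (nat_lit 0) (nat_lit 0))) (Nat.add (x (nat_lit 90) (nat_lit 0) (nat_lit 0)) (x (nat_lit 91) (nat_lit 0) (nat_lit 0)))))) (Nat.add (Nat.add (Nat.add (x (nat_lit 92) (nat_lit 0) (nat_lit 0)) (Nat.add (x (nat_lit 93) (nat_lit 0) (nat_lit 0)) (x (nat_lit 94) (nat_lit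 0) (nat_lit 0)))) (Nat.add (Nat.add (x (nat_lit 95) (nat_lit 0) (nat_lit 0)) (x (nat_lit 96) (nat_lit 0) (nat_lit 0))) (Nat.add (x (nat_lit 97) (nat_lit 0) (nat_lit 0)) (x (nat_lit 98) (nat_lit 0) (nat_lit 0))))) (Nat.add (Nat.add (x (nat_lit 99) (nat_lit 0) (nat_lit 0)) (Nat.add (x (nat_lit 100) (nat_lit 0) (nat_lit 0)) (x (nat_lit 101) (nat_lit 0) (nat_lit 0)))) (Nat.add (Nat.add (x (nat_lit 102) (nat_lit 0) (nat_lit 0)) (x (nat_lit 103) (nat_lit 0) (nat_lit 0))) (Nat.add (x (nat_lit 104) (nat_lit 0) (nat_lit 0)) (x (nat_lit 105) (nat_lit 0) (nat_lit 0)))))))))⟩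
  (TL.cons ⟨fun x => (Nat.add (Nat.add (Nat.add (Nat.add (Nat.add (Nat.add (x (nat_lit 0) (nat_lit 0) (nat_lit 0)) (Nat.add (x (nat_lit 1) (nat_lit 0) (nat_lit 0)) (x (nat_lit 2) (nat_lit 0) (nat_lit 0)))) (Nat.add (x (nat_lit 3) (nat_lit 0) (nat_lit 0)) (Nat.add (x (nat_lit 4) (nat_lit 0) (nat_lit 0)) (x (nat_lit 5) (nat_lit 0) (nat_lit 0))))) (Nat.add (Nat.add (x (nat_lit 6) (nat_lit 0) (nat_lit 0)) (Nat.add (x (nat_lit 7) (nat_lit 0) (nat_lit 0)) (x (nat_lit 8) (nat_lit 0) (nat_lit 0)))) (Nat.add (Nat.add (x (nat_lit 9) (nat_lit 0) (nat_lit 0)) (x (nat_lit 10) (nat_lit 0) (nat_lit 0))) (Nat.add (x (nat_lit 11) (nat_lit 0) (nat_lit 0)) (x (nat_lit 12) (nat_lit 0) (nat_lit 0)))))) (Nat.add (Nat.add (Nat.add (x (nat_lit 13) (nat_lit 0) (nat_lit 0)) (Nat.add (x (nat_lit 14) (nat_lit 0) (nat_lit 0)) (x (nat_lit 15) (nat_lit 0) (nat_lit 0))))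 (Nat.add (x (nat_lit 16) (nat_lit 0) (nat_lit 0)) (Nat.add (x (nat_lit 17) (nat_lit 0) (nat_lit 0)) (x (nat_lit 18) (nat_lit 0) (nat_lit 0))))) (Nat.add (Nat.add (x (nat_lit 19) (nat_lit 0) (nat_lit 0)) (Nat.add (x (nat_lit 20) (nat_lit 0) (nat_lit 0)) (x (nat_lit 21) (nat_lit 0) (nat_lit 0)))) (Nat.add (Nat.add (x (nat_lit 22) (nat_lit 0) (nat_lit 0)) (x (nat_lit 23) (nat_lit 0) (nat_lit 0))) (Nat.add (x (nat_lit 24) (nat_lit 0) (nat_lit 0)) (x (nat_lit 25) (nat_lit 0) (nat_lit 0))))))) (Nat.add (Nat.add (Nat.add (Nat.add (x (nat_lit 26) (nat_lit 0) (nat_lit 0)) (Nat.add (x (nat_lit 27) (nat_lit 0) (nat_lit 0)) (x (nat_lit 28) (nat_lit 0) (nat_lit 0)))) (Nat.add (x (nat_lit 29) (nat_lit 0) (nat_lit 0)) (Nat.add (x (nat_lit 30) (nat_lit 0) (nat_lit 0)) (x (nat_lit 31) (nat_lit 0) (nat_lit 0))))) (Nat.add (Nat.add (x (nat_lit 32) (nat_lit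 0) (nat_lit 0)) (Nat.add (x (nat_lit 33) (nat_lit 0) (nat_lit 0)) (x (nat_lit 34) (nat_lit 0) (nat_lit 0)))) (Nat.add (Nat.add (x (nat_lit 35) (nat_lit 0) (nat_lit 0)) (x (nat_lit 36) (nat_lit 0) (nat_lit 0))) (Nat.add (x (nat_lit 37) (nat_lit 0) (nat_lit 0)) (x (nat_lit 38) (nat_lit 0) (nat_lit 0)))))) (Nat.add (Nat.add (Nat.add (x (nat_lit 39) (nat_lit 0) (nat_lit 0)) (Nat.add (x (nat_lit 40) (nat_lit 0) (nat_lit 0)) (x (nat_lit 41) (nat_lit 0) (nat_lit 0)))) (Nat.add (Nat.add (x (nat_lit 42) (nat_lit 0) (nat_lit 0)) (x (nat_lit 43) (nat_lit 0) (nat_lit 0))) (Nat.add (x (nat_lit 44) (nat_lit 0) (nat_lit 0)) (x (nat_lit 45) (nat_lit 0) (nat_lit 0))))) (Nat.add (Nat.add (x (nat_lit 46) (nat_lit 0) (nat_lit 0)) (Nat.add (x (nat_lit 47) (nat_lit 0) (nat_lit 0)) (x (nat_lit 48) (nat_lit 0) (nat_lit 0)))) (Nat.add (Nat.add (x (nat_lit 49)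 (nat_lit 0) (nat_lit 0)) (x (nat_lit 50) (nat_lit 0) (nat_lit 0))) (Nat.add (x (nat_lit 51) (nat_lit 0) (nat_lit 0)) (x (nat_lit 52) (nat_lit 0) (nat_lit 0)))))))) (Nat.add (Nat.add (Nat.add (Nat.add (Nat.add (x (nat_lit 53) (nat_lit 0) (nat_lit 0)) (Nat.add (x (nat_lit 54) (nat_lit 0) (nat_lit 0)) (x (nat_lit 55) (nat_lit 0) (nat_lit 0)))) (Nat.add (x (nat_lit 56) (nat_lit 0) (nat_lit 0)) (Nat.add (x (nat_lit 57) (nat_lit 0) (nat_lit 0)) (x (nat_lit 58) (nat_lit 0) (nat_lit 0))))) (Nat.add (Nat.add (x (nat_lit 59) (nat_lit 0) (nat_lit 0)) (Nat.add (x (nat_lit 60) (nat_lit 0) (nat_lit 0)) (x (nat_lit 61) (nat_lit 0) (nat_lit 0)))) (Nat.add (Nat.add (x (nat_lit 62) (nat_lit 0) (nat_lit 0)) (x (nat_lit 63) (nat_lit 0) (nat_lit 0))) (Nat.add (x (nat_lit 64) (nat_lit 0) (nat_lit 0)) (x (nat_lit 65) (nat_lit 0) (nat_lit 0)))))) (Nat.add (Nat.add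 (Nat.add (x (nat_lit 66) (nat_lit 0) (nat_lit 0)) (Nat.add (x (nat_lit 67) (nat_lit 0) (nat_lit 0)) (x (nat_lit 68) (nat_lit 0) (nat_lit 0)))) (Nat.add (Nat.add (x (nat_lit 69) (nat_lit 0) (nat_lit 0)) (x (nat_lit 70) (nat_lit 0) (nat_lit 0))) (Nat.add (x (nat_lit 71) (nat_lit 0) (nat_lit 0)) (x (nat_lit 72) (nat_lit 0) (nat_lit 0))))) (Nat.add (Nat.add (x (nat_lit 73) (nat_lit 0) (nat_lit 0)) (Nat.add (x (nat_lit 74) (nat_lit 0) (nat_lit 0)) (x (nat_lit 75) (nat_lit 0) (nat_lit 0)))) (Nat.add (Nat.add (x (nat_lit 76) (nat_lit 0) (nat_lit 0)) (x (nat_lit 77) (nat_lit 0) (nat_lit 0))) (Nat.add (x (nat_lit 78) (nat_lit 0) (nat_lit 0)) (x (nat_lit 79) (nat_lit 0) (nat_lit 0))))))) (Nat.add (Nat.add (Nat.add (Nat.add (x (nat_lit 80) (nat_lit 0) (nat_lit 0)) (Nat.add (x (nat_lit 81) (nat_lit 0) (nat_lit 0)) (x (nat_lit 82) (nat_lit 0) (nat_lit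 0)))) (Nat.add (x (nat_lit 83) (nat_lit 0) (nat_lit 0)) (Nat.add (x (nat_lit 84) (nat_lit 0) (nat_lit 0)) (x (nat_lit 85) (nat_lit 0) (nat_lit 0))))) (Nat.add (Nat.add (x (nat_lit 86) (nat_lit 0) (nat_lit 0)) (Nat.add (x (nat_lit 87) (nat_lit 0) (nat_lit 0)) (x (nat_lit 88) (nat_lit 0) (nat_lit 0)))) (Nat.add (Nat.add (x (nat_lit 89) (nat_lit 0) (nat_lit 0)) (x (nat_lit 90) (nat_lit 0) (nat_lit 0))) (Nat.add (x (nat_lit 91) (nat_lit 0) (nat_lit 0)) (x (nat_lit 92) (nat_lit 0) (nat_lit 0)))))) (Nat.add (Nat.add (Nat.add (x (nat_lit 93) (nat_lit 0) (nat_lit 0)) (Nat.add (x (nat_lit 94) (nat_lit 0) (nat_lit 0)) (x (nat_lit 95) (nat_lit 0) (nat_lit 0)))) (Nat.add (Nat.add (x (nat_lit 96) (nat_lit 0) (nat_lit 0)) (x (nat_lit 97) (nat_lit 0) (nat_lit 0))) (Nat.add (x (nat_lit 98) (nat_lit 0) (nat_lit 0)) (x (nat_lit 99) (nat_lit 0) (nat_lit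 0))))) (Nat.add (Nat.add (x (nat_lit 100) (nat_lit 0) (nat_lit 0)) (Nat.add (x (nat_lit 101) (nat_lit 0) (nat_lit 0)) (x (nat_lit 102) (nat_lit 0) (nat_lit 0)))) (Nat.add (Nat.add (x (nat_lit 103) (nat_lit 0) (nat_lit 0)) (x (nat_lit 104) (nat_lit 0) (nat_lit 0))) (Nat.add (x (nat_lit 105) (nat_lit 0) (nat_lit 0)) (x (nat_lit 106) (nat_lit 0) (nat_lit 0)))))))))⟩
  (TL.cons ⟨fun x => (Nat.add (Nat.add (Nat.add (Nat.add (Nat.add (Nat.add (x (nat_lit 0) (nat_lit 0) (nat_lit 0)) (Nat.add (x (nat_lit 1) (nat_lit 0) (nat_lit 0)) (x (nat_lit 2) (nat_lit 0) (nat_lit 0)))) (Nat.add (x (nat_lit 3) (nat_lit 0) (nat_lit 0)) (Nat.add (x (nat_lit 4) (nat_lit 0) (nat_lit 0)) (x (nat_lit 5) (nat_lit 0) (nat_lit 0))))) (Nat.add (Nat.add (x (nat_lit 6) (nat_lit 0) (nat_lit 0)) (Nat.add (x (nat_lit 7) (nat_lit 0) (nat_lit 0)) (x (nat_lit 8) (nat_lit 0)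 (nat_lit 0)))) (Nat.add (Nat.add (x (nat_lit 9) (nat_lit 0) (nat_lit 0)) (x (nat_lit 10) (nat_lit 0) (nat_lit 0))) (Nat.add (x (nat_lit 11) (nat_lit 0) (nat_lit 0)) (x (nat_lit 12) (nat_lit 0) (nat_lit 0)))))) (Nat.add (Nat.add (Nat.add (x (nat_lit 13) (nat_lit 0) (nat_lit 0)) (Nat.add (x (nat_lit 14) (nat_lit 0) (nat_lit 0)) (x (nat_lit 15) (nat_lit 0) (nat_lit 0)))) (Nat.add (Nat.add (x (nat_lit 16) (nat_lit 0) (nat_lit 0)) (x (nat_lit 17) (nat_lit 0) (nat_lit 0))) (Nat.add (x (nat_lit 18) (nat_lit 0) (nat_lit 0)) (x (nat_lit 19) (nat_lit 0) (nat_lit 0))))) (Nat.add (Nat.add (x (nat_lit 20) (nat_lit 0) (nat_lit 0)) (Nat.add (x (nat_lit 21) (nat_lit 0) (nat_lit 0)) (x (nat_lit 22) (nat_lit 0) (nat_lit 0)))) (Nat.add (Nat.add (x (nat_lit 23) (nat_lit 0) (nat_lit 0)) (x (nat_lit 24) (nat_lit 0) (nat_lit 0))) (Nat.add (x (nat_lit 25) (nat_lit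 0) (nat_lit 0)) (x (nat_lit 26) (nat_lit 0) (nat_lit 0))))))) (Nat.add (Nat.add (Nat.add (Nat.add (x (nat_lit 27) (nat_lit 0) (nat_lit 0)) (Nat.add (x (nat_lit 28) (nat_lit 0) (nat_lit 0)) (x (nat_lit 29) (nat_lit 0) (nat_lit 0)))) (Nat.add (x (nat_lit 30) (nat_lit 0) (nat_lit 0)) (Nat.add (x (nat_lit 31) (nat_lit 0) (nat_lit 0)) (x (nat_lit 32) (nat_lit 0) (nat_lit 0))))) (Nat.add (Nat.add (x (nat_lit 33) (nat_lit 0) (nat_lit 0)) (Nat.add (x (nat_lit 34) (nat_lit 0) (nat_lit 0)) (x (nat_lit 35) (nat_lit 0) (nat_lit 0)))) (Nat.add (Nat.add (x (nat_lit 36) (nat_lit 0) (nat_lit 0)) (x (nat_lit 37) (nat_lit 0) (nat_lit 0))) (Nat.add (x (nat_lit 38) (nat_lit 0) (nat_lit 0)) (x (nat_lit 39) (nat_lit 0) (nat_lit 0)))))) (Nat.add (Nat.add (Nat.add (x (nat_lit 40) (nat_lit 0) (nat_lit 0)) (Nat.add (x (nat_lit 41) (nat_lit 0) (nat_lit 0)) (x (nat_lit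 42) (nat_lit 0) (nat_lit 0)))) (Nat.add (Nat.add (x (nat_lit 43) (nat_lit 0) (nat_lit 0)) (x (nat_lit 44) (nat_lit 0) (nat_lit 0))) (Nat.add (x (nat_lit 45) (nat_lit 0) (nat_lit 0)) (x (nat_lit 46) (nat_lit 0) (nat_lit 0))))) (Nat.add (Nat.add (x (nat_lit 47) (nat_lit 0) (nat_lit 0)) (Nat.add (x (nat_lit 48) (nat_lit 0) (nat_lit 0)) (x (nat_lit 49) (nat_lit 0) (nat_lit 0)))) (Nat.add (Nat.add (x (nat_lit 50) (nat_lit 0) (nat_lit 0)) (x (nat_lit 51) (nat_lit 0) (nat_lit 0))) (Nat.add (x (nat_lit 52) (nat_lit 0) (nat_lit 0)) (x (nat_lit 53) (nat_lit 0) (nat_lit 0)))))))) (Nat.add (Nat.add (Nat.add (Nat.add (Nat.add (x (nat_lit 54) (nat_lit 0) (nat_lit 0)) (Nat.add (x (nat_lit 55) (nat_lit 0) (nat_lit 0)) (x (nat_lit 56) (nat_lit 0) (nat_lit 0)))) (Nat.add (x (nat_lit 57) (nat_lit 0) (nat_lit 0)) (Nat.add (x (nat_lit 58) (nat_lit 0) (nat_lit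 0)) (x (nat_lit 59) (nat_lit 0) (nat_lit 0))))) (Nat.add (Nat.add (x (nat_lit 60) (nat_lit 0) (nat_lit 0)) (Nat.add (x (nat_lit 61) (nat_lit 0) (nat_lit 0)) (x (nat_lit 62) (nat_lit 0) (nat_lit 0)))) (Nat.add (Nat.add (x (nat_lit 63) (nat_lit 0) (nat_lit 0)) (x (nat_lit 64) (nat_lit 0) (nat_lit 0))) (Nat.add (x (nat_lit 65) (nat_lit 0) (nat_lit 0)) (x (nat_lit 66) (nat_lit 0) (nat_lit 0)))))) (Nat.add (Nat.add (Nat.add (x (nat_lit 67) (nat_lit 0) (nat_lit 0)) (Nat.add (x (nat_lit 68) (nat_lit 0) (nat_lit 0)) (x (nat_lit 69) (nat_lit 0) (nat_lit 0)))) (Nat.add (Nat.add (x (nat_lit 70) (nat_lit 0) (nat_lit 0)) (x (nat_lit 71) (nat_lit 0) (nat_lit 0))) (Nat.add (x (nat_lit 72) (nat_lit 0) (nat_lit 0)) (x (nat_lit 73) (nat_lit 0) (nat_lit 0))))) (Nat.add (Nat.add (x (nat_lit 74) (nat_lit 0) (nat_lit 0)) (Nat.add (x (nat_lit 75) (nat_lit 0)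 (nat_lit 0)) (x (nat_lit 76) (nat_lit 0) (nat_lit 0)))) (Nat.add (Nat.add (x (nat_lit 77) (nat_lit 0) (nat_lit 0)) (x (nat_lit 78) (nat_lit 0) (nat_lit 0))) (Nat.add (x (nat_lit 79) (nat_lit 0) (nat_lit 0)) (x (nat_lit 80) (nat_lit 0) (nat_lit 0))))))) (Nat.add (Nat.add (Nat.add (Nat.add (x (nat_lit 81) (nat_lit 0) (nat_lit 0)) (Nat.add (x (nat_lit 82) (nat_lit 0) (nat_lit 0)) (x (nat_lit 83) (nat_lit 0) (nat_lit 0)))) (Nat.add (x (nat_lit 84) (nat_lit 0) (nat_lit 0)) (Nat.add (x (nat_lit 85) (nat_lit 0) (nat_lit 0)) (x (nat_lit 86) (nat_lit 0) (nat_lit 0))))) (Nat.add (Nat.add (x (nat_lit 87) (nat_lit 0) (nat_lit 0)) (Nat.add (x (nat_lit 88) (nat_lit 0) (nat_lit 0)) (x (nat_lit 89) (nat_lit 0) (nat_lit 0)))) (Nat.add (Nat.add (x (nat_lit 90) (nat_lit 0) (nat_lit 0)) (x (nat_lit 91) (nat_lit 0) (nat_lit 0))) (Nat.add (x (nat_lit 92) (nat_lit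 0) (nat_lit 0)) (x (nat_lit 93) (nat_lit 0) (nat_lit 0)))))) (Nat.add (Nat.add (Nat.add (x (nat_lit 94) (nat_lit 0) (nat_lit 0)) (Nat.add (x (nat_lit 95) (nat_lit 0) (nat_lit 0)) (x (nat_lit 96) (nat_lit 0) (nat_lit 0)))) (Nat.add (Nat.add (x (nat_lit 97) (nat_lit 0) (nat_lit 0)) (x (nat_lit 98) (nat_lit 0) (nat_lit 0))) (Nat.add (x (nat_lit 99) (nat_lit 0) (nat_lit 0)) (x (nat_lit 100) (nat_lit 0) (nat_lit 0))))) (Nat.add (Nat.add (x (nat_lit 101) (nat_lit 0) (nat_lit 0)) (Nat.add (x (nat_lit 102) (nat_lit 0) (nat_lit 0)) (x (nat_lit 103) (nat_lit 0) (nat_lit 0)))) (Nat.add (Nat.add (x (nat_lit 104) (nat_lit 0) (nat_lit 0)) (x (nat_lit 105) (nat_lit 0) (nat_lit 0))) (Nat.add (x (nat_lit 106) (nat_lit 0) (nat_lit 0)) (x (nat_lit 107) (nat_lit 0) (nat_lit 0)))))))))⟩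
  (TL.cons ⟨fun x => (Nat.add (Nat.add (Nat.add (Nat.add (Nat.add (Nat.add (x (nat_lit 0) (nat_lit 0) (nat_lit 0)) (Nat.add (x (nat_lit 1) (nat_lit 0) (nat_lit 0)) (x (nat_lit 2) (nat_lit 0) (nat_lit 0)))) (Nat.add (x (nat_lit 3) (nat_lit 0) (nat_lit 0)) (Nat.add (x (nat_lit 4) (nat_lit 0) (nat_lit 0)) (x (nat_lit 5) (nat_lit 0) (nat_lit 0))))) (Nat.add (Nat.add (x (nat_lit 6) (nat_lit 0) (nat_lit 0)) (Nat.add (x (nat_lit 7) (nat_lit 0) (nat_lit 0)) (x (nat_lit 8) (nat_lit 0) (nat_lit 0)))) (Nat.add (Nat.add (x (nat_lit 9) (nat_lit 0) (nat_lit 0)) (x (nat_lit 10) (nat_lit 0) (nat_lit 0))) (Nat.add (x (nat_lit 11) (nat_lit 0) (nat_lit 0)) (x (nat_lit 12) (nat_lit 0) (nat_lit 0)))))) (Nat.add (Nat.add (Nat.add (x (nat_lit 13) (nat_lit 0) (nat_lit 0)) (Nat.add (x (nat_lit 14) (nat_lit 0) (nat_lit 0)) (x (nat_lit 15) (nat_lit 0) (nat_lit 0))))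 (Nat.add (Nat.add (x (nat_lit 16) (nat_lit 0) (nat_lit 0)) (x (nat_lit 17) (nat_lit 0) (nat_lit 0))) (Nat.add (x (nat_lit 18) (nat_lit 0) (nat_lit 0)) (x (nat_lit 19) (nat_lit 0) (nat_lit 0))))) (Nat.add (Nat.add (x (nat_lit 20) (nat_lit 0) (nat_lit 0)) (Nat.add (x (nat_lit 21) (nat_lit 0) (nat_lit 0)) (x (nat_lit 22) (nat_lit 0) (nat_lit 0)))) (Nat.add (Nat.add (x (nat_lit 23) (nat_lit 0) (nat_lit 0)) (x (nat_lit 24) (nat_lit 0) (nat_lit 0))) (Nat.add (x (nat_lit 25) (nat_lit 0) (nat_lit 0)) (x (nat_lit 26) (nat_lit 0) (nat_lit 0))))))) (Nat.add (Nat.add (Nat.add (Nat.add (x (nat_lit 27) (nat_lit 0) (nat_lit 0)) (Nat.add (x (nat_lit 28) (nat_lit 0) (nat_lit 0)) (x (nat_lit 29) (nat_lit 0) (nat_lit 0)))) (Nat.add (x (nat_lit 30) (nat_lit 0) (nat_lit 0)) (Nat.add (x (nat_lit 31) (nat_lit 0) (nat_lit 0)) (x (nat_lit 32) (nat_lit 0) (nat_lit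 0))))) (Nat.add (Nat.add (x (nat_lit 33) (nat_lit 0) (nat_lit 0)) (Nat.add (x (nat_lit 34) (nat_lit 0) (nat_lit 0)) (x (nat_lit 35) (nat_lit 0) (nat_lit 0)))) (Nat.add (Nat.add (x (nat_lit 36) (nat_lit 0) (nat_lit 0)) (x (nat_lit 37) (nat_lit 0) (nat_lit 0))) (Nat.add (x (nat_lit 38) (nat_lit 0) (nat_lit 0)) (x (nat_lit 39) (nat_lit 0) (nat_lit 0)))))) (Nat.add (Nat.add (Nat.add (x (nat_lit 40) (nat_lit 0) (nat_lit 0)) (Nat.add (x (nat_lit 41) (nat_lit 0) (nat_lit 0)) (x (nat_lit 42) (nat_lit 0) (nat_lit 0)))) (Nat.add (Nat.add (x (nat_lit 43) (nat_lit 0) (nat_lit 0)) (x (nat_lit 44) (nat_lit 0) (nat_lit 0))) (Nat.add (x (nat_lit 45) (nat_lit 0) (nat_lit 0)) (x (nat_lit 46) (nat_lit 0) (nat_lit 0))))) (Nat.add (Nat.add (x (nat_lit 47) (nat_lit 0) (nat_lit 0)) (Nat.add (x (nat_lit 48) (nat_lit 0) (nat_lit 0)) (x (nat_lit 49) (nat_lit 0)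 (nat_lit 0)))) (Nat.add (Nat.add (x (nat_lit 50) (nat_lit 0) (nat_lit 0)) (x (nat_lit 51) (nat_lit 0) (nat_lit 0))) (Nat.add (x (nat_lit 52) (nat_lit 0) (nat_lit 0)) (x (nat_lit 53) (nat_lit 0) (nat_lit 0)))))))) (Nat.add (Nat.add (Nat.add (Nat.add (Nat.add (x (nat_lit 54) (nat_lit 0) (nat_lit 0)) (Nat.add (x (nat_lit 55) (nat_lit 0) (nat_lit 0)) (x (nat_lit 56) (nat_lit 0) (nat_lit 0)))) (Nat.add (x (nat_lit 57) (nat_lit 0) (nat_lit 0)) (Nat.add (x (nat_lit 58) (nat_lit 0) (nat_lit 0)) (x (nat_lit 59) (nat_lit 0) (nat_lit 0))))) (Nat.add (Nat.add (x (nat_lit 60) (nat_lit 0) (nat_lit 0)) (Nat.add (x (nat_lit 61) (nat_lit 0) (nat_lit 0)) (x (nat_lit 62) (nat_lit 0) (nat_lit 0)))) (Nat.add (Nat.add (x (nat_lit 63) (nat_lit 0) (nat_lit 0)) (x (nat_lit 64) (nat_lit 0) (nat_lit 0))) (Nat.add (x (nat_lit 65) (nat_lit 0) (nat_lit 0)) (x (nat_lit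 66) (nat_lit 0) (nat_lit 0)))))) (Nat.add (Nat.add (Nat.add (x (nat_lit 67) (nat_lit 0) (nat_lit 0)) (Nat.add (x (nat_lit 68) (nat_lit 0) (nat_lit 0)) (x (nat_lit 69) (nat_lit 0) (nat_lit 0)))) (Nat.add (Nat.add (x (nat_lit 70) (nat_lit 0) (nat_lit 0)) (x (nat_lit 71) (nat_lit 0) (nat_lit 0))) (Nat.add (x (nat_lit 72) (nat_lit 0) (nat_lit 0)) (x (nat_lit 73) (nat_lit 0) (nat_lit 0))))) (Nat.add (Nat.add (x (nat_lit 74) (nat_lit 0) (nat_lit 0)) (Nat.add (x (nat_lit 75) (nat_lit 0) (nat_lit 0)) (x (nat_lit 76) (nat_lit 0) (nat_lit 0)))) (Nat.add (Nat.add (x (nat_lit 77) (nat_lit 0) (nat_lit 0)) (x (nat_lit 78) (nat_lit 0) (nat_lit 0))) (Nat.add (x (nat_lit 79) (nat_lit 0) (nat_lit 0)) (x (nat_lit 80) (nat_lit 0) (nat_lit 0))))))) (Nat.add (Nat.add (Nat.add (Nat.add (x (nat_lit 81) (nat_lit 0) (nat_lit 0)) (Nat.add (x (nat_lit 82) (nat_lit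 0) (nat_lit 0)) (x (nat_lit 83) (nat_lit 0) (nat_lit 0)))) (Nat.add (Nat.add (x (nat_lit 84) (nat_lit 0) (nat_lit 0)) (x (nat_lit 85) (nat_lit 0) (nat_lit 0))) (Nat.add (x (nat_lit 86) (nat_lit 0) (nat_lit 0)) (x (nat_lit 87) (nat_lit 0) (nat_lit 0))))) (Nat.add (Nat.add (x (nat_lit 88) (nat_lit 0) (nat_lit 0)) (Nat.add (x (nat_lit 89) (nat_lit 0) (nat_lit 0)) (x (nat_lit 90) (nat_lit 0) (nat_lit 0)))) (Nat.add (Nat.add (x (nat_lit 91) (nat_lit 0) (nat_lit 0)) (x (nat_lit 92) (nat_lit 0) (nat_lit 0))) (Nat.add (x (nat_lit 93) (nat_lit 0) (nat_lit 0)) (x (nat_lit 94) (nat_lit 0) (nat_lit 0)))))) (Nat.add (Nat.add (Nat.add (x (nat_lit 95) (nat_lit 0) (nat_lit 0)) (Nat.add (x (nat_lit 96) (nat_lit 0) (nat_lit 0)) (x (nat_lit 97) (nat_lit 0) (nat_lit 0)))) (Nat.add (Nat.add (x (nat_lit 98) (nat_lit 0) (nat_lit 0)) (x (nat_lit 99) (nat_lit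 0) (nat_lit 0))) (Nat.add (x (nat_lit 100) (nat_lit 0) (nat_lit 0)) (x (nat_lit 101) (nat_lit 0) (nat_lit 0))))) (Nat.add (Nat.add (x (nat_lit 102) (nat_lit 0) (nat_lit 0)) (Nat.add (x (nat_lit 103) (nat_lit 0) (nat_lit 0)) (x (nat_lit 104) (nat_lit 0) (nat_lit 0)))) (Nat.add (Nat.add (x (nat_lit 105) (nat_lit 0) (nat_lit 0)) (x (nat_lit 106) (nat_lit 0) (nat_lit 0))) (Nat.add (x (nat_lit 107) (nat_lit 0) (nat_lit 0)) (x (nat_lit 108) (nat_lit 0) (nat_lit 0)))))))))⟩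
  (TL.cons ⟨fun x => (Nat.add (Nat.add (Nat.add (Nat.add (Nat.add (Nat.add (x (nat_lit 0) (nat_lit 0) (nat_lit 0)) (Nat.add (x (nat_lit 1) (nat_lit 0) (nat_lit 0)) (x (nat_lit 2) (nat_lit 0) (nat_lit 0)))) (Nat.add (x (nat_lit 3) (nat_lit 0) (nat_lit 0)) (Nat.add (x (nat_lit 4) (nat_lit 0) (nat_lit 0)) (x (nat_lit 5) (nat_lit 0) (nat_lit 0))))) (Nat.add (Nat.add (x (nat_lit 6) (nat_lit 0) (nat_lit 0)) (Nat.add (x (nat_lit 7) (nat_lit 0) (nat_lit 0)) (x (nat_lit 8) (nat_lit 0) (nat_lit 0)))) (Nat.add (Nat.add (x (nat_lit 9) (nat_lit 0) (nat_lit 0)) (x (nat_lit 10) (nat_lit 0) (nat_lit 0))) (Nat.add (x (nat_lit 11) (nat_lit 0) (nat_lit 0)) (x (nat_lit 12) (nat_lit 0) (nat_lit 0)))))) (Nat.add (Nat.add (Nat.add (x (nat_lit 13) (nat_lit 0) (nat_lit 0)) (Nat.add (x (nat_lit 14) (nat_lit 0) (nat_lit 0)) (x (nat_lit 15) (nat_lit 0) (nat_lit 0))))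 (Nat.add (Nat.add (x (nat_lit 16) (nat_lit 0) (nat_lit 0)) (x (nat_lit 17) (nat_lit 0) (nat_lit 0))) (Nat.add (x (nat_lit 18) (nat_lit 0) (nat_lit 0)) (x (nat_lit 19) (nat_lit 0) (nat_lit 0))))) (Nat.add (Nat.add (x (nat_lit 20) (nat_lit 0) (nat_lit 0)) (Nat.add (x (nat_lit 21) (nat_lit 0) (nat_lit 0)) (x (nat_lit 22) (nat_lit 0) (nat_lit 0)))) (Nat.add (Nat.add (x (nat_lit 23) (nat_lit 0) (nat_lit 0)) (x (nat_lit 24) (nat_lit 0) (nat_lit 0))) (Nat.add (x (nat_lit 25) (nat_lit 0) (nat_lit 0)) (x (nat_lit 26) (nat_lit 0) (nat_lit 0))))))) (Nat.add (Nat.add (Nat.add (Nat.add (x (nat_lit 27) (nat_lit 0) (nat_lit 0)) (Nat.add (x (nat_lit 28) (nat_lit 0) (nat_lit 0)) (x (nat_lit 29) (nat_lit 0) (nat_lit 0)))) (Nat.add (Nat.add (x (nat_lit 30) (nat_lit 0) (nat_lit 0)) (x (nat_lit 31) (nat_lit 0) (nat_lit 0))) (Nat.add (x (nat_lit 32) (nat_lit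 0) (nat_lit 0)) (x (nat_lit 33) (nat_lit 0) (nat_lit 0))))) (Nat.add (Nat.add (x (nat_lit 34) (nat_lit 0) (nat_lit 0)) (Nat.add (x (nat_lit 35) (nat_lit 0) (nat_lit 0)) (x (nat_lit 36) (nat_lit 0) (nat_lit 0)))) (Nat.add (Nat.add (x (nat_lit 37) (nat_lit 0) (nat_lit 0)) (x (nat_lit 38) (nat_lit 0) (nat_lit 0))) (Nat.add (x (nat_lit 39) (nat_lit 0) (nat_lit 0)) (x (nat_lit 40) (nat_lit 0) (nat_lit 0)))))) (Nat.add (Nat.add (Nat.add (x (nat_lit 41) (nat_lit 0) (nat_lit 0)) (Nat.add (x (nat_lit 42) (nat_lit 0) (nat_lit 0)) (x (nat_lit 43) (nat_lit 0) (nat_lit 0)))) (Nat.add (Nat.add (x (nat_lit 44) (nat_lit 0) (nat_lit 0)) (x (nat_lit 45) (nat_lit 0) (nat_lit 0))) (Nat.add (x (nat_lit 46) (nat_lit 0) (nat_lit 0)) (x (nat_lit 47) (nat_lit 0) (nat_lit 0))))) (Nat.add (Nat.add (x (nat_lit 48) (nat_lit 0) (nat_lit 0)) (Nat.add (x (nat_lit 49)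 (nat_lit 0) (nat_lit 0)) (x (nat_lit 50) (nat_lit 0) (nat_lit 0)))) (Nat.add (Nat.add (x (nat_lit 51) (nat_lit 0) (nat_lit 0)) (x (nat_lit 52) (nat_lit 0) (nat_lit 0))) (Nat.add (x (nat_lit 53) (nat_lit 0) (nat_lit 0)) (x (nat_lit 54) (nat_lit 0) (nat_lit 0)))))))) (Nat.add (Nat.add (Nat.add (Nat.add (Nat.add (x (nat_lit 55) (nat_lit 0) (nat_lit 0)) (Nat.add (x (nat_lit 56) (nat_lit 0) (nat_lit 0)) (x (nat_lit 57) (nat_lit 0) (nat_lit 0)))) (Nat.add (x (nat_lit 58) (nat_lit 0) (nat_lit 0)) (Nat.add (x (nat_lit 59) (nat_lit 0) (nat_lit 0)) (x (nat_lit 60) (nat_lit 0) (nat_lit 0))))) (Nat.add (Nat.add (x (nat_lit 61) (nat_lit 0) (nat_lit 0)) (Nat.add (x (nat_lit 62) (nat_lit 0) (nat_lit 0)) (x (nat_lit 63) (nat_lit 0) (nat_lit 0)))) (Nat.add (Nat.add (x (nat_lit 64) (nat_lit 0) (nat_lit 0)) (x (nat_lit 65) (nat_lit 0) (nat_lit 0))) (Nat.add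 (x (nat_lit 66) (nat_lit 0) (nat_lit 0)) (x (nat_lit 67) (nat_lit 0) (nat_lit 0)))))) (Nat.add (Nat.add (Nat.add (x (nat_lit 68) (nat_lit 0) (nat_lit 0)) (Nat.add (x (nat_lit 69) (nat_lit 0) (nat_lit 0)) (x (nat_lit 70) (nat_lit 0) (nat_lit 0)))) (Nat.add (Nat.add (x (nat_lit 71) (nat_lit 0) (nat_lit 0)) (x (nat_lit 72) (nat_lit 0) (nat_lit 0))) (Nat.add (x (nat_lit 73) (nat_lit 0) (nat_lit 0)) (x (nat_lit 74) (nat_lit 0) (nat_lit 0))))) (Nat.add (Nat.add (x (nat_lit 75) (nat_lit 0) (nat_lit 0)) (Nat.add (x (nat_lit 76) (nat_lit 0) (nat_lit 0)) (x (nat_lit 77) (nat_lit 0) (nat_lit 0)))) (Nat.add (Nat.add (x (nat_lit 78) (nat_lit 0) (nat_lit 0)) (x (nat_lit 79) (nat_lit 0) (nat_lit 0))) (Nat.add (x (nat_lit 80) (nat_lit 0) (nat_lit 0)) (x (nat_lit 81) (nat_lit 0) (nat_lit 0))))))) (Nat.add (Nat.add (Nat.add (Nat.add (x (nat_lit 82) (nat_lit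 0) (nat_lit 0)) (Nat.add (x (nat_lit 83) (nat_lit 0) (nat_lit 0)) (x (nat_lit 84) (nat_lit 0) (nat_lit 0)))) (Nat.add (Nat.add (x (nat_lit 85) (nat_lit 0) (nat_lit 0)) (x (nat_lit 86) (nat_lit 0) (nat_lit 0))) (Nat.add (x (nat_lit 87) (nat_lit 0) (nat_lit 0)) (x (nat_lit 88) (nat_lit 0) (nat_lit 0))))) (Nat.add (Nat.add (x (nat_lit 89) (nat_lit 0) (nat_lit 0)) (Nat.add (x (nat_lit 90) (nat_lit 0) (nat_lit 0)) (x (nat_lit 91) (nat_lit 0) (nat_lit 0)))) (Nat.add (Nat.add (x (nat_lit 92) (nat_lit 0) (nat_lit 0)) (x (nat_lit 93) (nat_lit 0) (nat_lit 0))) (Nat.add (x (nat_lit 94) (nat_lit 0) (nat_lit 0)) (x (nat_lit 95) (nat_lit 0) (nat_lit 0)))))) (Nat.add (Nat.add (Nat.add (x (nat_lit 96) (nat_lit 0) (nat_lit 0)) (Nat.add (x (nat_lit 97) (nat_lit 0) (nat_lit 0)) (x (nat_lit 98) (nat_lit 0) (nat_lit 0)))) (Nat.add (Nat.add (x (nat_lit 99)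 (nat_lit 0) (nat_lit 0)) (x (nat_lit 100) (nat_lit 0) (nat_lit 0))) (Nat.add (x (nat_lit 101) (nat_lit 0) (nat_lit 0)) (x (nat_lit 102) (nat_lit 0) (nat_lit 0))))) (Nat.add (Nat.add (x (nat_lit 103) (nat_lit 0) (nat_lit 0)) (Nat.add (x (nat_lit 104) (nat_lit 0) (nat_lit 0)) (x (nat_lit 105) (nat_lit 0) (nat_lit 0)))) (Nat.add (Nat.add (x (nat_lit 106) (nat_lit 0) (nat_lit 0)) (x (nat_lit 107) (nat_lit 0) (nat_lit 0))) (Nat.add (x (nat_lit 108) (nat_lit 0) (nat_lit 0)) (x (nat_lit 109) (nat_lit 0) (nat_lit 0)))))))))⟩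
  (TL.cons ⟨fun x => (Nat.add (Nat.add (Nat.add (Nat.add (Nat.add (Nat.add (x (nat_lit 0) (nat_lit 0) (nat_lit 0)) (Nat.add (x (nat_lit 1) (nat_lit 0) (nat_lit 0)) (x (nat_lit 2) (nat_lit 0) (nat_lit 0)))) (Nat.add (x (nat_lit 3) (nat_lit 0) (nat_lit 0)) (Nat.add (x (nat_lit 4) (nat_lit 0) (nat_lit 0)) (x (nat_lit 5) (nat_lit 0) (nat_lit 0))))) (Nat.add (Nat.add (x (nat_lit 6) (nat_lit 0) (nat_lit 0)) (Nat.add (x (nat_lit 7) (nat_lit 0) (nat_lit 0)) (x (nat_lit 8) (nat_lit 0) (nat_lit 0)))) (Nat.add (Nat.add (x (nat_lit 9) (nat_lit 0) (nat_lit 0)) (x (nat_lit 10) (nat_lit 0) (nat_lit 0))) (Nat.add (x (nat_lit 11) (nat_lit 0) (nat_lit 0)) (x (nat_lit 12) (nat_lit 0) (nat_lit 0)))))) (Nat.add (Nat.add (Nat.add (x (nat_lit 13) (nat_lit 0) (nat_lit 0)) (Nat.add (x (nat_lit 14) (nat_lit 0) (nat_lit 0)) (x (nat_lit 15) (nat_lit 0) (nat_lit 0))))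 (Nat.add (Nat.add (x (nat_lit 16) (nat_lit 0) (nat_lit 0)) (x (nat_lit 17) (nat_lit 0) (nat_lit 0))) (Nat.add (x (nat_lit 18) (nat_lit 0) (nat_lit 0)) (x (nat_lit 19) (nat_lit 0) (nat_lit 0))))) (Nat.add (Nat.add (x (nat_lit 20) (nat_lit 0) (nat_lit 0)) (Nat.add (x (nat_lit 21) (nat_lit 0) (nat_lit 0)) (x (nat_lit 22) (nat_lit 0) (nat_lit 0)))) (Nat.add (Nat.add (x (nat_lit 23) (nat_lit 0) (nat_lit 0)) (x (nat_lit 24) (nat_lit 0) (nat_lit 0))) (Nat.add (x (nat_lit 25) (nat_lit 0) (nat_lit 0)) (x (nat_lit 26) (nat_lit 0) (nat_lit 0))))))) (Nat.add (Nat.add (Nat.add (Nat.add (x (nat_lit 27) (nat_lit 0) (nat_lit 0)) (Nat.add (x (nat_lit 28) (nat_lit 0) (nat_lit 0)) (x (nat_lit 29) (nat_lit 0) (nat_lit 0)))) (Nat.add (Nat.add (x (nat_lit 30) (nat_lit 0) (nat_lit 0)) (x (nat_lit 31) (nat_lit 0) (nat_lit 0))) (Nat.add (x (nat_lit 32) (nat_lit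 0) (nat_lit 0)) (x (nat_lit 33) (nat_lit 0) (nat_lit 0))))) (Nat.add (Nat.add (x (nat_lit 34) (nat_lit 0) (nat_lit 0)) (Nat.add (x (nat_lit 35) (nat_lit 0) (nat_lit 0)) (x (nat_lit 36) (nat_lit 0) (nat_lit 0)))) (Nat.add (Nat.add (x (nat_lit 37) (nat_lit 0) (nat_lit 0)) (x (nat_lit 38) (nat_lit 0) (nat_lit 0))) (Nat.add (x (nat_lit 39) (nat_lit 0) (nat_lit 0)) (x (nat_lit 40) (nat_lit 0) (nat_lit 0)))))) (Nat.add (Nat.add (Nat.add (x (nat_lit 41) (nat_lit 0) (nat_lit 0)) (Nat.add (x (nat_lit 42) (nat_lit 0) (nat_lit 0)) (x (nat_lit 43) (nat_lit 0) (nat_lit 0)))) (Nat.add (Nat.add (x (nat_lit 44) (nat_lit 0) (nat_lit 0)) (x (nat_lit 45) (nat_lit 0) (nat_lit 0))) (Nat.add (x (nat_lit 46) (nat_lit 0) (nat_lit 0)) (x (nat_lit 47) (nat_lit 0) (nat_lit 0))))) (Nat.add (Nat.add (x (nat_lit 48) (nat_lit 0) (nat_lit 0)) (Nat.add (x (nat_lit 49)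 (nat_lit 0) (nat_lit 0)) (x (nat_lit 50) (nat_lit 0) (nat_lit 0)))) (Nat.add (Nat.add (x (nat_lit 51) (nat_lit 0) (nat_lit 0)) (x (nat_lit 52) (nat_lit 0) (nat_lit 0))) (Nat.add (x (nat_lit 53) (nat_lit 0) (nat_lit 0)) (x (nat_lit 54) (nat_lit 0) (nat_lit 0)))))))) (Nat.add (Nat.add (Nat.add (Nat.add (Nat.add (x (nat_lit 55) (nat_lit 0) (nat_lit 0)) (Nat.add (x (nat_lit 56) (nat_lit 0) (nat_lit 0)) (x (nat_lit 57) (nat_lit 0) (nat_lit 0)))) (Nat.add (Nat.add (x (nat_lit 58) (nat_lit 0) (nat_lit 0)) (x (nat_lit 59) (nat_lit 0) (nat_lit 0))) (Nat.add (x (nat_lit 60) (nat_lit 0) (nat_lit 0)) (x (nat_lit 61) (nat_lit 0) (nat_lit 0))))) (Nat.add (Nat.add (x (nat_lit 62) (nat_lit 0) (nat_lit 0)) (Nat.add (x (nat_lit 63) (nat_lit 0) (nat_lit 0)) (x (nat_lit 64) (nat_lit 0) (nat_lit 0)))) (Nat.add (Nat.add (x (nat_lit 65) (nat_lit 0) (nat_lit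 0)) (x (nat_lit 66) (nat_lit 0) (nat_lit 0))) (Nat.add (x (nat_lit 67) (nat_lit 0) (nat_lit 0)) (x (nat_lit 68) (nat_lit 0) (nat_lit 0)))))) (Nat.add (Nat.add (Nat.add (x (nat_lit 69) (nat_lit 0) (nat_lit 0)) (Nat.add (x (nat_lit 70) (nat_lit 0) (nat_lit 0)) (x (nat_lit 71) (nat_lit 0) (nat_lit 0)))) (Nat.add (Nat.add (x (nat_lit 72) (nat_lit 0) (nat_lit 0)) (x (nat_lit 73) (nat_lit 0) (nat_lit 0))) (Nat.add (x (nat_lit 74) (nat_lit 0) (nat_lit 0)) (x (nat_lit 75) (nat_lit 0) (nat_lit 0))))) (Nat.add (Nat.add (x (nat_lit 76) (nat_lit 0) (nat_lit 0)) (Nat.add (x (nat_lit 77) (nat_lit 0) (nat_lit 0)) (x (nat_lit 78) (nat_lit 0) (nat_lit 0)))) (Nat.add (Nat.add (x (nat_lit 79) (nat_lit 0) (nat_lit 0)) (x (nat_lit 80) (nat_lit 0) (nat_lit 0))) (Nat.add (x (nat_lit 81) (nat_lit 0) (nat_lit 0)) (x (nat_lit 82) (nat_lit 0) (nat_lit 0))))))) (Nat.add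 (Nat.add (Nat.add (Nat.add (x (nat_lit 83) (nat_lit 0) (nat_lit 0)) (Nat.add (x (nat_lit 84) (nat_lit 0) (nat_lit 0)) (x (nat_lit 85) (nat_lit 0) (nat_lit 0)))) (Nat.add (Nat.add (x (nat_lit 86) (nat_lit 0) (nat_lit 0)) (x (nat_lit 87) (nat_lit 0) (nat_lit 0))) (Nat.add (x (nat_lit 88) (nat_lit 0) (nat_lit 0)) (x (nat_lit 89) (nat_lit 0) (nat_lit 0))))) (Nat.add (Nat.add (x (nat_lit 90) (nat_lit 0) (nat_lit 0)) (Nat.add (x (nat_lit 91) (nat_lit 0) (nat_lit 0)) (x (nat_lit 92) (nat_lit 0) (nat_lit 0)))) (Nat.add (Nat.add (x (nat_lit 93) (nat_lit 0) (nat_lit 0)) (x (nat_lit 94) (nat_lit 0) (nat_lit 0))) (Nat.add (x (nat_lit 95) (nat_lit 0) (nat_lit 0)) (x (nat_lit 96) (nat_lit 0) (nat_lit 0)))))) (Nat.add (Nat.add (Nat.add (x (nat_lit 97) (nat_lit 0) (nat_lit 0)) (Nat.add (x (nat_lit 98) (nat_lit 0) (nat_lit 0)) (x (nat_lit 99) (nat_lit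 0) (nat_lit 0)))) (Nat.add (Nat.add (x (nat_lit 100) (nat_lit 0) (nat_lit 0)) (x (nat_lit 101) (nat_lit 0) (nat_lit 0))) (Nat.add (x (nat_lit 102) (nat_lit 0) (nat_lit 0)) (x (nat_lit 103) (nat_lit 0) (nat_lit 0))))) (Nat.add (Nat.add (x (nat_lit 104) (nat_lit 0) (nat_lit 0)) (Nat.add (x (nat_lit 105) (nat_lit 0) (nat_lit 0)) (x (nat_lit 106) (nat_lit 0) (nat_lit 0)))) (Nat.add (Nat.add (x (nat_lit 107) (nat_lit 0) (nat_lit 0)) (x (nat_lit 108) (nat_lit 0) (nat_lit 0))) (Nat.add (x (nat_lit 109) (nat_lit 0) (nat_lit 0)) (x (nat_lit 110) (nat_lit 0) (nat_lit 0)))))))))⟩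
  (TL.cons ⟨fun x => (Nat.add (Nat.add (Nat.add (Nat.add (Nat.add (Nat.add (x (nat_lit 0) (nat_lit 0) (nat_lit 0)) (Nat.add (x (nat_lit 1) (nat_lit 0) (nat_lit 0)) (x (nat_lit 2) (nat_lit 0) (nat_lit 0)))) (Nat.add (Nat.add (x (nat_lit 3) (nat_lit 0) (nat_lit 0)) (x (nat_lit 4) (nat_lit 0) (nat_lit 0))) (Nat.add (x (nat_lit 5) (nat_lit 0) (nat_lit 0)) (x (nat_lit 6) (nat_lit 0) (nat_lit 0))))) (Nat.add (Nat.add (x (nat_lit 7) (nat_lit 0) (nat_lit 0)) (Nat.add (x (nat_lit 8) (nat_lit 0) (nat_lit 0)) (x (nat_lit 9) (nat_lit 0) (nat_lit 0)))) (Nat.add (Nat.add (x (nat_lit 10) (nat_lit 0) (nat_lit 0)) (x (nat_lit 11) (nat_lit 0) (nat_lit 0))) (Nat.add (x (nat_lit 12) (nat_lit 0) (nat_lit 0)) (x (nat_lit 13) (nat_lit 0) (nat_lit 0)))))) (Nat.add (Nat.add (Nat.add (x (nat_lit 14) (nat_lit 0) (nat_lit 0)) (Nat.add (x (nat_lit 15) (nat_lit 0)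 (nat_lit 0)) (x (nat_lit 16) (nat_lit 0) (nat_lit 0)))) (Nat.add (Nat.add (x (nat_lit 17) (nat_lit 0) (nat_lit 0)) (x (nat_lit 18) (nat_lit 0) (nat_lit 0))) (Nat.add (x (nat_lit 19) (nat_lit 0) (nat_lit 0)) (x (nat_lit 20) (nat_lit 0) (nat_lit 0))))) (Nat.add (Nat.add (x (nat_lit 21) (nat_lit 0) (nat_lit 0)) (Nat.add (x (nat_lit 22) (nat_lit 0) (nat_lit 0)) (x (nat_lit 23) (nat_lit 0) (nat_lit 0)))) (Nat.add (Nat.add (x (nat_lit 24) (nat_lit 0) (nat_lit 0)) (x (nat_lit 25) (nat_lit 0) (nat_lit 0))) (Nat.add (x (nat_lit 26) (nat_lit 0) (nat_lit 0)) (x (nat_lit 27) (nat_lit 0) (nat_lit 0))))))) (Nat.add (Nat.add (Nat.add (Nat.add (x (nat_lit 28) (nat_lit 0) (nat_lit 0)) (Nat.add (x (nat_lit 29) (nat_lit 0) (nat_lit 0)) (x (nat_lit 30) (nat_lit 0) (nat_lit 0)))) (Nat.add (Nat.add (x (nat_lit 31) (nat_lit 0) (nat_lit 0)) (x (nat_lit 32) (nat_lit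 0) (nat_lit 0))) (Nat.add (x (nat_lit 33) (nat_lit 0) (nat_lit 0)) (x (nat_lit 34) (nat_lit 0) (nat_lit 0))))) (Nat.add (Nat.add (x (nat_lit 35) (nat_lit 0) (nat_lit 0)) (Nat.add (x (nat_lit 36) (nat_lit 0) (nat_lit 0)) (x (nat_lit 37) (nat_lit 0) (nat_lit 0)))) (Nat.add (Nat.add (x (nat_lit 38) (nat_lit 0) (nat_lit 0)) (x (nat_lit 39) (nat_lit 0) (nat_lit 0))) (Nat.add (x (nat_lit 40) (nat_lit 0) (nat_lit 0)) (x (nat_lit 41) (nat_lit 0) (nat_lit 0)))))) (Nat.add (Nat.add (Nat.add (x (nat_lit 42) (nat_lit 0) (nat_lit 0)) (Nat.add (x (nat_lit 43) (nat_lit 0) (nat_lit 0)) (x (nat_lit 44) (nat_lit 0) (nat_lit 0)))) (Nat.add (Nat.add (x (nat_lit 45) (nat_lit 0) (nat_lit 0)) (x (nat_lit 46) (nat_lit 0) (nat_lit 0))) (Nat.add (x (nat_lit 47) (nat_lit 0) (nat_lit 0)) (x (nat_lit 48) (nat_lit 0) (nat_lit 0))))) (Nat.add (Nat.add (x (nat_lit 49)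 (nat_lit 0) (nat_lit 0)) (Nat.add (x (nat_lit 50) (nat_lit 0) (nat_lit 0)) (x (nat_lit 51) (nat_lit 0) (nat_lit 0)))) (Nat.add (Nat.add (x (nat_lit 52) (nat_lit 0) (nat_lit 0)) (x (nat_lit 53) (nat_lit 0) (nat_lit 0))) (Nat.add (x (nat_lit 54) (nat_lit 0) (nat_lit 0)) (x (nat_lit 55) (nat_lit 0) (nat_lit 0)))))))) (Nat.add (Nat.add (Nat.add (Nat.add (Nat.add (x (nat_lit 56) (nat_lit 0) (nat_lit 0)) (Nat.add (x (nat_lit 57) (nat_lit 0) (nat_lit 0)) (x (nat_lit 58) (nat_lit 0) (nat_lit 0)))) (Nat.add (Nat.add (x (nat_lit 59) (nat_lit 0) (nat_lit 0)) (x (nat_lit 60) (nat_lit 0) (nat_lit 0))) (Nat.add (x (nat_lit 61) (nat_lit 0) (nat_lit 0)) (x (nat_lit 62) (nat_lit 0) (nat_lit 0))))) (Nat.add (Nat.add (x (nat_lit 63) (nat_lit 0) (nat_lit 0)) (Nat.add (x (nat_lit 64) (nat_lit 0) (nat_lit 0)) (x (nat_lit 65) (nat_lit 0) (nat_lit 0)))) (Nat.add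 (Nat.add (x (nat_lit 66) (nat_lit 0) (nat_lit 0)) (x (nat_lit 67) (nat_lit 0) (nat_lit 0))) (Nat.add (x (nat_lit 68) (nat_lit 0) (nat_lit 0)) (x (nat_lit 69) (nat_lit 0) (nat_lit 0)))))) (Nat.add (Nat.add (Nat.add (x (nat_lit 70) (nat_lit 0) (nat_lit 0)) (Nat.add (x (nat_lit 71) (nat_lit 0) (nat_lit 0)) (x (nat_lit 72) (nat_lit 0) (nat_lit 0)))) (Nat.add (Nat.add (x (nat_lit 73) (nat_lit 0) (nat_lit 0)) (x (nat_lit 74) (nat_lit 0) (nat_lit 0))) (Nat.add (x (nat_lit 75) (nat_lit 0) (nat_lit 0)) (x (nat_lit 76) (nat_lit 0) (nat_lit 0))))) (Nat.add (Nat.add (x (nat_lit 77) (nat_lit 0) (nat_lit 0)) (Nat.add (x (nat_lit 78) (nat_lit 0) (nat_lit 0)) (x (nat_lit 79) (nat_lit 0) (nat_lit 0)))) (Nat.add (Nat.add (x (nat_lit 80) (nat_lit 0) (nat_lit 0)) (x (nat_lit 81) (nat_lit 0) (nat_lit 0))) (Nat.add (x (nat_lit 82) (nat_lit 0) (nat_lit 0)) (x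 (nat_lit 83) (nat_lit 0) (nat_lit 0))))))) (Nat.add (Nat.add (Nat.add (Nat.add (x (nat_lit 84) (nat_lit 0) (nat_lit 0)) (Nat.add (x (nat_lit 85) (nat_lit 0) (nat_lit 0)) (x (nat_lit 86) (nat_lit 0) (nat_lit 0)))) (Nat.add (Nat.add (x (nat_lit 87) (nat_lit 0) (nat_lit 0)) (x (nat_lit 88) (nat_lit 0) (nat_lit 0))) (Nat.add (x (nat_lit 89) (nat_lit 0) (nat_lit 0)) (x (nat_lit 90) (nat_lit 0) (nat_lit 0))))) (Nat.add (Nat.add (x (nat_lit 91) (nat_lit 0) (nat_lit 0)) (Nat.add (x (nat_lit 92) (nat_lit 0) (nat_lit 0)) (x (nat_lit 93) (nat_lit 0) (nat_lit 0)))) (Nat.add (Nat.add (x (nat_lit 94) (nat_lit 0) (nat_lit 0)) (x (nat_lit 95) (nat_lit 0) (nat_lit 0))) (Nat.add (x (nat_lit 96) (nat_lit 0) (nat_lit 0)) (x (nat_lit 97) (nat_lit 0) (nat_lit 0)))))) (Nat.add (Nat.add (Nat.add (x (nat_lit 98) (nat_lit 0) (nat_lit 0)) (Nat.add (x (nat_lit 99)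 (nat_lit 0) (nat_lit 0)) (x (nat_lit 100) (nat_lit 0) (nat_lit 0)))) (Nat.add (Nat.add (x (nat_lit 101) (nat_lit 0) (nat_lit 0)) (x (nat_lit 102) (nat_lit 0) (nat_lit 0))) (Nat.add (x (nat_lit 103) (nat_lit 0) (nat_lit 0)) (x (nat_lit 104) (nat_lit 0) (nat_lit 0))))) (Nat.add (Nat.add (x (nat_lit 105) (nat_lit 0) (nat_lit 0)) (Nat.add (x (nat_lit 106) (nat_lit 0) (nat_lit 0)) (x (nat_lit 107) (nat_lit 0) (nat_lit 0)))) (Nat.add (Nat.add (x (nat_lit 108) (nat_lit 0) (nat_lit 0)) (x (nat_lit 109) (nat_lit 0) (nat_lit 0))) (Nat.add (x (nat_lit 110) (nat_lit 0) (nat_lit 0)) (x (nat_lit 111) (nat_lit 0) (nat_lit 0)))))))))⟩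
  (TL.cons ⟨fun x => (Nat.add (Nat.add (Nat.add (Nat.add (Nat.add (Nat.add (x (nat_lit 0) (nat_lit 0) (nat_lit 0)) (Nat.add (x (nat_lit 1) (nat_lit 0) (nat_lit 0)) (x (nat_lit 2) (nat_lit 0) (nat_lit 0)))) (Nat.add (Nat.add (x (nat_lit 3) (nat_lit 0) (nat_lit 0)) (x (nat_lit 4) (nat_lit 0) (nat_lit 0))) (Nat.add (x (nat_lit 5) (nat_lit 0) (nat_lit 0)) (x (nat_lit 6) (nat_lit 0) (nat_lit 0))))) (Nat.add (Nat.add (x (nat_lit 7) (nat_lit 0) (nat_lit 0)) (Nat.add (x (nat_lit 8) (nat_lit 0) (nat_lit 0)) (x (nat_lit 9) (nat_lit 0) (nat_lit 0)))) (Nat.add (Nat.add (x (nat_lit 10) (nat_lit 0) (nat_lit 0)) (x (nat_lit 11) (nat_lit 0) (nat_lit 0))) (Nat.add (x (nat_lit 12) (nat_lit 0) (nat_lit 0)) (x (nat_lit 13) (nat_lit 0) (nat_lit 0)))))) (Nat.add (Nat.add (Nat.add (x (nat_lit 14) (nat_lit 0) (nat_lit 0)) (Nat.add (x (nat_lit 15) (nat_lit 0)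 (nat_lit 0)) (x (nat_lit 16) (nat_lit 0) (nat_lit 0)))) (Nat.add (Nat.add (x (nat_lit 17) (nat_lit 0) (nat_lit 0)) (x (nat_lit 18) (nat_lit 0) (nat_lit 0))) (Nat.add (x (nat_lit 19) (nat_lit 0) (nat_lit 0)) (x (nat_lit 20) (nat_lit 0) (nat_lit 0))))) (Nat.add (Nat.add (x (nat_lit 21) (nat_lit 0) (nat_lit 0)) (Nat.add (x (nat_lit 22) (nat_lit 0) (nat_lit 0)) (x (nat_lit 23) (nat_lit 0) (nat_lit 0)))) (Nat.add (Nat.add (x (nat_lit 24) (nat_lit 0) (nat_lit 0)) (x (nat_lit 25) (nat_lit 0) (nat_lit 0))) (Nat.add (x (nat_lit 26) (nat_lit 0) (nat_lit 0)) (x (nat_lit 27) (nat_lit 0) (nat_lit 0))))))) (Nat.add (Nat.add (Nat.add (Nat.add (x (nat_lit 28) (nat_lit 0) (nat_lit 0)) (Nat.add (x (nat_lit 29) (nat_lit 0) (nat_lit 0)) (x (nat_lit 30) (nat_lit 0) (nat_lit 0)))) (Nat.add (Nat.add (x (nat_lit 31) (nat_lit 0) (nat_lit 0)) (x (nat_lit 32) (nat_lit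 0) (nat_lit 0))) (Nat.add (x (nat_lit 33) (nat_lit 0) (nat_lit 0)) (x (nat_lit 34) (nat_lit 0) (nat_lit 0))))) (Nat.add (Nat.add (x (nat_lit 35) (nat_lit 0) (nat_lit 0)) (Nat.add (x (nat_lit 36) (nat_lit 0) (nat_lit 0)) (x (nat_lit 37) (nat_lit 0) (nat_lit 0)))) (Nat.add (Nat.add (x (nat_lit 38) (nat_lit 0) (nat_lit 0)) (x (nat_lit 39) (nat_lit 0) (nat_lit 0))) (Nat.add (x (nat_lit 40) (nat_lit 0) (nat_lit 0)) (x (nat_lit 41) (nat_lit 0) (nat_lit 0)))))) (Nat.add (Nat.add (Nat.add (x (nat_lit 42) (nat_lit 0) (nat_lit 0)) (Nat.add (x (nat_lit 43) (nat_lit 0) (nat_lit 0)) (x (nat_lit 44) (nat_lit 0) (nat_lit 0)))) (Nat.add (Nat.add (x (nat_lit 45) (nat_lit 0) (nat_lit 0)) (x (nat_lit 46) (nat_lit 0) (nat_lit 0))) (Nat.add (x (nat_lit 47) (nat_lit 0) (nat_lit 0)) (x (nat_lit 48) (nat_lit 0) (nat_lit 0))))) (Nat.add (Nat.add (x (nat_lit 49)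 (nat_lit 0) (nat_lit 0)) (Nat.add (x (nat_lit 50) (nat_lit 0) (nat_lit 0)) (x (nat_lit 51) (nat_lit 0) (nat_lit 0)))) (Nat.add (Nat.add (x (nat_lit 52) (nat_lit 0) (nat_lit 0)) (x (nat_lit 53) (nat_lit 0) (nat_lit 0))) (Nat.add (x (nat_lit 54) (nat_lit 0) (nat_lit 0)) (x (nat_lit 55) (nat_lit 0) (nat_lit 0)))))))) (Nat.add (Nat.add (Nat.add (Nat.add (Nat.add (x (nat_lit 56) (nat_lit 0) (nat_lit 0)) (Nat.add (x (nat_lit 57) (nat_lit 0) (nat_lit 0)) (x (nat_lit 58) (nat_lit 0) (nat_lit 0)))) (Nat.add (Nat.add (x (nat_lit 59) (nat_lit 0) (nat_lit 0)) (x (nat_lit 60) (nat_lit 0) (nat_lit 0))) (Nat.add (x (nat_lit 61) (nat_lit 0) (nat_lit 0)) (x (nat_lit 62) (nat_lit 0) (nat_lit 0))))) (Nat.add (Nat.add (x (nat_lit 63) (nat_lit 0) (nat_lit 0)) (Nat.add (x (nat_lit 64) (nat_lit 0) (nat_lit 0)) (x (nat_lit 65) (nat_lit 0) (nat_lit 0)))) (Nat.add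 (Nat.add (x (nat_lit 66) (nat_lit 0) (nat_lit 0)) (x (nat_lit 67) (nat_lit 0) (nat_lit 0))) (Nat.add (x (nat_lit 68) (nat_lit 0) (nat_lit 0)) (x (nat_lit 69) (nat_lit 0) (nat_lit 0)))))) (Nat.add (Nat.add (Nat.add (x (nat_lit 70) (nat_lit 0) (nat_lit 0)) (Nat.add (x (nat_lit 71) (nat_lit 0) (nat_lit 0)) (x (nat_lit 72) (nat_lit 0) (nat_lit 0)))) (Nat.add (Nat.add (x (nat_lit 73) (nat_lit 0) (nat_lit 0)) (x (nat_lit 74) (nat_lit 0) (nat_lit 0))) (Nat.add (x (nat_lit 75) (nat_lit 0) (nat_lit 0)) (x (nat_lit 76) (nat_lit 0) (nat_lit 0))))) (Nat.add (Nat.add (x (nat_lit 77) (nat_lit 0) (nat_lit 0)) (Nat.add (x (nat_lit 78) (nat_lit 0) (nat_lit 0)) (x (nat_lit 79) (nat_lit 0) (nat_lit 0)))) (Nat.add (Nat.add (x (nat_lit 80) (nat_lit 0) (nat_lit 0)) (x (nat_lit 81) (nat_lit 0) (nat_lit 0))) (Nat.add (x (nat_lit 82) (nat_lit 0) (nat_lit 0)) (x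 (nat_lit 83) (nat_lit 0) (nat_lit 0))))))) (Nat.add (Nat.add (Nat.add (Nat.add (x (nat_lit 84) (nat_lit 0) (nat_lit 0)) (Nat.add (x (nat_lit 85) (nat_lit 0) (nat_lit 0)) (x (nat_lit 86) (nat_lit 0) (nat_lit 0)))) (Nat.add (Nat.add (x (nat_lit 87) (nat_lit 0) (nat_lit 0)) (x (nat_lit 88) (nat_lit 0) (nat_lit 0))) (Nat.add (x (nat_lit 89) (nat_lit 0) (nat_lit 0)) (x (nat_lit 90) (nat_lit 0) (nat_lit 0))))) (Nat.add (Nat.add (x (nat_lit 91) (nat_lit 0) (nat_lit 0)) (Nat.add (x (nat_lit 92) (nat_lit 0) (nat_lit 0)) (x (nat_lit 93) (nat_lit 0) (nat_lit 0)))) (Nat.add (Nat.add (x (nat_lit 94) (nat_lit 0) (nat_lit 0)) (x (nat_lit 95) (nat_lit 0) (nat_lit 0))) (Nat.add (x (nat_lit 96) (nat_lit 0) (nat_lit 0)) (x (nat_lit 97) (nat_lit 0) (nat_lit 0)))))) (Nat.add (Nat.add (Nat.add (x (nat_lit 98) (nat_lit 0) (nat_lit 0)) (Nat.add (x (nat_lit 99)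 (nat_lit 0) (nat_lit 0)) (x (nat_lit 100) (nat_lit 0) (nat_lit 0)))) (Nat.add (Nat.add (x (nat_lit 101) (nat_lit 0) (nat_lit 0)) (x (nat_lit 102) (nat_lit 0) (nat_lit 0))) (Nat.add (x (nat_lit 103) (nat_lit 0) (nat_lit 0)) (x (nat_lit 104) (nat_lit 0) (nat_lit 0))))) (Nat.add (Nat.add (Nat.add (x (nat_lit 105) (nat_lit 0) (nat_lit 0)) (x (nat_lit 106) (nat_lit 0) (nat_lit 0))) (Nat.add (x (nat_lit 107) (nat_lit 0) (nat_lit 0)) (x (nat_lit 108) (nat_lit 0) (nat_lit 0)))) (Nat.add (Nat.add (x (nat_lit 109) (nat_lit 0) (nat_lit 0)) (x (nat_lit 110) (nat_lit 0) (nat_lit 0))) (Nat.add (x (nat_lit 111) (nat_lit 0) (nat_lit 0)) (x (nat_lit 112) (nat_lit 0) (nat_lit 0)))))))))⟩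
  (TL.cons ⟨fun x => (Nat.add (Nat.add (Nat.add (Nat.add (Nat.add (Nat.add (x (nat_lit 0) (nat_lit 0) (nat_lit 0)) (Nat.add (x (nat_lit 1) (nat_lit 0) (nat_lit 0)) (x (nat_lit 2) (nat_lit 0) (nat_lit 0)))) (Nat.add (Nat.add (x (nat_lit 3) (nat_lit 0) (nat_lit 0)) (x (nat_lit 4) (nat_lit 0) (nat_lit 0))) (Nat.add (x (nat_lit 5) (nat_lit 0) (nat_lit 0)) (x (nat_lit 6) (nat_lit 0) (nat_lit 0))))) (Nat.add (Nat.add (x (nat_lit 7) (nat_lit 0) (nat_lit 0)) (Nat.add (x (nat_lit 8) (nat_lit 0) (nat_lit 0)) (x (nat_lit 9) (nat_lit 0) (nat_lit 0)))) (Nat.add (Nat.add (x (nat_lit 10) (nat_lit 0) (nat_lit 0)) (x (nat_lit 11) (nat_lit 0) (nat_lit 0))) (Nat.add (x (nat_lit 12) (nat_lit 0) (nat_lit 0)) (x (nat_lit 13) (nat_lit 0) (nat_lit 0)))))) (Nat.add (Nat.add (Nat.add (x (nat_lit 14) (nat_lit 0) (nat_lit 0)) (Nat.add (x (nat_lit 15) (nat_lit 0)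 (nat_lit 0)) (x (nat_lit 16) (nat_lit 0) (nat_lit 0)))) (Nat.add (Nat.add (x (nat_lit 17) (nat_lit 0) (nat_lit 0)) (x (nat_lit 18) (nat_lit 0) (nat_lit 0))) (Nat.add (x (nat_lit 19) (nat_lit 0) (nat_lit 0)) (x (nat_lit 20) (nat_lit 0) (nat_lit 0))))) (Nat.add (Nat.add (x (nat_lit 21) (nat_lit 0) (nat_lit 0)) (Nat.add (x (nat_lit 22) (nat_lit 0) (nat_lit 0)) (x (nat_lit 23) (nat_lit 0) (nat_lit 0)))) (Nat.add (Nat.add (x (nat_lit 24) (nat_lit 0) (nat_lit 0)) (x (nat_lit 25) (nat_lit 0) (nat_lit 0))) (Nat.add (x (nat_lit 26) (nat_lit 0) (nat_lit 0)) (x (nat_lit 27) (nat_lit 0) (nat_lit 0))))))) (Nat.add (Nat.add (Nat.add (Nat.add (x (nat_lit 28) (nat_lit 0) (nat_lit 0)) (Nat.add (x (nat_lit 29) (nat_lit 0) (nat_lit 0)) (x (nat_lit 30) (nat_lit 0) (nat_lit 0)))) (Nat.add (Nat.add (x (nat_lit 31) (nat_lit 0) (nat_lit 0)) (x (nat_lit 32) (nat_lit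 0) (nat_lit 0))) (Nat.add (x (nat_lit 33) (nat_lit 0) (nat_lit 0)) (x (nat_lit 34) (nat_lit 0) (nat_lit 0))))) (Nat.add (Nat.add (x (nat_lit 35) (nat_lit 0) (nat_lit 0)) (Nat.add (x (nat_lit 36) (nat_lit 0) (nat_lit 0)) (x (nat_lit 37) (nat_lit 0) (nat_lit 0)))) (Nat.add (Nat.add (x (nat_lit 38) (nat_lit 0) (nat_lit 0)) (x (nat_lit 39) (nat_lit 0) (nat_lit 0))) (Nat.add (x (nat_lit 40) (nat_lit 0) (nat_lit 0)) (x (nat_lit 41) (nat_lit 0) (nat_lit 0)))))) (Nat.add (Nat.add (Nat.add (x (nat_lit 42) (nat_lit 0) (nat_lit 0)) (Nat.add (x (nat_lit 43) (nat_lit 0) (nat_lit 0)) (x (nat_lit 44) (nat_lit 0) (nat_lit 0)))) (Nat.add (Nat.add (x (nat_lit 45) (nat_lit 0) (nat_lit 0)) (x (nat_lit 46) (nat_lit 0) (nat_lit 0))) (Nat.add (x (nat_lit 47) (nat_lit 0) (nat_lit 0)) (x (nat_lit 48) (nat_lit 0) (nat_lit 0))))) (Nat.add (Nat.add (Nat.add (x (nat_lit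 49) (nat_lit 0) (nat_lit 0)) (x (nat_lit 50) (nat_lit 0) (nat_lit 0))) (Nat.add (x (nat_lit 51) (nat_lit 0) (nat_lit 0)) (x (nat_lit 52) (nat_lit 0) (nat_lit 0)))) (Nat.add (Nat.add (x (nat_lit 53) (nat_lit 0) (nat_lit 0)) (x (nat_lit 54) (nat_lit 0) (nat_lit 0))) (Nat.add (x (nat_lit 55) (nat_lit 0) (nat_lit 0)) (x (nat_lit 56) (nat_lit 0) (nat_lit 0)))))))) (Nat.add (Nat.add (Nat.add (Nat.add (Nat.add (x (nat_lit 57) (nat_lit 0) (nat_lit 0)) (Nat.add (x (nat_lit 58) (nat_lit 0) (nat_lit 0)) (x (nat_lit 59) (nat_lit 0) (nat_lit 0)))) (Nat.add (Nat.add (x (nat_lit 60) (nat_lit 0) (nat_lit 0)) (x (nat_lit 61) (nat_lit 0) (nat_lit 0))) (Nat.add (x (nat_lit 62) (nat_lit 0) (nat_lit 0)) (x (nat_lit 63) (nat_lit 0) (nat_lit 0))))) (Nat.add (Nat.add (x (nat_lit 64) (nat_lit 0) (nat_lit 0)) (Nat.add (x (nat_lit 65) (nat_lit 0) (nat_lit 0)) (x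 (nat_lit 66) (nat_lit 0) (nat_lit 0)))) (Nat.add (Nat.add (x (nat_lit 67) (nat_lit 0) (nat_lit 0)) (x (nat_lit 68) (nat_lit 0) (nat_lit 0))) (Nat.add (x (nat_lit 69) (nat_lit 0) (nat_lit 0)) (x (nat_lit 70) (nat_lit 0) (nat_lit 0)))))) (Nat.add (Nat.add (Nat.add (x (nat_lit 71) (nat_lit 0) (nat_lit 0)) (Nat.add (x (nat_lit 72) (nat_lit 0) (nat_lit 0)) (x (nat_lit 73) (nat_lit 0) (nat_lit 0)))) (Nat.add (Nat.add (x (nat_lit 74) (nat_lit 0) (nat_lit 0)) (x (nat_lit 75) (nat_lit 0) (nat_lit 0))) (Nat.add (x (nat_lit 76) (nat_lit 0) (nat_lit 0)) (x (nat_lit 77) (nat_lit 0) (nat_lit 0))))) (Nat.add (Nat.add (x (nat_lit 78) (nat_lit 0) (nat_lit 0)) (Nat.add (x (nat_lit 79) (nat_lit 0) (nat_lit 0)) (x (nat_lit 80) (nat_lit 0) (nat_lit 0)))) (Nat.add (Nat.add (x (nat_lit 81) (nat_lit 0) (nat_lit 0)) (x (nat_lit 82) (nat_lit 0) (nat_lit 0))) (Nat.add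 (x (nat_lit 83) (nat_lit 0) (nat_lit 0)) (x (nat_lit 84) (nat_lit 0) (nat_lit 0))))))) (Nat.add (Nat.add (Nat.add (Nat.add (x (nat_lit 85) (nat_lit 0) (nat_lit 0)) (Nat.add (x (nat_lit 86) (nat_lit 0) (nat_lit 0)) (x (nat_lit 87) (nat_lit 0) (nat_lit 0)))) (Nat.add (Nat.add (x (nat_lit 88) (nat_lit 0) (nat_lit 0)) (x (nat_lit 89) (nat_lit 0) (nat_lit 0))) (Nat.add (x (nat_lit 90) (nat_lit 0) (nat_lit 0)) (x (nat_lit 91) (nat_lit 0) (nat_lit 0))))) (Nat.add (Nat.add (x (nat_lit 92) (nat_lit 0) (nat_lit 0)) (Nat.add (x (nat_lit 93) (nat_lit 0) (nat_lit 0)) (x (nat_lit 94) (nat_lit 0) (nat_lit 0)))) (Nat.add (Nat.add (x (nat_lit 95) (nat_lit 0) (nat_lit 0)) (x (nat_lit 96) (nat_lit 0) (nat_lit 0))) (Nat.add (x (nat_lit 97) (nat_lit 0) (nat_lit 0)) (x (nat_lit 98) (nat_lit 0) (nat_lit 0)))))) (Nat.add (Nat.add (Nat.add (x (nat_lit 99) (nat_lit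 0) (nat_lit 0)) (Nat.add (x (nat_lit 100) (nat_lit 0) (nat_lit 0)) (x (nat_lit 101) (nat_lit 0) (nat_lit 0)))) (Nat.add (Nat.add (x (nat_lit 102) (nat_lit 0) (nat_lit 0)) (x (nat_lit 103) (nat_lit 0) (nat_lit 0))) (Nat.add (x (nat_lit 104) (nat_lit 0) (nat_lit 0)) (x (nat_lit 105) (nat_lit 0) (nat_lit 0))))) (Nat.add (Nat.add (Nat.add (x (nat_lit 106) (nat_lit 0) (nat_lit 0)) (x (nat_lit 107) (nat_lit 0) (nat_lit 0))) (Nat.add (x (nat_lit 108) (nat_lit 0) (nat_lit 0)) (x (nat_lit 109) (nat_lit 0) (nat_lit 0)))) (Nat.add (Nat.add (x (nat_lit 110) (nat_lit 0) (nat_lit 0)) (x (nat_lit 111) (nat_lit 0) (nat_lit 0))) (Nat.add (x (nat_lit 112) (nat_lit 0) (nat_lit 0)) (x (nat_lit 113) (nat_lit 0) (nat_lit 0)))))))))⟩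
  (TL.cons ⟨fun x => (Nat.add (Nat.add (Nat.add (Nat.add (Nat.add (Nat.add (x (nat_lit 0) (nat_lit 0) (nat_lit 0)) (Nat.add (x (nat_lit 1) (nat_lit 0) (nat_lit 0)) (x (nat_lit 2) (nat_lit 0) (nat_lit 0)))) (Nat.add (Nat.add (x (nat_lit 3) (nat_lit 0) (nat_lit 0)) (x (nat_lit 4) (nat_lit 0) (nat_lit 0))) (Nat.add (x (nat_lit 5) (nat_lit 0) (nat_lit 0)) (x (nat_lit 6) (nat_lit 0) (nat_lit 0))))) (Nat.add (Nat.add (x (nat_lit 7) (nat_lit 0) (nat_lit 0)) (Nat.add (x (nat_lit 8) (nat_lit 0) (nat_lit 0)) (x (nat_lit 9) (nat_lit 0) (nat_lit 0)))) (Nat.add (Nat.add (x (nat_lit 10) (nat_lit 0) (nat_lit 0)) (x (nat_lit 11) (nat_lit 0) (nat_lit 0))) (Nat.add (x (nat_lit 12) (nat_lit 0) (nat_lit 0)) (x (nat_lit 13) (nat_lit 0) (nat_lit 0)))))) (Nat.add (Nat.add (Nat.add (x (nat_lit 14) (nat_lit 0) (nat_lit 0)) (Nat.add (x (nat_lit 15) (nat_lit 0)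 (nat_lit 0)) (x (nat_lit 16) (nat_lit 0) (nat_lit 0)))) (Nat.add (Nat.add (x (nat_lit 17) (nat_lit 0) (nat_lit 0)) (x (nat_lit 18) (nat_lit 0) (nat_lit 0))) (Nat.add (x (nat_lit 19) (nat_lit 0) (nat_lit 0)) (x (nat_lit 20) (nat_lit 0) (nat_lit 0))))) (Nat.add (Nat.add (x (nat_lit 21) (nat_lit 0) (nat_lit 0)) (Nat.add (x (nat_lit 22) (nat_lit 0) (nat_lit 0)) (x (nat_lit 23) (nat_lit 0) (nat_lit 0)))) (Nat.add (Nat.add (x (nat_lit 24) (nat_lit 0) (nat_lit 0)) (x (nat_lit 25) (nat_lit 0) (nat_lit 0))) (Nat.add (x (nat_lit 26) (nat_lit 0) (nat_lit 0)) (x (nat_lit 27) (nat_lit 0) (nat_lit 0))))))) (Nat.add (Nat.add (Nat.add (Nat.add (x (nat_lit 28) (nat_lit 0) (nat_lit 0)) (Nat.add (x (nat_lit 29) (nat_lit 0) (nat_lit 0)) (x (nat_lit 30) (nat_lit 0) (nat_lit 0)))) (Nat.add (Nat.add (x (nat_lit 31) (nat_lit 0) (nat_lit 0)) (x (nat_lit 32) (nat_lit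 0) (nat_lit 0))) (Nat.add (x (nat_lit 33) (nat_lit 0) (nat_lit 0)) (x (nat_lit 34) (nat_lit 0) (nat_lit 0))))) (Nat.add (Nat.add (x (nat_lit 35) (nat_lit 0) (nat_lit 0)) (Nat.add (x (nat_lit 36) (nat_lit 0) (nat_lit 0)) (x (nat_lit 37) (nat_lit 0) (nat_lit 0)))) (Nat.add (Nat.add (x (nat_lit 38) (nat_lit 0) (nat_lit 0)) (x (nat_lit 39) (nat_lit 0) (nat_lit 0))) (Nat.add (x (nat_lit 40) (nat_lit 0) (nat_lit 0)) (x (nat_lit 41) (nat_lit 0) (nat_lit 0)))))) (Nat.add (Nat.add (Nat.add (x (nat_lit 42) (nat_lit 0) (nat_lit 0)) (Nat.add (x (nat_lit 43) (nat_lit 0) (nat_lit 0)) (x (nat_lit 44) (nat_lit 0) (nat_lit 0)))) (Nat.add (Nat.add (x (nat_lit 45) (nat_lit 0) (nat_lit 0)) (x (nat_lit 46) (nat_lit 0) (nat_lit 0))) (Nat.add (x (nat_lit 47) (nat_lit 0) (nat_lit 0)) (x (nat_lit 48) (nat_lit 0) (nat_lit 0))))) (Nat.add (Nat.add (Nat.add (x (nat_lit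 49) (nat_lit 0) (nat_lit 0)) (x (nat_lit 50) (nat_lit 0) (nat_lit 0))) (Nat.add (x (nat_lit 51) (nat_lit 0) (nat_lit 0)) (x (nat_lit 52) (nat_lit 0) (nat_lit 0)))) (Nat.add (Nat.add (x (nat_lit 53) (nat_lit 0) (nat_lit 0)) (x (nat_lit 54) (nat_lit 0) (nat_lit 0))) (Nat.add (x (nat_lit 55) (nat_lit 0) (nat_lit 0)) (x (nat_lit 56) (nat_lit 0) (nat_lit 0)))))))) (Nat.add (Nat.add (Nat.add (Nat.add (Nat.add (x (nat_lit 57) (nat_lit 0) (nat_lit 0)) (Nat.add (x (nat_lit 58) (nat_lit 0) (nat_lit 0)) (x (nat_lit 59) (nat_lit 0) (nat_lit 0)))) (Nat.add (Nat.add (x (nat_lit 60) (nat_lit 0) (nat_lit 0)) (x (nat_lit 61) (nat_lit 0) (nat_lit 0))) (Nat.add (x (nat_lit 62) (nat_lit 0) (nat_lit 0)) (x (nat_lit 63) (nat_lit 0) (nat_lit 0))))) (Nat.add (Nat.add (x (nat_lit 64) (nat_lit 0) (nat_lit 0)) (Nat.add (x (nat_lit 65) (nat_lit 0) (nat_lit 0)) (x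 (nat_lit 66) (nat_lit 0) (nat_lit 0)))) (Nat.add (Nat.add (x (nat_lit 67) (nat_lit 0) (nat_lit 0)) (x (nat_lit 68) (nat_lit 0) (nat_lit 0))) (Nat.add (x (nat_lit 69) (nat_lit 0) (nat_lit 0)) (x (nat_lit 70) (nat_lit 0) (nat_lit 0)))))) (Nat.add (Nat.add (Nat.add (x (nat_lit 71) (nat_lit 0) (nat_lit 0)) (Nat.add (x (nat_lit 72) (nat_lit 0) (nat_lit 0)) (x (nat_lit 73) (nat_lit 0) (nat_lit 0)))) (Nat.add (Nat.add (x (nat_lit 74) (nat_lit 0) (nat_lit 0)) (x (nat_lit 75) (nat_lit 0) (nat_lit 0))) (Nat.add (x (nat_lit 76) (nat_lit 0) (nat_lit 0)) (x (nat_lit 77) (nat_lit 0) (nat_lit 0))))) (Nat.add (Nat.add (Nat.add (x (nat_lit 78) (nat_lit 0) (nat_lit 0)) (x (nat_lit 79) (nat_lit 0) (nat_lit 0))) (Nat.add (x (nat_lit 80) (nat_lit 0) (nat_lit 0)) (x (nat_lit 81) (nat_lit 0) (nat_lit 0)))) (Nat.add (Nat.add (x (nat_lit 82) (nat_lit 0) (nat_lit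 0)) (x (nat_lit 83) (nat_lit 0) (nat_lit 0))) (Nat.add (x (nat_lit 84) (nat_lit 0) (nat_lit 0)) (x (nat_lit 85) (nat_lit 0) (nat_lit 0))))))) (Nat.add (Nat.add (Nat.add (Nat.add (x (nat_lit 86) (nat_lit 0) (nat_lit 0)) (Nat.add (x (nat_lit 87) (nat_lit 0) (nat_lit 0)) (x (nat_lit 88) (nat_lit 0) (nat_lit 0)))) (Nat.add (Nat.add (x (nat_lit 89) (nat_lit 0) (nat_lit 0)) (x (nat_lit 90) (nat_lit 0) (nat_lit 0))) (Nat.add (x (nat_lit 91) (nat_lit 0) (nat_lit 0)) (x (nat_lit 92) (nat_lit 0) (nat_lit 0))))) (Nat.add (Nat.add (x (nat_lit 93) (nat_lit 0) (nat_lit 0)) (Nat.add (x (nat_lit 94) (nat_lit 0) (nat_lit 0)) (x (nat_lit 95) (nat_lit 0) (nat_lit 0)))) (Nat.add (Nat.add (x (nat_lit 96) (nat_lit 0) (nat_lit 0)) (x (nat_lit 97) (nat_lit 0) (nat_lit 0))) (Nat.add (x (nat_lit 98) (nat_lit 0) (nat_lit 0)) (x (nat_lit 99) (nat_lit 0) (nat_lit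 0)))))) (Nat.add (Nat.add (Nat.add (x (nat_lit 100) (nat_lit 0) (nat_lit 0)) (Nat.add (x (nat_lit 101) (nat_lit 0) (nat_lit 0)) (x (nat_lit 102) (nat_lit 0) (nat_lit 0)))) (Nat.add (Nat.add (x (nat_lit 103) (nat_lit 0) (nat_lit 0)) (x (nat_lit 104) (nat_lit 0) (nat_lit 0))) (Nat.add (x (nat_lit 105) (nat_lit 0) (nat_lit 0)) (x (nat_lit 106) (nat_lit 0) (nat_lit 0))))) (Nat.add (Nat.add (Nat.add (x (nat_lit 107) (nat_lit 0) (nat_lit 0)) (x (nat_lit 108) (nat_lit 0) (nat_lit 0))) (Nat.add (x (nat_lit 109) (nat_lit 0) (nat_lit 0)) (x (nat_lit 110) (nat_lit 0) (nat_lit 0)))) (Nat.add (Nat.add (x (nat_lit 111) (nat_lit 0) (nat_lit 0)) (x (nat_lit 112) (nat_lit 0) (nat_lit 0))) (Nat.add (x (nat_lit 113) (nat_lit 0) (nat_lit 0)) (x (nat_lit 114) (nat_lit 0) (nat_lit 0)))))))))⟩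
  (TL.cons ⟨fun x => (Nat.add (Nat.add (Nat.add (Nat.add (Nat.add (Nat.add (x (nat_lit 0) (nat_lit 0) (nat_lit 0)) (Nat.add (x (nat_lit 1) (nat_lit 0) (nat_lit 0)) (x (nat_lit 2) (nat_lit 0) (nat_lit 0)))) (Nat.add (Nat.add (x (nat_lit 3) (nat_lit 0) (nat_lit 0)) (x (nat_lit 4) (nat_lit 0) (nat_lit 0))) (Nat.add (x (nat_lit 5) (nat_lit 0) (nat_lit 0)) (x (nat_lit 6) (nat_lit 0) (nat_lit 0))))) (Nat.add (Nat.add (x (nat_lit 7) (nat_lit 0) (nat_lit 0)) (Nat.add (x (nat_lit 8) (nat_lit 0) (nat_lit 0)) (x (nat_lit 9) (nat_lit 0) (nat_lit 0)))) (Nat.add (Nat.add (x (nat_lit 10) (nat_lit 0) (nat_lit 0)) (x (nat_lit 11) (nat_lit 0) (nat_lit 0))) (Nat.add (x (nat_lit 12) (nat_lit 0) (nat_lit 0)) (x (nat_lit 13) (nat_lit 0) (nat_lit 0)))))) (Nat.add (Nat.add (Nat.add (x (nat_lit 14) (nat_lit 0) (nat_lit 0)) (Nat.add (x (nat_lit 15) (nat_lit 0)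 (nat_lit 0)) (x (nat_lit 16) (nat_lit 0) (nat_lit 0)))) (Nat.add (Nat.add (x (nat_lit 17) (nat_lit 0) (nat_lit 0)) (x (nat_lit 18) (nat_lit 0) (nat_lit 0))) (Nat.add (x (nat_lit 19) (nat_lit 0) (nat_lit 0)) (x (nat_lit 20) (nat_lit 0) (nat_lit 0))))) (Nat.add (Nat.add (Nat.add (x (nat_lit 21) (nat_lit 0) (nat_lit 0)) (x (nat_lit 22) (nat_lit 0) (nat_lit 0))) (Nat.add (x (nat_lit 23) (nat_lit 0) (nat_lit 0)) (x (nat_lit 24) (nat_lit 0) (nat_lit 0)))) (Nat.add (Nat.add (x (nat_lit 25) (nat_lit 0) (nat_lit 0)) (x (nat_lit 26) (nat_lit 0) (nat_lit 0))) (Nat.add (x (nat_lit 27) (nat_lit 0) (nat_lit 0)) (x (nat_lit 28) (nat_lit 0) (nat_lit 0))))))) (Nat.add (Nat.add (Nat.add (Nat.add (x (nat_lit 29) (nat_lit 0) (nat_lit 0)) (Nat.add (x (nat_lit 30) (nat_lit 0) (nat_lit 0)) (x (nat_lit 31) (nat_lit 0) (nat_lit 0)))) (Nat.add (Nat.add (x (nat_lit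 32) (nat_lit 0) (nat_lit 0)) (x (nat_lit 33) (nat_lit 0) (nat_lit 0))) (Nat.add (x (nat_lit 34) (nat_lit 0) (nat_lit 0)) (x (nat_lit 35) (nat_lit 0) (nat_lit 0))))) (Nat.add (Nat.add (x (nat_lit 36) (nat_lit 0) (nat_lit 0)) (Nat.add (x (nat_lit 37) (nat_lit 0) (nat_lit 0)) (x (nat_lit 38) (nat_lit 0) (nat_lit 0)))) (Nat.add (Nat.add (x (nat_lit 39) (nat_lit 0) (nat_lit 0)) (x (nat_lit 40) (nat_lit 0) (nat_lit 0))) (Nat.add (x (nat_lit 41) (nat_lit 0) (nat_lit 0)) (x (nat_lit 42) (nat_lit 0) (nat_lit 0)))))) (Nat.add (Nat.add (Nat.add (x (nat_lit 43) (nat_lit 0) (nat_lit 0)) (Nat.add (x (nat_lit 44) (nat_lit 0) (nat_lit 0)) (x (nat_lit 45) (nat_lit 0) (nat_lit 0)))) (Nat.add (Nat.add (x (nat_lit 46) (nat_lit 0) (nat_lit 0)) (x (nat_lit 47) (nat_lit 0) (nat_lit 0))) (Nat.add (x (nat_lit 48) (nat_lit 0) (nat_lit 0)) (x (nat_lit 49) (nat_lit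 0) (nat_lit 0))))) (Nat.add (Nat.add (Nat.add (x (nat_lit 50) (nat_lit 0) (nat_lit 0)) (x (nat_lit 51) (nat_lit 0) (nat_lit 0))) (Nat.add (x (nat_lit 52) (nat_lit 0) (nat_lit 0)) (x (nat_lit 53) (nat_lit 0) (nat_lit 0)))) (Nat.add (Nat.add (x (nat_lit 54) (nat_lit 0) (nat_lit 0)) (x (nat_lit 55) (nat_lit 0) (nat_lit 0))) (Nat.add (x (nat_lit 56) (nat_lit 0) (nat_lit 0)) (x (nat_lit 57) (nat_lit 0) (nat_lit 0)))))))) (Nat.add (Nat.add (Nat.add (Nat.add (Nat.add (x (nat_lit 58) (nat_lit 0) (nat_lit 0)) (Nat.add (x (nat_lit 59) (nat_lit 0) (nat_lit 0)) (x (nat_lit 60) (nat_lit 0) (nat_lit 0)))) (Nat.add (Nat.add (x (nat_lit 61) (nat_lit 0) (nat_lit 0)) (x (nat_lit 62) (nat_lit 0) (nat_lit 0))) (Nat.add (x (nat_lit 63) (nat_lit 0) (nat_lit 0)) (x (nat_lit 64) (nat_lit 0) (nat_lit 0))))) (Nat.add (Nat.add (x (nat_lit 65) (nat_lit 0) (nat_lit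 0)) (Nat.add (x (nat_lit 66) (nat_lit 0) (nat_lit 0)) (x (nat_lit 67) (nat_lit 0) (nat_lit 0)))) (Nat.add (Nat.add (x (nat_lit 68) (nat_lit 0) (nat_lit 0)) (x (nat_lit 69) (nat_lit 0) (nat_lit 0))) (Nat.add (x (nat_lit 70) (nat_lit 0) (nat_lit 0)) (x (nat_lit 71) (nat_lit 0) (nat_lit 0)))))) (Nat.add (Nat.add (Nat.add (x (nat_lit 72) (nat_lit 0) (nat_lit 0)) (Nat.add (x (nat_lit 73) (nat_lit 0) (nat_lit 0)) (x (nat_lit 74) (nat_lit 0) (nat_lit 0)))) (Nat.add (Nat.add (x (nat_lit 75) (nat_lit 0) (nat_lit 0)) (x (nat_lit 76) (nat_lit 0) (nat_lit 0))) (Nat.add (x (nat_lit 77) (nat_lit 0) (nat_lit 0)) (x (nat_lit 78) (nat_lit 0) (nat_lit 0))))) (Nat.add (Nat.add (Nat.add (x (nat_lit 79) (nat_lit 0) (nat_lit 0)) (x (nat_lit 80) (nat_lit 0) (nat_lit 0))) (Nat.add (x (nat_lit 81) (nat_lit 0) (nat_lit 0)) (x (nat_lit 82) (nat_lit 0) (nat_lit 0))))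 (Nat.add (Nat.add (x (nat_lit 83) (nat_lit 0) (nat_lit 0)) (x (nat_lit 84) (nat_lit 0) (nat_lit 0))) (Nat.add (x (nat_lit 85) (nat_lit 0) (nat_lit 0)) (x (nat_lit 86) (nat_lit 0) (nat_lit 0))))))) (Nat.add (Nat.add (Nat.add (Nat.add (x (nat_lit 87) (nat_lit 0) (nat_lit 0)) (Nat.add (x (nat_lit 88) (nat_lit 0) (nat_lit 0)) (x (nat_lit 89) (nat_lit 0) (nat_lit 0)))) (Nat.add (Nat.add (x (nat_lit 90) (nat_lit 0) (nat_lit 0)) (x (nat_lit 91) (nat_lit 0) (nat_lit 0))) (Nat.add (x (nat_lit 92) (nat_lit 0) (nat_lit 0)) (x (nat_lit 93) (nat_lit 0) (nat_lit 0))))) (Nat.add (Nat.add (x (nat_lit 94) (nat_lit 0) (nat_lit 0)) (Nat.add (x (nat_lit 95) (nat_lit 0) (nat_lit 0)) (x (nat_lit 96) (nat_lit 0) (nat_lit 0)))) (Nat.add (Nat.add (x (nat_lit 97) (nat_lit 0) (nat_lit 0)) (x (nat_lit 98) (nat_lit 0) (nat_lit 0))) (Nat.add (x (nat_lit 99) (nat_lit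 0) (nat_lit 0)) (x (nat_lit 100) (nat_lit 0) (nat_lit 0)))))) (Nat.add (Nat.add (Nat.add (x (nat_lit 101) (nat_lit 0) (nat_lit 0)) (Nat.add (x (nat_lit 102) (nat_lit 0) (nat_lit 0)) (x (nat_lit 103) (nat_lit 0) (nat_lit 0)))) (Nat.add (Nat.add (x (nat_lit 104) (nat_lit 0) (nat_lit 0)) (x (nat_lit 105) (nat_lit 0) (nat_lit 0))) (Nat.add (x (nat_lit 106) (nat_lit 0) (nat_lit 0)) (x (nat_lit 107) (nat_lit 0) (nat_lit 0))))) (Nat.add (Nat.add (Nat.add (x (nat_lit 108) (nat_lit 0) (nat_lit 0)) (x (nat_lit 109) (nat_lit 0) (nat_lit 0))) (Nat.add (x (nat_lit 110) (nat_lit 0) (nat_lit 0)) (x (nat_lit 111) (nat_lit 0) (nat_lit 0)))) (Nat.add (Nat.add (x (nat_lit 112) (nat_lit 0) (nat_lit 0)) (x (nat_lit 113) (nat_lit 0) (nat_lit 0))) (Nat.add (x (nat_lit 114) (nat_lit 0) (nat_lit 0)) (x (nat_lit 115) (nat_lit 0) (nat_lit 0)))))))))⟩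
  (TL.cons ⟨fun x => (Nat.add (Nat.add (Nat.add (Nat.add (Nat.add (Nat.add (x (nat_lit 0) (nat_lit 0) (nat_lit 0)) (Nat.add (x (nat_lit 1) (nat_lit 0) (nat_lit 0)) (x (nat_lit 2) (nat_lit 0) (nat_lit 0)))) (Nat.add (Nat.add (x (nat_lit 3) (nat_lit 0) (nat_lit 0)) (x (nat_lit 4) (nat_lit 0) (nat_lit 0))) (Nat.add (x (nat_lit 5) (nat_lit 0) (nat_lit 0)) (x (nat_lit 6) (nat_lit 0) (nat_lit 0))))) (Nat.add (Nat.add (x (nat_lit 7) (nat_lit 0) (nat_lit 0)) (Nat.add (x (nat_lit 8) (nat_lit 0) (nat_lit 0)) (x (nat_lit 9) (nat_lit 0) (nat_lit 0)))) (Nat.add (Nat.add (x (nat_lit 10) (nat_lit 0) (nat_lit 0)) (x (nat_lit 11) (nat_lit 0) (nat_lit 0))) (Nat.add (x (nat_lit 12) (nat_lit 0) (nat_lit 0)) (x (nat_lit 13) (nat_lit 0) (nat_lit 0)))))) (Nat.add (Nat.add (Nat.add (x (nat_lit 14) (nat_lit 0) (nat_lit 0)) (Nat.add (x (nat_lit 15) (nat_lit 0)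 (nat_lit 0)) (x (nat_lit 16) (nat_lit 0) (nat_lit 0)))) (Nat.add (Nat.add (x (nat_lit 17) (nat_lit 0) (nat_lit 0)) (x (nat_lit 18) (nat_lit 0) (nat_lit 0))) (Nat.add (x (nat_lit 19) (nat_lit 0) (nat_lit 0)) (x (nat_lit 20) (nat_lit 0) (nat_lit 0))))) (Nat.add (Nat.add (Nat.add (x (nat_lit 21) (nat_lit 0) (nat_lit 0)) (x (nat_lit 22) (nat_lit 0) (nat_lit 0))) (Nat.add (x (nat_lit 23) (nat_lit 0) (nat_lit 0)) (x (nat_lit 24) (nat_lit 0) (nat_lit 0)))) (Nat.add (Nat.add (x (nat_lit 25) (nat_lit 0) (nat_lit 0)) (x (nat_lit 26) (nat_lit 0) (nat_lit 0))) (Nat.add (x (nat_lit 27) (nat_lit 0) (nat_lit 0)) (x (nat_lit 28) (nat_lit 0) (nat_lit 0))))))) (Nat.add (Nat.add (Nat.add (Nat.add (x (nat_lit 29) (nat_lit 0) (nat_lit 0)) (Nat.add (x (nat_lit 30) (nat_lit 0) (nat_lit 0)) (x (nat_lit 31) (nat_lit 0) (nat_lit 0)))) (Nat.add (Nat.add (x (nat_lit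 32) (nat_lit 0) (nat_lit 0)) (x (nat_lit 33) (nat_lit 0) (nat_lit 0))) (Nat.add (x (nat_lit 34) (nat_lit 0) (nat_lit 0)) (x (nat_lit 35) (nat_lit 0) (nat_lit 0))))) (Nat.add (Nat.add (x (nat_lit 36) (nat_lit 0) (nat_lit 0)) (Nat.add (x (nat_lit 37) (nat_lit 0) (nat_lit 0)) (x (nat_lit 38) (nat_lit 0) (nat_lit 0)))) (Nat.add (Nat.add (x (nat_lit 39) (nat_lit 0) (nat_lit 0)) (x (nat_lit 40) (nat_lit 0) (nat_lit 0))) (Nat.add (x (nat_lit 41) (nat_lit 0) (nat_lit 0)) (x (nat_lit 42) (nat_lit 0) (nat_lit 0)))))) (Nat.add (Nat.add (Nat.add (x (nat_lit 43) (nat_lit 0) (nat_lit 0)) (Nat.add (x (nat_lit 44) (nat_lit 0) (nat_lit 0)) (x (nat_lit 45) (nat_lit 0) (nat_lit 0)))) (Nat.add (Nat.add (x (nat_lit 46) (nat_lit 0) (nat_lit 0)) (x (nat_lit 47) (nat_lit 0) (nat_lit 0))) (Nat.add (x (nat_lit 48) (nat_lit 0) (nat_lit 0)) (x (nat_lit 49) (nat_lit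 0) (nat_lit 0))))) (Nat.add (Nat.add (Nat.add (x (nat_lit 50) (nat_lit 0) (nat_lit 0)) (x (nat_lit 51) (nat_lit 0) (nat_lit 0))) (Nat.add (x (nat_lit 52) (nat_lit 0) (nat_lit 0)) (x (nat_lit 53) (nat_lit 0) (nat_lit 0)))) (Nat.add (Nat.add (x (nat_lit 54) (nat_lit 0) (nat_lit 0)) (x (nat_lit 55) (nat_lit 0) (nat_lit 0))) (Nat.add (x (nat_lit 56) (nat_lit 0) (nat_lit 0)) (x (nat_lit 57) (nat_lit 0) (nat_lit 0)))))))) (Nat.add (Nat.add (Nat.add (Nat.add (Nat.add (x (nat_lit 58) (nat_lit 0) (nat_lit 0)) (Nat.add (x (nat_lit 59) (nat_lit 0) (nat_lit 0)) (x (nat_lit 60) (nat_lit 0) (nat_lit 0)))) (Nat.add (Nat.add (x (nat_lit 61) (nat_lit 0) (nat_lit 0)) (x (nat_lit 62) (nat_lit 0) (nat_lit 0))) (Nat.add (x (nat_lit 63) (nat_lit 0) (nat_lit 0)) (x (nat_lit 64) (nat_lit 0) (nat_lit 0))))) (Nat.add (Nat.add (x (nat_lit 65) (nat_lit 0) (nat_lit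 0)) (Nat.add (x (nat_lit 66) (nat_lit 0) (nat_lit 0)) (x (nat_lit 67) (nat_lit 0) (nat_lit 0)))) (Nat.add (Nat.add (x (nat_lit 68) (nat_lit 0) (nat_lit 0)) (x (nat_lit 69) (nat_lit 0) (nat_lit 0))) (Nat.add (x (nat_lit 70) (nat_lit 0) (nat_lit 0)) (x (nat_lit 71) (nat_lit 0) (nat_lit 0)))))) (Nat.add (Nat.add (Nat.add (x (nat_lit 72) (nat_lit 0) (nat_lit 0)) (Nat.add (x (nat_lit 73) (nat_lit 0) (nat_lit 0)) (x (nat_lit 74) (nat_lit 0) (nat_lit 0)))) (Nat.add (Nat.add (x (nat_lit 75) (nat_lit 0) (nat_lit 0)) (x (nat_lit 76) (nat_lit 0) (nat_lit 0))) (Nat.add (x (nat_lit 77) (nat_lit 0) (nat_lit 0)) (x (nat_lit 78) (nat_lit 0) (nat_lit 0))))) (Nat.add (Nat.add (Nat.add (x (nat_lit 79) (nat_lit 0) (nat_lit 0)) (x (nat_lit 80) (nat_lit 0) (nat_lit 0))) (Nat.add (x (nat_lit 81) (nat_lit 0) (nat_lit 0)) (x (nat_lit 82) (nat_lit 0) (nat_lit 0))))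 (Nat.add (Nat.add (x (nat_lit 83) (nat_lit 0) (nat_lit 0)) (x (nat_lit 84) (nat_lit 0) (nat_lit 0))) (Nat.add (x (nat_lit 85) (nat_lit 0) (nat_lit 0)) (x (nat_lit 86) (nat_lit 0) (nat_lit 0))))))) (Nat.add (Nat.add (Nat.add (Nat.add (x (nat_lit 87) (nat_lit 0) (nat_lit 0)) (Nat.add (x (nat_lit 88) (nat_lit 0) (nat_lit 0)) (x (nat_lit 89) (nat_lit 0) (nat_lit 0)))) (Nat.add (Nat.add (x (nat_lit 90) (nat_lit 0) (nat_lit 0)) (x (nat_lit 91) (nat_lit 0) (nat_lit 0))) (Nat.add (x (nat_lit 92) (nat_lit 0) (nat_lit 0)) (x (nat_lit 93) (nat_lit 0) (nat_lit 0))))) (Nat.add (Nat.add (Nat.add (x (nat_lit 94) (nat_lit 0) (nat_lit 0)) (x (nat_lit 95) (nat_lit 0) (nat_lit 0))) (Nat.add (x (nat_lit 96) (nat_lit 0) (nat_lit 0)) (x (nat_lit 97) (nat_lit 0) (nat_lit 0)))) (Nat.add (Nat.add (x (nat_lit 98) (nat_lit 0) (nat_lit 0)) (x (nat_lit 99) (nat_lit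 0) (nat_lit 0))) (Nat.add (x (nat_lit 100) (nat_lit 0) (nat_lit 0)) (x (nat_lit 101) (nat_lit 0) (nat_lit 0)))))) (Nat.add (Nat.add (Nat.add (x (nat_lit 102) (nat_lit 0) (nat_lit 0)) (Nat.add (x (nat_lit 103) (nat_lit 0) (nat_lit 0)) (x (nat_lit 104) (nat_lit 0) (nat_lit 0)))) (Nat.add (Nat.add (x (nat_lit 105) (nat_lit 0) (nat_lit 0)) (x (nat_lit 106) (nat_lit 0) (nat_lit 0))) (Nat.add (x (nat_lit 107) (nat_lit 0) (nat_lit 0)) (x (nat_lit 108) (nat_lit 0) (nat_lit 0))))) (Nat.add (Nat.add (Nat.add (x (nat_lit 109) (nat_lit 0) (nat_lit 0)) (x (nat_lit 110) (nat_lit 0) (nat_lit 0))) (Nat.add (x (nat_lit 111) (nat_lit 0) (nat_lit 0)) (x (nat_lit 112) (nat_lit 0) (nat_lit 0)))) (Nat.add (Nat.add (x (nat_lit 113) (nat_lit 0) (nat_lit 0)) (x (nat_lit 114) (nat_lit 0) (nat_lit 0))) (Nat.add (x (nat_lit 115) (nat_lit 0) (nat_lit 0)) (x (nat_lit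 116) (nat_lit 0) (nat_lit 0)))))))))⟩
  (TL.cons ⟨fun x => (Nat.add (Nat.add (Nat.add (Nat.add (Nat.add (Nat.add (x (nat_lit 0) (nat_lit 0) (nat_lit 0)) (Nat.add (x (nat_lit 1) (nat_lit 0) (nat_lit 0)) (x (nat_lit 2) (nat_lit 0) (nat_lit 0)))) (Nat.add (Nat.add (x (nat_lit 3) (nat_lit 0) (nat_lit 0)) (x (nat_lit 4) (nat_lit 0) (nat_lit 0))) (Nat.add (x (nat_lit 5) (nat_lit 0) (nat_lit 0)) (x (nat_lit 6) (nat_lit 0) (nat_lit 0))))) (Nat.add (Nat.add (x (nat_lit 7) (nat_lit 0) (nat_lit 0)) (Nat.add (x (nat_lit 8) (nat_lit 0) (nat_lit 0)) (x (nat_lit 9) (nat_lit 0) (nat_lit 0)))) (Nat.add (Nat.add (x (nat_lit 10) (nat_lit 0) (nat_lit 0)) (x (nat_lit 11) (nat_lit 0) (nat_lit 0))) (Nat.add (x (nat_lit 12) (nat_lit 0) (nat_lit 0)) (x (nat_lit 13) (nat_lit 0) (nat_lit 0)))))) (Nat.add (Nat.add (Nat.add (x (nat_lit 14) (nat_lit 0) (nat_lit 0))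 (Nat.add (x (nat_lit 15) (nat_lit 0) (nat_lit 0)) (x (nat_lit 16) (nat_lit 0) (nat_lit 0)))) (Nat.add (Nat.add (x (nat_lit 17) (nat_lit 0) (nat_lit 0)) (x (nat_lit 18) (nat_lit 0) (nat_lit 0))) (Nat.add (x (nat_lit 19) (nat_lit 0) (nat_lit 0)) (x (nat_lit 20) (nat_lit 0) (nat_lit 0))))) (Nat.add (Nat.add (Nat.add (x (nat_lit 21) (nat_lit 0) (nat_lit 0)) (x (nat_lit 22) (nat_lit 0) (nat_lit 0))) (Nat.add (x (nat_lit 23) (nat_lit 0) (nat_lit 0)) (x (nat_lit 24) (nat_lit 0) (nat_lit 0)))) (Nat.add (Nat.add (x (nat_lit 25) (nat_lit 0) (nat_lit 0)) (x (nat_lit 26) (nat_lit 0) (nat_lit 0))) (Nat.add (x (nat_lit 27) (nat_lit 0) (nat_lit 0)) (x (nat_lit 28) (nat_lit 0) (nat_lit 0))))))) (Nat.add (Nat.add (Nat.add (Nat.add (x (nat_lit 29) (nat_lit 0) (nat_lit 0)) (Nat.add (x (nat_lit 30) (nat_lit 0) (nat_lit 0)) (x (nat_lit 31) (nat_lit 0) (nat_lit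 0)))) (Nat.add (Nat.add (x (nat_lit 32) (nat_lit 0) (nat_lit 0)) (x (nat_lit 33) (nat_lit 0) (nat_lit 0))) (Nat.add (x (nat_lit 34) (nat_lit 0) (nat_lit 0)) (x (nat_lit 35) (nat_lit 0) (nat_lit 0))))) (Nat.add (Nat.add (Nat.add (x (nat_lit 36) (nat_lit 0) (nat_lit 0)) (x (nat_lit 37) (nat_lit 0) (nat_lit 0))) (Nat.add (x (nat_lit 38) (nat_lit 0) (nat_lit 0)) (x (nat_lit 39) (nat_lit 0) (nat_lit 0)))) (Nat.add (Nat.add (x (nat_lit 40) (nat_lit 0) (nat_lit 0)) (x (nat_lit 41) (nat_lit 0) (nat_lit 0))) (Nat.add (x (nat_lit 42) (nat_lit 0) (nat_lit 0)) (x (nat_lit 43) (nat_lit 0) (nat_lit 0)))))) (Nat.add (Nat.add (Nat.add (x (nat_lit 44) (nat_lit 0) (nat_lit 0)) (Nat.add (x (nat_lit 45) (nat_lit 0) (nat_lit 0)) (x (nat_lit 46) (nat_lit 0) (nat_lit 0)))) (Nat.add (Nat.add (x (nat_lit 47) (nat_lit 0) (nat_lit 0)) (x (nat_lit 48) (nat_lit 0)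 (nat_lit 0))) (Nat.add (x (nat_lit 49) (nat_lit 0) (nat_lit 0)) (x (nat_lit 50) (nat_lit 0) (nat_lit 0))))) (Nat.add (Nat.add (Nat.add (x (nat_lit 51) (nat_lit 0) (nat_lit 0)) (x (nat_lit 52) (nat_lit 0) (nat_lit 0))) (Nat.add (x (nat_lit 53) (nat_lit 0) (nat_lit 0)) (x (nat_lit 54) (nat_lit 0) (nat_lit 0)))) (Nat.add (Nat.add (x (nat_lit 55) (nat_lit 0) (nat_lit 0)) (x (nat_lit 56) (nat_lit 0) (nat_lit 0))) (Nat.add (x (nat_lit 57) (nat_lit 0) (nat_lit 0)) (x (nat_lit 58) (nat_lit 0) (nat_lit 0)))))))) (Nat.add (Nat.add (Nat.add (Nat.add (Nat.add (x (nat_lit 59) (nat_lit 0) (nat_lit 0)) (Nat.add (x (nat_lit 60) (nat_lit 0) (nat_lit 0)) (x (nat_lit 61) (nat_lit 0) (nat_lit 0)))) (Nat.add (Nat.add (x (nat_lit 62) (nat_lit 0) (nat_lit 0)) (x (nat_lit 63) (nat_lit 0) (nat_lit 0))) (Nat.add (x (nat_lit 64) (nat_lit 0) (nat_lit 0)) (x (nat_lit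 65) (nat_lit 0) (nat_lit 0))))) (Nat.add (Nat.add (x (nat_lit 66) (nat_lit 0) (nat_lit 0)) (Nat.add (x (nat_lit 67) (nat_lit 0) (nat_lit 0)) (x (nat_lit 68) (nat_lit 0) (nat_lit 0)))) (Nat.add (Nat.add (x (nat_lit 69) (nat_lit 0) (nat_lit 0)) (x (nat_lit 70) (nat_lit 0) (nat_lit 0))) (Nat.add (x (nat_lit 71) (nat_lit 0) (nat_lit 0)) (x (nat_lit 72) (nat_lit 0) (nat_lit 0)))))) (Nat.add (Nat.add (Nat.add (x (nat_lit 73) (nat_lit 0) (nat_lit 0)) (Nat.add (x (nat_lit 74) (nat_lit 0) (nat_lit 0)) (x (nat_lit 75) (nat_lit 0) (nat_lit 0)))) (Nat.add (Nat.add (x (nat_lit 76) (nat_lit 0) (nat_lit 0)) (x (nat_lit 77) (nat_lit 0) (nat_lit 0))) (Nat.add (x (nat_lit 78) (nat_lit 0) (nat_lit 0)) (x (nat_lit 79) (nat_lit 0) (nat_lit 0))))) (Nat.add (Nat.add (Nat.add (x (nat_lit 80) (nat_lit 0) (nat_lit 0)) (x (nat_lit 81) (nat_lit 0) (nat_lit 0))) (Nat.add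 (x (nat_lit 82) (nat_lit 0) (nat_lit 0)) (x (nat_lit 83) (nat_lit 0) (nat_lit 0)))) (Nat.add (Nat.add (x (nat_lit 84) (nat_lit 0) (nat_lit 0)) (x (nat_lit 85) (nat_lit 0) (nat_lit 0))) (Nat.add (x (nat_lit 86) (nat_lit 0) (nat_lit 0)) (x (nat_lit 87) (nat_lit 0) (nat_lit 0))))))) (Nat.add (Nat.add (Nat.add (Nat.add (x (nat_lit 88) (nat_lit 0) (nat_lit 0)) (Nat.add (x (nat_lit 89) (nat_lit 0) (nat_lit 0)) (x (nat_lit 90) (nat_lit 0) (nat_lit 0)))) (Nat.add (Nat.add (x (nat_lit 91) (nat_lit 0) (nat_lit 0)) (x (nat_lit 92) (nat_lit 0) (nat_lit 0))) (Nat.add (x (nat_lit 93) (nat_lit 0) (nat_lit 0)) (x (nat_lit 94) (nat_lit 0) (nat_lit 0))))) (Nat.add (Nat.add (Nat.add (x (nat_lit 95) (nat_lit 0) (nat_lit 0)) (x (nat_lit 96) (nat_lit 0) (nat_lit 0))) (Nat.add (x (nat_lit 97) (nat_lit 0) (nat_lit 0)) (x (nat_lit 98) (nat_lit 0) (nat_lit 0))))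 (Nat.add (Nat.add (x (nat_lit 99) (nat_lit 0) (nat_lit 0)) (x (nat_lit 100) (nat_lit 0) (nat_lit 0))) (Nat.add (x (nat_lit 101) (nat_lit 0) (nat_lit 0)) (x (nat_lit 102) (nat_lit 0) (nat_lit 0)))))) (Nat.add (Nat.add (Nat.add (x (nat_lit 103) (nat_lit 0) (nat_lit 0)) (Nat.add (x (nat_lit 104) (nat_lit 0) (nat_lit 0)) (x (nat_lit 105) (nat_lit 0) (nat_lit 0)))) (Nat.add (Nat.add (x (nat_lit 106) (nat_lit 0) (nat_lit 0)) (x (nat_lit 107) (nat_lit 0) (nat_lit 0))) (Nat.add (x (nat_lit 108) (nat_lit 0) (nat_lit 0)) (x (nat_lit 109) (nat_lit 0) (nat_lit 0))))) (Nat.add (Nat.add (Nat.add (x (nat_lit 110) (nat_lit 0) (nat_lit 0)) (x (nat_lit 111) (nat_lit 0) (nat_lit 0))) (Nat.add (x (nat_lit 112) (nat_lit 0) (nat_lit 0)) (x (nat_lit 113) (nat_lit 0) (nat_lit 0)))) (Nat.add (Nat.add (x (nat_lit 114) (nat_lit 0) (nat_lit 0)) (x (nat_lit 115) (nat_lit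 0) (nat_lit 0))) (Nat.add (x (nat_lit 116) (nat_lit 0) (nat_lit 0)) (x (nat_lit 117) (nat_lit 0) (nat_lit 0)))))))))⟩
  (TL.cons ⟨fun x => (Nat.add (Nat.add (Nat.add (Nat.add (Nat.add (Nat.add (x (nat_lit 0) (nat_lit 0) (nat_lit 0)) (Nat.add (x (nat_lit 1) (nat_lit 0) (nat_lit 0)) (x (nat_lit 2) (nat_lit 0) (nat_lit 0)))) (Nat.add (Nat.add (x (nat_lit 3) (nat_lit 0) (nat_lit 0)) (x (nat_lit 4) (nat_lit 0) (nat_lit 0))) (Nat.add (x (nat_lit 5) (nat_lit 0) (nat_lit 0)) (x (nat_lit 6) (nat_lit 0) (nat_lit 0))))) (Nat.add (Nat.add (x (nat_lit 7) (nat_lit 0) (nat_lit 0)) (Nat.add (x (nat_lit 8) (nat_lit 0) (nat_lit 0)) (x (nat_lit 9) (nat_lit 0) (nat_lit 0)))) (Nat.add (Nat.add (x (nat_lit 10) (nat_lit 0) (nat_lit 0)) (x (nat_lit 11) (nat_lit 0) (nat_lit 0))) (Nat.add (x (nat_lit 12) (nat_lit 0) (nat_lit 0)) (x (nat_lit 13) (nat_lit 0) (nat_lit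 0)))))) (Nat.add (Nat.add (Nat.add (x (nat_lit 14) (nat_lit 0) (nat_lit 0)) (Nat.add (x (nat_lit 15) (nat_lit 0) (nat_lit 0)) (x (nat_lit 16) (nat_lit 0) (nat_lit 0)))) (Nat.add (Nat.add (x (nat_lit 17) (nat_lit 0) (nat_lit 0)) (x (nat_lit 18) (nat_lit 0) (nat_lit 0))) (Nat.add (x (nat_lit 19) (nat_lit 0) (nat_lit 0)) (x (nat_lit 20) (nat_lit 0) (nat_lit 0))))) (Nat.add (Nat.add (Nat.add (x (nat_lit 21) (nat_lit 0) (nat_lit 0)) (x (nat_lit 22) (nat_lit 0) (nat_lit 0))) (Nat.add (x (nat_lit 23) (nat_lit 0) (nat_lit 0)) (x (nat_lit 24) (nat_lit 0) (nat_lit 0)))) (Nat.add (Nat.add (x (nat_lit 25) (nat_lit 0) (nat_lit 0)) (x (nat_lit 26) (nat_lit 0) (nat_lit 0))) (Nat.add (x (nat_lit 27) (nat_lit 0) (nat_lit 0)) (x (nat_lit 28) (nat_lit 0) (nat_lit 0))))))) (Nat.add (Nat.add (Nat.add (Nat.add (x (nat_lit 29) (nat_lit 0) (nat_lit 0)) (Nat.add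 (x (nat_lit 30) (nat_lit 0) (nat_lit 0)) (x (nat_lit 31) (nat_lit 0) (nat_lit 0)))) (Nat.add (Nat.add (x (nat_lit 32) (nat_lit 0) (nat_lit 0)) (x (nat_lit 33) (nat_lit 0) (nat_lit 0))) (Nat.add (x (nat_lit 34) (nat_lit 0) (nat_lit 0)) (x (nat_lit 35) (nat_lit 0) (nat_lit 0))))) (Nat.add (Nat.add (Nat.add (x (nat_lit 36) (nat_lit 0) (nat_lit 0)) (x (nat_lit 37) (nat_lit 0) (nat_lit 0))) (Nat.add (x (nat_lit 38) (nat_lit 0) (nat_lit 0)) (x (nat_lit 39) (nat_lit 0) (nat_lit 0)))) (Nat.add (Nat.add (x (nat_lit 40) (nat_lit 0) (nat_lit 0)) (x (nat_lit 41) (nat_lit 0) (nat_lit 0))) (Nat.add (x (nat_lit 42) (nat_lit 0) (nat_lit 0)) (x (nat_lit 43) (nat_lit 0) (nat_lit 0)))))) (Nat.add (Nat.add (Nat.add (x (nat_lit 44) (nat_lit 0) (nat_lit 0)) (Nat.add (x (nat_lit 45) (nat_lit 0) (nat_lit 0)) (x (nat_lit 46) (nat_lit 0) (nat_lit 0)))) (Nat.add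 (Nat.add (x (nat_lit 47) (nat_lit 0) (nat_lit 0)) (x (nat_lit 48) (nat_lit 0) (nat_lit 0))) (Nat.add (x (nat_lit 49) (nat_lit 0) (nat_lit 0)) (x (nat_lit 50) (nat_lit 0) (nat_lit 0))))) (Nat.add (Nat.add (Nat.add (x (nat_lit 51) (nat_lit 0) (nat_lit 0)) (x (nat_lit 52) (nat_lit 0) (nat_lit 0))) (Nat.add (x (nat_lit 53) (nat_lit 0) (nat_lit 0)) (x (nat_lit 54) (nat_lit 0) (nat_lit 0)))) (Nat.add (Nat.add (x (nat_lit 55) (nat_lit 0) (nat_lit 0)) (x (nat_lit 56) (nat_lit 0) (nat_lit 0))) (Nat.add (x (nat_lit 57) (nat_lit 0) (nat_lit 0)) (x (nat_lit 58) (nat_lit 0) (nat_lit 0)))))))) (Nat.add (Nat.add (Nat.add (Nat.add (Nat.add (x (nat_lit 59) (nat_lit 0) (nat_lit 0)) (Nat.add (x (nat_lit 60) (nat_lit 0) (nat_lit 0)) (x (nat_lit 61) (nat_lit 0) (nat_lit 0)))) (Nat.add (Nat.add (x (nat_lit 62) (nat_lit 0) (nat_lit 0)) (x (nat_lit 63) (nat_lit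 0) (nat_lit 0))) (Nat.add (x (nat_lit 64) (nat_lit 0) (nat_lit 0)) (x (nat_lit 65) (nat_lit 0) (nat_lit 0))))) (Nat.add (Nat.add (Nat.add (x (nat_lit 66) (nat_lit 0) (nat_lit 0)) (x (nat_lit 67) (nat_lit 0) (nat_lit 0))) (Nat.add (x (nat_lit 68) (nat_lit 0) (nat_lit 0)) (x (nat_lit 69) (nat_lit 0) (nat_lit 0)))) (Nat.add (Nat.add (x (nat_lit 70) (nat_lit 0) (nat_lit 0)) (x (nat_lit 71) (nat_lit 0) (nat_lit 0))) (Nat.add (x (nat_lit 72) (nat_lit 0) (nat_lit 0)) (x (nat_lit 73) (nat_lit 0) (nat_lit 0)))))) (Nat.add (Nat.add (Nat.add (x (nat_lit 74) (nat_lit 0) (nat_lit 0)) (Nat.add (x (nat_lit 75) (nat_lit 0) (nat_lit 0)) (x (nat_lit 76) (nat_lit 0) (nat_lit 0)))) (Nat.add (Nat.add (x (nat_lit 77) (nat_lit 0) (nat_lit 0)) (x (nat_lit 78) (nat_lit 0) (nat_lit 0))) (Nat.add (x (nat_lit 79) (nat_lit 0) (nat_lit 0)) (x (nat_lit 80) (nat_lit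 0) (nat_lit 0))))) (Nat.add (Nat.add (Nat.add (x (nat_lit 81) (nat_lit 0) (nat_lit 0)) (x (nat_lit 82) (nat_lit 0) (nat_lit 0))) (Nat.add (x (nat_lit 83) (nat_lit 0) (nat_lit 0)) (x (nat_lit 84) (nat_lit 0) (nat_lit 0)))) (Nat.add (Nat.add (x (nat_lit 85) (nat_lit 0) (nat_lit 0)) (x (nat_lit 86) (nat_lit 0) (nat_lit 0))) (Nat.add (x (nat_lit 87) (nat_lit 0) (nat_lit 0)) (x (nat_lit 88) (nat_lit 0) (nat_lit 0))))))) (Nat.add (Nat.add (Nat.add (Nat.add (x (nat_lit 89) (nat_lit 0) (nat_lit 0)) (Nat.add (x (nat_lit 90) (nat_lit 0) (nat_lit 0)) (x (nat_lit 91) (nat_lit 0) (nat_lit 0)))) (Nat.add (Nat.add (x (nat_lit 92) (nat_lit 0) (nat_lit 0)) (x (nat_lit 93) (nat_lit 0) (nat_lit 0))) (Nat.add (x (nat_lit 94) (nat_lit 0) (nat_lit 0)) (x (nat_lit 95) (nat_lit 0) (nat_lit 0))))) (Nat.add (Nat.add (Nat.add (x (nat_lit 96) (nat_lit 0) (nat_lit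 0)) (x (nat_lit 97) (nat_lit 0) (nat_lit 0))) (Nat.add (x (nat_lit 98) (nat_lit 0) (nat_lit 0)) (x (nat_lit 99) (nat_lit 0) (nat_lit 0)))) (Nat.add (Nat.add (x (nat_lit 100) (nat_lit 0) (nat_lit 0)) (x (nat_lit 101) (nat_lit 0) (nat_lit 0))) (Nat.add (x (nat_lit 102) (nat_lit 0) (nat_lit 0)) (x (nat_lit 103) (nat_lit 0) (nat_lit 0)))))) (Nat.add (Nat.add (Nat.add (x (nat_lit 104) (nat_lit 0) (nat_lit 0)) (Nat.add (x (nat_lit 105) (nat_lit 0) (nat_lit 0)) (x (nat_lit 106) (nat_lit 0) (nat_lit 0)))) (Nat.add (Nat.add (x (nat_lit 107) (nat_lit 0) (nat_lit 0)) (x (nat_lit 108) (nat_lit 0) (nat_lit 0))) (Nat.add (x (nat_lit 109) (nat_lit 0) (nat_lit 0)) (x (nat_lit 110) (nat_lit 0) (nat_lit 0))))) (Nat.add (Nat.add (Nat.add (x (nat_lit 111) (nat_lit 0) (nat_lit 0)) (x (nat_lit 112) (nat_lit 0) (nat_lit 0))) (Nat.add (x (nat_lit 113) (nat_lit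 0) (nat_lit 0)) (x (nat_lit 114) (nat_lit 0) (nat_lit 0)))) (Nat.add (Nat.add (x (nat_lit 115) (nat_lit 0) (nat_lit 0)) (x (nat_lit 116) (nat_lit 0) (nat_lit 0))) (Nat.add (x (nat_lit 117) (nat_lit 0) (nat_lit 0)) (x (nat_lit 118) (nat_lit 0) (nat_lit 0)))))))))⟩
  (TL.cons ⟨fun x => (Nat.add (Nat.add (Nat.add (Nat.add (Nat.add (Nat.add (x (nat_lit 0) (nat_lit 0) (nat_lit 0)) (Nat.add (x (nat_lit 1) (nat_lit 0) (nat_lit 0)) (x (nat_lit 2) (nat_lit 0) (nat_lit 0)))) (Nat.add (Nat.add (x (nat_lit 3) (nat_lit 0) (nat_lit 0)) (x (nat_lit 4) (nat_lit 0) (nat_lit 0))) (Nat.add (x (nat_lit 5) (nat_lit 0) (nat_lit 0)) (x (nat_lit 6) (nat_lit 0) (nat_lit 0))))) (Nat.add (Nat.add (Nat.add (x (nat_lit 7) (nat_lit 0) (nat_lit 0)) (x (nat_lit 8) (nat_lit 0) (nat_lit 0))) (Nat.add (x (nat_lit 9) (nat_lit 0) (nat_lit 0)) (x (nat_lit 10) (nat_lit 0) (nat_lit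 0)))) (Nat.add (Nat.add (x (nat_lit 11) (nat_lit 0) (nat_lit 0)) (x (nat_lit 12) (nat_lit 0) (nat_lit 0))) (Nat.add (x (nat_lit 13) (nat_lit 0) (nat_lit 0)) (x (nat_lit 14) (nat_lit 0) (nat_lit 0)))))) (Nat.add (Nat.add (Nat.add (x (nat_lit 15) (nat_lit 0) (nat_lit 0)) (Nat.add (x (nat_lit 16) (nat_lit 0) (nat_lit 0)) (x (nat_lit 17) (nat_lit 0) (nat_lit 0)))) (Nat.add (Nat.add (x (nat_lit 18) (nat_lit 0) (nat_lit 0)) (x (nat_lit 19) (nat_lit 0) (nat_lit 0))) (Nat.add (x (nat_lit 20) (nat_lit 0) (nat_lit 0)) (x (nat_lit 21) (nat_lit 0) (nat_lit 0))))) (Nat.add (Nat.add (Nat.add (x (nat_lit 22) (nat_lit 0) (nat_lit 0)) (x (nat_lit 23) (nat_lit 0) (nat_lit 0))) (Nat.add (x (nat_lit 24) (nat_lit 0) (nat_lit 0)) (x (nat_lit 25) (nat_lit 0) (nat_lit 0)))) (Nat.add (Nat.add (x (nat_lit 26) (nat_lit 0) (nat_lit 0)) (x (nat_lit 27) (nat_lit 0)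 (nat_lit 0))) (Nat.add (x (nat_lit 28) (nat_lit 0) (nat_lit 0)) (x (nat_lit 29) (nat_lit 0) (nat_lit 0))))))) (Nat.add (Nat.add (Nat.add (Nat.add (x (nat_lit 30) (nat_lit 0) (nat_lit 0)) (Nat.add (x (nat_lit 31) (nat_lit 0) (nat_lit 0)) (x (nat_lit 32) (nat_lit 0) (nat_lit 0)))) (Nat.add (Nat.add (x (nat_lit 33) (nat_lit 0) (nat_lit 0)) (x (nat_lit 34) (nat_lit 0) (nat_lit 0))) (Nat.add (x (nat_lit 35) (nat_lit 0) (nat_lit 0)) (x (nat_lit 36) (nat_lit 0) (nat_lit 0))))) (Nat.add (Nat.add (Nat.add (x (nat_lit 37) (nat_lit 0) (nat_lit 0)) (x (nat_lit 38) (nat_lit 0) (nat_lit 0))) (Nat.add (x (nat_lit 39) (nat_lit 0) (nat_lit 0)) (x (nat_lit 40) (nat_lit 0) (nat_lit 0)))) (Nat.add (Nat.add (x (nat_lit 41) (nat_lit 0) (nat_lit 0)) (x (nat_lit 42) (nat_lit 0) (nat_lit 0))) (Nat.add (x (nat_lit 43) (nat_lit 0) (nat_lit 0)) (x (nat_lit 44) (nat_lit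 0) (nat_lit 0)))))) (Nat.add (Nat.add (Nat.add (x (nat_lit 45) (nat_lit 0) (nat_lit 0)) (Nat.add (x (nat_lit 46) (nat_lit 0) (nat_lit 0)) (x (nat_lit 47) (nat_lit 0) (nat_lit 0)))) (Nat.add (Nat.add (x (nat_lit 48) (nat_lit 0) (nat_lit 0)) (x (nat_lit 49) (nat_lit 0) (nat_lit 0))) (Nat.add (x (nat_lit 50) (nat_lit 0) (nat_lit 0)) (x (nat_lit 51) (nat_lit 0) (nat_lit 0))))) (Nat.add (Nat.add (Nat.add (x (nat_lit 52) (nat_lit 0) (nat_lit 0)) (x (nat_lit 53) (nat_lit 0) (nat_lit 0))) (Nat.add (x (nat_lit 54) (nat_lit 0) (nat_lit 0)) (x (nat_lit 55) (nat_lit 0) (nat_lit 0)))) (Nat.add (Nat.add (x (nat_lit 56) (nat_lit 0) (nat_lit 0)) (x (nat_lit 57) (nat_lit 0) (nat_lit 0))) (Nat.add (x (nat_lit 58) (nat_lit 0) (nat_lit 0)) (x (nat_lit 59) (nat_lit 0) (nat_lit 0)))))))) (Nat.add (Nat.add (Nat.add (Nat.add (Nat.add (x (nat_lit 60) (nat_lit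 0) (nat_lit 0)) (Nat.add (x (nat_lit 61) (nat_lit 0) (nat_lit 0)) (x (nat_lit 62) (nat_lit 0) (nat_lit 0)))) (Nat.add (Nat.add (x (nat_lit 63) (nat_lit 0) (nat_lit 0)) (x (nat_lit 64) (nat_lit 0) (nat_lit 0))) (Nat.add (x (nat_lit 65) (nat_lit 0) (nat_lit 0)) (x (nat_lit 66) (nat_lit 0) (nat_lit 0))))) (Nat.add (Nat.add (Nat.add (x (nat_lit 67) (nat_lit 0) (nat_lit 0)) (x (nat_lit 68) (nat_lit 0) (nat_lit 0))) (Nat.add (x (nat_lit 69) (nat_lit 0) (nat_lit 0)) (x (nat_lit 70) (nat_lit 0) (nat_lit 0)))) (Nat.add (Nat.add (x (nat_lit 71) (nat_lit 0) (nat_lit 0)) (x (nat_lit 72) (nat_lit 0) (nat_lit 0))) (Nat.add (x (nat_lit 73) (nat_lit 0) (nat_lit 0)) (x (nat_lit 74) (nat_lit 0) (nat_lit 0)))))) (Nat.add (Nat.add (Nat.add (x (nat_lit 75) (nat_lit 0) (nat_lit 0)) (Nat.add (x (nat_lit 76) (nat_lit 0) (nat_lit 0)) (x (nat_lit 77) (nat_lit 0)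 (nat_lit 0)))) (Nat.add (Nat.add (x (nat_lit 78) (nat_lit 0) (nat_lit 0)) (x (nat_lit 79) (nat_lit 0) (nat_lit 0))) (Nat.add (x (nat_lit 80) (nat_lit 0) (nat_lit 0)) (x (nat_lit 81) (nat_lit 0) (nat_lit 0))))) (Nat.add (Nat.add (Nat.add (x (nat_lit 82) (nat_lit 0) (nat_lit 0)) (x (nat_lit 83) (nat_lit 0) (nat_lit 0))) (Nat.add (x (nat_lit 84) (nat_lit 0) (nat_lit 0)) (x (nat_lit 85) (nat_lit 0) (nat_lit 0)))) (Nat.add (Nat.add (x (nat_lit 86) (nat_lit 0) (nat_lit 0)) (x (nat_lit 87) (nat_lit 0) (nat_lit 0))) (Nat.add (x (nat_lit 88) (nat_lit 0) (nat_lit 0)) (x (nat_lit 89) (nat_lit 0) (nat_lit 0))))))) (Nat.add (Nat.add (Nat.add (Nat.add (x (nat_lit 90) (nat_lit 0) (nat_lit 0)) (Nat.add (x (nat_lit 91) (nat_lit 0) (nat_lit 0)) (x (nat_lit 92) (nat_lit 0) (nat_lit 0)))) (Nat.add (Nat.add (x (nat_lit 93) (nat_lit 0) (nat_lit 0)) (x (nat_lit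 94) (nat_lit 0) (nat_lit 0))) (Nat.add (x (nat_lit 95) (nat_lit 0) (nat_lit 0)) (x (nat_lit 96) (nat_lit 0) (nat_lit 0))))) (Nat.add (Nat.add (Nat.add (x (nat_lit 97) (nat_lit 0) (nat_lit 0)) (x (nat_lit 98) (nat_lit 0) (nat_lit 0))) (Nat.add (x (nat_lit 99) (nat_lit 0) (nat_lit 0)) (x (nat_lit 100) (nat_lit 0) (nat_lit 0)))) (Nat.add (Nat.add (x (nat_lit 101) (nat_lit 0) (nat_lit 0)) (x (nat_lit 102) (nat_lit 0) (nat_lit 0))) (Nat.add (x (nat_lit 103) (nat_lit 0) (nat_lit 0)) (x (nat_lit 104) (nat_lit 0) (nat_lit 0)))))) (Nat.add (Nat.add (Nat.add (x (nat_lit 105) (nat_lit 0) (nat_lit 0)) (Nat.add (x (nat_lit 106) (nat_lit 0) (nat_lit 0)) (x (nat_lit 107) (nat_lit 0) (nat_lit 0)))) (Nat.add (Nat.add (x (nat_lit 108) (nat_lit 0) (nat_lit 0)) (x (nat_lit 109) (nat_lit 0) (nat_lit 0))) (Nat.add (x (nat_lit 110) (nat_lit 0) (nat_lit 0)) (x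 (nat_lit 111) (nat_lit 0) (nat_lit 0))))) (Nat.add (Nat.add (Nat.add (x (nat_lit 112) (nat_lit 0) (nat_lit 0)) (x (nat_lit 113) (nat_lit 0) (nat_lit 0))) (Nat.add (x (nat_lit 114) (nat_lit 0) (nat_lit 0)) (x (nat_lit 115) (nat_lit 0) (nat_lit 0)))) (Nat.add (Nat.add (x (nat_lit 116) (nat_lit 0) (nat_lit 0)) (x (nat_lit 117) (nat_lit 0) (nat_lit 0))) (Nat.add (x (nat_lit 118) (nat_lit 0) (nat_lit 0)) (x (nat_lit 119) (nat_lit 0) (nat_lit 0)))))))))⟩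
  TL.nil)))))))))))))))))))))))))))))))))))))))))))))))))))))))))))))))))))))))))))))))))))))))))))))))))))))))))))))))))))))))))

noncomputable def cf_rng_t : List TT := [.zero,
  (.leaf (nat_lit 0) (nat_lit 0) (nat_lit 0)),
  (.add (.leaf (nat_lit 0) (nat_lit 0) (nat_lit 0)) (.leaf (nat_lit 1) (nat_lit 0) (nat_lit 0))),
  (.add (.leaf (nat_lit 0) (nat_lit 0) (nat_lit 0)) (.add (.leaf (nat_lit 1) (nat_lit 0) (nat_lit 0)) (.leaf (nat_lit 2) (nat_lit 0) (nat_lit 0)))),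
  (.add (.add (.leaf (nat_lit 0) (nat_lit 0) (nat_lit 0)) (.leaf (nat_lit 1) (nat_lit 0) (nat_lit 0))) (.add (.leaf (nat_lit 2) (nat_lit 0) (nat_lit 0)) (.leaf (nat_lit 3) (nat_lit 0) (nat_lit 0)))),
  (.add (.add (.leaf (nat_lit 0) (nat_lit 0) (nat_lit 0)) (.leaf (nat_lit 1) (nat_lit 0) (nat_lit 0))) (.add (.leaf (nat_lit 2) (nat_lit 0) (nat_lit 0)) (.add (.leaf (nat_lit 3) (nat_lit 0) (nat_lit 0)) (.leaf (nat_lit 4) (nat_lit 0) (nat_lit 0))))),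
  (.add (.add (.leaf (nat_lit 0) (nat_lit 0) (nat_lit 0)) (.add (.leaf (nat_lit 1) (nat_lit 0) (nat_lit 0)) (.leaf (nat_lit 2) (nat_lit 0) (nat_lit 0)))) (.add (.leaf (nat_lit 3) (nat_lit 0) (nat_lit 0)) (.add (.leaf (nat_lit 4) (nat_lit 0) (nat_lit 0)) (.leaf (nat_lit 5) (nat_lit 0) (nat_lit 0))))),
  (.add (.add (.leaf (nat_lit 0) (nat_lit 0) (nat_lit 0)) (.add (.leaf (nat_lit 1) (nat_lit 0) (nat_lit 0)) (.leaf (nat_lit 2) (nat_lit 0) (nat_lit 0)))) (.add (.add (.leaf (nat_lit 3) (nat_lit 0) (nat_lit 0)) (.leaf (nat_lit 4) (nat_lit 0) (nat_lit 0))) (.add (.leaf (nat_lit 5) (nat_lit 0) (nat_lit 0)) (.leaf (nat_lit 6) (nat_lit 0) (nat_lit 0))))),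
  (.add (.add (.add (.leaf (nat_lit 0) (nat_lit 0) (nat_lit 0)) (.leaf (nat_lit 1) (nat_lit 0) (nat_lit 0))) (.add (.leaf (nat_lit 2) (nat_lit 0) (nat_lit 0)) (.leaf (nat_lit 3) (nat_lit 0) (nat_lit 0)))) (.add (.add (.leaf (nat_lit 4) (nat_lit 0) (nat_lit 0)) (.leaf (nat_lit 5) (nat_lit 0) (nat_lit 0))) (.add (.leaf (nat_lit 6) (nat_lit 0) (nat_lit 0)) (.leaf (nat_lit 7) (nat_lit 0) (nat_lit 0))))),
  (.add (.add (.add (.leaf (nat_lit 0) (nat_lit 0) (nat_lit 0)) (.leaf (nat_lit 1) (nat_lit 0) (nat_lit 0))) (.add (.leaf (nat_lit 2) (nat_lit 0) (nat_lit 0)) (.leaf (nat_lit 3) (nat_lit 0) (nat_lit 0)))) (.add (.add (.leaf (nat_lit 4) (nat_lit 0) (nat_lit 0)) (.leaf (nat_lit 5) (nat_lit 0) (nat_lit 0))) (.add (.leaf (nat_lit 6) (nat_lit 0) (nat_lit 0)) (.add (.leaf (nat_lit 7) (nat_lit 0) (nat_lit 0)) (.leaf (nat_lit 8) (nat_lit 0) (nat_lit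 0)))))),
  (.add (.add (.add (.leaf (nat_lit 0) (nat_lit 0) (nat_lit 0)) (.leaf (nat_lit 1) (nat_lit 0) (nat_lit 0))) (.add (.leaf (nat_lit 2) (nat_lit 0) (nat_lit 0)) (.add (.leaf (nat_lit 3) (nat_lit 0) (nat_lit 0)) (.leaf (nat_lit 4) (nat_lit 0) (nat_lit 0))))) (.add (.add (.leaf (nat_lit 5) (nat_lit 0) (nat_lit 0)) (.leaf (nat_lit 6) (nat_lit 0) (nat_lit 0))) (.add (.leaf (nat_lit 7) (nat_lit 0) (nat_lit 0)) (.add (.leaf (nat_lit 8) (nat_lit 0) (nat_lit 0)) (.leaf (nat_lit 9) (nat_lit 0) (nat_lit 0)))))),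
  (.add (.add (.add (.leaf (nat_lit 0) (nat_lit 0) (nat_lit 0)) (.leaf (nat_lit 1) (nat_lit 0) (nat_lit 0))) (.add (.leaf (nat_lit 2) (nat_lit 0) (nat_lit 0)) (.add (.leaf (nat_lit 3) (nat_lit 0) (nat_lit 0)) (.leaf (nat_lit 4) (nat_lit 0) (nat_lit 0))))) (.add (.add (.leaf (nat_lit 5) (nat_lit 0) (nat_lit 0)) (.add (.leaf (nat_lit 6) (nat_lit 0) (nat_lit 0)) (.leaf (nat_lit 7) (nat_lit 0) (nat_lit 0)))) (.add (.leaf (nat_lit 8) (nat_lit 0) (nat_lit 0)) (.add (.leaf (nat_lit 9) (nat_lit 0) (nat_lit 0)) (.leaf (nat_lit 10) (nat_lit 0) (nat_lit 0)))))),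
  (.add (.add (.add (.leaf (nat_lit 0) (nat_lit 0) (nat_lit 0)) (.add (.leaf (nat_lit 1) (nat_lit 0) (nat_lit 0)) (.leaf (nat_lit 2) (nat_lit 0) (nat_lit 0)))) (.add (.leaf (nat_lit 3) (nat_lit 0) (nat_lit 0)) (.add (.leaf (nat_lit 4) (nat_lit 0) (nat_lit 0)) (.leaf (nat_lit 5) (nat_lit 0) (nat_lit 0))))) (.add (.add (.leaf (nat_lit 6) (nat_lit 0) (nat_lit 0)) (.add (.leaf (nat_lit 7) (nat_lit 0) (nat_lit 0)) (.leaf (nat_lit 8) (nat_lit 0) (nat_lit 0)))) (.add (.leaf (nat_lit 9) (nat_lit 0) (nat_lit 0)) (.add (.leaf (nat_lit 10) (nat_lit 0) (nat_lit 0)) (.leaf (nat_lit 11) (nat_lit 0) (nat_lit 0)))))),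
  (.add (.add (.add (.leaf (nat_lit 0) (nat_lit 0) (nat_lit 0)) (.add (.leaf (nat_lit 1) (nat_lit 0) (nat_lit 0)) (.leaf (nat_lit 2) (nat_lit 0) (nat_lit 0)))) (.add (.leaf (nat_lit 3) (nat_lit 0) (nat_lit 0)) (.add (.leaf (nat_lit 4) (nat_lit 0) (nat_lit 0)) (.leaf (nat_lit 5) (nat_lit 0) (nat_lit 0))))) (.add (.add (.leaf (nat_lit 6) (nat_lit 0) (nat_lit 0)) (.add (.leaf (nat_lit 7) (nat_lit 0) (nat_lit 0)) (.leaf (nat_lit 8) (nat_lit 0) (nat_lit 0)))) (.add (.add (.leaf (nat_lit 9) (nat_lit 0) (nat_lit 0)) (.leaf (nat_lit 10) (nat_lit 0) (nat_lit 0))) (.add (.leaf (nat_lit 11) (nat_lit 0) (nat_lit 0)) (.leaf (nat_lit 12) (nat_lit 0) (nat_lit 0)))))),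
  (.add (.add (.add (.leaf (nat_lit 0) (nat_lit 0) (nat_lit 0)) (.add (.leaf (nat_lit 1) (nat_lit 0) (nat_lit 0)) (.leaf (nat_lit 2) (nat_lit 0) (nat_lit 0)))) (.add (.add (.leaf (nat_lit 3) (nat_lit 0) (nat_lit 0)) (.leaf (nat_lit 4) (nat_lit 0) (nat_lit 0))) (.add (.leaf (nat_lit 5) (nat_lit 0) (nat_lit 0)) (.leaf (nat_lit 6) (nat_lit 0) (nat_lit 0))))) (.add (.add (.leaf (nat_lit 7) (nat_lit 0) (nat_lit 0)) (.add (.leaf (nat_lit 8) (nat_lit 0) (nat_lit 0)) (.leaf (nat_lit 9) (nat_lit 0) (nat_lit 0)))) (.add (.add (.leaf (nat_lit 10) (nat_lit 0) (nat_lit 0)) (.leaf (nat_lit 11) (nat_lit 0) (nat_lit 0))) (.add (.leaf (nat_lit 12) (nat_lit 0) (nat_lit 0)) (.leaf (nat_lit 13) (nat_lit 0) (nat_lit 0)))))),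
  (.add (.add (.add (.leaf (nat_lit 0) (nat_lit 0) (nat_lit 0)) (.add (.leaf (nat_lit 1) (nat_lit 0) (nat_lit 0)) (.leaf (nat_lit 2) (nat_lit 0) (nat_lit 0)))) (.add (.add (.leaf (nat_lit 3) (nat_lit 0) (nat_lit 0)) (.leaf (nat_lit 4) (nat_lit 0) (nat_lit 0))) (.add (.leaf (nat_lit 5) (nat_lit 0) (nat_lit 0)) (.leaf (nat_lit 6) (nat_lit 0) (nat_lit 0))))) (.add (.add (.add (.leaf (nat_lit 7) (nat_lit 0) (nat_lit 0)) (.leaf (nat_lit 8) (nat_lit 0) (nat_lit 0))) (.add (.leaf (nat_lit 9) (nat_lit 0) (nat_lit 0)) (.leaf (nat_lit 10) (nat_lit 0) (nat_lit 0)))) (.add (.add (.leaf (nat_lit 11) (nat_lit 0) (nat_lit 0)) (.leaf (nat_lit 12) (nat_lit 0) (nat_lit 0))) (.add (.leaf (nat_lit 13) (nat_lit 0) (nat_lit 0)) (.leaf (nat_lit 14) (nat_lit 0) (nat_lit 0)))))),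
  (.add (.add (.add (.add (.leaf (nat_lit 0) (nat_lit 0) (nat_lit 0)) (.leaf (nat_lit 1) (nat_lit 0) (nat_lit 0))) (.add (.leaf (nat_lit 2) (nat_lit 0) (nat_lit 0)) (.leaf (nat_lit 3) (nat_lit 0) (nat_lit 0)))) (.add (.add (.leaf (nat_lit 4) (nat_lit 0) (nat_lit 0)) (.leaf (nat_lit 5) (nat_lit 0) (nat_lit 0))) (.add (.leaf (nat_lit 6) (nat_lit 0) (nat_lit 0)) (.leaf (nat_lit 7) (nat_lit 0) (nat_lit 0))))) (.add (.add (.add (.leaf (nat_lit 8) (nat_lit 0) (nat_lit 0)) (.leaf (nat_lit 9) (nat_lit 0) (nat_lit 0))) (.add (.leaf (nat_lit 10) (nat_lit 0) (nat_lit 0)) (.leaf (nat_lit 11) (nat_lit 0) (nat_lit 0)))) (.add (.add (.leaf (nat_lit 12) (nat_lit 0) (nat_lit 0)) (.leaf (nat_lit 13) (nat_lit 0) (nat_lit 0))) (.add (.leaf (nat_lit 14) (nat_lit 0) (nat_lit 0)) (.leaf (nat_lit 15) (nat_lit 0) (nat_lit 0)))))),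
  (.add (.add (.add (.add (.leaf (nat_lit 0) (nat_lit 0) (nat_lit 0)) (.leaf (nat_lit 1) (nat_lit 0) (nat_lit 0))) (.add (.leaf (nat_lit 2) (nat_lit 0) (nat_lit 0)) (.leaf (nat_lit 3) (nat_lit 0) (nat_lit 0)))) (.add (.add (.leaf (nat_lit 4) (nat_lit 0) (nat_lit 0)) (.leaf (nat_lit 5) (nat_lit 0) (nat_lit 0))) (.add (.leaf (nat_lit 6) (nat_lit 0) (nat_lit 0)) (.leaf (nat_lit 7) (nat_lit 0) (nat_lit 0))))) (.add (.add (.add (.leaf (nat_lit 8) (nat_lit 0) (nat_lit 0)) (.leaf (nat_lit 9) (nat_lit 0) (nat_lit 0))) (.add (.leaf (nat_lit 10) (nat_lit 0) (nat_lit 0)) (.leaf (nat_lit 11) (nat_lit 0) (nat_lit 0)))) (.add (.add (.leaf (nat_lit 12) (nat_lit 0) (nat_lit 0)) (.leaf (nat_lit 13) (nat_lit 0) (nat_lit 0))) (.add (.leaf (nat_lit 14) (nat_lit 0) (nat_lit 0)) (.add (.leaf (nat_lit 15) (nat_lit 0) (nat_lit 0)) (.leaf (nat_lit 16) (nat_lit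 0) (nat_lit 0))))))),
  (.add (.add (.add (.add (.leaf (nat_lit 0) (nat_lit 0) (nat_lit 0)) (.leaf (nat_lit 1) (nat_lit 0) (nat_lit 0))) (.add (.leaf (nat_lit 2) (nat_lit 0) (nat_lit 0)) (.leaf (nat_lit 3) (nat_lit 0) (nat_lit 0)))) (.add (.add (.leaf (nat_lit 4) (nat_lit 0) (nat_lit 0)) (.leaf (nat_lit 5) (nat_lit 0) (nat_lit 0))) (.add (.leaf (nat_lit 6) (nat_lit 0) (nat_lit 0)) (.add (.leaf (nat_lit 7) (nat_lit 0) (nat_lit 0)) (.leaf (nat_lit 8) (nat_lit 0) (nat_lit 0)))))) (.add (.add (.add (.leaf (nat_lit 9) (nat_lit 0) (nat_lit 0)) (.leaf (nat_lit 10) (nat_lit 0) (nat_lit 0))) (.add (.leaf (nat_lit 11) (nat_lit 0) (nat_lit 0)) (.leaf (nat_lit 12) (nat_lit 0) (nat_lit 0)))) (.add (.add (.leaf (nat_lit 13) (nat_lit 0) (nat_lit 0)) (.leaf (nat_lit 14) (nat_lit 0) (nat_lit 0))) (.add (.leaf (nat_lit 15) (nat_lit 0) (nat_lit 0)) (.add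 (.leaf (nat_lit 16) (nat_lit 0) (nat_lit 0)) (.leaf (nat_lit 17) (nat_lit 0) (nat_lit 0))))))),
  (.add (.add (.add (.add (.leaf (nat_lit 0) (nat_lit 0) (nat_lit 0)) (.leaf (nat_lit 1) (nat_lit 0) (nat_lit 0))) (.add (.leaf (nat_lit 2) (nat_lit 0) (nat_lit 0)) (.leaf (nat_lit 3) (nat_lit 0) (nat_lit 0)))) (.add (.add (.leaf (nat_lit 4) (nat_lit 0) (nat_lit 0)) (.leaf (nat_lit 5) (nat_lit 0) (nat_lit 0))) (.add (.leaf (nat_lit 6) (nat_lit 0) (nat_lit 0)) (.add (.leaf (nat_lit 7) (nat_lit 0) (nat_lit 0)) (.leaf (nat_lit 8) (nat_lit 0) (nat_lit 0)))))) (.add (.add (.add (.leaf (nat_lit 9) (nat_lit 0) (nat_lit 0)) (.leaf (nat_lit 10) (nat_lit 0) (nat_lit 0))) (.add (.leaf (nat_lit 11) (nat_lit 0) (nat_lit 0)) (.add (.leaf (nat_lit 12) (nat_lit 0) (nat_lit 0)) (.leaf (nat_lit 13) (nat_lit 0) (nat_lit 0))))) (.add (.add (.leaf (nat_lit 14) (nat_lit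 0) (nat_lit 0)) (.leaf (nat_lit 15) (nat_lit 0) (nat_lit 0))) (.add (.leaf (nat_lit 16) (nat_lit 0) (nat_lit 0)) (.add (.leaf (nat_lit 17) (nat_lit 0) (nat_lit 0)) (.leaf (nat_lit 18) (nat_lit 0) (nat_lit 0))))))),
  (.add (.add (.add (.add (.leaf (nat_lit 0) (nat_lit 0) (nat_lit 0)) (.leaf (nat_lit 1) (nat_lit 0) (nat_lit 0))) (.add (.leaf (nat_lit 2) (nat_lit 0) (nat_lit 0)) (.add (.leaf (nat_lit 3) (nat_lit 0) (nat_lit 0)) (.leaf (nat_lit 4) (nat_lit 0) (nat_lit 0))))) (.add (.add (.leaf (nat_lit 5) (nat_lit 0) (nat_lit 0)) (.leaf (nat_lit 6) (nat_lit 0) (nat_lit 0))) (.add (.leaf (nat_lit 7) (nat_lit 0) (nat_lit 0)) (.add (.leaf (nat_lit 8) (nat_lit 0) (nat_lit 0)) (.leaf (nat_lit 9) (nat_lit 0) (nat_lit 0)))))) (.add (.add (.add (.leaf (nat_lit 10) (nat_lit 0) (nat_lit 0)) (.leaf (nat_lit 11) (nat_lit 0) (nat_lit 0))) (.add (.leaf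 (nat_lit 12) (nat_lit 0) (nat_lit 0)) (.add (.leaf (nat_lit 13) (nat_lit 0) (nat_lit 0)) (.leaf (nat_lit 14) (nat_lit 0) (nat_lit 0))))) (.add (.add (.leaf (nat_lit 15) (nat_lit 0) (nat_lit 0)) (.leaf (nat_lit 16) (nat_lit 0) (nat_lit 0))) (.add (.leaf (nat_lit 17) (nat_lit 0) (nat_lit 0)) (.add (.leaf (nat_lit 18) (nat_lit 0) (nat_lit 0)) (.leaf (nat_lit 19) (nat_lit 0) (nat_lit 0))))))),
  (.add (.add (.add (.add (.leaf (nat_lit 0) (nat_lit 0) (nat_lit 0)) (.leaf (nat_lit 1) (nat_lit 0) (nat_lit 0))) (.add (.leaf (nat_lit 2) (nat_lit 0) (nat_lit 0)) (.add (.leaf (nat_lit 3) (nat_lit 0) (nat_lit 0)) (.leaf (nat_lit 4) (nat_lit 0) (nat_lit 0))))) (.add (.add (.leaf (nat_lit 5) (nat_lit 0) (nat_lit 0)) (.leaf (nat_lit 6) (nat_lit 0) (nat_lit 0))) (.add (.leaf (nat_lit 7) (nat_lit 0) (nat_lit 0)) (.add (.leaf (nat_lit 8) (nat_lit 0) (nat_lit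 0)) (.leaf (nat_lit 9) (nat_lit 0) (nat_lit 0)))))) (.add (.add (.add (.leaf (nat_lit 10) (nat_lit 0) (nat_lit 0)) (.leaf (nat_lit 11) (nat_lit 0) (nat_lit 0))) (.add (.leaf (nat_lit 12) (nat_lit 0) (nat_lit 0)) (.add (.leaf (nat_lit 13) (nat_lit 0) (nat_lit 0)) (.leaf (nat_lit 14) (nat_lit 0) (nat_lit 0))))) (.add (.add (.leaf (nat_lit 15) (nat_lit 0) (nat_lit 0)) (.add (.leaf (nat_lit 16) (nat_lit 0) (nat_lit 0)) (.leaf (nat_lit 17) (nat_lit 0) (nat_lit 0)))) (.add (.leaf (nat_lit 18) (nat_lit 0) (nat_lit 0)) (.add (.leaf (nat_lit 19) (nat_lit 0) (nat_lit 0)) (.leaf (nat_lit 20) (nat_lit 0) (nat_lit 0))))))),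
  (.add (.add (.add (.add (.leaf (nat_lit 0) (nat_lit 0) (nat_lit 0)) (.leaf (nat_lit 1) (nat_lit 0) (nat_lit 0))) (.add (.leaf (nat_lit 2) (nat_lit 0) (nat_lit 0)) (.add (.leaf (nat_lit 3) (nat_lit 0) (nat_lit 0)) (.leaf (nat_lit 4) (nat_lit 0) (nat_lit 0))))) (.add (.add (.leaf (nat_lit 5) (nat_lit 0) (nat_lit 0)) (.add (.leaf (nat_lit 6) (nat_lit 0) (nat_lit 0)) (.leaf (nat_lit 7) (nat_lit 0) (nat_lit 0)))) (.add (.leaf (nat_lit 8) (nat_lit 0) (nat_lit 0)) (.add (.leaf (nat_lit 9) (nat_lit 0) (nat_lit 0)) (.leaf (nat_lit 10) (nat_lit 0) (nat_lit 0)))))) (.add (.add (.add (.leaf (nat_lit 11) (nat_lit 0) (nat_lit 0)) (.leaf (nat_lit 12) (nat_lit 0) (nat_lit 0))) (.add (.leaf (nat_lit 13) (nat_lit 0) (nat_lit 0)) (.add (.leaf (nat_lit 14) (nat_lit 0) (nat_lit 0)) (.leaf (nat_lit 15) (nat_lit 0) (nat_lit 0))))) (.add (.add (.leaf (nat_lit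 16) (nat_lit 0) (nat_lit 0)) (.add (.leaf (nat_lit 17) (nat_lit 0) (nat_lit 0)) (.leaf (nat_lit 18) (nat_lit 0) (nat_lit 0)))) (.add (.leaf (nat_lit 19) (nat_lit 0) (nat_lit 0)) (.add (.leaf (nat_lit 20) (nat_lit 0) (nat_lit 0)) (.leaf (nat_lit 21) (nat_lit 0) (nat_lit 0))))))),
  (.add (.add (.add (.add (.leaf (nat_lit 0) (nat_lit 0) (nat_lit 0)) (.leaf (nat_lit 1) (nat_lit 0) (nat_lit 0))) (.add (.leaf (nat_lit 2) (nat_lit 0) (nat_lit 0)) (.add (.leaf (nat_lit 3) (nat_lit 0) (nat_lit 0)) (.leaf (nat_lit 4) (nat_lit 0) (nat_lit 0))))) (.add (.add (.leaf (nat_lit 5) (nat_lit 0) (nat_lit 0)) (.add (.leaf (nat_lit 6) (nat_lit 0) (nat_lit 0)) (.leaf (nat_lit 7) (nat_lit 0) (nat_lit 0)))) (.add (.leaf (nat_lit 8) (nat_lit 0) (nat_lit 0)) (.add (.leaf (nat_lit 9) (nat_lit 0) (nat_lit 0)) (.leaf (nat_lit 10) (nat_lit 0) (nat_lit 0)))))) (.add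 (.add (.add (.leaf (nat_lit 11) (nat_lit 0) (nat_lit 0)) (.add (.leaf (nat_lit 12) (nat_lit 0) (nat_lit 0)) (.leaf (nat_lit 13) (nat_lit 0) (nat_lit 0)))) (.add (.leaf (nat_lit 14) (nat_lit 0) (nat_lit 0)) (.add (.leaf (nat_lit 15) (nat_lit 0) (nat_lit 0)) (.leaf (nat_lit 16) (nat_lit 0) (nat_lit 0))))) (.add (.add (.leaf (nat_lit 17) (nat_lit 0) (nat_lit 0)) (.add (.leaf (nat_lit 18) (nat_lit 0) (nat_lit 0)) (.leaf (nat_lit 19) (nat_lit 0) (nat_lit 0)))) (.add (.leaf (nat_lit 20) (nat_lit 0) (nat_lit 0)) (.add (.leaf (nat_lit 21) (nat_lit 0) (nat_lit 0)) (.leaf (nat_lit 22) (nat_lit 0) (nat_lit 0))))))),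
  (.add (.add (.add (.add (.leaf (nat_lit 0) (nat_lit 0) (nat_lit 0)) (.add (.leaf (nat_lit 1) (nat_lit 0) (nat_lit 0)) (.leaf (nat_lit 2) (nat_lit 0) (nat_lit 0)))) (.add (.leaf (nat_lit 3) (nat_lit 0) (nat_lit 0)) (.add (.leaf (nat_lit 4) (nat_lit 0) (nat_lit 0)) (.leaf (nat_lit 5) (nat_lit 0) (nat_lit 0))))) (.add (.add (.leaf (nat_lit 6) (nat_lit 0) (nat_lit 0)) (.add (.leaf (nat_lit 7) (nat_lit 0) (nat_lit 0)) (.leaf (nat_lit 8) (nat_lit 0) (nat_lit 0)))) (.add (.leaf (nat_lit 9) (nat_lit 0) (nat_lit 0)) (.add (.leaf (nat_lit 10) (nat_lit 0) (nat_lit 0)) (.leaf (nat_lit 11) (nat_lit 0) (nat_lit 0)))))) (.add (.add (.add (.leaf (nat_lit 12) (nat_lit 0) (nat_lit 0)) (.add (.leaf (nat_lit 13) (nat_lit 0) (nat_lit 0)) (.leaf (nat_lit 14) (nat_lit 0) (nat_lit 0)))) (.add (.leaf (nat_lit 15) (nat_lit 0) (nat_lit 0)) (.add (.leaf (nat_lit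 16) (nat_lit 0) (nat_lit 0)) (.leaf (nat_lit 17) (nat_lit 0) (nat_lit 0))))) (.add (.add (.leaf (nat_lit 18) (nat_lit 0) (nat_lit 0)) (.add (.leaf (nat_lit 19) (nat_lit 0) (nat_lit 0)) (.leaf (nat_lit 20) (nat_lit 0) (nat_lit 0)))) (.add (.leaf (nat_lit 21) (nat_lit 0) (nat_lit 0)) (.add (.leaf (nat_lit 22) (nat_lit 0) (nat_lit 0)) (.leaf (nat_lit 23) (nat_lit 0) (nat_lit 0))))))),
  (.add (.add (.add (.add (.leaf (nat_lit 0) (nat_lit 0) (nat_lit 0)) (.add (.leaf (nat_lit 1) (nat_lit 0) (nat_lit 0)) (.leaf (nat_lit 2) (nat_lit 0) (nat_lit 0)))) (.add (.leaf (nat_lit 3) (nat_lit 0) (nat_lit 0)) (.add (.leaf (nat_lit 4) (nat_lit 0) (nat_lit 0)) (.leaf (nat_lit 5) (nat_lit 0) (nat_lit 0))))) (.add (.add (.leaf (nat_lit 6) (nat_lit 0) (nat_lit 0)) (.add (.leaf (nat_lit 7) (nat_lit 0) (nat_lit 0)) (.leaf (nat_lit 8) (nat_lit 0) (nat_lit 0))))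 (.add (.leaf (nat_lit 9) (nat_lit 0) (nat_lit 0)) (.add (.leaf (nat_lit 10) (nat_lit 0) (nat_lit 0)) (.leaf (nat_lit 11) (nat_lit 0) (nat_lit 0)))))) (.add (.add (.add (.leaf (nat_lit 12) (nat_lit 0) (nat_lit 0)) (.add (.leaf (nat_lit 13) (nat_lit 0) (nat_lit 0)) (.leaf (nat_lit 14) (nat_lit 0) (nat_lit 0)))) (.add (.leaf (nat_lit 15) (nat_lit 0) (nat_lit 0)) (.add (.leaf (nat_lit 16) (nat_lit 0) (nat_lit 0)) (.leaf (nat_lit 17) (nat_lit 0) (nat_lit 0))))) (.add (.add (.leaf (nat_lit 18) (nat_lit 0) (nat_lit 0)) (.add (.leaf (nat_lit 19) (nat_lit 0) (nat_lit 0)) (.leaf (nat_lit 20) (nat_lit 0) (nat_lit 0)))) (.add (.add (.leaf (nat_lit 21) (nat_lit 0) (nat_lit 0)) (.leaf (nat_lit 22) (nat_lit 0) (nat_lit 0))) (.add (.leaf (nat_lit 23) (nat_lit 0) (nat_lit 0)) (.leaf (nat_lit 24) (nat_lit 0) (nat_lit 0))))))),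
  (.add (.add (.add (.add (.leaf (nat_lit 0) (nat_lit 0) (nat_lit 0)) (.add (.leaf (nat_lit 1) (nat_lit 0) (nat_lit 0)) (.leaf (nat_lit 2) (nat_lit 0) (nat_lit 0)))) (.add (.leaf (nat_lit 3) (nat_lit 0) (nat_lit 0)) (.add (.leaf (nat_lit 4) (nat_lit 0) (nat_lit 0)) (.leaf (nat_lit 5) (nat_lit 0) (nat_lit 0))))) (.add (.add (.leaf (nat_lit 6) (nat_lit 0) (nat_lit 0)) (.add (.leaf (nat_lit 7) (nat_lit 0) (nat_lit 0)) (.leaf (nat_lit 8) (nat_lit 0) (nat_lit 0)))) (.add (.add (.leaf (nat_lit 9) (nat_lit 0) (nat_lit 0)) (.leaf (nat_lit 10) (nat_lit 0) (nat_lit 0))) (.add (.leaf (nat_lit 11) (nat_lit 0) (nat_lit 0)) (.leaf (nat_lit 12) (nat_lit 0) (nat_lit 0)))))) (.add (.add (.add (.leaf (nat_lit 13) (nat_lit 0) (nat_lit 0)) (.add (.leaf (nat_lit 14) (nat_lit 0) (nat_lit 0)) (.leaf (nat_lit 15) (nat_lit 0) (nat_lit 0)))) (.add (.leaf (nat_lit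 16) (nat_lit 0) (nat_lit 0)) (.add (.leaf (nat_lit 17) (nat_lit 0) (nat_lit 0)) (.leaf (nat_lit 18) (nat_lit 0) (nat_lit 0))))) (.add (.add (.leaf (nat_lit 19) (nat_lit 0) (nat_lit 0)) (.add (.leaf (nat_lit 20) (nat_lit 0) (nat_lit 0)) (.leaf (nat_lit 21) (nat_lit 0) (nat_lit 0)))) (.add (.add (.leaf (nat_lit 22) (nat_lit 0) (nat_lit 0)) (.leaf (nat_lit 23) (nat_lit 0) (nat_lit 0))) (.add (.leaf (nat_lit 24) (nat_lit 0) (nat_lit 0)) (.leaf (nat_lit 25) (nat_lit 0) (nat_lit 0))))))),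
  (.add (.add (.add (.add (.leaf (nat_lit 0) (nat_lit 0) (nat_lit 0)) (.add (.leaf (nat_lit 1) (nat_lit 0) (nat_lit 0)) (.leaf (nat_lit 2) (nat_lit 0) (nat_lit 0)))) (.add (.leaf (nat_lit 3) (nat_lit 0) (nat_lit 0)) (.add (.leaf (nat_lit 4) (nat_lit 0) (nat_lit 0)) (.leaf (nat_lit 5) (nat_lit 0) (nat_lit 0))))) (.add (.add (.leaf (nat_lit 6) (nat_lit 0) (nat_lit 0)) (.add (.leaf (nat_lit 7) (nat_lit 0) (nat_lit 0)) (.leaf (nat_lit 8) (nat_lit 0) (nat_lit 0)))) (.add (.add (.leaf (nat_lit 9) (nat_lit 0) (nat_lit 0)) (.leaf (nat_lit 10) (nat_lit 0) (nat_lit 0))) (.add (.leaf (nat_lit 11) (nat_lit 0) (nat_lit 0)) (.leaf (nat_lit 12) (nat_lit 0) (nat_lit 0)))))) (.add (.add (.add (.leaf (nat_lit 13) (nat_lit 0) (nat_lit 0)) (.add (.leaf (nat_lit 14) (nat_lit 0) (nat_lit 0)) (.leaf (nat_lit 15) (nat_lit 0) (nat_lit 0)))) (.add (.add (.leaf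 (nat_lit 16) (nat_lit 0) (nat_lit 0)) (.leaf (nat_lit 17) (nat_lit 0) (nat_lit 0))) (.add (.leaf (nat_lit 18) (nat_lit 0) (nat_lit 0)) (.leaf (nat_lit 19) (nat_lit 0) (nat_lit 0))))) (.add (.add (.leaf (nat_lit 20) (nat_lit 0) (nat_lit 0)) (.add (.leaf (nat_lit 21) (nat_lit 0) (nat_lit 0)) (.leaf (nat_lit 22) (nat_lit 0) (nat_lit 0)))) (.add (.add (.leaf (nat_lit 23) (nat_lit 0) (nat_lit 0)) (.leaf (nat_lit 24) (nat_lit 0) (nat_lit 0))) (.add (.leaf (nat_lit 25) (nat_lit 0) (nat_lit 0)) (.leaf (nat_lit 26) (nat_lit 0) (nat_lit 0))))))),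
  (.add (.add (.add (.add (.leaf (nat_lit 0) (nat_lit 0) (nat_lit 0)) (.add (.leaf (nat_lit 1) (nat_lit 0) (nat_lit 0)) (.leaf (nat_lit 2) (nat_lit 0) (nat_lit 0)))) (.add (.add (.leaf (nat_lit 3) (nat_lit 0) (nat_lit 0)) (.leaf (nat_lit 4) (nat_lit 0) (nat_lit 0))) (.add (.leaf (nat_lit 5) (nat_lit 0) (nat_lit 0)) (.leaf (nat_lit 6) (nat_lit 0) (nat_lit 0))))) (.add (.add (.leaf (nat_lit 7) (nat_lit 0) (nat_lit 0)) (.add (.leaf (nat_lit 8) (nat_lit 0) (nat_lit 0)) (.leaf (nat_lit 9) (nat_lit 0) (nat_lit 0)))) (.add (.add (.leaf (nat_lit 10) (nat_lit 0) (nat_lit 0)) (.leaf (nat_lit 11) (nat_lit 0) (nat_lit 0))) (.add (.leaf (nat_lit 12) (nat_lit 0) (nat_lit 0)) (.leaf (nat_lit 13) (nat_lit 0) (nat_lit 0)))))) (.add (.add (.add (.leaf (nat_lit 14) (nat_lit 0) (nat_lit 0)) (.add (.leaf (nat_lit 15) (nat_lit 0) (nat_lit 0)) (.leaf (nat_lit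 16) (nat_lit 0) (nat_lit 0)))) (.add (.add (.leaf (nat_lit 17) (nat_lit 0) (nat_lit 0)) (.leaf (nat_lit 18) (nat_lit 0) (nat_lit 0))) (.add (.leaf (nat_lit 19) (nat_lit 0) (nat_lit 0)) (.leaf (nat_lit 20) (nat_lit 0) (nat_lit 0))))) (.add (.add (.leaf (nat_lit 21) (nat_lit 0) (nat_lit 0)) (.add (.leaf (nat_lit 22) (nat_lit 0) (nat_lit 0)) (.leaf (nat_lit 23) (nat_lit 0) (nat_lit 0)))) (.add (.add (.leaf (nat_lit 24) (nat_lit 0) (nat_lit 0)) (.leaf (nat_lit 25) (nat_lit 0) (nat_lit 0))) (.add (.leaf (nat_lit 26) (nat_lit 0) (nat_lit 0)) (.leaf (nat_lit 27) (nat_lit 0) (nat_lit 0))))))),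
  (.add (.add (.add (.add (.leaf (nat_lit 0) (nat_lit 0) (nat_lit 0)) (.add (.leaf (nat_lit 1) (nat_lit 0) (nat_lit 0)) (.leaf (nat_lit 2) (nat_lit 0) (nat_lit 0)))) (.add (.add (.leaf (nat_lit 3) (nat_lit 0) (nat_lit 0)) (.leaf (nat_lit 4) (nat_lit 0) (nat_lit 0))) (.add (.leaf (nat_lit 5) (nat_lit 0) (nat_lit 0)) (.leaf (nat_lit 6) (nat_lit 0) (nat_lit 0))))) (.add (.add (.leaf (nat_lit 7) (nat_lit 0) (nat_lit 0)) (.add (.leaf (nat_lit 8) (nat_lit 0) (nat_lit 0)) (.leaf (nat_lit 9) (nat_lit 0) (nat_lit 0)))) (.add (.add (.leaf (nat_lit 10) (nat_lit 0) (nat_lit 0)) (.leaf (nat_lit 11) (nat_lit 0) (nat_lit 0))) (.add (.leaf (nat_lit 12) (nat_lit 0) (nat_lit 0)) (.leaf (nat_lit 13) (nat_lit 0) (nat_lit 0)))))) (.add (.add (.add (.leaf (nat_lit 14) (nat_lit 0) (nat_lit 0)) (.add (.leaf (nat_lit 15) (nat_lit 0) (nat_lit 0)) (.leaf (nat_lit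 16) (nat_lit 0) (nat_lit 0)))) (.add (.add (.leaf (nat_lit 17) (nat_lit 0) (nat_lit 0)) (.leaf (nat_lit 18) (nat_lit 0) (nat_lit 0))) (.add (.leaf (nat_lit 19) (nat_lit 0) (nat_lit 0)) (.leaf (nat_lit 20) (nat_lit 0) (nat_lit 0))))) (.add (.add (.add (.leaf (nat_lit 21) (nat_lit 0) (nat_lit 0)) (.leaf (nat_lit 22) (nat_lit 0) (nat_lit 0))) (.add (.leaf (nat_lit 23) (nat_lit 0) (nat_lit 0)) (.leaf (nat_lit 24) (nat_lit 0) (nat_lit 0)))) (.add (.add (.leaf (nat_lit 25) (nat_lit 0) (nat_lit 0)) (.leaf (nat_lit 26) (nat_lit 0) (nat_lit 0))) (.add (.leaf (nat_lit 27) (nat_lit 0) (nat_lit 0)) (.leaf (nat_lit 28) (nat_lit 0) (nat_lit 0))))))),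
  (.add (.add (.add (.add (.leaf (nat_lit 0) (nat_lit 0) (nat_lit 0)) (.add (.leaf (nat_lit 1) (nat_lit 0) (nat_lit 0)) (.leaf (nat_lit 2) (nat_lit 0) (nat_lit 0)))) (.add (.add (.leaf (nat_lit 3) (nat_lit 0) (nat_lit 0)) (.leaf (nat_lit 4) (nat_lit 0) (nat_lit 0))) (.add (.leaf (nat_lit 5) (nat_lit 0) (nat_lit 0)) (.leaf (nat_lit 6) (nat_lit 0) (nat_lit 0))))) (.add (.add (.add (.leaf (nat_lit 7) (nat_lit 0) (nat_lit 0)) (.leaf (nat_lit 8) (nat_lit 0) (nat_lit 0))) (.add (.leaf (nat_lit 9) (nat_lit 0) (nat_lit 0)) (.leaf (nat_lit 10) (nat_lit 0) (nat_lit 0)))) (.add (.add (.leaf (nat_lit 11) (nat_lit 0) (nat_lit 0)) (.leaf (nat_lit 12) (nat_lit 0) (nat_lit 0))) (.add (.leaf (nat_lit 13) (nat_lit 0) (nat_lit 0)) (.leaf (nat_lit 14) (nat_lit 0) (nat_lit 0)))))) (.add (.add (.add (.leaf (nat_lit 15) (nat_lit 0) (nat_lit 0)) (.add (.leaf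 (nat_lit 16) (nat_lit 0) (nat_lit 0)) (.leaf (nat_lit 17) (nat_lit 0) (nat_lit 0)))) (.add (.add (.leaf (nat_lit 18) (nat_lit 0) (nat_lit 0)) (.leaf (nat_lit 19) (nat_lit 0) (nat_lit 0))) (.add (.leaf (nat_lit 20) (nat_lit 0) (nat_lit 0)) (.leaf (nat_lit 21) (nat_lit 0) (nat_lit 0))))) (.add (.add (.add (.leaf (nat_lit 22) (nat_lit 0) (nat_lit 0)) (.leaf (nat_lit 23) (nat_lit 0) (nat_lit 0))) (.add (.leaf (nat_lit 24) (nat_lit 0) (nat_lit 0)) (.leaf (nat_lit 25) (nat_lit 0) (nat_lit 0)))) (.add (.add (.leaf (nat_lit 26) (nat_lit 0) (nat_lit 0)) (.leaf (nat_lit 27) (nat_lit 0) (nat_lit 0))) (.add (.leaf (nat_lit 28) (nat_lit 0) (nat_lit 0)) (.leaf (nat_lit 29) (nat_lit 0) (nat_lit 0))))))),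
  (.add (.add (.add (.add (.leaf (nat_lit 0) (nat_lit 0) (nat_lit 0)) (.add (.leaf (nat_lit 1) (nat_lit 0) (nat_lit 0)) (.leaf (nat_lit 2) (nat_lit 0) (nat_lit 0)))) (.add (.add (.leaf (nat_lit 3) (nat_lit 0) (nat_lit 0)) (.leaf (nat_lit 4) (nat_lit 0) (nat_lit 0))) (.add (.leaf (nat_lit 5) (nat_lit 0) (nat_lit 0)) (.leaf (nat_lit 6) (nat_lit 0) (nat_lit 0))))) (.add (.add (.add (.leaf (nat_lit 7) (nat_lit 0) (nat_lit 0)) (.leaf (nat_lit 8) (nat_lit 0) (nat_lit 0))) (.add (.leaf (nat_lit 9) (nat_lit 0) (nat_lit 0)) (.leaf (nat_lit 10) (nat_lit 0) (nat_lit 0)))) (.add (.add (.leaf (nat_lit 11) (nat_lit 0) (nat_lit 0)) (.leaf (nat_lit 12) (nat_lit 0) (nat_lit 0))) (.add (.leaf (nat_lit 13) (nat_lit 0) (nat_lit 0)) (.leaf (nat_lit 14) (nat_lit 0) (nat_lit 0)))))) (.add (.add (.add (.add (.leaf (nat_lit 15) (nat_lit 0) (nat_lit 0)) (.leaf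 (nat_lit 16) (nat_lit 0) (nat_lit 0))) (.add (.leaf (nat_lit 17) (nat_lit 0) (nat_lit 0)) (.leaf (nat_lit 18) (nat_lit 0) (nat_lit 0)))) (.add (.add (.leaf (nat_lit 19) (nat_lit 0) (nat_lit 0)) (.leaf (nat_lit 20) (nat_lit 0) (nat_lit 0))) (.add (.leaf (nat_lit 21) (nat_lit 0) (nat_lit 0)) (.leaf (nat_lit 22) (nat_lit 0) (nat_lit 0))))) (.add (.add (.add (.leaf (nat_lit 23) (nat_lit 0) (nat_lit 0)) (.leaf (nat_lit 24) (nat_lit 0) (nat_lit 0))) (.add (.leaf (nat_lit 25) (nat_lit 0) (nat_lit 0)) (.leaf (nat_lit 26) (nat_lit 0) (nat_lit 0)))) (.add (.add (.leaf (nat_lit 27) (nat_lit 0) (nat_lit 0)) (.leaf (nat_lit 28) (nat_lit 0) (nat_lit 0))) (.add (.leaf (nat_lit 29) (nat_lit 0) (nat_lit 0)) (.leaf (nat_lit 30) (nat_lit 0) (nat_lit 0))))))),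
  (.add (.add (.add (.add (.add (.leaf (nat_lit 0) (nat_lit 0) (nat_lit 0)) (.leaf (nat_lit 1) (nat_lit 0) (nat_lit 0))) (.add (.leaf (nat_lit 2) (nat_lit 0) (nat_lit 0)) (.leaf (nat_lit 3) (nat_lit 0) (nat_lit 0)))) (.add (.add (.leaf (nat_lit 4) (nat_lit 0) (nat_lit 0)) (.leaf (nat_lit 5) (nat_lit 0) (nat_lit 0))) (.add (.leaf (nat_lit 6) (nat_lit 0) (nat_lit 0)) (.leaf (nat_lit 7) (nat_lit 0) (nat_lit 0))))) (.add (.add (.add (.leaf (nat_lit 8) (nat_lit 0) (nat_lit 0)) (.leaf (nat_lit 9) (nat_lit 0) (nat_lit 0))) (.add (.leaf (nat_lit 10) (nat_lit 0) (nat_lit 0)) (.leaf (nat_lit 11) (nat_lit 0) (nat_lit 0)))) (.add (.add (.leaf (nat_lit 12) (nat_lit 0) (nat_lit 0)) (.leaf (nat_lit 13) (nat_lit 0) (nat_lit 0))) (.add (.leaf (nat_lit 14) (nat_lit 0) (nat_lit 0)) (.leaf (nat_lit 15) (nat_lit 0) (nat_lit 0)))))) (.add (.add (.add (.add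 (.leaf (nat_lit 16) (nat_lit 0) (nat_lit 0)) (.leaf (nat_lit 17) (nat_lit 0) (nat_lit 0))) (.add (.leaf (nat_lit 18) (nat_lit 0) (nat_lit 0)) (.leaf (nat_lit 19) (nat_lit 0) (nat_lit 0)))) (.add (.add (.leaf (nat_lit 20) (nat_lit 0) (nat_lit 0)) (.leaf (nat_lit 21) (nat_lit 0) (nat_lit 0))) (.add (.leaf (nat_lit 22) (nat_lit 0) (nat_lit 0)) (.leaf (nat_lit 23) (nat_lit 0) (nat_lit 0))))) (.add (.add (.add (.leaf (nat_lit 24) (nat_lit 0) (nat_lit 0)) (.leaf (nat_lit 25) (nat_lit 0) (nat_lit 0))) (.add (.leaf (nat_lit 26) (nat_lit 0) (nat_lit 0)) (.leaf (nat_lit 27) (nat_lit 0) (nat_lit 0)))) (.add (.add (.leaf (nat_lit 28) (nat_lit 0) (nat_lit 0)) (.leaf (nat_lit 29) (nat_lit 0) (nat_lit 0))) (.add (.leaf (nat_lit 30) (nat_lit 0) (nat_lit 0)) (.leaf (nat_lit 31) (nat_lit 0) (nat_lit 0))))))),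
  (.add (.add (.add (.add (.add (.leaf (nat_lit 0) (nat_lit 0) (nat_lit 0)) (.leaf (nat_lit 1) (nat_lit 0) (nat_lit 0))) (.add (.leaf (nat_lit 2) (nat_lit 0) (nat_lit 0)) (.leaf (nat_lit 3) (nat_lit 0) (nat_lit 0)))) (.add (.add (.leaf (nat_lit 4) (nat_lit 0) (nat_lit 0)) (.leaf (nat_lit 5) (nat_lit 0) (nat_lit 0))) (.add (.leaf (nat_lit 6) (nat_lit 0) (nat_lit 0)) (.leaf (nat_lit 7) (nat_lit 0) (nat_lit 0))))) (.add (.add (.add (.leaf (nat_lit 8) (nat_lit 0) (nat_lit 0)) (.leaf (nat_lit 9) (nat_lit 0) (nat_lit 0))) (.add (.leaf (nat_lit 10) (nat_lit 0) (nat_lit 0)) (.leaf (nat_lit 11) (nat_lit 0) (nat_lit 0)))) (.add (.add (.leaf (nat_lit 12) (nat_lit 0) (nat_lit 0)) (.leaf (nat_lit 13) (nat_lit 0) (nat_lit 0))) (.add (.leaf (nat_lit 14) (nat_lit 0) (nat_lit 0)) (.leaf (nat_lit 15) (nat_lit 0) (nat_lit 0)))))) (.add (.add (.add (.add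 (.leaf (nat_lit 16) (nat_lit 0) (nat_lit 0)) (.leaf (nat_lit 17) (nat_lit 0) (nat_lit 0))) (.add (.leaf (nat_lit 18) (nat_lit 0) (nat_lit 0)) (.leaf (nat_lit 19) (nat_lit 0) (nat_lit 0)))) (.add (.add (.leaf (nat_lit 20) (nat_lit 0) (nat_lit 0)) (.leaf (nat_lit 21) (nat_lit 0) (nat_lit 0))) (.add (.leaf (nat_lit 22) (nat_lit 0) (nat_lit 0)) (.leaf (nat_lit 23) (nat_lit 0) (nat_lit 0))))) (.add (.add (.add (.leaf (nat_lit 24) (nat_lit 0) (nat_lit 0)) (.leaf (nat_lit 25) (nat_lit 0) (nat_lit 0))) (.add (.leaf (nat_lit 26) (nat_lit 0) (nat_lit 0)) (.leaf (nat_lit 27) (nat_lit 0) (nat_lit 0)))) (.add (.add (.leaf (nat_lit 28) (nat_lit 0) (nat_lit 0)) (.leaf (nat_lit 29) (nat_lit 0) (nat_lit 0))) (.add (.leaf (nat_lit 30) (nat_lit 0) (nat_lit 0)) (.add (.leaf (nat_lit 31) (nat_lit 0) (nat_lit 0)) (.leaf (nat_lit 32) (nat_lit 0) (nat_lit 0)))))))),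
  (.add (.add (.add (.add (.add (.leaf (nat_lit 0) (nat_lit 0) (nat_lit 0)) (.leaf (nat_lit 1) (nat_lit 0) (nat_lit 0))) (.add (.leaf (nat_lit 2) (nat_lit 0) (nat_lit 0)) (.leaf (nat_lit 3) (nat_lit 0) (nat_lit 0)))) (.add (.add (.leaf (nat_lit 4) (nat_lit 0) (nat_lit 0)) (.leaf (nat_lit 5) (nat_lit 0) (nat_lit 0))) (.add (.leaf (nat_lit 6) (nat_lit 0) (nat_lit 0)) (.leaf (nat_lit 7) (nat_lit 0) (nat_lit 0))))) (.add (.add (.add (.leaf (nat_lit 8) (nat_lit 0) (nat_lit 0)) (.leaf (nat_lit 9) (nat_lit 0) (nat_lit 0))) (.add (.leaf (nat_lit 10) (nat_lit 0) (nat_lit 0)) (.leaf (nat_lit 11) (nat_lit 0) (nat_lit 0)))) (.add (.add (.leaf (nat_lit 12) (nat_lit 0) (nat_lit 0)) (.leaf (nat_lit 13) (nat_lit 0) (nat_lit 0))) (.add (.leaf (nat_lit 14) (nat_lit 0) (nat_lit 0)) (.add (.leaf (nat_lit 15) (nat_lit 0) (nat_lit 0)) (.leaf (nat_lit 16) (nat_lit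 0) (nat_lit 0))))))) (.add (.add (.add (.add (.leaf (nat_lit 17) (nat_lit 0) (nat_lit 0)) (.leaf (nat_lit 18) (nat_lit 0) (nat_lit 0))) (.add (.leaf (nat_lit 19) (nat_lit 0) (nat_lit 0)) (.leaf (nat_lit 20) (nat_lit 0) (nat_lit 0)))) (.add (.add (.leaf (nat_lit 21) (nat_lit 0) (nat_lit 0)) (.leaf (nat_lit 22) (nat_lit 0) (nat_lit 0))) (.add (.leaf (nat_lit 23) (nat_lit 0) (nat_lit 0)) (.leaf (nat_lit 24) (nat_lit 0) (nat_lit 0))))) (.add (.add (.add (.leaf (nat_lit 25) (nat_lit 0) (nat_lit 0)) (.leaf (nat_lit 26) (nat_lit 0) (nat_lit 0))) (.add (.leaf (nat_lit 27) (nat_lit 0) (nat_lit 0)) (.leaf (nat_lit 28) (nat_lit 0) (nat_lit 0)))) (.add (.add (.leaf (nat_lit 29) (nat_lit 0) (nat_lit 0)) (.leaf (nat_lit 30) (nat_lit 0) (nat_lit 0))) (.add (.leaf (nat_lit 31) (nat_lit 0) (nat_lit 0)) (.add (.leaf (nat_lit 32) (nat_lit 0) (nat_lit 0))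 (.leaf (nat_lit 33) (nat_lit 0) (nat_lit 0)))))))),
  (.add (.add (.add (.add (.add (.leaf (nat_lit 0) (nat_lit 0) (nat_lit 0)) (.leaf (nat_lit 1) (nat_lit 0) (nat_lit 0))) (.add (.leaf (nat_lit 2) (nat_lit 0) (nat_lit 0)) (.leaf (nat_lit 3) (nat_lit 0) (nat_lit 0)))) (.add (.add (.leaf (nat_lit 4) (nat_lit 0) (nat_lit 0)) (.leaf (nat_lit 5) (nat_lit 0) (nat_lit 0))) (.add (.leaf (nat_lit 6) (nat_lit 0) (nat_lit 0)) (.leaf (nat_lit 7) (nat_lit 0) (nat_lit 0))))) (.add (.add (.add (.leaf (nat_lit 8) (nat_lit 0) (nat_lit 0)) (.leaf (nat_lit 9) (nat_lit 0) (nat_lit 0))) (.add (.leaf (nat_lit 10) (nat_lit 0) (nat_lit 0)) (.leaf (nat_lit 11) (nat_lit 0) (nat_lit 0)))) (.add (.add (.leaf (nat_lit 12) (nat_lit 0) (nat_lit 0)) (.leaf (nat_lit 13) (nat_lit 0) (nat_lit 0))) (.add (.leaf (nat_lit 14) (nat_lit 0) (nat_lit 0)) (.add (.leaf (nat_lit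 15) (nat_lit 0) (nat_lit 0)) (.leaf (nat_lit 16) (nat_lit 0) (nat_lit 0))))))) (.add (.add (.add (.add (.leaf (nat_lit 17) (nat_lit 0) (nat_lit 0)) (.leaf (nat_lit 18) (nat_lit 0) (nat_lit 0))) (.add (.leaf (nat_lit 19) (nat_lit 0) (nat_lit 0)) (.leaf (nat_lit 20) (nat_lit 0) (nat_lit 0)))) (.add (.add (.leaf (nat_lit 21) (nat_lit 0) (nat_lit 0)) (.leaf (nat_lit 22) (nat_lit 0) (nat_lit 0))) (.add (.leaf (nat_lit 23) (nat_lit 0) (nat_lit 0)) (.add (.leaf (nat_lit 24) (nat_lit 0) (nat_lit 0)) (.leaf (nat_lit 25) (nat_lit 0) (nat_lit 0)))))) (.add (.add (.add (.leaf (nat_lit 26) (nat_lit 0) (nat_lit 0)) (.leaf (nat_lit 27) (nat_lit 0) (nat_lit 0))) (.add (.leaf (nat_lit 28) (nat_lit 0) (nat_lit 0)) (.leaf (nat_lit 29) (nat_lit 0) (nat_lit 0)))) (.add (.add (.leaf (nat_lit 30) (nat_lit 0) (nat_lit 0)) (.leaf (nat_lit 31) (nat_lit 0) (nat_lit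 0))) (.add (.leaf (nat_lit 32) (nat_lit 0) (nat_lit 0)) (.add (.leaf (nat_lit 33) (nat_lit 0) (nat_lit 0)) (.leaf (nat_lit 34) (nat_lit 0) (nat_lit 0)))))))),
  (.add (.add (.add (.add (.add (.leaf (nat_lit 0) (nat_lit 0) (nat_lit 0)) (.leaf (nat_lit 1) (nat_lit 0) (nat_lit 0))) (.add (.leaf (nat_lit 2) (nat_lit 0) (nat_lit 0)) (.leaf (nat_lit 3) (nat_lit 0) (nat_lit 0)))) (.add (.add (.leaf (nat_lit 4) (nat_lit 0) (nat_lit 0)) (.leaf (nat_lit 5) (nat_lit 0) (nat_lit 0))) (.add (.leaf (nat_lit 6) (nat_lit 0) (nat_lit 0)) (.add (.leaf (nat_lit 7) (nat_lit 0) (nat_lit 0)) (.leaf (nat_lit 8) (nat_lit 0) (nat_lit 0)))))) (.add (.add (.add (.leaf (nat_lit 9) (nat_lit 0) (nat_lit 0)) (.leaf (nat_lit 10) (nat_lit 0) (nat_lit 0))) (.add (.leaf (nat_lit 11) (nat_lit 0) (nat_lit 0)) (.leaf (nat_lit 12) (nat_lit 0) (nat_lit 0)))) (.add (.add (.leaf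 (nat_lit 13) (nat_lit 0) (nat_lit 0)) (.leaf (nat_lit 14) (nat_lit 0) (nat_lit 0))) (.add (.leaf (nat_lit 15) (nat_lit 0) (nat_lit 0)) (.add (.leaf (nat_lit 16) (nat_lit 0) (nat_lit 0)) (.leaf (nat_lit 17) (nat_lit 0) (nat_lit 0))))))) (.add (.add (.add (.add (.leaf (nat_lit 18) (nat_lit 0) (nat_lit 0)) (.leaf (nat_lit 19) (nat_lit 0) (nat_lit 0))) (.add (.leaf (nat_lit 20) (nat_lit 0) (nat_lit 0)) (.leaf (nat_lit 21) (nat_lit 0) (nat_lit 0)))) (.add (.add (.leaf (nat_lit 22) (nat_lit 0) (nat_lit 0)) (.leaf (nat_lit 23) (nat_lit 0) (nat_lit 0))) (.add (.leaf (nat_lit 24) (nat_lit 0) (nat_lit 0)) (.add (.leaf (nat_lit 25) (nat_lit 0) (nat_lit 0)) (.leaf (nat_lit 26) (nat_lit 0) (nat_lit 0)))))) (.add (.add (.add (.leaf (nat_lit 27) (nat_lit 0) (nat_lit 0)) (.leaf (nat_lit 28) (nat_lit 0) (nat_lit 0))) (.add (.leaf (nat_lit 29) (nat_lit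 0) (nat_lit 0)) (.leaf (nat_lit 30) (nat_lit 0) (nat_lit 0)))) (.add (.add (.leaf (nat_lit 31) (nat_lit 0) (nat_lit 0)) (.leaf (nat_lit 32) (nat_lit 0) (nat_lit 0))) (.add (.leaf (nat_lit 33) (nat_lit 0) (nat_lit 0)) (.add (.leaf (nat_lit 34) (nat_lit 0) (nat_lit 0)) (.leaf (nat_lit 35) (nat_lit 0) (nat_lit 0)))))))),
  (.add (.add (.add (.add (.add (.leaf (nat_lit 0) (nat_lit 0) (nat_lit 0)) (.leaf (nat_lit 1) (nat_lit 0) (nat_lit 0))) (.add (.leaf (nat_lit 2) (nat_lit 0) (nat_lit 0)) (.leaf (nat_lit 3) (nat_lit 0) (nat_lit 0)))) (.add (.add (.leaf (nat_lit 4) (nat_lit 0) (nat_lit 0)) (.leaf (nat_lit 5) (nat_lit 0) (nat_lit 0))) (.add (.leaf (nat_lit 6) (nat_lit 0) (nat_lit 0)) (.add (.leaf (nat_lit 7) (nat_lit 0) (nat_lit 0)) (.leaf (nat_lit 8) (nat_lit 0) (nat_lit 0)))))) (.add (.add (.add (.leaf (nat_lit 9) (nat_lit 0) (nat_lit 0))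 (.leaf (nat_lit 10) (nat_lit 0) (nat_lit 0))) (.add (.leaf (nat_lit 11) (nat_lit 0) (nat_lit 0)) (.leaf (nat_lit 12) (nat_lit 0) (nat_lit 0)))) (.add (.add (.leaf (nat_lit 13) (nat_lit 0) (nat_lit 0)) (.leaf (nat_lit 14) (nat_lit 0) (nat_lit 0))) (.add (.leaf (nat_lit 15) (nat_lit 0) (nat_lit 0)) (.add (.leaf (nat_lit 16) (nat_lit 0) (nat_lit 0)) (.leaf (nat_lit 17) (nat_lit 0) (nat_lit 0))))))) (.add (.add (.add (.add (.leaf (nat_lit 18) (nat_lit 0) (nat_lit 0)) (.leaf (nat_lit 19) (nat_lit 0) (nat_lit 0))) (.add (.leaf (nat_lit 20) (nat_lit 0) (nat_lit 0)) (.leaf (nat_lit 21) (nat_lit 0) (nat_lit 0)))) (.add (.add (.leaf (nat_lit 22) (nat_lit 0) (nat_lit 0)) (.leaf (nat_lit 23) (nat_lit 0) (nat_lit 0))) (.add (.leaf (nat_lit 24) (nat_lit 0) (nat_lit 0)) (.add (.leaf (nat_lit 25) (nat_lit 0) (nat_lit 0)) (.leaf (nat_lit 26) (nat_lit 0)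 (nat_lit 0)))))) (.add (.add (.add (.leaf (nat_lit 27) (nat_lit 0) (nat_lit 0)) (.leaf (nat_lit 28) (nat_lit 0) (nat_lit 0))) (.add (.leaf (nat_lit 29) (nat_lit 0) (nat_lit 0)) (.add (.leaf (nat_lit 30) (nat_lit 0) (nat_lit 0)) (.leaf (nat_lit 31) (nat_lit 0) (nat_lit 0))))) (.add (.add (.leaf (nat_lit 32) (nat_lit 0) (nat_lit 0)) (.leaf (nat_lit 33) (nat_lit 0) (nat_lit 0))) (.add (.leaf (nat_lit 34) (nat_lit 0) (nat_lit 0)) (.add (.leaf (nat_lit 35) (nat_lit 0) (nat_lit 0)) (.leaf (nat_lit 36) (nat_lit 0) (nat_lit 0)))))))),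
  (.add (.add (.add (.add (.add (.leaf (nat_lit 0) (nat_lit 0) (nat_lit 0)) (.leaf (nat_lit 1) (nat_lit 0) (nat_lit 0))) (.add (.leaf (nat_lit 2) (nat_lit 0) (nat_lit 0)) (.leaf (nat_lit 3) (nat_lit 0) (nat_lit 0)))) (.add (.add (.leaf (nat_lit 4) (nat_lit 0) (nat_lit 0)) (.leaf (nat_lit 5) (nat_lit 0) (nat_lit 0))) (.add (.leaf (nat_lit 6) (nat_lit 0) (nat_lit 0)) (.add (.leaf (nat_lit 7) (nat_lit 0) (nat_lit 0)) (.leaf (nat_lit 8) (nat_lit 0) (nat_lit 0)))))) (.add (.add (.add (.leaf (nat_lit 9) (nat_lit 0) (nat_lit 0)) (.leaf (nat_lit 10) (nat_lit 0) (nat_lit 0))) (.add (.leaf (nat_lit 11) (nat_lit 0) (nat_lit 0)) (.add (.leaf (nat_lit 12) (nat_lit 0) (nat_lit 0)) (.leaf (nat_lit 13) (nat_lit 0) (nat_lit 0))))) (.add (.add (.leaf (nat_lit 14) (nat_lit 0) (nat_lit 0)) (.leaf (nat_lit 15) (nat_lit 0) (nat_lit 0))) (.add (.leaf (nat_lit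 16) (nat_lit 0) (nat_lit 0)) (.add (.leaf (nat_lit 17) (nat_lit 0) (nat_lit 0)) (.leaf (nat_lit 18) (nat_lit 0) (nat_lit 0))))))) (.add (.add (.add (.add (.leaf (nat_lit 19) (nat_lit 0) (nat_lit 0)) (.leaf (nat_lit 20) (nat_lit 0) (nat_lit 0))) (.add (.leaf (nat_lit 21) (nat_lit 0) (nat_lit 0)) (.leaf (nat_lit 22) (nat_lit 0) (nat_lit 0)))) (.add (.add (.leaf (nat_lit 23) (nat_lit 0) (nat_lit 0)) (.leaf (nat_lit 24) (nat_lit 0) (nat_lit 0))) (.add (.leaf (nat_lit 25) (nat_lit 0) (nat_lit 0)) (.add (.leaf (nat_lit 26) (nat_lit 0) (nat_lit 0)) (.leaf (nat_lit 27) (nat_lit 0) (nat_lit 0)))))) (.add (.add (.add (.leaf (nat_lit 28) (nat_lit 0) (nat_lit 0)) (.leaf (nat_lit 29) (nat_lit 0) (nat_lit 0))) (.add (.leaf (nat_lit 30) (nat_lit 0) (nat_lit 0)) (.add (.leaf (nat_lit 31) (nat_lit 0) (nat_lit 0)) (.leaf (nat_lit 32) (nat_lit 0) (nat_lit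 0))))) (.add (.add (.leaf (nat_lit 33) (nat_lit 0) (nat_lit 0)) (.leaf (nat_lit 34) (nat_lit 0) (nat_lit 0))) (.add (.leaf (nat_lit 35) (nat_lit 0) (nat_lit 0)) (.add (.leaf (nat_lit 36) (nat_lit 0) (nat_lit 0)) (.leaf (nat_lit 37) (nat_lit 0) (nat_lit 0)))))))),
  (.add (.add (.add (.add (.add (.leaf (nat_lit 0) (nat_lit 0) (nat_lit 0)) (.leaf (nat_lit 1) (nat_lit 0) (nat_lit 0))) (.add (.leaf (nat_lit 2) (nat_lit 0) (nat_lit 0)) (.leaf (nat_lit 3) (nat_lit 0) (nat_lit 0)))) (.add (.add (.leaf (nat_lit 4) (nat_lit 0) (nat_lit 0)) (.leaf (nat_lit 5) (nat_lit 0) (nat_lit 0))) (.add (.leaf (nat_lit 6) (nat_lit 0) (nat_lit 0)) (.add (.leaf (nat_lit 7) (nat_lit 0) (nat_lit 0)) (.leaf (nat_lit 8) (nat_lit 0) (nat_lit 0)))))) (.add (.add (.add (.leaf (nat_lit 9) (nat_lit 0) (nat_lit 0)) (.leaf (nat_lit 10) (nat_lit 0) (nat_lit 0))) (.add (.leaf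 (nat_lit 11) (nat_lit 0) (nat_lit 0)) (.add (.leaf (nat_lit 12) (nat_lit 0) (nat_lit 0)) (.leaf (nat_lit 13) (nat_lit 0) (nat_lit 0))))) (.add (.add (.leaf (nat_lit 14) (nat_lit 0) (nat_lit 0)) (.leaf (nat_lit 15) (nat_lit 0) (nat_lit 0))) (.add (.leaf (nat_lit 16) (nat_lit 0) (nat_lit 0)) (.add (.leaf (nat_lit 17) (nat_lit 0) (nat_lit 0)) (.leaf (nat_lit 18) (nat_lit 0) (nat_lit 0))))))) (.add (.add (.add (.add (.leaf (nat_lit 19) (nat_lit 0) (nat_lit 0)) (.leaf (nat_lit 20) (nat_lit 0) (nat_lit 0))) (.add (.leaf (nat_lit 21) (nat_lit 0) (nat_lit 0)) (.add (.leaf (nat_lit 22) (nat_lit 0) (nat_lit 0)) (.leaf (nat_lit 23) (nat_lit 0) (nat_lit 0))))) (.add (.add (.leaf (nat_lit 24) (nat_lit 0) (nat_lit 0)) (.leaf (nat_lit 25) (nat_lit 0) (nat_lit 0))) (.add (.leaf (nat_lit 26) (nat_lit 0) (nat_lit 0)) (.add (.leaf (nat_lit 27) (nat_lit 0)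 (nat_lit 0)) (.leaf (nat_lit 28) (nat_lit 0) (nat_lit 0)))))) (.add (.add (.add (.leaf (nat_lit 29) (nat_lit 0) (nat_lit 0)) (.leaf (nat_lit 30) (nat_lit 0) (nat_lit 0))) (.add (.leaf (nat_lit 31) (nat_lit 0) (nat_lit 0)) (.add (.leaf (nat_lit 32) (nat_lit 0) (nat_lit 0)) (.leaf (nat_lit 33) (nat_lit 0) (nat_lit 0))))) (.add (.add (.leaf (nat_lit 34) (nat_lit 0) (nat_lit 0)) (.leaf (nat_lit 35) (nat_lit 0) (nat_lit 0))) (.add (.leaf (nat_lit 36) (nat_lit 0) (nat_lit 0)) (.add (.leaf (nat_lit 37) (nat_lit 0) (nat_lit 0)) (.leaf (nat_lit 38) (nat_lit 0) (nat_lit 0)))))))),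
  (.add (.add (.add (.add (.add (.leaf (nat_lit 0) (nat_lit 0) (nat_lit 0)) (.leaf (nat_lit 1) (nat_lit 0) (nat_lit 0))) (.add (.leaf (nat_lit 2) (nat_lit 0) (nat_lit 0)) (.add (.leaf (nat_lit 3) (nat_lit 0) (nat_lit 0)) (.leaf (nat_lit 4) (nat_lit 0) (nat_lit 0))))) (.add (.add (.leaf (nat_lit 5) (nat_lit 0) (nat_lit 0)) (.leaf (nat_lit 6) (nat_lit 0) (nat_lit 0))) (.add (.leaf (nat_lit 7) (nat_lit 0) (nat_lit 0)) (.add (.leaf (nat_lit 8) (nat_lit 0) (nat_lit 0)) (.leaf (nat_lit 9) (nat_lit 0) (nat_lit 0)))))) (.add (.add (.add (.leaf (nat_lit 10) (nat_lit 0) (nat_lit 0)) (.leaf (nat_lit 11) (nat_lit 0) (nat_lit 0))) (.add (.leaf (nat_lit 12) (nat_lit 0) (nat_lit 0)) (.add (.leaf (nat_lit 13) (nat_lit 0) (nat_lit 0)) (.leaf (nat_lit 14) (nat_lit 0) (nat_lit 0))))) (.add (.add (.leaf (nat_lit 15) (nat_lit 0) (nat_lit 0)) (.leaf (nat_lit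 16) (nat_lit 0) (nat_lit 0))) (.add (.leaf (nat_lit 17) (nat_lit 0) (nat_lit 0)) (.add (.leaf (nat_lit 18) (nat_lit 0) (nat_lit 0)) (.leaf (nat_lit 19) (nat_lit 0) (nat_lit 0))))))) (.add (.add (.add (.add (.leaf (nat_lit 20) (nat_lit 0) (nat_lit 0)) (.leaf (nat_lit 21) (nat_lit 0) (nat_lit 0))) (.add (.leaf (nat_lit 22) (nat_lit 0) (nat_lit 0)) (.add (.leaf (nat_lit 23) (nat_lit 0) (nat_lit 0)) (.leaf (nat_lit 24) (nat_lit 0) (nat_lit 0))))) (.add (.add (.leaf (nat_lit 25) (nat_lit 0) (nat_lit 0)) (.leaf (nat_lit 26) (nat_lit 0) (nat_lit 0))) (.add (.leaf (nat_lit 27) (nat_lit 0) (nat_lit 0)) (.add (.leaf (nat_lit 28) (nat_lit 0) (nat_lit 0)) (.leaf (nat_lit 29) (nat_lit 0) (nat_lit 0)))))) (.add (.add (.add (.leaf (nat_lit 30) (nat_lit 0) (nat_lit 0)) (.leaf (nat_lit 31) (nat_lit 0) (nat_lit 0))) (.add (.leaf (nat_lit 32) (nat_lit 0)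 (nat_lit 0)) (.add (.leaf (nat_lit 33) (nat_lit 0) (nat_lit 0)) (.leaf (nat_lit 34) (nat_lit 0) (nat_lit 0))))) (.add (.add (.leaf (nat_lit 35) (nat_lit 0) (nat_lit 0)) (.leaf (nat_lit 36) (nat_lit 0) (nat_lit 0))) (.add (.leaf (nat_lit 37) (nat_lit 0) (nat_lit 0)) (.add (.leaf (nat_lit 38) (nat_lit 0) (nat_lit 0)) (.leaf (nat_lit 39) (nat_lit 0) (nat_lit 0)))))))),
  (.add (.add (.add (.add (.add (.leaf (nat_lit 0) (nat_lit 0) (nat_lit 0)) (.leaf (nat_lit 1) (nat_lit 0) (nat_lit 0))) (.add (.leaf (nat_lit 2) (nat_lit 0) (nat_lit 0)) (.add (.leaf (nat_lit 3) (nat_lit 0) (nat_lit 0)) (.leaf (nat_lit 4) (nat_lit 0) (nat_lit 0))))) (.add (.add (.leaf (nat_lit 5) (nat_lit 0) (nat_lit 0)) (.leaf (nat_lit 6) (nat_lit 0) (nat_lit 0))) (.add (.leaf (nat_lit 7) (nat_lit 0) (nat_lit 0)) (.add (.leaf (nat_lit 8) (nat_lit 0) (nat_lit 0)) (.leaf (nat_lit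 9) (nat_lit 0) (nat_lit 0)))))) (.add (.add (.add (.leaf (nat_lit 10) (nat_lit 0) (nat_lit 0)) (.leaf (nat_lit 11) (nat_lit 0) (nat_lit 0))) (.add (.leaf (nat_lit 12) (nat_lit 0) (nat_lit 0)) (.add (.leaf (nat_lit 13) (nat_lit 0) (nat_lit 0)) (.leaf (nat_lit 14) (nat_lit 0) (nat_lit 0))))) (.add (.add (.leaf (nat_lit 15) (nat_lit 0) (nat_lit 0)) (.leaf (nat_lit 16) (nat_lit 0) (nat_lit 0))) (.add (.leaf (nat_lit 17) (nat_lit 0) (nat_lit 0)) (.add (.leaf (nat_lit 18) (nat_lit 0) (nat_lit 0)) (.leaf (nat_lit 19) (nat_lit 0) (nat_lit 0))))))) (.add (.add (.add (.add (.leaf (nat_lit 20) (nat_lit 0) (nat_lit 0)) (.leaf (nat_lit 21) (nat_lit 0) (nat_lit 0))) (.add (.leaf (nat_lit 22) (nat_lit 0) (nat_lit 0)) (.add (.leaf (nat_lit 23) (nat_lit 0) (nat_lit 0)) (.leaf (nat_lit 24) (nat_lit 0) (nat_lit 0))))) (.add (.add (.leaf (nat_lit 25) (nat_lit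 0) (nat_lit 0)) (.leaf (nat_lit 26) (nat_lit 0) (nat_lit 0))) (.add (.leaf (nat_lit 27) (nat_lit 0) (nat_lit 0)) (.add (.leaf (nat_lit 28) (nat_lit 0) (nat_lit 0)) (.leaf (nat_lit 29) (nat_lit 0) (nat_lit 0)))))) (.add (.add (.add (.leaf (nat_lit 30) (nat_lit 0) (nat_lit 0)) (.leaf (nat_lit 31) (nat_lit 0) (nat_lit 0))) (.add (.leaf (nat_lit 32) (nat_lit 0) (nat_lit 0)) (.add (.leaf (nat_lit 33) (nat_lit 0) (nat_lit 0)) (.leaf (nat_lit 34) (nat_lit 0) (nat_lit 0))))) (.add (.add (.leaf (nat_lit 35) (nat_lit 0) (nat_lit 0)) (.add (.leaf (nat_lit 36) (nat_lit 0) (nat_lit 0)) (.leaf (nat_lit 37) (nat_lit 0) (nat_lit 0)))) (.add (.leaf (nat_lit 38) (nat_lit 0) (nat_lit 0)) (.add (.leaf (nat_lit 39) (nat_lit 0) (nat_lit 0)) (.leaf (nat_lit 40) (nat_lit 0) (nat_lit 0)))))))),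
  (.add (.add (.add (.add (.add (.leaf (nat_lit 0) (nat_lit 0) (nat_lit 0)) (.leaf (nat_lit 1) (nat_lit 0) (nat_lit 0))) (.add (.leaf (nat_lit 2) (nat_lit 0) (nat_lit 0)) (.add (.leaf (nat_lit 3) (nat_lit 0) (nat_lit 0)) (.leaf (nat_lit 4) (nat_lit 0) (nat_lit 0))))) (.add (.add (.leaf (nat_lit 5) (nat_lit 0) (nat_lit 0)) (.leaf (nat_lit 6) (nat_lit 0) (nat_lit 0))) (.add (.leaf (nat_lit 7) (nat_lit 0) (nat_lit 0)) (.add (.leaf (nat_lit 8) (nat_lit 0) (nat_lit 0)) (.leaf (nat_lit 9) (nat_lit 0) (nat_lit 0)))))) (.add (.add (.add (.leaf (nat_lit 10) (nat_lit 0) (nat_lit 0)) (.leaf (nat_lit 11) (nat_lit 0) (nat_lit 0))) (.add (.leaf (nat_lit 12) (nat_lit 0) (nat_lit 0)) (.add (.leaf (nat_lit 13) (nat_lit 0) (nat_lit 0)) (.leaf (nat_lit 14) (nat_lit 0) (nat_lit 0))))) (.add (.add (.leaf (nat_lit 15) (nat_lit 0) (nat_lit 0)) (.add (.leaf (nat_lit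 16) (nat_lit 0) (nat_lit 0)) (.leaf (nat_lit 17) (nat_lit 0) (nat_lit 0)))) (.add (.leaf (nat_lit 18) (nat_lit 0) (nat_lit 0)) (.add (.leaf (nat_lit 19) (nat_lit 0) (nat_lit 0)) (.leaf (nat_lit 20) (nat_lit 0) (nat_lit 0))))))) (.add (.add (.add (.add (.leaf (nat_lit 21) (nat_lit 0) (nat_lit 0)) (.leaf (nat_lit 22) (nat_lit 0) (nat_lit 0))) (.add (.leaf (nat_lit 23) (nat_lit 0) (nat_lit 0)) (.add (.leaf (nat_lit 24) (nat_lit 0) (nat_lit 0)) (.leaf (nat_lit 25) (nat_lit 0) (nat_lit 0))))) (.add (.add (.leaf (nat_lit 26) (nat_lit 0) (nat_lit 0)) (.leaf (nat_lit 27) (nat_lit 0) (nat_lit 0))) (.add (.leaf (nat_lit 28) (nat_lit 0) (nat_lit 0)) (.add (.leaf (nat_lit 29) (nat_lit 0) (nat_lit 0)) (.leaf (nat_lit 30) (nat_lit 0) (nat_lit 0)))))) (.add (.add (.add (.leaf (nat_lit 31) (nat_lit 0) (nat_lit 0)) (.leaf (nat_lit 32) (nat_lit 0) (nat_lit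 0))) (.add (.leaf (nat_lit 33) (nat_lit 0) (nat_lit 0)) (.add (.leaf (nat_lit 34) (nat_lit 0) (nat_lit 0)) (.leaf (nat_lit 35) (nat_lit 0) (nat_lit 0))))) (.add (.add (.leaf (nat_lit 36) (nat_lit 0) (nat_lit 0)) (.add (.leaf (nat_lit 37) (nat_lit 0) (nat_lit 0)) (.leaf (nat_lit 38) (nat_lit 0) (nat_lit 0)))) (.add (.leaf (nat_lit 39) (nat_lit 0) (nat_lit 0)) (.add (.leaf (nat_lit 40) (nat_lit 0) (nat_lit 0)) (.leaf (nat_lit 41) (nat_lit 0) (nat_lit 0)))))))),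
  (.add (.add (.add (.add (.add (.leaf (nat_lit 0) (nat_lit 0) (nat_lit 0)) (.leaf (nat_lit 1) (nat_lit 0) (nat_lit 0))) (.add (.leaf (nat_lit 2) (nat_lit 0) (nat_lit 0)) (.add (.leaf (nat_lit 3) (nat_lit 0) (nat_lit 0)) (.leaf (nat_lit 4) (nat_lit 0) (nat_lit 0))))) (.add (.add (.leaf (nat_lit 5) (nat_lit 0) (nat_lit 0)) (.leaf (nat_lit 6) (nat_lit 0) (nat_lit 0))) (.add (.leaf (nat_lit 7) (nat_lit 0) (nat_lit 0)) (.add (.leaf (nat_lit 8) (nat_lit 0) (nat_lit 0)) (.leaf (nat_lit 9) (nat_lit 0) (nat_lit 0)))))) (.add (.add (.add (.leaf (nat_lit 10) (nat_lit 0) (nat_lit 0)) (.leaf (nat_lit 11) (nat_lit 0) (nat_lit 0))) (.add (.leaf (nat_lit 12) (nat_lit 0) (nat_lit 0)) (.add (.leaf (nat_lit 13) (nat_lit 0) (nat_lit 0)) (.leaf (nat_lit 14) (nat_lit 0) (nat_lit 0))))) (.add (.add (.leaf (nat_lit 15) (nat_lit 0) (nat_lit 0)) (.add (.leaf (nat_lit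 16) (nat_lit 0) (nat_lit 0)) (.leaf (nat_lit 17) (nat_lit 0) (nat_lit 0)))) (.add (.leaf (nat_lit 18) (nat_lit 0) (nat_lit 0)) (.add (.leaf (nat_lit 19) (nat_lit 0) (nat_lit 0)) (.leaf (nat_lit 20) (nat_lit 0) (nat_lit 0))))))) (.add (.add (.add (.add (.leaf (nat_lit 21) (nat_lit 0) (nat_lit 0)) (.leaf (nat_lit 22) (nat_lit 0) (nat_lit 0))) (.add (.leaf (nat_lit 23) (nat_lit 0) (nat_lit 0)) (.add (.leaf (nat_lit 24) (nat_lit 0) (nat_lit 0)) (.leaf (nat_lit 25) (nat_lit 0) (nat_lit 0))))) (.add (.add (.leaf (nat_lit 26) (nat_lit 0) (nat_lit 0)) (.add (.leaf (nat_lit 27) (nat_lit 0) (nat_lit 0)) (.leaf (nat_lit 28) (nat_lit 0) (nat_lit 0)))) (.add (.leaf (nat_lit 29) (nat_lit 0) (nat_lit 0)) (.add (.leaf (nat_lit 30) (nat_lit 0) (nat_lit 0)) (.leaf (nat_lit 31) (nat_lit 0) (nat_lit 0)))))) (.add (.add (.add (.leaf (nat_lit 32) (nat_lit 0)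 (nat_lit 0)) (.leaf (nat_lit 33) (nat_lit 0) (nat_lit 0))) (.add (.leaf (nat_lit 34) (nat_lit 0) (nat_lit 0)) (.add (.leaf (nat_lit 35) (nat_lit 0) (nat_lit 0)) (.leaf (nat_lit 36) (nat_lit 0) (nat_lit 0))))) (.add (.add (.leaf (nat_lit 37) (nat_lit 0) (nat_lit 0)) (.add (.leaf (nat_lit 38) (nat_lit 0) (nat_lit 0)) (.leaf (nat_lit 39) (nat_lit 0) (nat_lit 0)))) (.add (.leaf (nat_lit 40) (nat_lit 0) (nat_lit 0)) (.add (.leaf (nat_lit 41) (nat_lit 0) (nat_lit 0)) (.leaf (nat_lit 42) (nat_lit 0) (nat_lit 0)))))))),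
  (.add (.add (.add (.add (.add (.leaf (nat_lit 0) (nat_lit 0) (nat_lit 0)) (.leaf (nat_lit 1) (nat_lit 0) (nat_lit 0))) (.add (.leaf (nat_lit 2) (nat_lit 0) (nat_lit 0)) (.add (.leaf (nat_lit 3) (nat_lit 0) (nat_lit 0)) (.leaf (nat_lit 4) (nat_lit 0) (nat_lit 0))))) (.add (.add (.leaf (nat_lit 5) (nat_lit 0) (nat_lit 0)) (.add (.leaf (nat_lit 6) (nat_lit 0) (nat_lit 0)) (.leaf (nat_lit 7) (nat_lit 0) (nat_lit 0)))) (.add (.leaf (nat_lit 8) (nat_lit 0) (nat_lit 0)) (.add (.leaf (nat_lit 9) (nat_lit 0) (nat_lit 0)) (.leaf (nat_lit 10) (nat_lit 0) (nat_lit 0)))))) (.add (.add (.add (.leaf (nat_lit 11) (nat_lit 0) (nat_lit 0)) (.leaf (nat_lit 12) (nat_lit 0) (nat_lit 0))) (.add (.leaf (nat_lit 13) (nat_lit 0) (nat_lit 0)) (.add (.leaf (nat_lit 14) (nat_lit 0) (nat_lit 0)) (.leaf (nat_lit 15) (nat_lit 0) (nat_lit 0))))) (.add (.add (.leaf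 (nat_lit 16) (nat_lit 0) (nat_lit 0)) (.add (.leaf (nat_lit 17) (nat_lit 0) (nat_lit 0)) (.leaf (nat_lit 18) (nat_lit 0) (nat_lit 0)))) (.add (.leaf (nat_lit 19) (nat_lit 0) (nat_lit 0)) (.add (.leaf (nat_lit 20) (nat_lit 0) (nat_lit 0)) (.leaf (nat_lit 21) (nat_lit 0) (nat_lit 0))))))) (.add (.add (.add (.add (.leaf (nat_lit 22) (nat_lit 0) (nat_lit 0)) (.leaf (nat_lit 23) (nat_lit 0) (nat_lit 0))) (.add (.leaf (nat_lit 24) (nat_lit 0) (nat_lit 0)) (.add (.leaf (nat_lit 25) (nat_lit 0) (nat_lit 0)) (.leaf (nat_lit 26) (nat_lit 0) (nat_lit 0))))) (.add (.add (.leaf (nat_lit 27) (nat_lit 0) (nat_lit 0)) (.add (.leaf (nat_lit 28) (nat_lit 0) (nat_lit 0)) (.leaf (nat_lit 29) (nat_lit 0) (nat_lit 0)))) (.add (.leaf (nat_lit 30) (nat_lit 0) (nat_lit 0)) (.add (.leaf (nat_lit 31) (nat_lit 0) (nat_lit 0)) (.leaf (nat_lit 32) (nat_lit 0) (nat_lit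 0)))))) (.add (.add (.add (.leaf (nat_lit 33) (nat_lit 0) (nat_lit 0)) (.leaf (nat_lit 34) (nat_lit 0) (nat_lit 0))) (.add (.leaf (nat_lit 35) (nat_lit 0) (nat_lit 0)) (.add (.leaf (nat_lit 36) (nat_lit 0) (nat_lit 0)) (.leaf (nat_lit 37) (nat_lit 0) (nat_lit 0))))) (.add (.add (.leaf (nat_lit 38) (nat_lit 0) (nat_lit 0)) (.add (.leaf (nat_lit 39) (nat_lit 0) (nat_lit 0)) (.leaf (nat_lit 40) (nat_lit 0) (nat_lit 0)))) (.add (.leaf (nat_lit 41) (nat_lit 0) (nat_lit 0)) (.add (.leaf (nat_lit 42) (nat_lit 0) (nat_lit 0)) (.leaf (nat_lit 43) (nat_lit 0) (nat_lit 0)))))))),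
  (.add (.add (.add (.add (.add (.leaf (nat_lit 0) (nat_lit 0) (nat_lit 0)) (.leaf (nat_lit 1) (nat_lit 0) (nat_lit 0))) (.add (.leaf (nat_lit 2) (nat_lit 0) (nat_lit 0)) (.add (.leaf (nat_lit 3) (nat_lit 0) (nat_lit 0)) (.leaf (nat_lit 4) (nat_lit 0) (nat_lit 0))))) (.add (.add (.leaf (nat_lit 5) (nat_lit 0) (nat_lit 0)) (.add (.leaf (nat_lit 6) (nat_lit 0) (nat_lit 0)) (.leaf (nat_lit 7) (nat_lit 0) (nat_lit 0)))) (.add (.leaf (nat_lit 8) (nat_lit 0) (nat_lit 0)) (.add (.leaf (nat_lit 9) (nat_lit 0) (nat_lit 0)) (.leaf (nat_lit 10) (nat_lit 0) (nat_lit 0)))))) (.add (.add (.add (.leaf (nat_lit 11) (nat_lit 0) (nat_lit 0)) (.leaf (nat_lit 12) (nat_lit 0) (nat_lit 0))) (.add (.leaf (nat_lit 13) (nat_lit 0) (nat_lit 0)) (.add (.leaf (nat_lit 14) (nat_lit 0) (nat_lit 0)) (.leaf (nat_lit 15) (nat_lit 0) (nat_lit 0))))) (.add (.add (.leaf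 (nat_lit 16) (nat_lit 0) (nat_lit 0)) (.add (.leaf (nat_lit 17) (nat_lit 0) (nat_lit 0)) (.leaf (nat_lit 18) (nat_lit 0) (nat_lit 0)))) (.add (.leaf (nat_lit 19) (nat_lit 0) (nat_lit 0)) (.add (.leaf (nat_lit 20) (nat_lit 0) (nat_lit 0)) (.leaf (nat_lit 21) (nat_lit 0) (nat_lit 0))))))) (.add (.add (.add (.add (.leaf (nat_lit 22) (nat_lit 0) (nat_lit 0)) (.leaf (nat_lit 23) (nat_lit 0) (nat_lit 0))) (.add (.leaf (nat_lit 24) (nat_lit 0) (nat_lit 0)) (.add (.leaf (nat_lit 25) (nat_lit 0) (nat_lit 0)) (.leaf (nat_lit 26) (nat_lit 0) (nat_lit 0))))) (.add (.add (.leaf (nat_lit 27) (nat_lit 0) (nat_lit 0)) (.add (.leaf (nat_lit 28) (nat_lit 0) (nat_lit 0)) (.leaf (nat_lit 29) (nat_lit 0) (nat_lit 0)))) (.add (.leaf (nat_lit 30) (nat_lit 0) (nat_lit 0)) (.add (.leaf (nat_lit 31) (nat_lit 0) (nat_lit 0)) (.leaf (nat_lit 32) (nat_lit 0) (nat_lit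 0)))))) (.add (.add (.add (.leaf (nat_lit 33) (nat_lit 0) (nat_lit 0)) (.add (.leaf (nat_lit 34) (nat_lit 0) (nat_lit 0)) (.leaf (nat_lit 35) (nat_lit 0) (nat_lit 0)))) (.add (.leaf (nat_lit 36) (nat_lit 0) (nat_lit 0)) (.add (.leaf (nat_lit 37) (nat_lit 0) (nat_lit 0)) (.leaf (nat_lit 38) (nat_lit 0) (nat_lit 0))))) (.add (.add (.leaf (nat_lit 39) (nat_lit 0) (nat_lit 0)) (.add (.leaf (nat_lit 40) (nat_lit 0) (nat_lit 0)) (.leaf (nat_lit 41) (nat_lit 0) (nat_lit 0)))) (.add (.leaf (nat_lit 42) (nat_lit 0) (nat_lit 0)) (.add (.leaf (nat_lit 43) (nat_lit 0) (nat_lit 0)) (.leaf (nat_lit 44) (nat_lit 0) (nat_lit 0)))))))),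
  (.add (.add (.add (.add (.add (.leaf (nat_lit 0) (nat_lit 0) (nat_lit 0)) (.leaf (nat_lit 1) (nat_lit 0) (nat_lit 0))) (.add (.leaf (nat_lit 2) (nat_lit 0) (nat_lit 0)) (.add (.leaf (nat_lit 3) (nat_lit 0) (nat_lit 0)) (.leaf (nat_lit 4) (nat_lit 0) (nat_lit 0))))) (.add (.add (.leaf (nat_lit 5) (nat_lit 0) (nat_lit 0)) (.add (.leaf (nat_lit 6) (nat_lit 0) (nat_lit 0)) (.leaf (nat_lit 7) (nat_lit 0) (nat_lit 0)))) (.add (.leaf (nat_lit 8) (nat_lit 0) (nat_lit 0)) (.add (.leaf (nat_lit 9) (nat_lit 0) (nat_lit 0)) (.leaf (nat_lit 10) (nat_lit 0) (nat_lit 0)))))) (.add (.add (.add (.leaf (nat_lit 11) (nat_lit 0) (nat_lit 0)) (.add (.leaf (nat_lit 12) (nat_lit 0) (nat_lit 0)) (.leaf (nat_lit 13) (nat_lit 0) (nat_lit 0)))) (.add (.leaf (nat_lit 14) (nat_lit 0) (nat_lit 0)) (.add (.leaf (nat_lit 15) (nat_lit 0) (nat_lit 0)) (.leaf (nat_lit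 16) (nat_lit 0) (nat_lit 0))))) (.add (.add (.leaf (nat_lit 17) (nat_lit 0) (nat_lit 0)) (.add (.leaf (nat_lit 18) (nat_lit 0) (nat_lit 0)) (.leaf (nat_lit 19) (nat_lit 0) (nat_lit 0)))) (.add (.leaf (nat_lit 20) (nat_lit 0) (nat_lit 0)) (.add (.leaf (nat_lit 21) (nat_lit 0) (nat_lit 0)) (.leaf (nat_lit 22) (nat_lit 0) (nat_lit 0))))))) (.add (.add (.add (.add (.leaf (nat_lit 23) (nat_lit 0) (nat_lit 0)) (.leaf (nat_lit 24) (nat_lit 0) (nat_lit 0))) (.add (.leaf (nat_lit 25) (nat_lit 0) (nat_lit 0)) (.add (.leaf (nat_lit 26) (nat_lit 0) (nat_lit 0)) (.leaf (nat_lit 27) (nat_lit 0) (nat_lit 0))))) (.add (.add (.leaf (nat_lit 28) (nat_lit 0) (nat_lit 0)) (.add (.leaf (nat_lit 29) (nat_lit 0) (nat_lit 0)) (.leaf (nat_lit 30) (nat_lit 0) (nat_lit 0)))) (.add (.leaf (nat_lit 31) (nat_lit 0) (nat_lit 0)) (.add (.leaf (nat_lit 32) (nat_lit 0)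 (nat_lit 0)) (.leaf (nat_lit 33) (nat_lit 0) (nat_lit 0)))))) (.add (.add (.add (.leaf (nat_lit 34) (nat_lit 0) (nat_lit 0)) (.add (.leaf (nat_lit 35) (nat_lit 0) (nat_lit 0)) (.leaf (nat_lit 36) (nat_lit 0) (nat_lit 0)))) (.add (.leaf (nat_lit 37) (nat_lit 0) (nat_lit 0)) (.add (.leaf (nat_lit 38) (nat_lit 0) (nat_lit 0)) (.leaf (nat_lit 39) (nat_lit 0) (nat_lit 0))))) (.add (.add (.leaf (nat_lit 40) (nat_lit 0) (nat_lit 0)) (.add (.leaf (nat_lit 41) (nat_lit 0) (nat_lit 0)) (.leaf (nat_lit 42) (nat_lit 0) (nat_lit 0)))) (.add (.leaf (nat_lit 43) (nat_lit 0) (nat_lit 0)) (.add (.leaf (nat_lit 44) (nat_lit 0) (nat_lit 0)) (.leaf (nat_lit 45) (nat_lit 0) (nat_lit 0)))))))),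
  (.add (.add (.add (.add (.add (.leaf (nat_lit 0) (nat_lit 0) (nat_lit 0)) (.leaf (nat_lit 1) (nat_lit 0) (nat_lit 0))) (.add (.leaf (nat_lit 2) (nat_lit 0) (nat_lit 0)) (.add (.leaf (nat_lit 3) (nat_lit 0) (nat_lit 0)) (.leaf (nat_lit 4) (nat_lit 0) (nat_lit 0))))) (.add (.add (.leaf (nat_lit 5) (nat_lit 0) (nat_lit 0)) (.add (.leaf (nat_lit 6) (nat_lit 0) (nat_lit 0)) (.leaf (nat_lit 7) (nat_lit 0) (nat_lit 0)))) (.add (.leaf (nat_lit 8) (nat_lit 0) (nat_lit 0)) (.add (.leaf (nat_lit 9) (nat_lit 0) (nat_lit 0)) (.leaf (nat_lit 10) (nat_lit 0) (nat_lit 0)))))) (.add (.add (.add (.leaf (nat_lit 11) (nat_lit 0) (nat_lit 0)) (.add (.leaf (nat_lit 12) (nat_lit 0) (nat_lit 0)) (.leaf (nat_lit 13) (nat_lit 0) (nat_lit 0)))) (.add (.leaf (nat_lit 14) (nat_lit 0) (nat_lit 0)) (.add (.leaf (nat_lit 15) (nat_lit 0) (nat_lit 0)) (.leaf (nat_lit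 16) (nat_lit 0) (nat_lit 0))))) (.add (.add (.leaf (nat_lit 17) (nat_lit 0) (nat_lit 0)) (.add (.leaf (nat_lit 18) (nat_lit 0) (nat_lit 0)) (.leaf (nat_lit 19) (nat_lit 0) (nat_lit 0)))) (.add (.leaf (nat_lit 20) (nat_lit 0) (nat_lit 0)) (.add (.leaf (nat_lit 21) (nat_lit 0) (nat_lit 0)) (.leaf (nat_lit 22) (nat_lit 0) (nat_lit 0))))))) (.add (.add (.add (.add (.leaf (nat_lit 23) (nat_lit 0) (nat_lit 0)) (.add (.leaf (nat_lit 24) (nat_lit 0) (nat_lit 0)) (.leaf (nat_lit 25) (nat_lit 0) (nat_lit 0)))) (.add (.leaf (nat_lit 26) (nat_lit 0) (nat_lit 0)) (.add (.leaf (nat_lit 27) (nat_lit 0) (nat_lit 0)) (.leaf (nat_lit 28) (nat_lit 0) (nat_lit 0))))) (.add (.add (.leaf (nat_lit 29) (nat_lit 0) (nat_lit 0)) (.add (.leaf (nat_lit 30) (nat_lit 0) (nat_lit 0)) (.leaf (nat_lit 31) (nat_lit 0) (nat_lit 0)))) (.add (.leaf (nat_lit 32) (nat_lit 0)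 (nat_lit 0)) (.add (.leaf (nat_lit 33) (nat_lit 0) (nat_lit 0)) (.leaf (nat_lit 34) (nat_lit 0) (nat_lit 0)))))) (.add (.add (.add (.leaf (nat_lit 35) (nat_lit 0) (nat_lit 0)) (.add (.leaf (nat_lit 36) (nat_lit 0) (nat_lit 0)) (.leaf (nat_lit 37) (nat_lit 0) (nat_lit 0)))) (.add (.leaf (nat_lit 38) (nat_lit 0) (nat_lit 0)) (.add (.leaf (nat_lit 39) (nat_lit 0) (nat_lit 0)) (.leaf (nat_lit 40) (nat_lit 0) (nat_lit 0))))) (.add (.add (.leaf (nat_lit 41) (nat_lit 0) (nat_lit 0)) (.add (.leaf (nat_lit 42) (nat_lit 0) (nat_lit 0)) (.leaf (nat_lit 43) (nat_lit 0) (nat_lit 0)))) (.add (.leaf (nat_lit 44) (nat_lit 0) (nat_lit 0)) (.add (.leaf (nat_lit 45) (nat_lit 0) (nat_lit 0)) (.leaf (nat_lit 46) (nat_lit 0) (nat_lit 0)))))))),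
  (.add (.add (.add (.add (.add (.leaf (nat_lit 0) (nat_lit 0) (nat_lit 0)) (.add (.leaf (nat_lit 1) (nat_lit 0) (nat_lit 0)) (.leaf (nat_lit 2) (nat_lit 0) (nat_lit 0)))) (.add (.leaf (nat_lit 3) (nat_lit 0) (nat_lit 0)) (.add (.leaf (nat_lit 4) (nat_lit 0) (nat_lit 0)) (.leaf (nat_lit 5) (nat_lit 0) (nat_lit 0))))) (.add (.add (.leaf (nat_lit 6) (nat_lit 0) (nat_lit 0)) (.add (.leaf (nat_lit 7) (nat_lit 0) (nat_lit 0)) (.leaf (nat_lit 8) (nat_lit 0) (nat_lit 0)))) (.add (.leaf (nat_lit 9) (nat_lit 0) (nat_lit 0)) (.add (.leaf (nat_lit 10) (nat_lit 0) (nat_lit 0)) (.leaf (nat_lit 11) (nat_lit 0) (nat_lit 0)))))) (.add (.add (.add (.leaf (nat_lit 12) (nat_lit 0) (nat_lit 0)) (.add (.leaf (nat_lit 13) (nat_lit 0) (nat_lit 0)) (.leaf (nat_lit 14) (nat_lit 0) (nat_lit 0)))) (.add (.leaf (nat_lit 15) (nat_lit 0) (nat_lit 0)) (.add (.leaf (nat_lit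 16) (nat_lit 0) (nat_lit 0)) (.leaf (nat_lit 17) (nat_lit 0) (nat_lit 0))))) (.add (.add (.leaf (nat_lit 18) (nat_lit 0) (nat_lit 0)) (.add (.leaf (nat_lit 19) (nat_lit 0) (nat_lit 0)) (.leaf (nat_lit 20) (nat_lit 0) (nat_lit 0)))) (.add (.leaf (nat_lit 21) (nat_lit 0) (nat_lit 0)) (.add (.leaf (nat_lit 22) (nat_lit 0) (nat_lit 0)) (.leaf (nat_lit 23) (nat_lit 0) (nat_lit 0))))))) (.add (.add (.add (.add (.leaf (nat_lit 24) (nat_lit 0) (nat_lit 0)) (.add (.leaf (nat_lit 25) (nat_lit 0) (nat_lit 0)) (.leaf (nat_lit 26) (nat_lit 0) (nat_lit 0)))) (.add (.leaf (nat_lit 27) (nat_lit 0) (nat_lit 0)) (.add (.leaf (nat_lit 28) (nat_lit 0) (nat_lit 0)) (.leaf (nat_lit 29) (nat_lit 0) (nat_lit 0))))) (.add (.add (.leaf (nat_lit 30) (nat_lit 0) (nat_lit 0)) (.add (.leaf (nat_lit 31) (nat_lit 0) (nat_lit 0)) (.leaf (nat_lit 32) (nat_lit 0) (nat_lit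 0)))) (.add (.leaf (nat_lit 33) (nat_lit 0) (nat_lit 0)) (.add (.leaf (nat_lit 34) (nat_lit 0) (nat_lit 0)) (.leaf (nat_lit 35) (nat_lit 0) (nat_lit 0)))))) (.add (.add (.add (.leaf (nat_lit 36) (nat_lit 0) (nat_lit 0)) (.add (.leaf (nat_lit 37) (nat_lit 0) (nat_lit 0)) (.leaf (nat_lit 38) (nat_lit 0) (nat_lit 0)))) (.add (.leaf (nat_lit 39) (nat_lit 0) (nat_lit 0)) (.add (.leaf (nat_lit 40) (nat_lit 0) (nat_lit 0)) (.leaf (nat_lit 41) (nat_lit 0) (nat_lit 0))))) (.add (.add (.leaf (nat_lit 42) (nat_lit 0) (nat_lit 0)) (.add (.leaf (nat_lit 43) (nat_lit 0) (nat_lit 0)) (.leaf (nat_lit 44) (nat_lit 0) (nat_lit 0)))) (.add (.leaf (nat_lit 45) (nat_lit 0) (nat_lit 0)) (.add (.leaf (nat_lit 46) (nat_lit 0) (nat_lit 0)) (.leaf (nat_lit 47) (nat_lit 0) (nat_lit 0)))))))),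
  (.add (.add (.add (.add (.add (.leaf (nat_lit 0) (nat_lit 0) (nat_lit 0)) (.add (.leaf (nat_lit 1) (nat_lit 0) (nat_lit 0)) (.leaf (nat_lit 2) (nat_lit 0) (nat_lit 0)))) (.add (.leaf (nat_lit 3) (nat_lit 0) (nat_lit 0)) (.add (.leaf (nat_lit 4) (nat_lit 0) (nat_lit 0)) (.leaf (nat_lit 5) (nat_lit 0) (nat_lit 0))))) (.add (.add (.leaf (nat_lit 6) (nat_lit 0) (nat_lit 0)) (.add (.leaf (nat_lit 7) (nat_lit 0) (nat_lit 0)) (.leaf (nat_lit 8) (nat_lit 0) (nat_lit 0)))) (.add (.leaf (nat_lit 9) (nat_lit 0) (nat_lit 0)) (.add (.leaf (nat_lit 10) (nat_lit 0) (nat_lit 0)) (.leaf (nat_lit 11) (nat_lit 0) (nat_lit 0)))))) (.add (.add (.add (.leaf (nat_lit 12) (nat_lit 0) (nat_lit 0)) (.add (.leaf (nat_lit 13) (nat_lit 0) (nat_lit 0)) (.leaf (nat_lit 14) (nat_lit 0) (nat_lit 0)))) (.add (.leaf (nat_lit 15) (nat_lit 0) (nat_lit 0)) (.add (.leaf (nat_lit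 16) (nat_lit 0) (nat_lit 0)) (.leaf (nat_lit 17) (nat_lit 0) (nat_lit 0))))) (.add (.add (.leaf (nat_lit 18) (nat_lit 0) (nat_lit 0)) (.add (.leaf (nat_lit 19) (nat_lit 0) (nat_lit 0)) (.leaf (nat_lit 20) (nat_lit 0) (nat_lit 0)))) (.add (.leaf (nat_lit 21) (nat_lit 0) (nat_lit 0)) (.add (.leaf (nat_lit 22) (nat_lit 0) (nat_lit 0)) (.leaf (nat_lit 23) (nat_lit 0) (nat_lit 0))))))) (.add (.add (.add (.add (.leaf (nat_lit 24) (nat_lit 0) (nat_lit 0)) (.add (.leaf (nat_lit 25) (nat_lit 0) (nat_lit 0)) (.leaf (nat_lit 26) (nat_lit 0) (nat_lit 0)))) (.add (.leaf (nat_lit 27) (nat_lit 0) (nat_lit 0)) (.add (.leaf (nat_lit 28) (nat_lit 0) (nat_lit 0)) (.leaf (nat_lit 29) (nat_lit 0) (nat_lit 0))))) (.add (.add (.leaf (nat_lit 30) (nat_lit 0) (nat_lit 0)) (.add (.leaf (nat_lit 31) (nat_lit 0) (nat_lit 0)) (.leaf (nat_lit 32) (nat_lit 0) (nat_lit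 0)))) (.add (.leaf (nat_lit 33) (nat_lit 0) (nat_lit 0)) (.add (.leaf (nat_lit 34) (nat_lit 0) (nat_lit 0)) (.leaf (nat_lit 35) (nat_lit 0) (nat_lit 0)))))) (.add (.add (.add (.leaf (nat_lit 36) (nat_lit 0) (nat_lit 0)) (.add (.leaf (nat_lit 37) (nat_lit 0) (nat_lit 0)) (.leaf (nat_lit 38) (nat_lit 0) (nat_lit 0)))) (.add (.leaf (nat_lit 39) (nat_lit 0) (nat_lit 0)) (.add (.leaf (nat_lit 40) (nat_lit 0) (nat_lit 0)) (.leaf (nat_lit 41) (nat_lit 0) (nat_lit 0))))) (.add (.add (.leaf (nat_lit 42) (nat_lit 0) (nat_lit 0)) (.add (.leaf (nat_lit 43) (nat_lit 0) (nat_lit 0)) (.leaf (nat_lit 44) (nat_lit 0) (nat_lit 0)))) (.add (.add (.leaf (nat_lit 45) (nat_lit 0) (nat_lit 0)) (.leaf (nat_lit 46) (nat_lit 0) (nat_lit 0))) (.add (.leaf (nat_lit 47) (nat_lit 0) (nat_lit 0)) (.leaf (nat_lit 48) (nat_lit 0) (nat_lit 0)))))))),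
  (.add (.add (.add (.add (.add (.leaf (nat_lit 0) (nat_lit 0) (nat_lit 0)) (.add (.leaf (nat_lit 1) (nat_lit 0) (nat_lit 0)) (.leaf (nat_lit 2) (nat_lit 0) (nat_lit 0)))) (.add (.leaf (nat_lit 3) (nat_lit 0) (nat_lit 0)) (.add (.leaf (nat_lit 4) (nat_lit 0) (nat_lit 0)) (.leaf (nat_lit 5) (nat_lit 0) (nat_lit 0))))) (.add (.add (.leaf (nat_lit 6) (nat_lit 0) (nat_lit 0)) (.add (.leaf (nat_lit 7) (nat_lit 0) (nat_lit 0)) (.leaf (nat_lit 8) (nat_lit 0) (nat_lit 0)))) (.add (.leaf (nat_lit 9) (nat_lit 0) (nat_lit 0)) (.add (.leaf (nat_lit 10) (nat_lit 0) (nat_lit 0)) (.leaf (nat_lit 11) (nat_lit 0) (nat_lit 0)))))) (.add (.add (.add (.leaf (nat_lit 12) (nat_lit 0) (nat_lit 0)) (.add (.leaf (nat_lit 13) (nat_lit 0) (nat_lit 0)) (.leaf (nat_lit 14) (nat_lit 0) (nat_lit 0)))) (.add (.leaf (nat_lit 15) (nat_lit 0) (nat_lit 0)) (.add (.leaf (nat_lit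 16) (nat_lit 0) (nat_lit 0)) (.leaf (nat_lit 17) (nat_lit 0) (nat_lit 0))))) (.add (.add (.leaf (nat_lit 18) (nat_lit 0) (nat_lit 0)) (.add (.leaf (nat_lit 19) (nat_lit 0) (nat_lit 0)) (.leaf (nat_lit 20) (nat_lit 0) (nat_lit 0)))) (.add (.add (.leaf (nat_lit 21) (nat_lit 0) (nat_lit 0)) (.leaf (nat_lit 22) (nat_lit 0) (nat_lit 0))) (.add (.leaf (nat_lit 23) (nat_lit 0) (nat_lit 0)) (.leaf (nat_lit 24) (nat_lit 0) (nat_lit 0))))))) (.add (.add (.add (.add (.leaf (nat_lit 25) (nat_lit 0) (nat_lit 0)) (.add (.leaf (nat_lit 26) (nat_lit 0) (nat_lit 0)) (.leaf (nat_lit 27) (nat_lit 0) (nat_lit 0)))) (.add (.leaf (nat_lit 28) (nat_lit 0) (nat_lit 0)) (.add (.leaf (nat_lit 29) (nat_lit 0) (nat_lit 0)) (.leaf (nat_lit 30) (nat_lit 0) (nat_lit 0))))) (.add (.add (.leaf (nat_lit 31) (nat_lit 0) (nat_lit 0)) (.add (.leaf (nat_lit 32) (nat_lit 0)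 (nat_lit 0)) (.leaf (nat_lit 33) (nat_lit 0) (nat_lit 0)))) (.add (.leaf (nat_lit 34) (nat_lit 0) (nat_lit 0)) (.add (.leaf (nat_lit 35) (nat_lit 0) (nat_lit 0)) (.leaf (nat_lit 36) (nat_lit 0) (nat_lit 0)))))) (.add (.add (.add (.leaf (nat_lit 37) (nat_lit 0) (nat_lit 0)) (.add (.leaf (nat_lit 38) (nat_lit 0) (nat_lit 0)) (.leaf (nat_lit 39) (nat_lit 0) (nat_lit 0)))) (.add (.leaf (nat_lit 40) (nat_lit 0) (nat_lit 0)) (.add (.leaf (nat_lit 41) (nat_lit 0) (nat_lit 0)) (.leaf (nat_lit 42) (nat_lit 0) (nat_lit 0))))) (.add (.add (.leaf (nat_lit 43) (nat_lit 0) (nat_lit 0)) (.add (.leaf (nat_lit 44) (nat_lit 0) (nat_lit 0)) (.leaf (nat_lit 45) (nat_lit 0) (nat_lit 0)))) (.add (.add (.leaf (nat_lit 46) (nat_lit 0) (nat_lit 0)) (.leaf (nat_lit 47) (nat_lit 0) (nat_lit 0))) (.add (.leaf (nat_lit 48) (nat_lit 0) (nat_lit 0)) (.leaf (nat_lit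 49) (nat_lit 0) (nat_lit 0)))))))),
  (.add (.add (.add (.add (.add (.leaf (nat_lit 0) (nat_lit 0) (nat_lit 0)) (.add (.leaf (nat_lit 1) (nat_lit 0) (nat_lit 0)) (.leaf (nat_lit 2) (nat_lit 0) (nat_lit 0)))) (.add (.leaf (nat_lit 3) (nat_lit 0) (nat_lit 0)) (.add (.leaf (nat_lit 4) (nat_lit 0) (nat_lit 0)) (.leaf (nat_lit 5) (nat_lit 0) (nat_lit 0))))) (.add (.add (.leaf (nat_lit 6) (nat_lit 0) (nat_lit 0)) (.add (.leaf (nat_lit 7) (nat_lit 0) (nat_lit 0)) (.leaf (nat_lit 8) (nat_lit 0) (nat_lit 0)))) (.add (.leaf (nat_lit 9) (nat_lit 0) (nat_lit 0)) (.add (.leaf (nat_lit 10) (nat_lit 0) (nat_lit 0)) (.leaf (nat_lit 11) (nat_lit 0) (nat_lit 0)))))) (.add (.add (.add (.leaf (nat_lit 12) (nat_lit 0) (nat_lit 0)) (.add (.leaf (nat_lit 13) (nat_lit 0) (nat_lit 0)) (.leaf (nat_lit 14) (nat_lit 0) (nat_lit 0)))) (.add (.leaf (nat_lit 15) (nat_lit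 0) (nat_lit 0)) (.add (.leaf (nat_lit 16) (nat_lit 0) (nat_lit 0)) (.leaf (nat_lit 17) (nat_lit 0) (nat_lit 0))))) (.add (.add (.leaf (nat_lit 18) (nat_lit 0) (nat_lit 0)) (.add (.leaf (nat_lit 19) (nat_lit 0) (nat_lit 0)) (.leaf (nat_lit 20) (nat_lit 0) (nat_lit 0)))) (.add (.add (.leaf (nat_lit 21) (nat_lit 0) (nat_lit 0)) (.leaf (nat_lit 22) (nat_lit 0) (nat_lit 0))) (.add (.leaf (nat_lit 23) (nat_lit 0) (nat_lit 0)) (.leaf (nat_lit 24) (nat_lit 0) (nat_lit 0))))))) (.add (.add (.add (.add (.leaf (nat_lit 25) (nat_lit 0) (nat_lit 0)) (.add (.leaf (nat_lit 26) (nat_lit 0) (nat_lit 0)) (.leaf (nat_lit 27) (nat_lit 0) (nat_lit 0)))) (.add (.leaf (nat_lit 28) (nat_lit 0) (nat_lit 0)) (.add (.leaf (nat_lit 29) (nat_lit 0) (nat_lit 0)) (.leaf (nat_lit 30) (nat_lit 0) (nat_lit 0))))) (.add (.add (.leaf (nat_lit 31) (nat_lit 0) (nat_lit 0))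 (.add (.leaf (nat_lit 32) (nat_lit 0) (nat_lit 0)) (.leaf (nat_lit 33) (nat_lit 0) (nat_lit 0)))) (.add (.add (.leaf (nat_lit 34) (nat_lit 0) (nat_lit 0)) (.leaf (nat_lit 35) (nat_lit 0) (nat_lit 0))) (.add (.leaf (nat_lit 36) (nat_lit 0) (nat_lit 0)) (.leaf (nat_lit 37) (nat_lit 0) (nat_lit 0)))))) (.add (.add (.add (.leaf (nat_lit 38) (nat_lit 0) (nat_lit 0)) (.add (.leaf (nat_lit 39) (nat_lit 0) (nat_lit 0)) (.leaf (nat_lit 40) (nat_lit 0) (nat_lit 0)))) (.add (.leaf (nat_lit 41) (nat_lit 0) (nat_lit 0)) (.add (.leaf (nat_lit 42) (nat_lit 0) (nat_lit 0)) (.leaf (nat_lit 43) (nat_lit 0) (nat_lit 0))))) (.add (.add (.leaf (nat_lit 44) (nat_lit 0) (nat_lit 0)) (.add (.leaf (nat_lit 45) (nat_lit 0) (nat_lit 0)) (.leaf (nat_lit 46) (nat_lit 0) (nat_lit 0)))) (.add (.add (.leaf (nat_lit 47) (nat_lit 0) (nat_lit 0)) (.leaf (nat_lit 48) (nat_lit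 0) (nat_lit 0))) (.add (.leaf (nat_lit 49) (nat_lit 0) (nat_lit 0)) (.leaf (nat_lit 50) (nat_lit 0) (nat_lit 0)))))))),
  (.add (.add (.add (.add (.add (.leaf (nat_lit 0) (nat_lit 0) (nat_lit 0)) (.add (.leaf (nat_lit 1) (nat_lit 0) (nat_lit 0)) (.leaf (nat_lit 2) (nat_lit 0) (nat_lit 0)))) (.add (.leaf (nat_lit 3) (nat_lit 0) (nat_lit 0)) (.add (.leaf (nat_lit 4) (nat_lit 0) (nat_lit 0)) (.leaf (nat_lit 5) (nat_lit 0) (nat_lit 0))))) (.add (.add (.leaf (nat_lit 6) (nat_lit 0) (nat_lit 0)) (.add (.leaf (nat_lit 7) (nat_lit 0) (nat_lit 0)) (.leaf (nat_lit 8) (nat_lit 0) (nat_lit 0)))) (.add (.add (.leaf (nat_lit 9) (nat_lit 0) (nat_lit 0)) (.leaf (nat_lit 10) (nat_lit 0) (nat_lit 0))) (.add (.leaf (nat_lit 11) (nat_lit 0) (nat_lit 0)) (.leaf (nat_lit 12) (nat_lit 0) (nat_lit 0)))))) (.add (.add (.add (.leaf (nat_lit 13) (nat_lit 0) (nat_lit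 0)) (.add (.leaf (nat_lit 14) (nat_lit 0) (nat_lit 0)) (.leaf (nat_lit 15) (nat_lit 0) (nat_lit 0)))) (.add (.leaf (nat_lit 16) (nat_lit 0) (nat_lit 0)) (.add (.leaf (nat_lit 17) (nat_lit 0) (nat_lit 0)) (.leaf (nat_lit 18) (nat_lit 0) (nat_lit 0))))) (.add (.add (.leaf (nat_lit 19) (nat_lit 0) (nat_lit 0)) (.add (.leaf (nat_lit 20) (nat_lit 0) (nat_lit 0)) (.leaf (nat_lit 21) (nat_lit 0) (nat_lit 0)))) (.add (.add (.leaf (nat_lit 22) (nat_lit 0) (nat_lit 0)) (.leaf (nat_lit 23) (nat_lit 0) (nat_lit 0))) (.add (.leaf (nat_lit 24) (nat_lit 0) (nat_lit 0)) (.leaf (nat_lit 25) (nat_lit 0) (nat_lit 0))))))) (.add (.add (.add (.add (.leaf (nat_lit 26) (nat_lit 0) (nat_lit 0)) (.add (.leaf (nat_lit 27) (nat_lit 0) (nat_lit 0)) (.leaf (nat_lit 28) (nat_lit 0) (nat_lit 0)))) (.add (.leaf (nat_lit 29) (nat_lit 0) (nat_lit 0)) (.add (.leaf (nat_lit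 30) (nat_lit 0) (nat_lit 0)) (.leaf (nat_lit 31) (nat_lit 0) (nat_lit 0))))) (.add (.add (.leaf (nat_lit 32) (nat_lit 0) (nat_lit 0)) (.add (.leaf (nat_lit 33) (nat_lit 0) (nat_lit 0)) (.leaf (nat_lit 34) (nat_lit 0) (nat_lit 0)))) (.add (.add (.leaf (nat_lit 35) (nat_lit 0) (nat_lit 0)) (.leaf (nat_lit 36) (nat_lit 0) (nat_lit 0))) (.add (.leaf (nat_lit 37) (nat_lit 0) (nat_lit 0)) (.leaf (nat_lit 38) (nat_lit 0) (nat_lit 0)))))) (.add (.add (.add (.leaf (nat_lit 39) (nat_lit 0) (nat_lit 0)) (.add (.leaf (nat_lit 40) (nat_lit 0) (nat_lit 0)) (.leaf (nat_lit 41) (nat_lit 0) (nat_lit 0)))) (.add (.leaf (nat_lit 42) (nat_lit 0) (nat_lit 0)) (.add (.leaf (nat_lit 43) (nat_lit 0) (nat_lit 0)) (.leaf (nat_lit 44) (nat_lit 0) (nat_lit 0))))) (.add (.add (.leaf (nat_lit 45) (nat_lit 0) (nat_lit 0)) (.add (.leaf (nat_lit 46) (nat_lit 0) (nat_lit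 0)) (.leaf (nat_lit 47) (nat_lit 0) (nat_lit 0)))) (.add (.add (.leaf (nat_lit 48) (nat_lit 0) (nat_lit 0)) (.leaf (nat_lit 49) (nat_lit 0) (nat_lit 0))) (.add (.leaf (nat_lit 50) (nat_lit 0) (nat_lit 0)) (.leaf (nat_lit 51) (nat_lit 0) (nat_lit 0)))))))),
  (.add (.add (.add (.add (.add (.leaf (nat_lit 0) (nat_lit 0) (nat_lit 0)) (.add (.leaf (nat_lit 1) (nat_lit 0) (nat_lit 0)) (.leaf (nat_lit 2) (nat_lit 0) (nat_lit 0)))) (.add (.leaf (nat_lit 3) (nat_lit 0) (nat_lit 0)) (.add (.leaf (nat_lit 4) (nat_lit 0) (nat_lit 0)) (.leaf (nat_lit 5) (nat_lit 0) (nat_lit 0))))) (.add (.add (.leaf (nat_lit 6) (nat_lit 0) (nat_lit 0)) (.add (.leaf (nat_lit 7) (nat_lit 0) (nat_lit 0)) (.leaf (nat_lit 8) (nat_lit 0) (nat_lit 0)))) (.add (.add (.leaf (nat_lit 9) (nat_lit 0) (nat_lit 0)) (.leaf (nat_lit 10) (nat_lit 0) (nat_lit 0))) (.add (.leaf (nat_lit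 11) (nat_lit 0) (nat_lit 0)) (.leaf (nat_lit 12) (nat_lit 0) (nat_lit 0)))))) (.add (.add (.add (.leaf (nat_lit 13) (nat_lit 0) (nat_lit 0)) (.add (.leaf (nat_lit 14) (nat_lit 0) (nat_lit 0)) (.leaf (nat_lit 15) (nat_lit 0) (nat_lit 0)))) (.add (.leaf (nat_lit 16) (nat_lit 0) (nat_lit 0)) (.add (.leaf (nat_lit 17) (nat_lit 0) (nat_lit 0)) (.leaf (nat_lit 18) (nat_lit 0) (nat_lit 0))))) (.add (.add (.leaf (nat_lit 19) (nat_lit 0) (nat_lit 0)) (.add (.leaf (nat_lit 20) (nat_lit 0) (nat_lit 0)) (.leaf (nat_lit 21) (nat_lit 0) (nat_lit 0)))) (.add (.add (.leaf (nat_lit 22) (nat_lit 0) (nat_lit 0)) (.leaf (nat_lit 23) (nat_lit 0) (nat_lit 0))) (.add (.leaf (nat_lit 24) (nat_lit 0) (nat_lit 0)) (.leaf (nat_lit 25) (nat_lit 0) (nat_lit 0))))))) (.add (.add (.add (.add (.leaf (nat_lit 26) (nat_lit 0) (nat_lit 0)) (.add (.leaf (nat_lit 27) (nat_lit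 0) (nat_lit 0)) (.leaf (nat_lit 28) (nat_lit 0) (nat_lit 0)))) (.add (.leaf (nat_lit 29) (nat_lit 0) (nat_lit 0)) (.add (.leaf (nat_lit 30) (nat_lit 0) (nat_lit 0)) (.leaf (nat_lit 31) (nat_lit 0) (nat_lit 0))))) (.add (.add (.leaf (nat_lit 32) (nat_lit 0) (nat_lit 0)) (.add (.leaf (nat_lit 33) (nat_lit 0) (nat_lit 0)) (.leaf (nat_lit 34) (nat_lit 0) (nat_lit 0)))) (.add (.add (.leaf (nat_lit 35) (nat_lit 0) (nat_lit 0)) (.leaf (nat_lit 36) (nat_lit 0) (nat_lit 0))) (.add (.leaf (nat_lit 37) (nat_lit 0) (nat_lit 0)) (.leaf (nat_lit 38) (nat_lit 0) (nat_lit 0)))))) (.add (.add (.add (.leaf (nat_lit 39) (nat_lit 0) (nat_lit 0)) (.add (.leaf (nat_lit 40) (nat_lit 0) (nat_lit 0)) (.leaf (nat_lit 41) (nat_lit 0) (nat_lit 0)))) (.add (.add (.leaf (nat_lit 42) (nat_lit 0) (nat_lit 0)) (.leaf (nat_lit 43) (nat_lit 0) (nat_lit 0))) (.add (.leaf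 (nat_lit 44) (nat_lit 0) (nat_lit 0)) (.leaf (nat_lit 45) (nat_lit 0) (nat_lit 0))))) (.add (.add (.leaf (nat_lit 46) (nat_lit 0) (nat_lit 0)) (.add (.leaf (nat_lit 47) (nat_lit 0) (nat_lit 0)) (.leaf (nat_lit 48) (nat_lit 0) (nat_lit 0)))) (.add (.add (.leaf (nat_lit 49) (nat_lit 0) (nat_lit 0)) (.leaf (nat_lit 50) (nat_lit 0) (nat_lit 0))) (.add (.leaf (nat_lit 51) (nat_lit 0) (nat_lit 0)) (.leaf (nat_lit 52) (nat_lit 0) (nat_lit 0)))))))),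
  (.add (.add (.add (.add (.add (.leaf (nat_lit 0) (nat_lit 0) (nat_lit 0)) (.add (.leaf (nat_lit 1) (nat_lit 0) (nat_lit 0)) (.leaf (nat_lit 2) (nat_lit 0) (nat_lit 0)))) (.add (.leaf (nat_lit 3) (nat_lit 0) (nat_lit 0)) (.add (.leaf (nat_lit 4) (nat_lit 0) (nat_lit 0)) (.leaf (nat_lit 5) (nat_lit 0) (nat_lit 0))))) (.add (.add (.leaf (nat_lit 6) (nat_lit 0) (nat_lit 0)) (.add (.leaf (nat_lit 7) (nat_lit 0) (nat_lit 0)) (.leaf (nat_lit 8) (nat_lit 0) (nat_lit 0)))) (.add (.add (.leaf (nat_lit 9) (nat_lit 0) (nat_lit 0)) (.leaf (nat_lit 10) (nat_lit 0) (nat_lit 0))) (.add (.leaf (nat_lit 11) (nat_lit 0) (nat_lit 0)) (.leaf (nat_lit 12) (nat_lit 0) (nat_lit 0)))))) (.add (.add (.add (.leaf (nat_lit 13) (nat_lit 0) (nat_lit 0)) (.add (.leaf (nat_lit 14) (nat_lit 0) (nat_lit 0)) (.leaf (nat_lit 15) (nat_lit 0) (nat_lit 0)))) (.add (.add (.leaf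 (nat_lit 16) (nat_lit 0) (nat_lit 0)) (.leaf (nat_lit 17) (nat_lit 0) (nat_lit 0))) (.add (.leaf (nat_lit 18) (nat_lit 0) (nat_lit 0)) (.leaf (nat_lit 19) (nat_lit 0) (nat_lit 0))))) (.add (.add (.leaf (nat_lit 20) (nat_lit 0) (nat_lit 0)) (.add (.leaf (nat_lit 21) (nat_lit 0) (nat_lit 0)) (.leaf (nat_lit 22) (nat_lit 0) (nat_lit 0)))) (.add (.add (.leaf (nat_lit 23) (nat_lit 0) (nat_lit 0)) (.leaf (nat_lit 24) (nat_lit 0) (nat_lit 0))) (.add (.leaf (nat_lit 25) (nat_lit 0) (nat_lit 0)) (.leaf (nat_lit 26) (nat_lit 0) (nat_lit 0))))))) (.add (.add (.add (.add (.leaf (nat_lit 27) (nat_lit 0) (nat_lit 0)) (.add (.leaf (nat_lit 28) (nat_lit 0) (nat_lit 0)) (.leaf (nat_lit 29) (nat_lit 0) (nat_lit 0)))) (.add (.leaf (nat_lit 30) (nat_lit 0) (nat_lit 0)) (.add (.leaf (nat_lit 31) (nat_lit 0) (nat_lit 0)) (.leaf (nat_lit 32) (nat_lit 0) (nat_lit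 0))))) (.add (.add (.leaf (nat_lit 33) (nat_lit 0) (nat_lit 0)) (.add (.leaf (nat_lit 34) (nat_lit 0) (nat_lit 0)) (.leaf (nat_lit 35) (nat_lit 0) (nat_lit 0)))) (.add (.add (.leaf (nat_lit 36) (nat_lit 0) (nat_lit 0)) (.leaf (nat_lit 37) (nat_lit 0) (nat_lit 0))) (.add (.leaf (nat_lit 38) (nat_lit 0) (nat_lit 0)) (.leaf (nat_lit 39) (nat_lit 0) (nat_lit 0)))))) (.add (.add (.add (.leaf (nat_lit 40) (nat_lit 0) (nat_lit 0)) (.add (.leaf (nat_lit 41) (nat_lit 0) (nat_lit 0)) (.leaf (nat_lit 42) (nat_lit 0) (nat_lit 0)))) (.add (.add (.leaf (nat_lit 43) (nat_lit 0) (nat_lit 0)) (.leaf (nat_lit 44) (nat_lit 0) (nat_lit 0))) (.add (.leaf (nat_lit 45) (nat_lit 0) (nat_lit 0)) (.leaf (nat_lit 46) (nat_lit 0) (nat_lit 0))))) (.add (.add (.leaf (nat_lit 47) (nat_lit 0) (nat_lit 0)) (.add (.leaf (nat_lit 48) (nat_lit 0) (nat_lit 0)) (.leaf (nat_lit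 49) (nat_lit 0) (nat_lit 0)))) (.add (.add (.leaf (nat_lit 50) (nat_lit 0) (nat_lit 0)) (.leaf (nat_lit 51) (nat_lit 0) (nat_lit 0))) (.add (.leaf (nat_lit 52) (nat_lit 0) (nat_lit 0)) (.leaf (nat_lit 53) (nat_lit 0) (nat_lit 0)))))))),
  (.add (.add (.add (.add (.add (.leaf (nat_lit 0) (nat_lit 0) (nat_lit 0)) (.add (.leaf (nat_lit 1) (nat_lit 0) (nat_lit 0)) (.leaf (nat_lit 2) (nat_lit 0) (nat_lit 0)))) (.add (.leaf (nat_lit 3) (nat_lit 0) (nat_lit 0)) (.add (.leaf (nat_lit 4) (nat_lit 0) (nat_lit 0)) (.leaf (nat_lit 5) (nat_lit 0) (nat_lit 0))))) (.add (.add (.leaf (nat_lit 6) (nat_lit 0) (nat_lit 0)) (.add (.leaf (nat_lit 7) (nat_lit 0) (nat_lit 0)) (.leaf (nat_lit 8) (nat_lit 0) (nat_lit 0)))) (.add (.add (.leaf (nat_lit 9) (nat_lit 0) (nat_lit 0)) (.leaf (nat_lit 10) (nat_lit 0) (nat_lit 0))) (.add (.leaf (nat_lit 11) (nat_lit 0)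 (nat_lit 0)) (.leaf (nat_lit 12) (nat_lit 0) (nat_lit 0)))))) (.add (.add (.add (.leaf (nat_lit 13) (nat_lit 0) (nat_lit 0)) (.add (.leaf (nat_lit 14) (nat_lit 0) (nat_lit 0)) (.leaf (nat_lit 15) (nat_lit 0) (nat_lit 0)))) (.add (.add (.leaf (nat_lit 16) (nat_lit 0) (nat_lit 0)) (.leaf (nat_lit 17) (nat_lit 0) (nat_lit 0))) (.add (.leaf (nat_lit 18) (nat_lit 0) (nat_lit 0)) (.leaf (nat_lit 19) (nat_lit 0) (nat_lit 0))))) (.add (.add (.leaf (nat_lit 20) (nat_lit 0) (nat_lit 0)) (.add (.leaf (nat_lit 21) (nat_lit 0) (nat_lit 0)) (.leaf (nat_lit 22) (nat_lit 0) (nat_lit 0)))) (.add (.add (.leaf (nat_lit 23) (nat_lit 0) (nat_lit 0)) (.leaf (nat_lit 24) (nat_lit 0) (nat_lit 0))) (.add (.leaf (nat_lit 25) (nat_lit 0) (nat_lit 0)) (.leaf (nat_lit 26) (nat_lit 0) (nat_lit 0))))))) (.add (.add (.add (.add (.leaf (nat_lit 27) (nat_lit 0) (nat_lit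 0)) (.add (.leaf (nat_lit 28) (nat_lit 0) (nat_lit 0)) (.leaf (nat_lit 29) (nat_lit 0) (nat_lit 0)))) (.add (.add (.leaf (nat_lit 30) (nat_lit 0) (nat_lit 0)) (.leaf (nat_lit 31) (nat_lit 0) (nat_lit 0))) (.add (.leaf (nat_lit 32) (nat_lit 0) (nat_lit 0)) (.leaf (nat_lit 33) (nat_lit 0) (nat_lit 0))))) (.add (.add (.leaf (nat_lit 34) (nat_lit 0) (nat_lit 0)) (.add (.leaf (nat_lit 35) (nat_lit 0) (nat_lit 0)) (.leaf (nat_lit 36) (nat_lit 0) (nat_lit 0)))) (.add (.add (.leaf (nat_lit 37) (nat_lit 0) (nat_lit 0)) (.leaf (nat_lit 38) (nat_lit 0) (nat_lit 0))) (.add (.leaf (nat_lit 39) (nat_lit 0) (nat_lit 0)) (.leaf (nat_lit 40) (nat_lit 0) (nat_lit 0)))))) (.add (.add (.add (.leaf (nat_lit 41) (nat_lit 0) (nat_lit 0)) (.add (.leaf (nat_lit 42) (nat_lit 0) (nat_lit 0)) (.leaf (nat_lit 43) (nat_lit 0) (nat_lit 0)))) (.add (.add (.leaf (nat_lit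 44) (nat_lit 0) (nat_lit 0)) (.leaf (nat_lit 45) (nat_lit 0) (nat_lit 0))) (.add (.leaf (nat_lit 46) (nat_lit 0) (nat_lit 0)) (.leaf (nat_lit 47) (nat_lit 0) (nat_lit 0))))) (.add (.add (.leaf (nat_lit 48) (nat_lit 0) (nat_lit 0)) (.add (.leaf (nat_lit 49) (nat_lit 0) (nat_lit 0)) (.leaf (nat_lit 50) (nat_lit 0) (nat_lit 0)))) (.add (.add (.leaf (nat_lit 51) (nat_lit 0) (nat_lit 0)) (.leaf (nat_lit 52) (nat_lit 0) (nat_lit 0))) (.add (.leaf (nat_lit 53) (nat_lit 0) (nat_lit 0)) (.leaf (nat_lit 54) (nat_lit 0) (nat_lit 0)))))))),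
  (.add (.add (.add (.add (.add (.leaf (nat_lit 0) (nat_lit 0) (nat_lit 0)) (.add (.leaf (nat_lit 1) (nat_lit 0) (nat_lit 0)) (.leaf (nat_lit 2) (nat_lit 0) (nat_lit 0)))) (.add (.add (.leaf (nat_lit 3) (nat_lit 0) (nat_lit 0)) (.leaf (nat_lit 4) (nat_lit 0) (nat_lit 0))) (.add (.leaf (nat_lit 5) (nat_lit 0) (nat_lit 0)) (.leaf (nat_lit 6) (nat_lit 0) (nat_lit 0))))) (.add (.add (.leaf (nat_lit 7) (nat_lit 0) (nat_lit 0)) (.add (.leaf (nat_lit 8) (nat_lit 0) (nat_lit 0)) (.leaf (nat_lit 9) (nat_lit 0) (nat_lit 0)))) (.add (.add (.leaf (nat_lit 10) (nat_lit 0) (nat_lit 0)) (.leaf (nat_lit 11) (nat_lit 0) (nat_lit 0))) (.add (.leaf (nat_lit 12) (nat_lit 0) (nat_lit 0)) (.leaf (nat_lit 13) (nat_lit 0) (nat_lit 0)))))) (.add (.add (.add (.leaf (nat_lit 14) (nat_lit 0) (nat_lit 0)) (.add (.leaf (nat_lit 15) (nat_lit 0) (nat_lit 0)) (.leaf (nat_lit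 16) (nat_lit 0) (nat_lit 0)))) (.add (.add (.leaf (nat_lit 17) (nat_lit 0) (nat_lit 0)) (.leaf (nat_lit 18) (nat_lit 0) (nat_lit 0))) (.add (.leaf (nat_lit 19) (nat_lit 0) (nat_lit 0)) (.leaf (nat_lit 20) (nat_lit 0) (nat_lit 0))))) (.add (.add (.leaf (nat_lit 21) (nat_lit 0) (nat_lit 0)) (.add (.leaf (nat_lit 22) (nat_lit 0) (nat_lit 0)) (.leaf (nat_lit 23) (nat_lit 0) (nat_lit 0)))) (.add (.add (.leaf (nat_lit 24) (nat_lit 0) (nat_lit 0)) (.leaf (nat_lit 25) (nat_lit 0) (nat_lit 0))) (.add (.leaf (nat_lit 26) (nat_lit 0) (nat_lit 0)) (.leaf (nat_lit 27) (nat_lit 0) (nat_lit 0))))))) (.add (.add (.add (.add (.leaf (nat_lit 28) (nat_lit 0) (nat_lit 0)) (.add (.leaf (nat_lit 29) (nat_lit 0) (nat_lit 0)) (.leaf (nat_lit 30) (nat_lit 0) (nat_lit 0)))) (.add (.add (.leaf (nat_lit 31) (nat_lit 0) (nat_lit 0)) (.leaf (nat_lit 32) (nat_lit 0)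 (nat_lit 0))) (.add (.leaf (nat_lit 33) (nat_lit 0) (nat_lit 0)) (.leaf (nat_lit 34) (nat_lit 0) (nat_lit 0))))) (.add (.add (.leaf (nat_lit 35) (nat_lit 0) (nat_lit 0)) (.add (.leaf (nat_lit 36) (nat_lit 0) (nat_lit 0)) (.leaf (nat_lit 37) (nat_lit 0) (nat_lit 0)))) (.add (.add (.leaf (nat_lit 38) (nat_lit 0) (nat_lit 0)) (.leaf (nat_lit 39) (nat_lit 0) (nat_lit 0))) (.add (.leaf (nat_lit 40) (nat_lit 0) (nat_lit 0)) (.leaf (nat_lit 41) (nat_lit 0) (nat_lit 0)))))) (.add (.add (.add (.leaf (nat_lit 42) (nat_lit 0) (nat_lit 0)) (.add (.leaf (nat_lit 43) (nat_lit 0) (nat_lit 0)) (.leaf (nat_lit 44) (nat_lit 0) (nat_lit 0)))) (.add (.add (.leaf (nat_lit 45) (nat_lit 0) (nat_lit 0)) (.leaf (nat_lit 46) (nat_lit 0) (nat_lit 0))) (.add (.leaf (nat_lit 47) (nat_lit 0) (nat_lit 0)) (.leaf (nat_lit 48) (nat_lit 0) (nat_lit 0))))) (.add (.add (.leaf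 (nat_lit 49) (nat_lit 0) (nat_lit 0)) (.add (.leaf (nat_lit 50) (nat_lit 0) (nat_lit 0)) (.leaf (nat_lit 51) (nat_lit 0) (nat_lit 0)))) (.add (.add (.leaf (nat_lit 52) (nat_lit 0) (nat_lit 0)) (.leaf (nat_lit 53) (nat_lit 0) (nat_lit 0))) (.add (.leaf (nat_lit 54) (nat_lit 0) (nat_lit 0)) (.leaf (nat_lit 55) (nat_lit 0) (nat_lit 0)))))))),
  (.add (.add (.add (.add (.add (.leaf (nat_lit 0) (nat_lit 0) (nat_lit 0)) (.add (.leaf (nat_lit 1) (nat_lit 0) (nat_lit 0)) (.leaf (nat_lit 2) (nat_lit 0) (nat_lit 0)))) (.add (.add (.leaf (nat_lit 3) (nat_lit 0) (nat_lit 0)) (.leaf (nat_lit 4) (nat_lit 0) (nat_lit 0))) (.add (.leaf (nat_lit 5) (nat_lit 0) (nat_lit 0)) (.leaf (nat_lit 6) (nat_lit 0) (nat_lit 0))))) (.add (.add (.leaf (nat_lit 7) (nat_lit 0) (nat_lit 0)) (.add (.leaf (nat_lit 8) (nat_lit 0) (nat_lit 0)) (.leaf (nat_lit 9) (nat_lit 0)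 (nat_lit 0)))) (.add (.add (.leaf (nat_lit 10) (nat_lit 0) (nat_lit 0)) (.leaf (nat_lit 11) (nat_lit 0) (nat_lit 0))) (.add (.leaf (nat_lit 12) (nat_lit 0) (nat_lit 0)) (.leaf (nat_lit 13) (nat_lit 0) (nat_lit 0)))))) (.add (.add (.add (.leaf (nat_lit 14) (nat_lit 0) (nat_lit 0)) (.add (.leaf (nat_lit 15) (nat_lit 0) (nat_lit 0)) (.leaf (nat_lit 16) (nat_lit 0) (nat_lit 0)))) (.add (.add (.leaf (nat_lit 17) (nat_lit 0) (nat_lit 0)) (.leaf (nat_lit 18) (nat_lit 0) (nat_lit 0))) (.add (.leaf (nat_lit 19) (nat_lit 0) (nat_lit 0)) (.leaf (nat_lit 20) (nat_lit 0) (nat_lit 0))))) (.add (.add (.leaf (nat_lit 21) (nat_lit 0) (nat_lit 0)) (.add (.leaf (nat_lit 22) (nat_lit 0) (nat_lit 0)) (.leaf (nat_lit 23) (nat_lit 0) (nat_lit 0)))) (.add (.add (.leaf (nat_lit 24) (nat_lit 0) (nat_lit 0)) (.leaf (nat_lit 25) (nat_lit 0) (nat_lit 0))) (.add (.leaf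 (nat_lit 26) (nat_lit 0) (nat_lit 0)) (.leaf (nat_lit 27) (nat_lit 0) (nat_lit 0))))))) (.add (.add (.add (.add (.leaf (nat_lit 28) (nat_lit 0) (nat_lit 0)) (.add (.leaf (nat_lit 29) (nat_lit 0) (nat_lit 0)) (.leaf (nat_lit 30) (nat_lit 0) (nat_lit 0)))) (.add (.add (.leaf (nat_lit 31) (nat_lit 0) (nat_lit 0)) (.leaf (nat_lit 32) (nat_lit 0) (nat_lit 0))) (.add (.leaf (nat_lit 33) (nat_lit 0) (nat_lit 0)) (.leaf (nat_lit 34) (nat_lit 0) (nat_lit 0))))) (.add (.add (.leaf (nat_lit 35) (nat_lit 0) (nat_lit 0)) (.add (.leaf (nat_lit 36) (nat_lit 0) (nat_lit 0)) (.leaf (nat_lit 37) (nat_lit 0) (nat_lit 0)))) (.add (.add (.leaf (nat_lit 38) (nat_lit 0) (nat_lit 0)) (.leaf (nat_lit 39) (nat_lit 0) (nat_lit 0))) (.add (.leaf (nat_lit 40) (nat_lit 0) (nat_lit 0)) (.leaf (nat_lit 41) (nat_lit 0) (nat_lit 0)))))) (.add (.add (.add (.leaf (nat_lit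 42) (nat_lit 0) (nat_lit 0)) (.add (.leaf (nat_lit 43) (nat_lit 0) (nat_lit 0)) (.leaf (nat_lit 44) (nat_lit 0) (nat_lit 0)))) (.add (.add (.leaf (nat_lit 45) (nat_lit 0) (nat_lit 0)) (.leaf (nat_lit 46) (nat_lit 0) (nat_lit 0))) (.add (.leaf (nat_lit 47) (nat_lit 0) (nat_lit 0)) (.leaf (nat_lit 48) (nat_lit 0) (nat_lit 0))))) (.add (.add (.add (.leaf (nat_lit 49) (nat_lit 0) (nat_lit 0)) (.leaf (nat_lit 50) (nat_lit 0) (nat_lit 0))) (.add (.leaf (nat_lit 51) (nat_lit 0) (nat_lit 0)) (.leaf (nat_lit 52) (nat_lit 0) (nat_lit 0)))) (.add (.add (.leaf (nat_lit 53) (nat_lit 0) (nat_lit 0)) (.leaf (nat_lit 54) (nat_lit 0) (nat_lit 0))) (.add (.leaf (nat_lit 55) (nat_lit 0) (nat_lit 0)) (.leaf (nat_lit 56) (nat_lit 0) (nat_lit 0)))))))),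
  (.add (.add (.add (.add (.add (.leaf (nat_lit 0) (nat_lit 0) (nat_lit 0)) (.add (.leaf (nat_lit 1) (nat_lit 0) (nat_lit 0)) (.leaf (nat_lit 2) (nat_lit 0) (nat_lit 0)))) (.add (.add (.leaf (nat_lit 3) (nat_lit 0) (nat_lit 0)) (.leaf (nat_lit 4) (nat_lit 0) (nat_lit 0))) (.add (.leaf (nat_lit 5) (nat_lit 0) (nat_lit 0)) (.leaf (nat_lit 6) (nat_lit 0) (nat_lit 0))))) (.add (.add (.leaf (nat_lit 7) (nat_lit 0) (nat_lit 0)) (.add (.leaf (nat_lit 8) (nat_lit 0) (nat_lit 0)) (.leaf (nat_lit 9) (nat_lit 0) (nat_lit 0)))) (.add (.add (.leaf (nat_lit 10) (nat_lit 0) (nat_lit 0)) (.leaf (nat_lit 11) (nat_lit 0) (nat_lit 0))) (.add (.leaf (nat_lit 12) (nat_lit 0) (nat_lit 0)) (.leaf (nat_lit 13) (nat_lit 0) (nat_lit 0)))))) (.add (.add (.add (.leaf (nat_lit 14) (nat_lit 0) (nat_lit 0)) (.add (.leaf (nat_lit 15) (nat_lit 0) (nat_lit 0)) (.leaf (nat_lit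 16) (nat_lit 0) (nat_lit 0)))) (.add (.add (.leaf (nat_lit 17) (nat_lit 0) (nat_lit 0)) (.leaf (nat_lit 18) (nat_lit 0) (nat_lit 0))) (.add (.leaf (nat_lit 19) (nat_lit 0) (nat_lit 0)) (.leaf (nat_lit 20) (nat_lit 0) (nat_lit 0))))) (.add (.add (.add (.leaf (nat_lit 21) (nat_lit 0) (nat_lit 0)) (.leaf (nat_lit 22) (nat_lit 0) (nat_lit 0))) (.add (.leaf (nat_lit 23) (nat_lit 0) (nat_lit 0)) (.leaf (nat_lit 24) (nat_lit 0) (nat_lit 0)))) (.add (.add (.leaf (nat_lit 25) (nat_lit 0) (nat_lit 0)) (.leaf (nat_lit 26) (nat_lit 0) (nat_lit 0))) (.add (.leaf (nat_lit 27) (nat_lit 0) (nat_lit 0)) (.leaf (nat_lit 28) (nat_lit 0) (nat_lit 0))))))) (.add (.add (.add (.add (.leaf (nat_lit 29) (nat_lit 0) (nat_lit 0)) (.add (.leaf (nat_lit 30) (nat_lit 0) (nat_lit 0)) (.leaf (nat_lit 31) (nat_lit 0) (nat_lit 0)))) (.add (.add (.leaf (nat_lit 32) (nat_lit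 0) (nat_lit 0)) (.leaf (nat_lit 33) (nat_lit 0) (nat_lit 0))) (.add (.leaf (nat_lit 34) (nat_lit 0) (nat_lit 0)) (.leaf (nat_lit 35) (nat_lit 0) (nat_lit 0))))) (.add (.add (.leaf (nat_lit 36) (nat_lit 0) (nat_lit 0)) (.add (.leaf (nat_lit 37) (nat_lit 0) (nat_lit 0)) (.leaf (nat_lit 38) (nat_lit 0) (nat_lit 0)))) (.add (.add (.leaf (nat_lit 39) (nat_lit 0) (nat_lit 0)) (.leaf (nat_lit 40) (nat_lit 0) (nat_lit 0))) (.add (.leaf (nat_lit 41) (nat_lit 0) (nat_lit 0)) (.leaf (nat_lit 42) (nat_lit 0) (nat_lit 0)))))) (.add (.add (.add (.leaf (nat_lit 43) (nat_lit 0) (nat_lit 0)) (.add (.leaf (nat_lit 44) (nat_lit 0) (nat_lit 0)) (.leaf (nat_lit 45) (nat_lit 0) (nat_lit 0)))) (.add (.add (.leaf (nat_lit 46) (nat_lit 0) (nat_lit 0)) (.leaf (nat_lit 47) (nat_lit 0) (nat_lit 0))) (.add (.leaf (nat_lit 48) (nat_lit 0) (nat_lit 0)) (.leaf (nat_lit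 49) (nat_lit 0) (nat_lit 0))))) (.add (.add (.add (.leaf (nat_lit 50) (nat_lit 0) (nat_lit 0)) (.leaf (nat_lit 51) (nat_lit 0) (nat_lit 0))) (.add (.leaf (nat_lit 52) (nat_lit 0) (nat_lit 0)) (.leaf (nat_lit 53) (nat_lit 0) (nat_lit 0)))) (.add (.add (.leaf (nat_lit 54) (nat_lit 0) (nat_lit 0)) (.leaf (nat_lit 55) (nat_lit 0) (nat_lit 0))) (.add (.leaf (nat_lit 56) (nat_lit 0) (nat_lit 0)) (.leaf (nat_lit 57) (nat_lit 0) (nat_lit 0)))))))),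
  (.add (.add (.add (.add (.add (.leaf (nat_lit 0) (nat_lit 0) (nat_lit 0)) (.add (.leaf (nat_lit 1) (nat_lit 0) (nat_lit 0)) (.leaf (nat_lit 2) (nat_lit 0) (nat_lit 0)))) (.add (.add (.leaf (nat_lit 3) (nat_lit 0) (nat_lit 0)) (.leaf (nat_lit 4) (nat_lit 0) (nat_lit 0))) (.add (.leaf (nat_lit 5) (nat_lit 0) (nat_lit 0)) (.leaf (nat_lit 6) (nat_lit 0) (nat_lit 0))))) (.add (.add (.leaf (nat_lit 7) (nat_lit 0) (nat_lit 0)) (.add (.leaf (nat_lit 8) (nat_lit 0) (nat_lit 0)) (.leaf (nat_lit 9) (nat_lit 0) (nat_lit 0)))) (.add (.add (.leaf (nat_lit 10) (nat_lit 0) (nat_lit 0)) (.leaf (nat_lit 11) (nat_lit 0) (nat_lit 0))) (.add (.leaf (nat_lit 12) (nat_lit 0) (nat_lit 0)) (.leaf (nat_lit 13) (nat_lit 0) (nat_lit 0)))))) (.add (.add (.add (.leaf (nat_lit 14) (nat_lit 0) (nat_lit 0)) (.add (.leaf (nat_lit 15) (nat_lit 0) (nat_lit 0)) (.leaf (nat_lit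 16) (nat_lit 0) (nat_lit 0)))) (.add (.add (.leaf (nat_lit 17) (nat_lit 0) (nat_lit 0)) (.leaf (nat_lit 18) (nat_lit 0) (nat_lit 0))) (.add (.leaf (nat_lit 19) (nat_lit 0) (nat_lit 0)) (.leaf (nat_lit 20) (nat_lit 0) (nat_lit 0))))) (.add (.add (.add (.leaf (nat_lit 21) (nat_lit 0) (nat_lit 0)) (.leaf (nat_lit 22) (nat_lit 0) (nat_lit 0))) (.add (.leaf (nat_lit 23) (nat_lit 0) (nat_lit 0)) (.leaf (nat_lit 24) (nat_lit 0) (nat_lit 0)))) (.add (.add (.leaf (nat_lit 25) (nat_lit 0) (nat_lit 0)) (.leaf (nat_lit 26) (nat_lit 0) (nat_lit 0))) (.add (.leaf (nat_lit 27) (nat_lit 0) (nat_lit 0)) (.leaf (nat_lit 28) (nat_lit 0) (nat_lit 0))))))) (.add (.add (.add (.add (.leaf (nat_lit 29) (nat_lit 0) (nat_lit 0)) (.add (.leaf (nat_lit 30) (nat_lit 0) (nat_lit 0)) (.leaf (nat_lit 31) (nat_lit 0) (nat_lit 0)))) (.add (.add (.leaf (nat_lit 32) (nat_lit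 0) (nat_lit 0)) (.leaf (nat_lit 33) (nat_lit 0) (nat_lit 0))) (.add (.leaf (nat_lit 34) (nat_lit 0) (nat_lit 0)) (.leaf (nat_lit 35) (nat_lit 0) (nat_lit 0))))) (.add (.add (.add (.leaf (nat_lit 36) (nat_lit 0) (nat_lit 0)) (.leaf (nat_lit 37) (nat_lit 0) (nat_lit 0))) (.add (.leaf (nat_lit 38) (nat_lit 0) (nat_lit 0)) (.leaf (nat_lit 39) (nat_lit 0) (nat_lit 0)))) (.add (.add (.leaf (nat_lit 40) (nat_lit 0) (nat_lit 0)) (.leaf (nat_lit 41) (nat_lit 0) (nat_lit 0))) (.add (.leaf (nat_lit 42) (nat_lit 0) (nat_lit 0)) (.leaf (nat_lit 43) (nat_lit 0) (nat_lit 0)))))) (.add (.add (.add (.leaf (nat_lit 44) (nat_lit 0) (nat_lit 0)) (.add (.leaf (nat_lit 45) (nat_lit 0) (nat_lit 0)) (.leaf (nat_lit 46) (nat_lit 0) (nat_lit 0)))) (.add (.add (.leaf (nat_lit 47) (nat_lit 0) (nat_lit 0)) (.leaf (nat_lit 48) (nat_lit 0) (nat_lit 0))) (.add (.leaf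 (nat_lit 49) (nat_lit 0) (nat_lit 0)) (.leaf (nat_lit 50) (nat_lit 0) (nat_lit 0))))) (.add (.add (.add (.leaf (nat_lit 51) (nat_lit 0) (nat_lit 0)) (.leaf (nat_lit 52) (nat_lit 0) (nat_lit 0))) (.add (.leaf (nat_lit 53) (nat_lit 0) (nat_lit 0)) (.leaf (nat_lit 54) (nat_lit 0) (nat_lit 0)))) (.add (.add (.leaf (nat_lit 55) (nat_lit 0) (nat_lit 0)) (.leaf (nat_lit 56) (nat_lit 0) (nat_lit 0))) (.add (.leaf (nat_lit 57) (nat_lit 0) (nat_lit 0)) (.leaf (nat_lit 58) (nat_lit 0) (nat_lit 0)))))))),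
  (.add (.add (.add (.add (.add (.leaf (nat_lit 0) (nat_lit 0) (nat_lit 0)) (.add (.leaf (nat_lit 1) (nat_lit 0) (nat_lit 0)) (.leaf (nat_lit 2) (nat_lit 0) (nat_lit 0)))) (.add (.add (.leaf (nat_lit 3) (nat_lit 0) (nat_lit 0)) (.leaf (nat_lit 4) (nat_lit 0) (nat_lit 0))) (.add (.leaf (nat_lit 5) (nat_lit 0) (nat_lit 0)) (.leaf (nat_lit 6) (nat_lit 0) (nat_lit 0))))) (.add (.add (.add (.leaf (nat_lit 7) (nat_lit 0) (nat_lit 0)) (.leaf (nat_lit 8) (nat_lit 0) (nat_lit 0))) (.add (.leaf (nat_lit 9) (nat_lit 0) (nat_lit 0)) (.leaf (nat_lit 10) (nat_lit 0) (nat_lit 0)))) (.add (.add (.leaf (nat_lit 11) (nat_lit 0) (nat_lit 0)) (.leaf (nat_lit 12) (nat_lit 0) (nat_lit 0))) (.add (.leaf (nat_lit 13) (nat_lit 0) (nat_lit 0)) (.leaf (nat_lit 14) (nat_lit 0) (nat_lit 0)))))) (.add (.add (.add (.leaf (nat_lit 15) (nat_lit 0) (nat_lit 0)) (.add (.leaf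 (nat_lit 16) (nat_lit 0) (nat_lit 0)) (.leaf (nat_lit 17) (nat_lit 0) (nat_lit 0)))) (.add (.add (.leaf (nat_lit 18) (nat_lit 0) (nat_lit 0)) (.leaf (nat_lit 19) (nat_lit 0) (nat_lit 0))) (.add (.leaf (nat_lit 20) (nat_lit 0) (nat_lit 0)) (.leaf (nat_lit 21) (nat_lit 0) (nat_lit 0))))) (.add (.add (.add (.leaf (nat_lit 22) (nat_lit 0) (nat_lit 0)) (.leaf (nat_lit 23) (nat_lit 0) (nat_lit 0))) (.add (.leaf (nat_lit 24) (nat_lit 0) (nat_lit 0)) (.leaf (nat_lit 25) (nat_lit 0) (nat_lit 0)))) (.add (.add (.leaf (nat_lit 26) (nat_lit 0) (nat_lit 0)) (.leaf (nat_lit 27) (nat_lit 0) (nat_lit 0))) (.add (.leaf (nat_lit 28) (nat_lit 0) (nat_lit 0)) (.leaf (nat_lit 29) (nat_lit 0) (nat_lit 0))))))) (.add (.add (.add (.add (.leaf (nat_lit 30) (nat_lit 0) (nat_lit 0)) (.add (.leaf (nat_lit 31) (nat_lit 0) (nat_lit 0)) (.leaf (nat_lit 32) (nat_lit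 0) (nat_lit 0)))) (.add (.add (.leaf (nat_lit 33) (nat_lit 0) (nat_lit 0)) (.leaf (nat_lit 34) (nat_lit 0) (nat_lit 0))) (.add (.leaf (nat_lit 35) (nat_lit 0) (nat_lit 0)) (.leaf (nat_lit 36) (nat_lit 0) (nat_lit 0))))) (.add (.add (.add (.leaf (nat_lit 37) (nat_lit 0) (nat_lit 0)) (.leaf (nat_lit 38) (nat_lit 0) (nat_lit 0))) (.add (.leaf (nat_lit 39) (nat_lit 0) (nat_lit 0)) (.leaf (nat_lit 40) (nat_lit 0) (nat_lit 0)))) (.add (.add (.leaf (nat_lit 41) (nat_lit 0) (nat_lit 0)) (.leaf (nat_lit 42) (nat_lit 0) (nat_lit 0))) (.add (.leaf (nat_lit 43) (nat_lit 0) (nat_lit 0)) (.leaf (nat_lit 44) (nat_lit 0) (nat_lit 0)))))) (.add (.add (.add (.leaf (nat_lit 45) (nat_lit 0) (nat_lit 0)) (.add (.leaf (nat_lit 46) (nat_lit 0) (nat_lit 0)) (.leaf (nat_lit 47) (nat_lit 0) (nat_lit 0)))) (.add (.add (.leaf (nat_lit 48) (nat_lit 0) (nat_lit 0))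 (.leaf (nat_lit 49) (nat_lit 0) (nat_lit 0))) (.add (.leaf (nat_lit 50) (nat_lit 0) (nat_lit 0)) (.leaf (nat_lit 51) (nat_lit 0) (nat_lit 0))))) (.add (.add (.add (.leaf (nat_lit 52) (nat_lit 0) (nat_lit 0)) (.leaf (nat_lit 53) (nat_lit 0) (nat_lit 0))) (.add (.leaf (nat_lit 54) (nat_lit 0) (nat_lit 0)) (.leaf (nat_lit 55) (nat_lit 0) (nat_lit 0)))) (.add (.add (.leaf (nat_lit 56) (nat_lit 0) (nat_lit 0)) (.leaf (nat_lit 57) (nat_lit 0) (nat_lit 0))) (.add (.leaf (nat_lit 58) (nat_lit 0) (nat_lit 0)) (.leaf (nat_lit 59) (nat_lit 0) (nat_lit 0)))))))),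
  (.add (.add (.add (.add (.add (.leaf (nat_lit 0) (nat_lit 0) (nat_lit 0)) (.add (.leaf (nat_lit 1) (nat_lit 0) (nat_lit 0)) (.leaf (nat_lit 2) (nat_lit 0) (nat_lit 0)))) (.add (.add (.leaf (nat_lit 3) (nat_lit 0) (nat_lit 0)) (.leaf (nat_lit 4) (nat_lit 0) (nat_lit 0))) (.add (.leaf (nat_lit 5) (nat_lit 0) (nat_lit 0)) (.leaf (nat_lit 6) (nat_lit 0) (nat_lit 0))))) (.add (.add (.add (.leaf (nat_lit 7) (nat_lit 0) (nat_lit 0)) (.leaf (nat_lit 8) (nat_lit 0) (nat_lit 0))) (.add (.leaf (nat_lit 9) (nat_lit 0) (nat_lit 0)) (.leaf (nat_lit 10) (nat_lit 0) (nat_lit 0)))) (.add (.add (.leaf (nat_lit 11) (nat_lit 0) (nat_lit 0)) (.leaf (nat_lit 12) (nat_lit 0) (nat_lit 0))) (.add (.leaf (nat_lit 13) (nat_lit 0) (nat_lit 0)) (.leaf (nat_lit 14) (nat_lit 0) (nat_lit 0)))))) (.add (.add (.add (.leaf (nat_lit 15) (nat_lit 0) (nat_lit 0)) (.add (.leaf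 (nat_lit 16) (nat_lit 0) (nat_lit 0)) (.leaf (nat_lit 17) (nat_lit 0) (nat_lit 0)))) (.add (.add (.leaf (nat_lit 18) (nat_lit 0) (nat_lit 0)) (.leaf (nat_lit 19) (nat_lit 0) (nat_lit 0))) (.add (.leaf (nat_lit 20) (nat_lit 0) (nat_lit 0)) (.leaf (nat_lit 21) (nat_lit 0) (nat_lit 0))))) (.add (.add (.add (.leaf (nat_lit 22) (nat_lit 0) (nat_lit 0)) (.leaf (nat_lit 23) (nat_lit 0) (nat_lit 0))) (.add (.leaf (nat_lit 24) (nat_lit 0) (nat_lit 0)) (.leaf (nat_lit 25) (nat_lit 0) (nat_lit 0)))) (.add (.add (.leaf (nat_lit 26) (nat_lit 0) (nat_lit 0)) (.leaf (nat_lit 27) (nat_lit 0) (nat_lit 0))) (.add (.leaf (nat_lit 28) (nat_lit 0) (nat_lit 0)) (.leaf (nat_lit 29) (nat_lit 0) (nat_lit 0))))))) (.add (.add (.add (.add (.leaf (nat_lit 30) (nat_lit 0) (nat_lit 0)) (.add (.leaf (nat_lit 31) (nat_lit 0) (nat_lit 0)) (.leaf (nat_lit 32) (nat_lit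 0) (nat_lit 0)))) (.add (.add (.leaf (nat_lit 33) (nat_lit 0) (nat_lit 0)) (.leaf (nat_lit 34) (nat_lit 0) (nat_lit 0))) (.add (.leaf (nat_lit 35) (nat_lit 0) (nat_lit 0)) (.leaf (nat_lit 36) (nat_lit 0) (nat_lit 0))))) (.add (.add (.add (.leaf (nat_lit 37) (nat_lit 0) (nat_lit 0)) (.leaf (nat_lit 38) (nat_lit 0) (nat_lit 0))) (.add (.leaf (nat_lit 39) (nat_lit 0) (nat_lit 0)) (.leaf (nat_lit 40) (nat_lit 0) (nat_lit 0)))) (.add (.add (.leaf (nat_lit 41) (nat_lit 0) (nat_lit 0)) (.leaf (nat_lit 42) (nat_lit 0) (nat_lit 0))) (.add (.leaf (nat_lit 43) (nat_lit 0) (nat_lit 0)) (.leaf (nat_lit 44) (nat_lit 0) (nat_lit 0)))))) (.add (.add (.add (.add (.leaf (nat_lit 45) (nat_lit 0) (nat_lit 0)) (.leaf (nat_lit 46) (nat_lit 0) (nat_lit 0))) (.add (.leaf (nat_lit 47) (nat_lit 0) (nat_lit 0)) (.leaf (nat_lit 48) (nat_lit 0) (nat_lit 0)))) (.add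 (.add (.leaf (nat_lit 49) (nat_lit 0) (nat_lit 0)) (.leaf (nat_lit 50) (nat_lit 0) (nat_lit 0))) (.add (.leaf (nat_lit 51) (nat_lit 0) (nat_lit 0)) (.leaf (nat_lit 52) (nat_lit 0) (nat_lit 0))))) (.add (.add (.add (.leaf (nat_lit 53) (nat_lit 0) (nat_lit 0)) (.leaf (nat_lit 54) (nat_lit 0) (nat_lit 0))) (.add (.leaf (nat_lit 55) (nat_lit 0) (nat_lit 0)) (.leaf (nat_lit 56) (nat_lit 0) (nat_lit 0)))) (.add (.add (.leaf (nat_lit 57) (nat_lit 0) (nat_lit 0)) (.leaf (nat_lit 58) (nat_lit 0) (nat_lit 0))) (.add (.leaf (nat_lit 59) (nat_lit 0) (nat_lit 0)) (.leaf (nat_lit 60) (nat_lit 0) (nat_lit 0)))))))),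
  (.add (.add (.add (.add (.add (.leaf (nat_lit 0) (nat_lit 0) (nat_lit 0)) (.add (.leaf (nat_lit 1) (nat_lit 0) (nat_lit 0)) (.leaf (nat_lit 2) (nat_lit 0) (nat_lit 0)))) (.add (.add (.leaf (nat_lit 3) (nat_lit 0) (nat_lit 0)) (.leaf (nat_lit 4) (nat_lit 0) (nat_lit 0))) (.add (.leaf (nat_lit 5) (nat_lit 0) (nat_lit 0)) (.leaf (nat_lit 6) (nat_lit 0) (nat_lit 0))))) (.add (.add (.add (.leaf (nat_lit 7) (nat_lit 0) (nat_lit 0)) (.leaf (nat_lit 8) (nat_lit 0) (nat_lit 0))) (.add (.leaf (nat_lit 9) (nat_lit 0) (nat_lit 0)) (.leaf (nat_lit 10) (nat_lit 0) (nat_lit 0)))) (.add (.add (.leaf (nat_lit 11) (nat_lit 0) (nat_lit 0)) (.leaf (nat_lit 12) (nat_lit 0) (nat_lit 0))) (.add (.leaf (nat_lit 13) (nat_lit 0) (nat_lit 0)) (.leaf (nat_lit 14) (nat_lit 0) (nat_lit 0)))))) (.add (.add (.add (.add (.leaf (nat_lit 15) (nat_lit 0) (nat_lit 0)) (.leaf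 (nat_lit 16) (nat_lit 0) (nat_lit 0))) (.add (.leaf (nat_lit 17) (nat_lit 0) (nat_lit 0)) (.leaf (nat_lit 18) (nat_lit 0) (nat_lit 0)))) (.add (.add (.leaf (nat_lit 19) (nat_lit 0) (nat_lit 0)) (.leaf (nat_lit 20) (nat_lit 0) (nat_lit 0))) (.add (.leaf (nat_lit 21) (nat_lit 0) (nat_lit 0)) (.leaf (nat_lit 22) (nat_lit 0) (nat_lit 0))))) (.add (.add (.add (.leaf (nat_lit 23) (nat_lit 0) (nat_lit 0)) (.leaf (nat_lit 24) (nat_lit 0) (nat_lit 0))) (.add (.leaf (nat_lit 25) (nat_lit 0) (nat_lit 0)) (.leaf (nat_lit 26) (nat_lit 0) (nat_lit 0)))) (.add (.add (.leaf (nat_lit 27) (nat_lit 0) (nat_lit 0)) (.leaf (nat_lit 28) (nat_lit 0) (nat_lit 0))) (.add (.leaf (nat_lit 29) (nat_lit 0) (nat_lit 0)) (.leaf (nat_lit 30) (nat_lit 0) (nat_lit 0))))))) (.add (.add (.add (.add (.leaf (nat_lit 31) (nat_lit 0) (nat_lit 0)) (.add (.leaf (nat_lit 32) (nat_lit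 0) (nat_lit 0)) (.leaf (nat_lit 33) (nat_lit 0) (nat_lit 0)))) (.add (.add (.leaf (nat_lit 34) (nat_lit 0) (nat_lit 0)) (.leaf (nat_lit 35) (nat_lit 0) (nat_lit 0))) (.add (.leaf (nat_lit 36) (nat_lit 0) (nat_lit 0)) (.leaf (nat_lit 37) (nat_lit 0) (nat_lit 0))))) (.add (.add (.add (.leaf (nat_lit 38) (nat_lit 0) (nat_lit 0)) (.leaf (nat_lit 39) (nat_lit 0) (nat_lit 0))) (.add (.leaf (nat_lit 40) (nat_lit 0) (nat_lit 0)) (.leaf (nat_lit 41) (nat_lit 0) (nat_lit 0)))) (.add (.add (.leaf (nat_lit 42) (nat_lit 0) (nat_lit 0)) (.leaf (nat_lit 43) (nat_lit 0) (nat_lit 0))) (.add (.leaf (nat_lit 44) (nat_lit 0) (nat_lit 0)) (.leaf (nat_lit 45) (nat_lit 0) (nat_lit 0)))))) (.add (.add (.add (.add (.leaf (nat_lit 46) (nat_lit 0) (nat_lit 0)) (.leaf (nat_lit 47) (nat_lit 0) (nat_lit 0))) (.add (.leaf (nat_lit 48) (nat_lit 0) (nat_lit 0)) (.leaf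 (nat_lit 49) (nat_lit 0) (nat_lit 0)))) (.add (.add (.leaf (nat_lit 50) (nat_lit 0) (nat_lit 0)) (.leaf (nat_lit 51) (nat_lit 0) (nat_lit 0))) (.add (.leaf (nat_lit 52) (nat_lit 0) (nat_lit 0)) (.leaf (nat_lit 53) (nat_lit 0) (nat_lit 0))))) (.add (.add (.add (.leaf (nat_lit 54) (nat_lit 0) (nat_lit 0)) (.leaf (nat_lit 55) (nat_lit 0) (nat_lit 0))) (.add (.leaf (nat_lit 56) (nat_lit 0) (nat_lit 0)) (.leaf (nat_lit 57) (nat_lit 0) (nat_lit 0)))) (.add (.add (.leaf (nat_lit 58) (nat_lit 0) (nat_lit 0)) (.leaf (nat_lit 59) (nat_lit 0) (nat_lit 0))) (.add (.leaf (nat_lit 60) (nat_lit 0) (nat_lit 0)) (.leaf (nat_lit 61) (nat_lit 0) (nat_lit 0)))))))),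
  (.add (.add (.add (.add (.add (.leaf (nat_lit 0) (nat_lit 0) (nat_lit 0)) (.add (.leaf (nat_lit 1) (nat_lit 0) (nat_lit 0)) (.leaf (nat_lit 2) (nat_lit 0) (nat_lit 0)))) (.add (.add (.leaf (nat_lit 3) (nat_lit 0) (nat_lit 0)) (.leaf (nat_lit 4) (nat_lit 0) (nat_lit 0))) (.add (.leaf (nat_lit 5) (nat_lit 0) (nat_lit 0)) (.leaf (nat_lit 6) (nat_lit 0) (nat_lit 0))))) (.add (.add (.add (.leaf (nat_lit 7) (nat_lit 0) (nat_lit 0)) (.leaf (nat_lit 8) (nat_lit 0) (nat_lit 0))) (.add (.leaf (nat_lit 9) (nat_lit 0) (nat_lit 0)) (.leaf (nat_lit 10) (nat_lit 0) (nat_lit 0)))) (.add (.add (.leaf (nat_lit 11) (nat_lit 0) (nat_lit 0)) (.leaf (nat_lit 12) (nat_lit 0) (nat_lit 0))) (.add (.leaf (nat_lit 13) (nat_lit 0) (nat_lit 0)) (.leaf (nat_lit 14) (nat_lit 0) (nat_lit 0)))))) (.add (.add (.add (.add (.leaf (nat_lit 15) (nat_lit 0) (nat_lit 0)) (.leaf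 (nat_lit 16) (nat_lit 0) (nat_lit 0))) (.add (.leaf (nat_lit 17) (nat_lit 0) (nat_lit 0)) (.leaf (nat_lit 18) (nat_lit 0) (nat_lit 0)))) (.add (.add (.leaf (nat_lit 19) (nat_lit 0) (nat_lit 0)) (.leaf (nat_lit 20) (nat_lit 0) (nat_lit 0))) (.add (.leaf (nat_lit 21) (nat_lit 0) (nat_lit 0)) (.leaf (nat_lit 22) (nat_lit 0) (nat_lit 0))))) (.add (.add (.add (.leaf (nat_lit 23) (nat_lit 0) (nat_lit 0)) (.leaf (nat_lit 24) (nat_lit 0) (nat_lit 0))) (.add (.leaf (nat_lit 25) (nat_lit 0) (nat_lit 0)) (.leaf (nat_lit 26) (nat_lit 0) (nat_lit 0)))) (.add (.add (.leaf (nat_lit 27) (nat_lit 0) (nat_lit 0)) (.leaf (nat_lit 28) (nat_lit 0) (nat_lit 0))) (.add (.leaf (nat_lit 29) (nat_lit 0) (nat_lit 0)) (.leaf (nat_lit 30) (nat_lit 0) (nat_lit 0))))))) (.add (.add (.add (.add (.add (.leaf (nat_lit 31) (nat_lit 0) (nat_lit 0)) (.leaf (nat_lit 32) (nat_lit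 0) (nat_lit 0))) (.add (.leaf (nat_lit 33) (nat_lit 0) (nat_lit 0)) (.leaf (nat_lit 34) (nat_lit 0) (nat_lit 0)))) (.add (.add (.leaf (nat_lit 35) (nat_lit 0) (nat_lit 0)) (.leaf (nat_lit 36) (nat_lit 0) (nat_lit 0))) (.add (.leaf (nat_lit 37) (nat_lit 0) (nat_lit 0)) (.leaf (nat_lit 38) (nat_lit 0) (nat_lit 0))))) (.add (.add (.add (.leaf (nat_lit 39) (nat_lit 0) (nat_lit 0)) (.leaf (nat_lit 40) (nat_lit 0) (nat_lit 0))) (.add (.leaf (nat_lit 41) (nat_lit 0) (nat_lit 0)) (.leaf (nat_lit 42) (nat_lit 0) (nat_lit 0)))) (.add (.add (.leaf (nat_lit 43) (nat_lit 0) (nat_lit 0)) (.leaf (nat_lit 44) (nat_lit 0) (nat_lit 0))) (.add (.leaf (nat_lit 45) (nat_lit 0) (nat_lit 0)) (.leaf (nat_lit 46) (nat_lit 0) (nat_lit 0)))))) (.add (.add (.add (.add (.leaf (nat_lit 47) (nat_lit 0) (nat_lit 0)) (.leaf (nat_lit 48) (nat_lit 0) (nat_lit 0))) (.add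 (.leaf (nat_lit 49) (nat_lit 0) (nat_lit 0)) (.leaf (nat_lit 50) (nat_lit 0) (nat_lit 0)))) (.add (.add (.leaf (nat_lit 51) (nat_lit 0) (nat_lit 0)) (.leaf (nat_lit 52) (nat_lit 0) (nat_lit 0))) (.add (.leaf (nat_lit 53) (nat_lit 0) (nat_lit 0)) (.leaf (nat_lit 54) (nat_lit 0) (nat_lit 0))))) (.add (.add (.add (.leaf (nat_lit 55) (nat_lit 0) (nat_lit 0)) (.leaf (nat_lit 56) (nat_lit 0) (nat_lit 0))) (.add (.leaf (nat_lit 57) (nat_lit 0) (nat_lit 0)) (.leaf (nat_lit 58) (nat_lit 0) (nat_lit 0)))) (.add (.add (.leaf (nat_lit 59) (nat_lit 0) (nat_lit 0)) (.leaf (nat_lit 60) (nat_lit 0) (nat_lit 0))) (.add (.leaf (nat_lit 61) (nat_lit 0) (nat_lit 0)) (.leaf (nat_lit 62) (nat_lit 0) (nat_lit 0)))))))),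
  (.add (.add (.add (.add (.add (.add (.leaf (nat_lit 0) (nat_lit 0) (nat_lit 0)) (.leaf (nat_lit 1) (nat_lit 0) (nat_lit 0))) (.add (.leaf (nat_lit 2) (nat_lit 0) (nat_lit 0)) (.leaf (nat_lit 3) (nat_lit 0) (nat_lit 0)))) (.add (.add (.leaf (nat_lit 4) (nat_lit 0) (nat_lit 0)) (.leaf (nat_lit 5) (nat_lit 0) (nat_lit 0))) (.add (.leaf (nat_lit 6) (nat_lit 0) (nat_lit 0)) (.leaf (nat_lit 7) (nat_lit 0) (nat_lit 0))))) (.add (.add (.add (.leaf (nat_lit 8) (nat_lit 0) (nat_lit 0)) (.leaf (nat_lit 9) (nat_lit 0) (nat_lit 0))) (.add (.leaf (nat_lit 10) (nat_lit 0) (nat_lit 0)) (.leaf (nat_lit 11) (nat_lit 0) (nat_lit 0)))) (.add (.add (.leaf (nat_lit 12) (nat_lit 0) (nat_lit 0)) (.leaf (nat_lit 13) (nat_lit 0) (nat_lit 0))) (.add (.leaf (nat_lit 14) (nat_lit 0) (nat_lit 0)) (.leaf (nat_lit 15) (nat_lit 0) (nat_lit 0)))))) (.add (.add (.add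 (.add (.leaf (nat_lit 16) (nat_lit 0) (nat_lit 0)) (.leaf (nat_lit 17) (nat_lit 0) (nat_lit 0))) (.add (.leaf (nat_lit 18) (nat_lit 0) (nat_lit 0)) (.leaf (nat_lit 19) (nat_lit 0) (nat_lit 0)))) (.add (.add (.leaf (nat_lit 20) (nat_lit 0) (nat_lit 0)) (.leaf (nat_lit 21) (nat_lit 0) (nat_lit 0))) (.add (.leaf (nat_lit 22) (nat_lit 0) (nat_lit 0)) (.leaf (nat_lit 23) (nat_lit 0) (nat_lit 0))))) (.add (.add (.add (.leaf (nat_lit 24) (nat_lit 0) (nat_lit 0)) (.leaf (nat_lit 25) (nat_lit 0) (nat_lit 0))) (.add (.leaf (nat_lit 26) (nat_lit 0) (nat_lit 0)) (.leaf (nat_lit 27) (nat_lit 0) (nat_lit 0)))) (.add (.add (.leaf (nat_lit 28) (nat_lit 0) (nat_lit 0)) (.leaf (nat_lit 29) (nat_lit 0) (nat_lit 0))) (.add (.leaf (nat_lit 30) (nat_lit 0) (nat_lit 0)) (.leaf (nat_lit 31) (nat_lit 0) (nat_lit 0))))))) (.add (.add (.add (.add (.add (.leaf (nat_lit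 32) (nat_lit 0) (nat_lit 0)) (.leaf (nat_lit 33) (nat_lit 0) (nat_lit 0))) (.add (.leaf (nat_lit 34) (nat_lit 0) (nat_lit 0)) (.leaf (nat_lit 35) (nat_lit 0) (nat_lit 0)))) (.add (.add (.leaf (nat_lit 36) (nat_lit 0) (nat_lit 0)) (.leaf (nat_lit 37) (nat_lit 0) (nat_lit 0))) (.add (.leaf (nat_lit 38) (nat_lit 0) (nat_lit 0)) (.leaf (nat_lit 39) (nat_lit 0) (nat_lit 0))))) (.add (.add (.add (.leaf (nat_lit 40) (nat_lit 0) (nat_lit 0)) (.leaf (nat_lit 41) (nat_lit 0) (nat_lit 0))) (.add (.leaf (nat_lit 42) (nat_lit 0) (nat_lit 0)) (.leaf (nat_lit 43) (nat_lit 0) (nat_lit 0)))) (.add (.add (.leaf (nat_lit 44) (nat_lit 0) (nat_lit 0)) (.leaf (nat_lit 45) (nat_lit 0) (nat_lit 0))) (.add (.leaf (nat_lit 46) (nat_lit 0) (nat_lit 0)) (.leaf (nat_lit 47) (nat_lit 0) (nat_lit 0)))))) (.add (.add (.add (.add (.leaf (nat_lit 48) (nat_lit 0) (nat_lit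 0)) (.leaf (nat_lit 49) (nat_lit 0) (nat_lit 0))) (.add (.leaf (nat_lit 50) (nat_lit 0) (nat_lit 0)) (.leaf (nat_lit 51) (nat_lit 0) (nat_lit 0)))) (.add (.add (.leaf (nat_lit 52) (nat_lit 0) (nat_lit 0)) (.leaf (nat_lit 53) (nat_lit 0) (nat_lit 0))) (.add (.leaf (nat_lit 54) (nat_lit 0) (nat_lit 0)) (.leaf (nat_lit 55) (nat_lit 0) (nat_lit 0))))) (.add (.add (.add (.leaf (nat_lit 56) (nat_lit 0) (nat_lit 0)) (.leaf (nat_lit 57) (nat_lit 0) (nat_lit 0))) (.add (.leaf (nat_lit 58) (nat_lit 0) (nat_lit 0)) (.leaf (nat_lit 59) (nat_lit 0) (nat_lit 0)))) (.add (.add (.leaf (nat_lit 60) (nat_lit 0) (nat_lit 0)) (.leaf (nat_lit 61) (nat_lit 0) (nat_lit 0))) (.add (.leaf (nat_lit 62) (nat_lit 0) (nat_lit 0)) (.leaf (nat_lit 63) (nat_lit 0) (nat_lit 0)))))))),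
  (.add (.add (.add (.add (.add (.add (.leaf (nat_lit 0) (nat_lit 0) (nat_lit 0)) (.leaf (nat_lit 1) (nat_lit 0) (nat_lit 0))) (.add (.leaf (nat_lit 2) (nat_lit 0) (nat_lit 0)) (.leaf (nat_lit 3) (nat_lit 0) (nat_lit 0)))) (.add (.add (.leaf (nat_lit 4) (nat_lit 0) (nat_lit 0)) (.leaf (nat_lit 5) (nat_lit 0) (nat_lit 0))) (.add (.leaf (nat_lit 6) (nat_lit 0) (nat_lit 0)) (.leaf (nat_lit 7) (nat_lit 0) (nat_lit 0))))) (.add (.add (.add (.leaf (nat_lit 8) (nat_lit 0) (nat_lit 0)) (.leaf (nat_lit 9) (nat_lit 0) (nat_lit 0))) (.add (.leaf (nat_lit 10) (nat_lit 0) (nat_lit 0)) (.leaf (nat_lit 11) (nat_lit 0) (nat_lit 0)))) (.add (.add (.leaf (nat_lit 12) (nat_lit 0) (nat_lit 0)) (.leaf (nat_lit 13) (nat_lit 0) (nat_lit 0))) (.add (.leaf (nat_lit 14) (nat_lit 0) (nat_lit 0)) (.leaf (nat_lit 15) (nat_lit 0) (nat_lit 0)))))) (.add (.add (.add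 (.add (.leaf (nat_lit 16) (nat_lit 0) (nat_lit 0)) (.leaf (nat_lit 17) (nat_lit 0) (nat_lit 0))) (.add (.leaf (nat_lit 18) (nat_lit 0) (nat_lit 0)) (.leaf (nat_lit 19) (nat_lit 0) (nat_lit 0)))) (.add (.add (.leaf (nat_lit 20) (nat_lit 0) (nat_lit 0)) (.leaf (nat_lit 21) (nat_lit 0) (nat_lit 0))) (.add (.leaf (nat_lit 22) (nat_lit 0) (nat_lit 0)) (.leaf (nat_lit 23) (nat_lit 0) (nat_lit 0))))) (.add (.add (.add (.leaf (nat_lit 24) (nat_lit 0) (nat_lit 0)) (.leaf (nat_lit 25) (nat_lit 0) (nat_lit 0))) (.add (.leaf (nat_lit 26) (nat_lit 0) (nat_lit 0)) (.leaf (nat_lit 27) (nat_lit 0) (nat_lit 0)))) (.add (.add (.leaf (nat_lit 28) (nat_lit 0) (nat_lit 0)) (.leaf (nat_lit 29) (nat_lit 0) (nat_lit 0))) (.add (.leaf (nat_lit 30) (nat_lit 0) (nat_lit 0)) (.leaf (nat_lit 31) (nat_lit 0) (nat_lit 0))))))) (.add (.add (.add (.add (.add (.leaf (nat_lit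 32) (nat_lit 0) (nat_lit 0)) (.leaf (nat_lit 33) (nat_lit 0) (nat_lit 0))) (.add (.leaf (nat_lit 34) (nat_lit 0) (nat_lit 0)) (.leaf (nat_lit 35) (nat_lit 0) (nat_lit 0)))) (.add (.add (.leaf (nat_lit 36) (nat_lit 0) (nat_lit 0)) (.leaf (nat_lit 37) (nat_lit 0) (nat_lit 0))) (.add (.leaf (nat_lit 38) (nat_lit 0) (nat_lit 0)) (.leaf (nat_lit 39) (nat_lit 0) (nat_lit 0))))) (.add (.add (.add (.leaf (nat_lit 40) (nat_lit 0) (nat_lit 0)) (.leaf (nat_lit 41) (nat_lit 0) (nat_lit 0))) (.add (.leaf (nat_lit 42) (nat_lit 0) (nat_lit 0)) (.leaf (nat_lit 43) (nat_lit 0) (nat_lit 0)))) (.add (.add (.leaf (nat_lit 44) (nat_lit 0) (nat_lit 0)) (.leaf (nat_lit 45) (nat_lit 0) (nat_lit 0))) (.add (.leaf (nat_lit 46) (nat_lit 0) (nat_lit 0)) (.leaf (nat_lit 47) (nat_lit 0) (nat_lit 0)))))) (.add (.add (.add (.add (.leaf (nat_lit 48) (nat_lit 0) (nat_lit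 0)) (.leaf (nat_lit 49) (nat_lit 0) (nat_lit 0))) (.add (.leaf (nat_lit 50) (nat_lit 0) (nat_lit 0)) (.leaf (nat_lit 51) (nat_lit 0) (nat_lit 0)))) (.add (.add (.leaf (nat_lit 52) (nat_lit 0) (nat_lit 0)) (.leaf (nat_lit 53) (nat_lit 0) (nat_lit 0))) (.add (.leaf (nat_lit 54) (nat_lit 0) (nat_lit 0)) (.leaf (nat_lit 55) (nat_lit 0) (nat_lit 0))))) (.add (.add (.add (.leaf (nat_lit 56) (nat_lit 0) (nat_lit 0)) (.leaf (nat_lit 57) (nat_lit 0) (nat_lit 0))) (.add (.leaf (nat_lit 58) (nat_lit 0) (nat_lit 0)) (.leaf (nat_lit 59) (nat_lit 0) (nat_lit 0)))) (.add (.add (.leaf (nat_lit 60) (nat_lit 0) (nat_lit 0)) (.leaf (nat_lit 61) (nat_lit 0) (nat_lit 0))) (.add (.leaf (nat_lit 62) (nat_lit 0) (nat_lit 0)) (.add (.leaf (nat_lit 63) (nat_lit 0) (nat_lit 0)) (.leaf (nat_lit 64) (nat_lit 0) (nat_lit 0))))))))),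
  (.add (.add (.add (.add (.add (.add (.leaf (nat_lit 0) (nat_lit 0) (nat_lit 0)) (.leaf (nat_lit 1) (nat_lit 0) (nat_lit 0))) (.add (.leaf (nat_lit 2) (nat_lit 0) (nat_lit 0)) (.leaf (nat_lit 3) (nat_lit 0) (nat_lit 0)))) (.add (.add (.leaf (nat_lit 4) (nat_lit 0) (nat_lit 0)) (.leaf (nat_lit 5) (nat_lit 0) (nat_lit 0))) (.add (.leaf (nat_lit 6) (nat_lit 0) (nat_lit 0)) (.leaf (nat_lit 7) (nat_lit 0) (nat_lit 0))))) (.add (.add (.add (.leaf (nat_lit 8) (nat_lit 0) (nat_lit 0)) (.leaf (nat_lit 9) (nat_lit 0) (nat_lit 0))) (.add (.leaf (nat_lit 10) (nat_lit 0) (nat_lit 0)) (.leaf (nat_lit 11) (nat_lit 0) (nat_lit 0)))) (.add (.add (.leaf (nat_lit 12) (nat_lit 0) (nat_lit 0)) (.leaf (nat_lit 13) (nat_lit 0) (nat_lit 0))) (.add (.leaf (nat_lit 14) (nat_lit 0) (nat_lit 0)) (.leaf (nat_lit 15) (nat_lit 0) (nat_lit 0)))))) (.add (.add (.add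 (.add (.leaf (nat_lit 16) (nat_lit 0) (nat_lit 0)) (.leaf (nat_lit 17) (nat_lit 0) (nat_lit 0))) (.add (.leaf (nat_lit 18) (nat_lit 0) (nat_lit 0)) (.leaf (nat_lit 19) (nat_lit 0) (nat_lit 0)))) (.add (.add (.leaf (nat_lit 20) (nat_lit 0) (nat_lit 0)) (.leaf (nat_lit 21) (nat_lit 0) (nat_lit 0))) (.add (.leaf (nat_lit 22) (nat_lit 0) (nat_lit 0)) (.leaf (nat_lit 23) (nat_lit 0) (nat_lit 0))))) (.add (.add (.add (.leaf (nat_lit 24) (nat_lit 0) (nat_lit 0)) (.leaf (nat_lit 25) (nat_lit 0) (nat_lit 0))) (.add (.leaf (nat_lit 26) (nat_lit 0) (nat_lit 0)) (.leaf (nat_lit 27) (nat_lit 0) (nat_lit 0)))) (.add (.add (.leaf (nat_lit 28) (nat_lit 0) (nat_lit 0)) (.leaf (nat_lit 29) (nat_lit 0) (nat_lit 0))) (.add (.leaf (nat_lit 30) (nat_lit 0) (nat_lit 0)) (.add (.leaf (nat_lit 31) (nat_lit 0) (nat_lit 0)) (.leaf (nat_lit 32) (nat_lit 0) (nat_lit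 0)))))))) (.add (.add (.add (.add (.add (.leaf (nat_lit 33) (nat_lit 0) (nat_lit 0)) (.leaf (nat_lit 34) (nat_lit 0) (nat_lit 0))) (.add (.leaf (nat_lit 35) (nat_lit 0) (nat_lit 0)) (.leaf (nat_lit 36) (nat_lit 0) (nat_lit 0)))) (.add (.add (.leaf (nat_lit 37) (nat_lit 0) (nat_lit 0)) (.leaf (nat_lit 38) (nat_lit 0) (nat_lit 0))) (.add (.leaf (nat_lit 39) (nat_lit 0) (nat_lit 0)) (.leaf (nat_lit 40) (nat_lit 0) (nat_lit 0))))) (.add (.add (.add (.leaf (nat_lit 41) (nat_lit 0) (nat_lit 0)) (.leaf (nat_lit 42) (nat_lit 0) (nat_lit 0))) (.add (.leaf (nat_lit 43) (nat_lit 0) (nat_lit 0)) (.leaf (nat_lit 44) (nat_lit 0) (nat_lit 0)))) (.add (.add (.leaf (nat_lit 45) (nat_lit 0) (nat_lit 0)) (.leaf (nat_lit 46) (nat_lit 0) (nat_lit 0))) (.add (.leaf (nat_lit 47) (nat_lit 0) (nat_lit 0)) (.leaf (nat_lit 48) (nat_lit 0) (nat_lit 0)))))) (.add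 (.add (.add (.add (.leaf (nat_lit 49) (nat_lit 0) (nat_lit 0)) (.leaf (nat_lit 50) (nat_lit 0) (nat_lit 0))) (.add (.leaf (nat_lit 51) (nat_lit 0) (nat_lit 0)) (.leaf (nat_lit 52) (nat_lit 0) (nat_lit 0)))) (.add (.add (.leaf (nat_lit 53) (nat_lit 0) (nat_lit 0)) (.leaf (nat_lit 54) (nat_lit 0) (nat_lit 0))) (.add (.leaf (nat_lit 55) (nat_lit 0) (nat_lit 0)) (.leaf (nat_lit 56) (nat_lit 0) (nat_lit 0))))) (.add (.add (.add (.leaf (nat_lit 57) (nat_lit 0) (nat_lit 0)) (.leaf (nat_lit 58) (nat_lit 0) (nat_lit 0))) (.add (.leaf (nat_lit 59) (nat_lit 0) (nat_lit 0)) (.leaf (nat_lit 60) (nat_lit 0) (nat_lit 0)))) (.add (.add (.leaf (nat_lit 61) (nat_lit 0) (nat_lit 0)) (.leaf (nat_lit 62) (nat_lit 0) (nat_lit 0))) (.add (.leaf (nat_lit 63) (nat_lit 0) (nat_lit 0)) (.add (.leaf (nat_lit 64) (nat_lit 0) (nat_lit 0)) (.leaf (nat_lit 65) (nat_lit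 0) (nat_lit 0))))))))),
  (.add (.add (.add (.add (.add (.add (.leaf (nat_lit 0) (nat_lit 0) (nat_lit 0)) (.leaf (nat_lit 1) (nat_lit 0) (nat_lit 0))) (.add (.leaf (nat_lit 2) (nat_lit 0) (nat_lit 0)) (.leaf (nat_lit 3) (nat_lit 0) (nat_lit 0)))) (.add (.add (.leaf (nat_lit 4) (nat_lit 0) (nat_lit 0)) (.leaf (nat_lit 5) (nat_lit 0) (nat_lit 0))) (.add (.leaf (nat_lit 6) (nat_lit 0) (nat_lit 0)) (.leaf (nat_lit 7) (nat_lit 0) (nat_lit 0))))) (.add (.add (.add (.leaf (nat_lit 8) (nat_lit 0) (nat_lit 0)) (.leaf (nat_lit 9) (nat_lit 0) (nat_lit 0))) (.add (.leaf (nat_lit 10) (nat_lit 0) (nat_lit 0)) (.leaf (nat_lit 11) (nat_lit 0) (nat_lit 0)))) (.add (.add (.leaf (nat_lit 12) (nat_lit 0) (nat_lit 0)) (.leaf (nat_lit 13) (nat_lit 0) (nat_lit 0))) (.add (.leaf (nat_lit 14) (nat_lit 0) (nat_lit 0)) (.leaf (nat_lit 15) (nat_lit 0) (nat_lit 0))))))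 (.add (.add (.add (.add (.leaf (nat_lit 16) (nat_lit 0) (nat_lit 0)) (.leaf (nat_lit 17) (nat_lit 0) (nat_lit 0))) (.add (.leaf (nat_lit 18) (nat_lit 0) (nat_lit 0)) (.leaf (nat_lit 19) (nat_lit 0) (nat_lit 0)))) (.add (.add (.leaf (nat_lit 20) (nat_lit 0) (nat_lit 0)) (.leaf (nat_lit 21) (nat_lit 0) (nat_lit 0))) (.add (.leaf (nat_lit 22) (nat_lit 0) (nat_lit 0)) (.leaf (nat_lit 23) (nat_lit 0) (nat_lit 0))))) (.add (.add (.add (.leaf (nat_lit 24) (nat_lit 0) (nat_lit 0)) (.leaf (nat_lit 25) (nat_lit 0) (nat_lit 0))) (.add (.leaf (nat_lit 26) (nat_lit 0) (nat_lit 0)) (.leaf (nat_lit 27) (nat_lit 0) (nat_lit 0)))) (.add (.add (.leaf (nat_lit 28) (nat_lit 0) (nat_lit 0)) (.leaf (nat_lit 29) (nat_lit 0) (nat_lit 0))) (.add (.leaf (nat_lit 30) (nat_lit 0) (nat_lit 0)) (.add (.leaf (nat_lit 31) (nat_lit 0) (nat_lit 0)) (.leaf (nat_lit 32)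 (nat_lit 0) (nat_lit 0)))))))) (.add (.add (.add (.add (.add (.leaf (nat_lit 33) (nat_lit 0) (nat_lit 0)) (.leaf (nat_lit 34) (nat_lit 0) (nat_lit 0))) (.add (.leaf (nat_lit 35) (nat_lit 0) (nat_lit 0)) (.leaf (nat_lit 36) (nat_lit 0) (nat_lit 0)))) (.add (.add (.leaf (nat_lit 37) (nat_lit 0) (nat_lit 0)) (.leaf (nat_lit 38) (nat_lit 0) (nat_lit 0))) (.add (.leaf (nat_lit 39) (nat_lit 0) (nat_lit 0)) (.leaf (nat_lit 40) (nat_lit 0) (nat_lit 0))))) (.add (.add (.add (.leaf (nat_lit 41) (nat_lit 0) (nat_lit 0)) (.leaf (nat_lit 42) (nat_lit 0) (nat_lit 0))) (.add (.leaf (nat_lit 43) (nat_lit 0) (nat_lit 0)) (.leaf (nat_lit 44) (nat_lit 0) (nat_lit 0)))) (.add (.add (.leaf (nat_lit 45) (nat_lit 0) (nat_lit 0)) (.leaf (nat_lit 46) (nat_lit 0) (nat_lit 0))) (.add (.leaf (nat_lit 47) (nat_lit 0) (nat_lit 0)) (.add (.leaf (nat_lit 48) (nat_lit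 0) (nat_lit 0)) (.leaf (nat_lit 49) (nat_lit 0) (nat_lit 0))))))) (.add (.add (.add (.add (.leaf (nat_lit 50) (nat_lit 0) (nat_lit 0)) (.leaf (nat_lit 51) (nat_lit 0) (nat_lit 0))) (.add (.leaf (nat_lit 52) (nat_lit 0) (nat_lit 0)) (.leaf (nat_lit 53) (nat_lit 0) (nat_lit 0)))) (.add (.add (.leaf (nat_lit 54) (nat_lit 0) (nat_lit 0)) (.leaf (nat_lit 55) (nat_lit 0) (nat_lit 0))) (.add (.leaf (nat_lit 56) (nat_lit 0) (nat_lit 0)) (.leaf (nat_lit 57) (nat_lit 0) (nat_lit 0))))) (.add (.add (.add (.leaf (nat_lit 58) (nat_lit 0) (nat_lit 0)) (.leaf (nat_lit 59) (nat_lit 0) (nat_lit 0))) (.add (.leaf (nat_lit 60) (nat_lit 0) (nat_lit 0)) (.leaf (nat_lit 61) (nat_lit 0) (nat_lit 0)))) (.add (.add (.leaf (nat_lit 62) (nat_lit 0) (nat_lit 0)) (.leaf (nat_lit 63) (nat_lit 0) (nat_lit 0))) (.add (.leaf (nat_lit 64) (nat_lit 0) (nat_lit 0)) (.add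 (.leaf (nat_lit 65) (nat_lit 0) (nat_lit 0)) (.leaf (nat_lit 66) (nat_lit 0) (nat_lit 0))))))))),
  (.add (.add (.add (.add (.add (.add (.leaf (nat_lit 0) (nat_lit 0) (nat_lit 0)) (.leaf (nat_lit 1) (nat_lit 0) (nat_lit 0))) (.add (.leaf (nat_lit 2) (nat_lit 0) (nat_lit 0)) (.leaf (nat_lit 3) (nat_lit 0) (nat_lit 0)))) (.add (.add (.leaf (nat_lit 4) (nat_lit 0) (nat_lit 0)) (.leaf (nat_lit 5) (nat_lit 0) (nat_lit 0))) (.add (.leaf (nat_lit 6) (nat_lit 0) (nat_lit 0)) (.leaf (nat_lit 7) (nat_lit 0) (nat_lit 0))))) (.add (.add (.add (.leaf (nat_lit 8) (nat_lit 0) (nat_lit 0)) (.leaf (nat_lit 9) (nat_lit 0) (nat_lit 0))) (.add (.leaf (nat_lit 10) (nat_lit 0) (nat_lit 0)) (.leaf (nat_lit 11) (nat_lit 0) (nat_lit 0)))) (.add (.add (.leaf (nat_lit 12) (nat_lit 0) (nat_lit 0)) (.leaf (nat_lit 13) (nat_lit 0) (nat_lit 0))) (.add (.leaf (nat_lit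 14) (nat_lit 0) (nat_lit 0)) (.add (.leaf (nat_lit 15) (nat_lit 0) (nat_lit 0)) (.leaf (nat_lit 16) (nat_lit 0) (nat_lit 0))))))) (.add (.add (.add (.add (.leaf (nat_lit 17) (nat_lit 0) (nat_lit 0)) (.leaf (nat_lit 18) (nat_lit 0) (nat_lit 0))) (.add (.leaf (nat_lit 19) (nat_lit 0) (nat_lit 0)) (.leaf (nat_lit 20) (nat_lit 0) (nat_lit 0)))) (.add (.add (.leaf (nat_lit 21) (nat_lit 0) (nat_lit 0)) (.leaf (nat_lit 22) (nat_lit 0) (nat_lit 0))) (.add (.leaf (nat_lit 23) (nat_lit 0) (nat_lit 0)) (.leaf (nat_lit 24) (nat_lit 0) (nat_lit 0))))) (.add (.add (.add (.leaf (nat_lit 25) (nat_lit 0) (nat_lit 0)) (.leaf (nat_lit 26) (nat_lit 0) (nat_lit 0))) (.add (.leaf (nat_lit 27) (nat_lit 0) (nat_lit 0)) (.leaf (nat_lit 28) (nat_lit 0) (nat_lit 0)))) (.add (.add (.leaf (nat_lit 29) (nat_lit 0) (nat_lit 0)) (.leaf (nat_lit 30) (nat_lit 0) (nat_lit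 0))) (.add (.leaf (nat_lit 31) (nat_lit 0) (nat_lit 0)) (.add (.leaf (nat_lit 32) (nat_lit 0) (nat_lit 0)) (.leaf (nat_lit 33) (nat_lit 0) (nat_lit 0)))))))) (.add (.add (.add (.add (.add (.leaf (nat_lit 34) (nat_lit 0) (nat_lit 0)) (.leaf (nat_lit 35) (nat_lit 0) (nat_lit 0))) (.add (.leaf (nat_lit 36) (nat_lit 0) (nat_lit 0)) (.leaf (nat_lit 37) (nat_lit 0) (nat_lit 0)))) (.add (.add (.leaf (nat_lit 38) (nat_lit 0) (nat_lit 0)) (.leaf (nat_lit 39) (nat_lit 0) (nat_lit 0))) (.add (.leaf (nat_lit 40) (nat_lit 0) (nat_lit 0)) (.leaf (nat_lit 41) (nat_lit 0) (nat_lit 0))))) (.add (.add (.add (.leaf (nat_lit 42) (nat_lit 0) (nat_lit 0)) (.leaf (nat_lit 43) (nat_lit 0) (nat_lit 0))) (.add (.leaf (nat_lit 44) (nat_lit 0) (nat_lit 0)) (.leaf (nat_lit 45) (nat_lit 0) (nat_lit 0)))) (.add (.add (.leaf (nat_lit 46) (nat_lit 0) (nat_lit 0)) (.leaf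 (nat_lit 47) (nat_lit 0) (nat_lit 0))) (.add (.leaf (nat_lit 48) (nat_lit 0) (nat_lit 0)) (.add (.leaf (nat_lit 49) (nat_lit 0) (nat_lit 0)) (.leaf (nat_lit 50) (nat_lit 0) (nat_lit 0))))))) (.add (.add (.add (.add (.leaf (nat_lit 51) (nat_lit 0) (nat_lit 0)) (.leaf (nat_lit 52) (nat_lit 0) (nat_lit 0))) (.add (.leaf (nat_lit 53) (nat_lit 0) (nat_lit 0)) (.leaf (nat_lit 54) (nat_lit 0) (nat_lit 0)))) (.add (.add (.leaf (nat_lit 55) (nat_lit 0) (nat_lit 0)) (.leaf (nat_lit 56) (nat_lit 0) (nat_lit 0))) (.add (.leaf (nat_lit 57) (nat_lit 0) (nat_lit 0)) (.leaf (nat_lit 58) (nat_lit 0) (nat_lit 0))))) (.add (.add (.add (.leaf (nat_lit 59) (nat_lit 0) (nat_lit 0)) (.leaf (nat_lit 60) (nat_lit 0) (nat_lit 0))) (.add (.leaf (nat_lit 61) (nat_lit 0) (nat_lit 0)) (.leaf (nat_lit 62) (nat_lit 0) (nat_lit 0)))) (.add (.add (.leaf (nat_lit 63) (nat_lit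 0) (nat_lit 0)) (.leaf (nat_lit 64) (nat_lit 0) (nat_lit 0))) (.add (.leaf (nat_lit 65) (nat_lit 0) (nat_lit 0)) (.add (.leaf (nat_lit 66) (nat_lit 0) (nat_lit 0)) (.leaf (nat_lit 67) (nat_lit 0) (nat_lit 0))))))))),
  (.add (.add (.add (.add (.add (.add (.leaf (nat_lit 0) (nat_lit 0) (nat_lit 0)) (.leaf (nat_lit 1) (nat_lit 0) (nat_lit 0))) (.add (.leaf (nat_lit 2) (nat_lit 0) (nat_lit 0)) (.leaf (nat_lit 3) (nat_lit 0) (nat_lit 0)))) (.add (.add (.leaf (nat_lit 4) (nat_lit 0) (nat_lit 0)) (.leaf (nat_lit 5) (nat_lit 0) (nat_lit 0))) (.add (.leaf (nat_lit 6) (nat_lit 0) (nat_lit 0)) (.leaf (nat_lit 7) (nat_lit 0) (nat_lit 0))))) (.add (.add (.add (.leaf (nat_lit 8) (nat_lit 0) (nat_lit 0)) (.leaf (nat_lit 9) (nat_lit 0) (nat_lit 0))) (.add (.leaf (nat_lit 10) (nat_lit 0) (nat_lit 0)) (.leaf (nat_lit 11) (nat_lit 0) (nat_lit 0)))) (.add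 (.add (.leaf (nat_lit 12) (nat_lit 0) (nat_lit 0)) (.leaf (nat_lit 13) (nat_lit 0) (nat_lit 0))) (.add (.leaf (nat_lit 14) (nat_lit 0) (nat_lit 0)) (.add (.leaf (nat_lit 15) (nat_lit 0) (nat_lit 0)) (.leaf (nat_lit 16) (nat_lit 0) (nat_lit 0))))))) (.add (.add (.add (.add (.leaf (nat_lit 17) (nat_lit 0) (nat_lit 0)) (.leaf (nat_lit 18) (nat_lit 0) (nat_lit 0))) (.add (.leaf (nat_lit 19) (nat_lit 0) (nat_lit 0)) (.leaf (nat_lit 20) (nat_lit 0) (nat_lit 0)))) (.add (.add (.leaf (nat_lit 21) (nat_lit 0) (nat_lit 0)) (.leaf (nat_lit 22) (nat_lit 0) (nat_lit 0))) (.add (.leaf (nat_lit 23) (nat_lit 0) (nat_lit 0)) (.leaf (nat_lit 24) (nat_lit 0) (nat_lit 0))))) (.add (.add (.add (.leaf (nat_lit 25) (nat_lit 0) (nat_lit 0)) (.leaf (nat_lit 26) (nat_lit 0) (nat_lit 0))) (.add (.leaf (nat_lit 27) (nat_lit 0) (nat_lit 0)) (.leaf (nat_lit 28) (nat_lit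 0) (nat_lit 0)))) (.add (.add (.leaf (nat_lit 29) (nat_lit 0) (nat_lit 0)) (.leaf (nat_lit 30) (nat_lit 0) (nat_lit 0))) (.add (.leaf (nat_lit 31) (nat_lit 0) (nat_lit 0)) (.add (.leaf (nat_lit 32) (nat_lit 0) (nat_lit 0)) (.leaf (nat_lit 33) (nat_lit 0) (nat_lit 0)))))))) (.add (.add (.add (.add (.add (.leaf (nat_lit 34) (nat_lit 0) (nat_lit 0)) (.leaf (nat_lit 35) (nat_lit 0) (nat_lit 0))) (.add (.leaf (nat_lit 36) (nat_lit 0) (nat_lit 0)) (.leaf (nat_lit 37) (nat_lit 0) (nat_lit 0)))) (.add (.add (.leaf (nat_lit 38) (nat_lit 0) (nat_lit 0)) (.leaf (nat_lit 39) (nat_lit 0) (nat_lit 0))) (.add (.leaf (nat_lit 40) (nat_lit 0) (nat_lit 0)) (.leaf (nat_lit 41) (nat_lit 0) (nat_lit 0))))) (.add (.add (.add (.leaf (nat_lit 42) (nat_lit 0) (nat_lit 0)) (.leaf (nat_lit 43) (nat_lit 0) (nat_lit 0))) (.add (.leaf (nat_lit 44) (nat_lit 0) (nat_lit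 0)) (.leaf (nat_lit 45) (nat_lit 0) (nat_lit 0)))) (.add (.add (.leaf (nat_lit 46) (nat_lit 0) (nat_lit 0)) (.leaf (nat_lit 47) (nat_lit 0) (nat_lit 0))) (.add (.leaf (nat_lit 48) (nat_lit 0) (nat_lit 0)) (.add (.leaf (nat_lit 49) (nat_lit 0) (nat_lit 0)) (.leaf (nat_lit 50) (nat_lit 0) (nat_lit 0))))))) (.add (.add (.add (.add (.leaf (nat_lit 51) (nat_lit 0) (nat_lit 0)) (.leaf (nat_lit 52) (nat_lit 0) (nat_lit 0))) (.add (.leaf (nat_lit 53) (nat_lit 0) (nat_lit 0)) (.leaf (nat_lit 54) (nat_lit 0) (nat_lit 0)))) (.add (.add (.leaf (nat_lit 55) (nat_lit 0) (nat_lit 0)) (.leaf (nat_lit 56) (nat_lit 0) (nat_lit 0))) (.add (.leaf (nat_lit 57) (nat_lit 0) (nat_lit 0)) (.add (.leaf (nat_lit 58) (nat_lit 0) (nat_lit 0)) (.leaf (nat_lit 59) (nat_lit 0) (nat_lit 0)))))) (.add (.add (.add (.leaf (nat_lit 60) (nat_lit 0) (nat_lit 0)) (.leaf (nat_lit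 61) (nat_lit 0) (nat_lit 0))) (.add (.leaf (nat_lit 62) (nat_lit 0) (nat_lit 0)) (.leaf (nat_lit 63) (nat_lit 0) (nat_lit 0)))) (.add (.add (.leaf (nat_lit 64) (nat_lit 0) (nat_lit 0)) (.leaf (nat_lit 65) (nat_lit 0) (nat_lit 0))) (.add (.leaf (nat_lit 66) (nat_lit 0) (nat_lit 0)) (.add (.leaf (nat_lit 67) (nat_lit 0) (nat_lit 0)) (.leaf (nat_lit 68) (nat_lit 0) (nat_lit 0))))))))),
  (.add (.add (.add (.add (.add (.add (.leaf (nat_lit 0) (nat_lit 0) (nat_lit 0)) (.leaf (nat_lit 1) (nat_lit 0) (nat_lit 0))) (.add (.leaf (nat_lit 2) (nat_lit 0) (nat_lit 0)) (.leaf (nat_lit 3) (nat_lit 0) (nat_lit 0)))) (.add (.add (.leaf (nat_lit 4) (nat_lit 0) (nat_lit 0)) (.leaf (nat_lit 5) (nat_lit 0) (nat_lit 0))) (.add (.leaf (nat_lit 6) (nat_lit 0) (nat_lit 0)) (.leaf (nat_lit 7) (nat_lit 0) (nat_lit 0))))) (.add (.add (.add (.leaf (nat_lit 8) (nat_lit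 0) (nat_lit 0)) (.leaf (nat_lit 9) (nat_lit 0) (nat_lit 0))) (.add (.leaf (nat_lit 10) (nat_lit 0) (nat_lit 0)) (.leaf (nat_lit 11) (nat_lit 0) (nat_lit 0)))) (.add (.add (.leaf (nat_lit 12) (nat_lit 0) (nat_lit 0)) (.leaf (nat_lit 13) (nat_lit 0) (nat_lit 0))) (.add (.leaf (nat_lit 14) (nat_lit 0) (nat_lit 0)) (.add (.leaf (nat_lit 15) (nat_lit 0) (nat_lit 0)) (.leaf (nat_lit 16) (nat_lit 0) (nat_lit 0))))))) (.add (.add (.add (.add (.leaf (nat_lit 17) (nat_lit 0) (nat_lit 0)) (.leaf (nat_lit 18) (nat_lit 0) (nat_lit 0))) (.add (.leaf (nat_lit 19) (nat_lit 0) (nat_lit 0)) (.leaf (nat_lit 20) (nat_lit 0) (nat_lit 0)))) (.add (.add (.leaf (nat_lit 21) (nat_lit 0) (nat_lit 0)) (.leaf (nat_lit 22) (nat_lit 0) (nat_lit 0))) (.add (.leaf (nat_lit 23) (nat_lit 0) (nat_lit 0)) (.add (.leaf (nat_lit 24) (nat_lit 0) (nat_lit 0)) (.leaf (nat_lit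 25) (nat_lit 0) (nat_lit 0)))))) (.add (.add (.add (.leaf (nat_lit 26) (nat_lit 0) (nat_lit 0)) (.leaf (nat_lit 27) (nat_lit 0) (nat_lit 0))) (.add (.leaf (nat_lit 28) (nat_lit 0) (nat_lit 0)) (.leaf (nat_lit 29) (nat_lit 0) (nat_lit 0)))) (.add (.add (.leaf (nat_lit 30) (nat_lit 0) (nat_lit 0)) (.leaf (nat_lit 31) (nat_lit 0) (nat_lit 0))) (.add (.leaf (nat_lit 32) (nat_lit 0) (nat_lit 0)) (.add (.leaf (nat_lit 33) (nat_lit 0) (nat_lit 0)) (.leaf (nat_lit 34) (nat_lit 0) (nat_lit 0)))))))) (.add (.add (.add (.add (.add (.leaf (nat_lit 35) (nat_lit 0) (nat_lit 0)) (.leaf (nat_lit 36) (nat_lit 0) (nat_lit 0))) (.add (.leaf (nat_lit 37) (nat_lit 0) (nat_lit 0)) (.leaf (nat_lit 38) (nat_lit 0) (nat_lit 0)))) (.add (.add (.leaf (nat_lit 39) (nat_lit 0) (nat_lit 0)) (.leaf (nat_lit 40) (nat_lit 0) (nat_lit 0))) (.add (.leaf (nat_lit 41) (nat_lit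 0) (nat_lit 0)) (.leaf (nat_lit 42) (nat_lit 0) (nat_lit 0))))) (.add (.add (.add (.leaf (nat_lit 43) (nat_lit 0) (nat_lit 0)) (.leaf (nat_lit 44) (nat_lit 0) (nat_lit 0))) (.add (.leaf (nat_lit 45) (nat_lit 0) (nat_lit 0)) (.leaf (nat_lit 46) (nat_lit 0) (nat_lit 0)))) (.add (.add (.leaf (nat_lit 47) (nat_lit 0) (nat_lit 0)) (.leaf (nat_lit 48) (nat_lit 0) (nat_lit 0))) (.add (.leaf (nat_lit 49) (nat_lit 0) (nat_lit 0)) (.add (.leaf (nat_lit 50) (nat_lit 0) (nat_lit 0)) (.leaf (nat_lit 51) (nat_lit 0) (nat_lit 0))))))) (.add (.add (.add (.add (.leaf (nat_lit 52) (nat_lit 0) (nat_lit 0)) (.leaf (nat_lit 53) (nat_lit 0) (nat_lit 0))) (.add (.leaf (nat_lit 54) (nat_lit 0) (nat_lit 0)) (.leaf (nat_lit 55) (nat_lit 0) (nat_lit 0)))) (.add (.add (.leaf (nat_lit 56) (nat_lit 0) (nat_lit 0)) (.leaf (nat_lit 57) (nat_lit 0) (nat_lit 0))) (.add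 (.leaf (nat_lit 58) (nat_lit 0) (nat_lit 0)) (.add (.leaf (nat_lit 59) (nat_lit 0) (nat_lit 0)) (.leaf (nat_lit 60) (nat_lit 0) (nat_lit 0)))))) (.add (.add (.add (.leaf (nat_lit 61) (nat_lit 0) (nat_lit 0)) (.leaf (nat_lit 62) (nat_lit 0) (nat_lit 0))) (.add (.leaf (nat_lit 63) (nat_lit 0) (nat_lit 0)) (.leaf (nat_lit 64) (nat_lit 0) (nat_lit 0)))) (.add (.add (.leaf (nat_lit 65) (nat_lit 0) (nat_lit 0)) (.leaf (nat_lit 66) (nat_lit 0) (nat_lit 0))) (.add (.leaf (nat_lit 67) (nat_lit 0) (nat_lit 0)) (.add (.leaf (nat_lit 68) (nat_lit 0) (nat_lit 0)) (.leaf (nat_lit 69) (nat_lit 0) (nat_lit 0))))))))),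
  (.add (.add (.add (.add (.add (.add (.leaf (nat_lit 0) (nat_lit 0) (nat_lit 0)) (.leaf (nat_lit 1) (nat_lit 0) (nat_lit 0))) (.add (.leaf (nat_lit 2) (nat_lit 0) (nat_lit 0)) (.leaf (nat_lit 3) (nat_lit 0) (nat_lit 0)))) (.add (.add (.leaf (nat_lit 4) (nat_lit 0) (nat_lit 0)) (.leaf (nat_lit 5) (nat_lit 0) (nat_lit 0))) (.add (.leaf (nat_lit 6) (nat_lit 0) (nat_lit 0)) (.leaf (nat_lit 7) (nat_lit 0) (nat_lit 0))))) (.add (.add (.add (.leaf (nat_lit 8) (nat_lit 0) (nat_lit 0)) (.leaf (nat_lit 9) (nat_lit 0) (nat_lit 0))) (.add (.leaf (nat_lit 10) (nat_lit 0) (nat_lit 0)) (.leaf (nat_lit 11) (nat_lit 0) (nat_lit 0)))) (.add (.add (.leaf (nat_lit 12) (nat_lit 0) (nat_lit 0)) (.leaf (nat_lit 13) (nat_lit 0) (nat_lit 0))) (.add (.leaf (nat_lit 14) (nat_lit 0) (nat_lit 0)) (.add (.leaf (nat_lit 15) (nat_lit 0) (nat_lit 0)) (.leaf (nat_lit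 16) (nat_lit 0) (nat_lit 0))))))) (.add (.add (.add (.add (.leaf (nat_lit 17) (nat_lit 0) (nat_lit 0)) (.leaf (nat_lit 18) (nat_lit 0) (nat_lit 0))) (.add (.leaf (nat_lit 19) (nat_lit 0) (nat_lit 0)) (.leaf (nat_lit 20) (nat_lit 0) (nat_lit 0)))) (.add (.add (.leaf (nat_lit 21) (nat_lit 0) (nat_lit 0)) (.leaf (nat_lit 22) (nat_lit 0) (nat_lit 0))) (.add (.leaf (nat_lit 23) (nat_lit 0) (nat_lit 0)) (.add (.leaf (nat_lit 24) (nat_lit 0) (nat_lit 0)) (.leaf (nat_lit 25) (nat_lit 0) (nat_lit 0)))))) (.add (.add (.add (.leaf (nat_lit 26) (nat_lit 0) (nat_lit 0)) (.leaf (nat_lit 27) (nat_lit 0) (nat_lit 0))) (.add (.leaf (nat_lit 28) (nat_lit 0) (nat_lit 0)) (.leaf (nat_lit 29) (nat_lit 0) (nat_lit 0)))) (.add (.add (.leaf (nat_lit 30) (nat_lit 0) (nat_lit 0)) (.leaf (nat_lit 31) (nat_lit 0) (nat_lit 0))) (.add (.leaf (nat_lit 32) (nat_lit 0)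 (nat_lit 0)) (.add (.leaf (nat_lit 33) (nat_lit 0) (nat_lit 0)) (.leaf (nat_lit 34) (nat_lit 0) (nat_lit 0)))))))) (.add (.add (.add (.add (.add (.leaf (nat_lit 35) (nat_lit 0) (nat_lit 0)) (.leaf (nat_lit 36) (nat_lit 0) (nat_lit 0))) (.add (.leaf (nat_lit 37) (nat_lit 0) (nat_lit 0)) (.leaf (nat_lit 38) (nat_lit 0) (nat_lit 0)))) (.add (.add (.leaf (nat_lit 39) (nat_lit 0) (nat_lit 0)) (.leaf (nat_lit 40) (nat_lit 0) (nat_lit 0))) (.add (.leaf (nat_lit 41) (nat_lit 0) (nat_lit 0)) (.add (.leaf (nat_lit 42) (nat_lit 0) (nat_lit 0)) (.leaf (nat_lit 43) (nat_lit 0) (nat_lit 0)))))) (.add (.add (.add (.leaf (nat_lit 44) (nat_lit 0) (nat_lit 0)) (.leaf (nat_lit 45) (nat_lit 0) (nat_lit 0))) (.add (.leaf (nat_lit 46) (nat_lit 0) (nat_lit 0)) (.leaf (nat_lit 47) (nat_lit 0) (nat_lit 0)))) (.add (.add (.leaf (nat_lit 48) (nat_lit 0) (nat_lit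 0)) (.leaf (nat_lit 49) (nat_lit 0) (nat_lit 0))) (.add (.leaf (nat_lit 50) (nat_lit 0) (nat_lit 0)) (.add (.leaf (nat_lit 51) (nat_lit 0) (nat_lit 0)) (.leaf (nat_lit 52) (nat_lit 0) (nat_lit 0))))))) (.add (.add (.add (.add (.leaf (nat_lit 53) (nat_lit 0) (nat_lit 0)) (.leaf (nat_lit 54) (nat_lit 0) (nat_lit 0))) (.add (.leaf (nat_lit 55) (nat_lit 0) (nat_lit 0)) (.leaf (nat_lit 56) (nat_lit 0) (nat_lit 0)))) (.add (.add (.leaf (nat_lit 57) (nat_lit 0) (nat_lit 0)) (.leaf (nat_lit 58) (nat_lit 0) (nat_lit 0))) (.add (.leaf (nat_lit 59) (nat_lit 0) (nat_lit 0)) (.add (.leaf (nat_lit 60) (nat_lit 0) (nat_lit 0)) (.leaf (nat_lit 61) (nat_lit 0) (nat_lit 0)))))) (.add (.add (.add (.leaf (nat_lit 62) (nat_lit 0) (nat_lit 0)) (.leaf (nat_lit 63) (nat_lit 0) (nat_lit 0))) (.add (.leaf (nat_lit 64) (nat_lit 0) (nat_lit 0)) (.leaf (nat_lit 65)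 (nat_lit 0) (nat_lit 0)))) (.add (.add (.leaf (nat_lit 66) (nat_lit 0) (nat_lit 0)) (.leaf (nat_lit 67) (nat_lit 0) (nat_lit 0))) (.add (.leaf (nat_lit 68) (nat_lit 0) (nat_lit 0)) (.add (.leaf (nat_lit 69) (nat_lit 0) (nat_lit 0)) (.leaf (nat_lit 70) (nat_lit 0) (nat_lit 0))))))))),
  (.add (.add (.add (.add (.add (.add (.leaf (nat_lit 0) (nat_lit 0) (nat_lit 0)) (.leaf (nat_lit 1) (nat_lit 0) (nat_lit 0))) (.add (.leaf (nat_lit 2) (nat_lit 0) (nat_lit 0)) (.leaf (nat_lit 3) (nat_lit 0) (nat_lit 0)))) (.add (.add (.leaf (nat_lit 4) (nat_lit 0) (nat_lit 0)) (.leaf (nat_lit 5) (nat_lit 0) (nat_lit 0))) (.add (.leaf (nat_lit 6) (nat_lit 0) (nat_lit 0)) (.add (.leaf (nat_lit 7) (nat_lit 0) (nat_lit 0)) (.leaf (nat_lit 8) (nat_lit 0) (nat_lit 0)))))) (.add (.add (.add (.leaf (nat_lit 9) (nat_lit 0) (nat_lit 0)) (.leaf (nat_lit 10) (nat_lit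 0) (nat_lit 0))) (.add (.leaf (nat_lit 11) (nat_lit 0) (nat_lit 0)) (.leaf (nat_lit 12) (nat_lit 0) (nat_lit 0)))) (.add (.add (.leaf (nat_lit 13) (nat_lit 0) (nat_lit 0)) (.leaf (nat_lit 14) (nat_lit 0) (nat_lit 0))) (.add (.leaf (nat_lit 15) (nat_lit 0) (nat_lit 0)) (.add (.leaf (nat_lit 16) (nat_lit 0) (nat_lit 0)) (.leaf (nat_lit 17) (nat_lit 0) (nat_lit 0))))))) (.add (.add (.add (.add (.leaf (nat_lit 18) (nat_lit 0) (nat_lit 0)) (.leaf (nat_lit 19) (nat_lit 0) (nat_lit 0))) (.add (.leaf (nat_lit 20) (nat_lit 0) (nat_lit 0)) (.leaf (nat_lit 21) (nat_lit 0) (nat_lit 0)))) (.add (.add (.leaf (nat_lit 22) (nat_lit 0) (nat_lit 0)) (.leaf (nat_lit 23) (nat_lit 0) (nat_lit 0))) (.add (.leaf (nat_lit 24) (nat_lit 0) (nat_lit 0)) (.add (.leaf (nat_lit 25) (nat_lit 0) (nat_lit 0)) (.leaf (nat_lit 26) (nat_lit 0) (nat_lit 0)))))) (.add (.add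 (.add (.leaf (nat_lit 27) (nat_lit 0) (nat_lit 0)) (.leaf (nat_lit 28) (nat_lit 0) (nat_lit 0))) (.add (.leaf (nat_lit 29) (nat_lit 0) (nat_lit 0)) (.leaf (nat_lit 30) (nat_lit 0) (nat_lit 0)))) (.add (.add (.leaf (nat_lit 31) (nat_lit 0) (nat_lit 0)) (.leaf (nat_lit 32) (nat_lit 0) (nat_lit 0))) (.add (.leaf (nat_lit 33) (nat_lit 0) (nat_lit 0)) (.add (.leaf (nat_lit 34) (nat_lit 0) (nat_lit 0)) (.leaf (nat_lit 35) (nat_lit 0) (nat_lit 0)))))))) (.add (.add (.add (.add (.add (.leaf (nat_lit 36) (nat_lit 0) (nat_lit 0)) (.leaf (nat_lit 37) (nat_lit 0) (nat_lit 0))) (.add (.leaf (nat_lit 38) (nat_lit 0) (nat_lit 0)) (.leaf (nat_lit 39) (nat_lit 0) (nat_lit 0)))) (.add (.add (.leaf (nat_lit 40) (nat_lit 0) (nat_lit 0)) (.leaf (nat_lit 41) (nat_lit 0) (nat_lit 0))) (.add (.leaf (nat_lit 42) (nat_lit 0) (nat_lit 0)) (.add (.leaf (nat_lit 43)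 (nat_lit 0) (nat_lit 0)) (.leaf (nat_lit 44) (nat_lit 0) (nat_lit 0)))))) (.add (.add (.add (.leaf (nat_lit 45) (nat_lit 0) (nat_lit 0)) (.leaf (nat_lit 46) (nat_lit 0) (nat_lit 0))) (.add (.leaf (nat_lit 47) (nat_lit 0) (nat_lit 0)) (.leaf (nat_lit 48) (nat_lit 0) (nat_lit 0)))) (.add (.add (.leaf (nat_lit 49) (nat_lit 0) (nat_lit 0)) (.leaf (nat_lit 50) (nat_lit 0) (nat_lit 0))) (.add (.leaf (nat_lit 51) (nat_lit 0) (nat_lit 0)) (.add (.leaf (nat_lit 52) (nat_lit 0) (nat_lit 0)) (.leaf (nat_lit 53) (nat_lit 0) (nat_lit 0))))))) (.add (.add (.add (.add (.leaf (nat_lit 54) (nat_lit 0) (nat_lit 0)) (.leaf (nat_lit 55) (nat_lit 0) (nat_lit 0))) (.add (.leaf (nat_lit 56) (nat_lit 0) (nat_lit 0)) (.leaf (nat_lit 57) (nat_lit 0) (nat_lit 0)))) (.add (.add (.leaf (nat_lit 58) (nat_lit 0) (nat_lit 0)) (.leaf (nat_lit 59) (nat_lit 0) (nat_lit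 0))) (.add (.leaf (nat_lit 60) (nat_lit 0) (nat_lit 0)) (.add (.leaf (nat_lit 61) (nat_lit 0) (nat_lit 0)) (.leaf (nat_lit 62) (nat_lit 0) (nat_lit 0)))))) (.add (.add (.add (.leaf (nat_lit 63) (nat_lit 0) (nat_lit 0)) (.leaf (nat_lit 64) (nat_lit 0) (nat_lit 0))) (.add (.leaf (nat_lit 65) (nat_lit 0) (nat_lit 0)) (.leaf (nat_lit 66) (nat_lit 0) (nat_lit 0)))) (.add (.add (.leaf (nat_lit 67) (nat_lit 0) (nat_lit 0)) (.leaf (nat_lit 68) (nat_lit 0) (nat_lit 0))) (.add (.leaf (nat_lit 69) (nat_lit 0) (nat_lit 0)) (.add (.leaf (nat_lit 70) (nat_lit 0) (nat_lit 0)) (.leaf (nat_lit 71) (nat_lit 0) (nat_lit 0))))))))),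
  (.add (.add (.add (.add (.add (.add (.leaf (nat_lit 0) (nat_lit 0) (nat_lit 0)) (.leaf (nat_lit 1) (nat_lit 0) (nat_lit 0))) (.add (.leaf (nat_lit 2) (nat_lit 0) (nat_lit 0)) (.leaf (nat_lit 3) (nat_lit 0) (nat_lit 0)))) (.add (.add (.leaf (nat_lit 4) (nat_lit 0) (nat_lit 0)) (.leaf (nat_lit 5) (nat_lit 0) (nat_lit 0))) (.add (.leaf (nat_lit 6) (nat_lit 0) (nat_lit 0)) (.add (.leaf (nat_lit 7) (nat_lit 0) (nat_lit 0)) (.leaf (nat_lit 8) (nat_lit 0) (nat_lit 0)))))) (.add (.add (.add (.leaf (nat_lit 9) (nat_lit 0) (nat_lit 0)) (.leaf (nat_lit 10) (nat_lit 0) (nat_lit 0))) (.add (.leaf (nat_lit 11) (nat_lit 0) (nat_lit 0)) (.leaf (nat_lit 12) (nat_lit 0) (nat_lit 0)))) (.add (.add (.leaf (nat_lit 13) (nat_lit 0) (nat_lit 0)) (.leaf (nat_lit 14) (nat_lit 0) (nat_lit 0))) (.add (.leaf (nat_lit 15) (nat_lit 0) (nat_lit 0)) (.add (.leaf (nat_lit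 16) (nat_lit 0) (nat_lit 0)) (.leaf (nat_lit 17) (nat_lit 0) (nat_lit 0))))))) (.add (.add (.add (.add (.leaf (nat_lit 18) (nat_lit 0) (nat_lit 0)) (.leaf (nat_lit 19) (nat_lit 0) (nat_lit 0))) (.add (.leaf (nat_lit 20) (nat_lit 0) (nat_lit 0)) (.leaf (nat_lit 21) (nat_lit 0) (nat_lit 0)))) (.add (.add (.leaf (nat_lit 22) (nat_lit 0) (nat_lit 0)) (.leaf (nat_lit 23) (nat_lit 0) (nat_lit 0))) (.add (.leaf (nat_lit 24) (nat_lit 0) (nat_lit 0)) (.add (.leaf (nat_lit 25) (nat_lit 0) (nat_lit 0)) (.leaf (nat_lit 26) (nat_lit 0) (nat_lit 0)))))) (.add (.add (.add (.leaf (nat_lit 27) (nat_lit 0) (nat_lit 0)) (.leaf (nat_lit 28) (nat_lit 0) (nat_lit 0))) (.add (.leaf (nat_lit 29) (nat_lit 0) (nat_lit 0)) (.leaf (nat_lit 30) (nat_lit 0) (nat_lit 0)))) (.add (.add (.leaf (nat_lit 31) (nat_lit 0) (nat_lit 0)) (.leaf (nat_lit 32) (nat_lit 0) (nat_lit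 0))) (.add (.leaf (nat_lit 33) (nat_lit 0) (nat_lit 0)) (.add (.leaf (nat_lit 34) (nat_lit 0) (nat_lit 0)) (.leaf (nat_lit 35) (nat_lit 0) (nat_lit 0)))))))) (.add (.add (.add (.add (.add (.leaf (nat_lit 36) (nat_lit 0) (nat_lit 0)) (.leaf (nat_lit 37) (nat_lit 0) (nat_lit 0))) (.add (.leaf (nat_lit 38) (nat_lit 0) (nat_lit 0)) (.leaf (nat_lit 39) (nat_lit 0) (nat_lit 0)))) (.add (.add (.leaf (nat_lit 40) (nat_lit 0) (nat_lit 0)) (.leaf (nat_lit 41) (nat_lit 0) (nat_lit 0))) (.add (.leaf (nat_lit 42) (nat_lit 0) (nat_lit 0)) (.add (.leaf (nat_lit 43) (nat_lit 0) (nat_lit 0)) (.leaf (nat_lit 44) (nat_lit 0) (nat_lit 0)))))) (.add (.add (.add (.leaf (nat_lit 45) (nat_lit 0) (nat_lit 0)) (.leaf (nat_lit 46) (nat_lit 0) (nat_lit 0))) (.add (.leaf (nat_lit 47) (nat_lit 0) (nat_lit 0)) (.leaf (nat_lit 48) (nat_lit 0) (nat_lit 0)))) (.add (.add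 (.leaf (nat_lit 49) (nat_lit 0) (nat_lit 0)) (.leaf (nat_lit 50) (nat_lit 0) (nat_lit 0))) (.add (.leaf (nat_lit 51) (nat_lit 0) (nat_lit 0)) (.add (.leaf (nat_lit 52) (nat_lit 0) (nat_lit 0)) (.leaf (nat_lit 53) (nat_lit 0) (nat_lit 0))))))) (.add (.add (.add (.add (.leaf (nat_lit 54) (nat_lit 0) (nat_lit 0)) (.leaf (nat_lit 55) (nat_lit 0) (nat_lit 0))) (.add (.leaf (nat_lit 56) (nat_lit 0) (nat_lit 0)) (.leaf (nat_lit 57) (nat_lit 0) (nat_lit 0)))) (.add (.add (.leaf (nat_lit 58) (nat_lit 0) (nat_lit 0)) (.leaf (nat_lit 59) (nat_lit 0) (nat_lit 0))) (.add (.leaf (nat_lit 60) (nat_lit 0) (nat_lit 0)) (.add (.leaf (nat_lit 61) (nat_lit 0) (nat_lit 0)) (.leaf (nat_lit 62) (nat_lit 0) (nat_lit 0)))))) (.add (.add (.add (.leaf (nat_lit 63) (nat_lit 0) (nat_lit 0)) (.leaf (nat_lit 64) (nat_lit 0) (nat_lit 0))) (.add (.leaf (nat_lit 65) (nat_lit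 0) (nat_lit 0)) (.add (.leaf (nat_lit 66) (nat_lit 0) (nat_lit 0)) (.leaf (nat_lit 67) (nat_lit 0) (nat_lit 0))))) (.add (.add (.leaf (nat_lit 68) (nat_lit 0) (nat_lit 0)) (.leaf (nat_lit 69) (nat_lit 0) (nat_lit 0))) (.add (.leaf (nat_lit 70) (nat_lit 0) (nat_lit 0)) (.add (.leaf (nat_lit 71) (nat_lit 0) (nat_lit 0)) (.leaf (nat_lit 72) (nat_lit 0) (nat_lit 0))))))))),
  (.add (.add (.add (.add (.add (.add (.leaf (nat_lit 0) (nat_lit 0) (nat_lit 0)) (.leaf (nat_lit 1) (nat_lit 0) (nat_lit 0))) (.add (.leaf (nat_lit 2) (nat_lit 0) (nat_lit 0)) (.leaf (nat_lit 3) (nat_lit 0) (nat_lit 0)))) (.add (.add (.leaf (nat_lit 4) (nat_lit 0) (nat_lit 0)) (.leaf (nat_lit 5) (nat_lit 0) (nat_lit 0))) (.add (.leaf (nat_lit 6) (nat_lit 0) (nat_lit 0)) (.add (.leaf (nat_lit 7) (nat_lit 0) (nat_lit 0)) (.leaf (nat_lit 8) (nat_lit 0) (nat_lit 0)))))) (.add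 (.add (.add (.leaf (nat_lit 9) (nat_lit 0) (nat_lit 0)) (.leaf (nat_lit 10) (nat_lit 0) (nat_lit 0))) (.add (.leaf (nat_lit 11) (nat_lit 0) (nat_lit 0)) (.leaf (nat_lit 12) (nat_lit 0) (nat_lit 0)))) (.add (.add (.leaf (nat_lit 13) (nat_lit 0) (nat_lit 0)) (.leaf (nat_lit 14) (nat_lit 0) (nat_lit 0))) (.add (.leaf (nat_lit 15) (nat_lit 0) (nat_lit 0)) (.add (.leaf (nat_lit 16) (nat_lit 0) (nat_lit 0)) (.leaf (nat_lit 17) (nat_lit 0) (nat_lit 0))))))) (.add (.add (.add (.add (.leaf (nat_lit 18) (nat_lit 0) (nat_lit 0)) (.leaf (nat_lit 19) (nat_lit 0) (nat_lit 0))) (.add (.leaf (nat_lit 20) (nat_lit 0) (nat_lit 0)) (.leaf (nat_lit 21) (nat_lit 0) (nat_lit 0)))) (.add (.add (.leaf (nat_lit 22) (nat_lit 0) (nat_lit 0)) (.leaf (nat_lit 23) (nat_lit 0) (nat_lit 0))) (.add (.leaf (nat_lit 24) (nat_lit 0) (nat_lit 0)) (.add (.leaf (nat_lit 25)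 (nat_lit 0) (nat_lit 0)) (.leaf (nat_lit 26) (nat_lit 0) (nat_lit 0)))))) (.add (.add (.add (.leaf (nat_lit 27) (nat_lit 0) (nat_lit 0)) (.leaf (nat_lit 28) (nat_lit 0) (nat_lit 0))) (.add (.leaf (nat_lit 29) (nat_lit 0) (nat_lit 0)) (.add (.leaf (nat_lit 30) (nat_lit 0) (nat_lit 0)) (.leaf (nat_lit 31) (nat_lit 0) (nat_lit 0))))) (.add (.add (.leaf (nat_lit 32) (nat_lit 0) (nat_lit 0)) (.leaf (nat_lit 33) (nat_lit 0) (nat_lit 0))) (.add (.leaf (nat_lit 34) (nat_lit 0) (nat_lit 0)) (.add (.leaf (nat_lit 35) (nat_lit 0) (nat_lit 0)) (.leaf (nat_lit 36) (nat_lit 0) (nat_lit 0)))))))) (.add (.add (.add (.add (.add (.leaf (nat_lit 37) (nat_lit 0) (nat_lit 0)) (.leaf (nat_lit 38) (nat_lit 0) (nat_lit 0))) (.add (.leaf (nat_lit 39) (nat_lit 0) (nat_lit 0)) (.leaf (nat_lit 40) (nat_lit 0) (nat_lit 0)))) (.add (.add (.leaf (nat_lit 41) (nat_lit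 0) (nat_lit 0)) (.leaf (nat_lit 42) (nat_lit 0) (nat_lit 0))) (.add (.leaf (nat_lit 43) (nat_lit 0) (nat_lit 0)) (.add (.leaf (nat_lit 44) (nat_lit 0) (nat_lit 0)) (.leaf (nat_lit 45) (nat_lit 0) (nat_lit 0)))))) (.add (.add (.add (.leaf (nat_lit 46) (nat_lit 0) (nat_lit 0)) (.leaf (nat_lit 47) (nat_lit 0) (nat_lit 0))) (.add (.leaf (nat_lit 48) (nat_lit 0) (nat_lit 0)) (.leaf (nat_lit 49) (nat_lit 0) (nat_lit 0)))) (.add (.add (.leaf (nat_lit 50) (nat_lit 0) (nat_lit 0)) (.leaf (nat_lit 51) (nat_lit 0) (nat_lit 0))) (.add (.leaf (nat_lit 52) (nat_lit 0) (nat_lit 0)) (.add (.leaf (nat_lit 53) (nat_lit 0) (nat_lit 0)) (.leaf (nat_lit 54) (nat_lit 0) (nat_lit 0))))))) (.add (.add (.add (.add (.leaf (nat_lit 55) (nat_lit 0) (nat_lit 0)) (.leaf (nat_lit 56) (nat_lit 0) (nat_lit 0))) (.add (.leaf (nat_lit 57) (nat_lit 0) (nat_lit 0)) (.leaf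 (nat_lit 58) (nat_lit 0) (nat_lit 0)))) (.add (.add (.leaf (nat_lit 59) (nat_lit 0) (nat_lit 0)) (.leaf (nat_lit 60) (nat_lit 0) (nat_lit 0))) (.add (.leaf (nat_lit 61) (nat_lit 0) (nat_lit 0)) (.add (.leaf (nat_lit 62) (nat_lit 0) (nat_lit 0)) (.leaf (nat_lit 63) (nat_lit 0) (nat_lit 0)))))) (.add (.add (.add (.leaf (nat_lit 64) (nat_lit 0) (nat_lit 0)) (.leaf (nat_lit 65) (nat_lit 0) (nat_lit 0))) (.add (.leaf (nat_lit 66) (nat_lit 0) (nat_lit 0)) (.add (.leaf (nat_lit 67) (nat_lit 0) (nat_lit 0)) (.leaf (nat_lit 68) (nat_lit 0) (nat_lit 0))))) (.add (.add (.leaf (nat_lit 69) (nat_lit 0) (nat_lit 0)) (.leaf (nat_lit 70) (nat_lit 0) (nat_lit 0))) (.add (.leaf (nat_lit 71) (nat_lit 0) (nat_lit 0)) (.add (.leaf (nat_lit 72) (nat_lit 0) (nat_lit 0)) (.leaf (nat_lit 73) (nat_lit 0) (nat_lit 0))))))))),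
  (.add (.add (.add (.add (.add (.add (.leaf (nat_lit 0) (nat_lit 0) (nat_lit 0)) (.leaf (nat_lit 1) (nat_lit 0) (nat_lit 0))) (.add (.leaf (nat_lit 2) (nat_lit 0) (nat_lit 0)) (.leaf (nat_lit 3) (nat_lit 0) (nat_lit 0)))) (.add (.add (.leaf (nat_lit 4) (nat_lit 0) (nat_lit 0)) (.leaf (nat_lit 5) (nat_lit 0) (nat_lit 0))) (.add (.leaf (nat_lit 6) (nat_lit 0) (nat_lit 0)) (.add (.leaf (nat_lit 7) (nat_lit 0) (nat_lit 0)) (.leaf (nat_lit 8) (nat_lit 0) (nat_lit 0)))))) (.add (.add (.add (.leaf (nat_lit 9) (nat_lit 0) (nat_lit 0)) (.leaf (nat_lit 10) (nat_lit 0) (nat_lit 0))) (.add (.leaf (nat_lit 11) (nat_lit 0) (nat_lit 0)) (.leaf (nat_lit 12) (nat_lit 0) (nat_lit 0)))) (.add (.add (.leaf (nat_lit 13) (nat_lit 0) (nat_lit 0)) (.leaf (nat_lit 14) (nat_lit 0) (nat_lit 0))) (.add (.leaf (nat_lit 15) (nat_lit 0) (nat_lit 0)) (.add (.leaf (nat_lit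 16) (nat_lit 0) (nat_lit 0)) (.leaf (nat_lit 17) (nat_lit 0) (nat_lit 0))))))) (.add (.add (.add (.add (.leaf (nat_lit 18) (nat_lit 0) (nat_lit 0)) (.leaf (nat_lit 19) (nat_lit 0) (nat_lit 0))) (.add (.leaf (nat_lit 20) (nat_lit 0) (nat_lit 0)) (.leaf (nat_lit 21) (nat_lit 0) (nat_lit 0)))) (.add (.add (.leaf (nat_lit 22) (nat_lit 0) (nat_lit 0)) (.leaf (nat_lit 23) (nat_lit 0) (nat_lit 0))) (.add (.leaf (nat_lit 24) (nat_lit 0) (nat_lit 0)) (.add (.leaf (nat_lit 25) (nat_lit 0) (nat_lit 0)) (.leaf (nat_lit 26) (nat_lit 0) (nat_lit 0)))))) (.add (.add (.add (.leaf (nat_lit 27) (nat_lit 0) (nat_lit 0)) (.leaf (nat_lit 28) (nat_lit 0) (nat_lit 0))) (.add (.leaf (nat_lit 29) (nat_lit 0) (nat_lit 0)) (.add (.leaf (nat_lit 30) (nat_lit 0) (nat_lit 0)) (.leaf (nat_lit 31) (nat_lit 0) (nat_lit 0))))) (.add (.add (.leaf (nat_lit 32) (nat_lit 0)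 (nat_lit 0)) (.leaf (nat_lit 33) (nat_lit 0) (nat_lit 0))) (.add (.leaf (nat_lit 34) (nat_lit 0) (nat_lit 0)) (.add (.leaf (nat_lit 35) (nat_lit 0) (nat_lit 0)) (.leaf (nat_lit 36) (nat_lit 0) (nat_lit 0)))))))) (.add (.add (.add (.add (.add (.leaf (nat_lit 37) (nat_lit 0) (nat_lit 0)) (.leaf (nat_lit 38) (nat_lit 0) (nat_lit 0))) (.add (.leaf (nat_lit 39) (nat_lit 0) (nat_lit 0)) (.leaf (nat_lit 40) (nat_lit 0) (nat_lit 0)))) (.add (.add (.leaf (nat_lit 41) (nat_lit 0) (nat_lit 0)) (.leaf (nat_lit 42) (nat_lit 0) (nat_lit 0))) (.add (.leaf (nat_lit 43) (nat_lit 0) (nat_lit 0)) (.add (.leaf (nat_lit 44) (nat_lit 0) (nat_lit 0)) (.leaf (nat_lit 45) (nat_lit 0) (nat_lit 0)))))) (.add (.add (.add (.leaf (nat_lit 46) (nat_lit 0) (nat_lit 0)) (.leaf (nat_lit 47) (nat_lit 0) (nat_lit 0))) (.add (.leaf (nat_lit 48) (nat_lit 0) (nat_lit 0)) (.add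 (.leaf (nat_lit 49) (nat_lit 0) (nat_lit 0)) (.leaf (nat_lit 50) (nat_lit 0) (nat_lit 0))))) (.add (.add (.leaf (nat_lit 51) (nat_lit 0) (nat_lit 0)) (.leaf (nat_lit 52) (nat_lit 0) (nat_lit 0))) (.add (.leaf (nat_lit 53) (nat_lit 0) (nat_lit 0)) (.add (.leaf (nat_lit 54) (nat_lit 0) (nat_lit 0)) (.leaf (nat_lit 55) (nat_lit 0) (nat_lit 0))))))) (.add (.add (.add (.add (.leaf (nat_lit 56) (nat_lit 0) (nat_lit 0)) (.leaf (nat_lit 57) (nat_lit 0) (nat_lit 0))) (.add (.leaf (nat_lit 58) (nat_lit 0) (nat_lit 0)) (.leaf (nat_lit 59) (nat_lit 0) (nat_lit 0)))) (.add (.add (.leaf (nat_lit 60) (nat_lit 0) (nat_lit 0)) (.leaf (nat_lit 61) (nat_lit 0) (nat_lit 0))) (.add (.leaf (nat_lit 62) (nat_lit 0) (nat_lit 0)) (.add (.leaf (nat_lit 63) (nat_lit 0) (nat_lit 0)) (.leaf (nat_lit 64) (nat_lit 0) (nat_lit 0)))))) (.add (.add (.add (.leaf (nat_lit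 65) (nat_lit 0) (nat_lit 0)) (.leaf (nat_lit 66) (nat_lit 0) (nat_lit 0))) (.add (.leaf (nat_lit 67) (nat_lit 0) (nat_lit 0)) (.add (.leaf (nat_lit 68) (nat_lit 0) (nat_lit 0)) (.leaf (nat_lit 69) (nat_lit 0) (nat_lit 0))))) (.add (.add (.leaf (nat_lit 70) (nat_lit 0) (nat_lit 0)) (.leaf (nat_lit 71) (nat_lit 0) (nat_lit 0))) (.add (.leaf (nat_lit 72) (nat_lit 0) (nat_lit 0)) (.add (.leaf (nat_lit 73) (nat_lit 0) (nat_lit 0)) (.leaf (nat_lit 74) (nat_lit 0) (nat_lit 0))))))))),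
  (.add (.add (.add (.add (.add (.add (.leaf (nat_lit 0) (nat_lit 0) (nat_lit 0)) (.leaf (nat_lit 1) (nat_lit 0) (nat_lit 0))) (.add (.leaf (nat_lit 2) (nat_lit 0) (nat_lit 0)) (.leaf (nat_lit 3) (nat_lit 0) (nat_lit 0)))) (.add (.add (.leaf (nat_lit 4) (nat_lit 0) (nat_lit 0)) (.leaf (nat_lit 5) (nat_lit 0) (nat_lit 0))) (.add (.leaf (nat_lit 6) (nat_lit 0) (nat_lit 0)) (.add (.leaf (nat_lit 7) (nat_lit 0) (nat_lit 0)) (.leaf (nat_lit 8) (nat_lit 0) (nat_lit 0)))))) (.add (.add (.add (.leaf (nat_lit 9) (nat_lit 0) (nat_lit 0)) (.leaf (nat_lit 10) (nat_lit 0) (nat_lit 0))) (.add (.leaf (nat_lit 11) (nat_lit 0) (nat_lit 0)) (.add (.leaf (nat_lit 12) (nat_lit 0) (nat_lit 0)) (.leaf (nat_lit 13) (nat_lit 0) (nat_lit 0))))) (.add (.add (.leaf (nat_lit 14) (nat_lit 0) (nat_lit 0)) (.leaf (nat_lit 15) (nat_lit 0) (nat_lit 0))) (.add (.leaf (nat_lit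 16) (nat_lit 0) (nat_lit 0)) (.add (.leaf (nat_lit 17) (nat_lit 0) (nat_lit 0)) (.leaf (nat_lit 18) (nat_lit 0) (nat_lit 0))))))) (.add (.add (.add (.add (.leaf (nat_lit 19) (nat_lit 0) (nat_lit 0)) (.leaf (nat_lit 20) (nat_lit 0) (nat_lit 0))) (.add (.leaf (nat_lit 21) (nat_lit 0) (nat_lit 0)) (.leaf (nat_lit 22) (nat_lit 0) (nat_lit 0)))) (.add (.add (.leaf (nat_lit 23) (nat_lit 0) (nat_lit 0)) (.leaf (nat_lit 24) (nat_lit 0) (nat_lit 0))) (.add (.leaf (nat_lit 25) (nat_lit 0) (nat_lit 0)) (.add (.leaf (nat_lit 26) (nat_lit 0) (nat_lit 0)) (.leaf (nat_lit 27) (nat_lit 0) (nat_lit 0)))))) (.add (.add (.add (.leaf (nat_lit 28) (nat_lit 0) (nat_lit 0)) (.leaf (nat_lit 29) (nat_lit 0) (nat_lit 0))) (.add (.leaf (nat_lit 30) (nat_lit 0) (nat_lit 0)) (.add (.leaf (nat_lit 31) (nat_lit 0) (nat_lit 0)) (.leaf (nat_lit 32) (nat_lit 0) (nat_lit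 0))))) (.add (.add (.leaf (nat_lit 33) (nat_lit 0) (nat_lit 0)) (.leaf (nat_lit 34) (nat_lit 0) (nat_lit 0))) (.add (.leaf (nat_lit 35) (nat_lit 0) (nat_lit 0)) (.add (.leaf (nat_lit 36) (nat_lit 0) (nat_lit 0)) (.leaf (nat_lit 37) (nat_lit 0) (nat_lit 0)))))))) (.add (.add (.add (.add (.add (.leaf (nat_lit 38) (nat_lit 0) (nat_lit 0)) (.leaf (nat_lit 39) (nat_lit 0) (nat_lit 0))) (.add (.leaf (nat_lit 40) (nat_lit 0) (nat_lit 0)) (.leaf (nat_lit 41) (nat_lit 0) (nat_lit 0)))) (.add (.add (.leaf (nat_lit 42) (nat_lit 0) (nat_lit 0)) (.leaf (nat_lit 43) (nat_lit 0) (nat_lit 0))) (.add (.leaf (nat_lit 44) (nat_lit 0) (nat_lit 0)) (.add (.leaf (nat_lit 45) (nat_lit 0) (nat_lit 0)) (.leaf (nat_lit 46) (nat_lit 0) (nat_lit 0)))))) (.add (.add (.add (.leaf (nat_lit 47) (nat_lit 0) (nat_lit 0)) (.leaf (nat_lit 48) (nat_lit 0) (nat_lit 0))) (.add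 (.leaf (nat_lit 49) (nat_lit 0) (nat_lit 0)) (.add (.leaf (nat_lit 50) (nat_lit 0) (nat_lit 0)) (.leaf (nat_lit 51) (nat_lit 0) (nat_lit 0))))) (.add (.add (.leaf (nat_lit 52) (nat_lit 0) (nat_lit 0)) (.leaf (nat_lit 53) (nat_lit 0) (nat_lit 0))) (.add (.leaf (nat_lit 54) (nat_lit 0) (nat_lit 0)) (.add (.leaf (nat_lit 55) (nat_lit 0) (nat_lit 0)) (.leaf (nat_lit 56) (nat_lit 0) (nat_lit 0))))))) (.add (.add (.add (.add (.leaf (nat_lit 57) (nat_lit 0) (nat_lit 0)) (.leaf (nat_lit 58) (nat_lit 0) (nat_lit 0))) (.add (.leaf (nat_lit 59) (nat_lit 0) (nat_lit 0)) (.leaf (nat_lit 60) (nat_lit 0) (nat_lit 0)))) (.add (.add (.leaf (nat_lit 61) (nat_lit 0) (nat_lit 0)) (.leaf (nat_lit 62) (nat_lit 0) (nat_lit 0))) (.add (.leaf (nat_lit 63) (nat_lit 0) (nat_lit 0)) (.add (.leaf (nat_lit 64) (nat_lit 0) (nat_lit 0)) (.leaf (nat_lit 65) (nat_lit 0)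 (nat_lit 0)))))) (.add (.add (.add (.leaf (nat_lit 66) (nat_lit 0) (nat_lit 0)) (.leaf (nat_lit 67) (nat_lit 0) (nat_lit 0))) (.add (.leaf (nat_lit 68) (nat_lit 0) (nat_lit 0)) (.add (.leaf (nat_lit 69) (nat_lit 0) (nat_lit 0)) (.leaf (nat_lit 70) (nat_lit 0) (nat_lit 0))))) (.add (.add (.leaf (nat_lit 71) (nat_lit 0) (nat_lit 0)) (.leaf (nat_lit 72) (nat_lit 0) (nat_lit 0))) (.add (.leaf (nat_lit 73) (nat_lit 0) (nat_lit 0)) (.add (.leaf (nat_lit 74) (nat_lit 0) (nat_lit 0)) (.leaf (nat_lit 75) (nat_lit 0) (nat_lit 0))))))))),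
  (.add (.add (.add (.add (.add (.add (.leaf (nat_lit 0) (nat_lit 0) (nat_lit 0)) (.leaf (nat_lit 1) (nat_lit 0) (nat_lit 0))) (.add (.leaf (nat_lit 2) (nat_lit 0) (nat_lit 0)) (.leaf (nat_lit 3) (nat_lit 0) (nat_lit 0)))) (.add (.add (.leaf (nat_lit 4) (nat_lit 0) (nat_lit 0)) (.leaf (nat_lit 5) (nat_lit 0) (nat_lit 0))) (.add (.leaf (nat_lit 6) (nat_lit 0) (nat_lit 0)) (.add (.leaf (nat_lit 7) (nat_lit 0) (nat_lit 0)) (.leaf (nat_lit 8) (nat_lit 0) (nat_lit 0)))))) (.add (.add (.add (.leaf (nat_lit 9) (nat_lit 0) (nat_lit 0)) (.leaf (nat_lit 10) (nat_lit 0) (nat_lit 0))) (.add (.leaf (nat_lit 11) (nat_lit 0) (nat_lit 0)) (.add (.leaf (nat_lit 12) (nat_lit 0) (nat_lit 0)) (.leaf (nat_lit 13) (nat_lit 0) (nat_lit 0))))) (.add (.add (.leaf (nat_lit 14) (nat_lit 0) (nat_lit 0)) (.leaf (nat_lit 15) (nat_lit 0) (nat_lit 0))) (.add (.leaf (nat_lit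 16) (nat_lit 0) (nat_lit 0)) (.add (.leaf (nat_lit 17) (nat_lit 0) (nat_lit 0)) (.leaf (nat_lit 18) (nat_lit 0) (nat_lit 0))))))) (.add (.add (.add (.add (.leaf (nat_lit 19) (nat_lit 0) (nat_lit 0)) (.leaf (nat_lit 20) (nat_lit 0) (nat_lit 0))) (.add (.leaf (nat_lit 21) (nat_lit 0) (nat_lit 0)) (.leaf (nat_lit 22) (nat_lit 0) (nat_lit 0)))) (.add (.add (.leaf (nat_lit 23) (nat_lit 0) (nat_lit 0)) (.leaf (nat_lit 24) (nat_lit 0) (nat_lit 0))) (.add (.leaf (nat_lit 25) (nat_lit 0) (nat_lit 0)) (.add (.leaf (nat_lit 26) (nat_lit 0) (nat_lit 0)) (.leaf (nat_lit 27) (nat_lit 0) (nat_lit 0)))))) (.add (.add (.add (.leaf (nat_lit 28) (nat_lit 0) (nat_lit 0)) (.leaf (nat_lit 29) (nat_lit 0) (nat_lit 0))) (.add (.leaf (nat_lit 30) (nat_lit 0) (nat_lit 0)) (.add (.leaf (nat_lit 31) (nat_lit 0) (nat_lit 0)) (.leaf (nat_lit 32) (nat_lit 0) (nat_lit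 0))))) (.add (.add (.leaf (nat_lit 33) (nat_lit 0) (nat_lit 0)) (.leaf (nat_lit 34) (nat_lit 0) (nat_lit 0))) (.add (.leaf (nat_lit 35) (nat_lit 0) (nat_lit 0)) (.add (.leaf (nat_lit 36) (nat_lit 0) (nat_lit 0)) (.leaf (nat_lit 37) (nat_lit 0) (nat_lit 0)))))))) (.add (.add (.add (.add (.add (.leaf (nat_lit 38) (nat_lit 0) (nat_lit 0)) (.leaf (nat_lit 39) (nat_lit 0) (nat_lit 0))) (.add (.leaf (nat_lit 40) (nat_lit 0) (nat_lit 0)) (.leaf (nat_lit 41) (nat_lit 0) (nat_lit 0)))) (.add (.add (.leaf (nat_lit 42) (nat_lit 0) (nat_lit 0)) (.leaf (nat_lit 43) (nat_lit 0) (nat_lit 0))) (.add (.leaf (nat_lit 44) (nat_lit 0) (nat_lit 0)) (.add (.leaf (nat_lit 45) (nat_lit 0) (nat_lit 0)) (.leaf (nat_lit 46) (nat_lit 0) (nat_lit 0)))))) (.add (.add (.add (.leaf (nat_lit 47) (nat_lit 0) (nat_lit 0)) (.leaf (nat_lit 48) (nat_lit 0) (nat_lit 0))) (.add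 (.leaf (nat_lit 49) (nat_lit 0) (nat_lit 0)) (.add (.leaf (nat_lit 50) (nat_lit 0) (nat_lit 0)) (.leaf (nat_lit 51) (nat_lit 0) (nat_lit 0))))) (.add (.add (.leaf (nat_lit 52) (nat_lit 0) (nat_lit 0)) (.leaf (nat_lit 53) (nat_lit 0) (nat_lit 0))) (.add (.leaf (nat_lit 54) (nat_lit 0) (nat_lit 0)) (.add (.leaf (nat_lit 55) (nat_lit 0) (nat_lit 0)) (.leaf (nat_lit 56) (nat_lit 0) (nat_lit 0))))))) (.add (.add (.add (.add (.leaf (nat_lit 57) (nat_lit 0) (nat_lit 0)) (.leaf (nat_lit 58) (nat_lit 0) (nat_lit 0))) (.add (.leaf (nat_lit 59) (nat_lit 0) (nat_lit 0)) (.add (.leaf (nat_lit 60) (nat_lit 0) (nat_lit 0)) (.leaf (nat_lit 61) (nat_lit 0) (nat_lit 0))))) (.add (.add (.leaf (nat_lit 62) (nat_lit 0) (nat_lit 0)) (.leaf (nat_lit 63) (nat_lit 0) (nat_lit 0))) (.add (.leaf (nat_lit 64) (nat_lit 0) (nat_lit 0)) (.add (.leaf (nat_lit 65) (nat_lit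 0) (nat_lit 0)) (.leaf (nat_lit 66) (nat_lit 0) (nat_lit 0)))))) (.add (.add (.add (.leaf (nat_lit 67) (nat_lit 0) (nat_lit 0)) (.leaf (nat_lit 68) (nat_lit 0) (nat_lit 0))) (.add (.leaf (nat_lit 69) (nat_lit 0) (nat_lit 0)) (.add (.leaf (nat_lit 70) (nat_lit 0) (nat_lit 0)) (.leaf (nat_lit 71) (nat_lit 0) (nat_lit 0))))) (.add (.add (.leaf (nat_lit 72) (nat_lit 0) (nat_lit 0)) (.leaf (nat_lit 73) (nat_lit 0) (nat_lit 0))) (.add (.leaf (nat_lit 74) (nat_lit 0) (nat_lit 0)) (.add (.leaf (nat_lit 75) (nat_lit 0) (nat_lit 0)) (.leaf (nat_lit 76) (nat_lit 0) (nat_lit 0))))))))),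
  (.add (.add (.add (.add (.add (.add (.leaf (nat_lit 0) (nat_lit 0) (nat_lit 0)) (.leaf (nat_lit 1) (nat_lit 0) (nat_lit 0))) (.add (.leaf (nat_lit 2) (nat_lit 0) (nat_lit 0)) (.leaf (nat_lit 3) (nat_lit 0) (nat_lit 0)))) (.add (.add (.leaf (nat_lit 4) (nat_lit 0) (nat_lit 0)) (.leaf (nat_lit 5) (nat_lit 0) (nat_lit 0))) (.add (.leaf (nat_lit 6) (nat_lit 0) (nat_lit 0)) (.add (.leaf (nat_lit 7) (nat_lit 0) (nat_lit 0)) (.leaf (nat_lit 8) (nat_lit 0) (nat_lit 0)))))) (.add (.add (.add (.leaf (nat_lit 9) (nat_lit 0) (nat_lit 0)) (.leaf (nat_lit 10) (nat_lit 0) (nat_lit 0))) (.add (.leaf (nat_lit 11) (nat_lit 0) (nat_lit 0)) (.add (.leaf (nat_lit 12) (nat_lit 0) (nat_lit 0)) (.leaf (nat_lit 13) (nat_lit 0) (nat_lit 0))))) (.add (.add (.leaf (nat_lit 14) (nat_lit 0) (nat_lit 0)) (.leaf (nat_lit 15) (nat_lit 0) (nat_lit 0))) (.add (.leaf (nat_lit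 16) (nat_lit 0) (nat_lit 0)) (.add (.leaf (nat_lit 17) (nat_lit 0) (nat_lit 0)) (.leaf (nat_lit 18) (nat_lit 0) (nat_lit 0))))))) (.add (.add (.add (.add (.leaf (nat_lit 19) (nat_lit 0) (nat_lit 0)) (.leaf (nat_lit 20) (nat_lit 0) (nat_lit 0))) (.add (.leaf (nat_lit 21) (nat_lit 0) (nat_lit 0)) (.add (.leaf (nat_lit 22) (nat_lit 0) (nat_lit 0)) (.leaf (nat_lit 23) (nat_lit 0) (nat_lit 0))))) (.add (.add (.leaf (nat_lit 24) (nat_lit 0) (nat_lit 0)) (.leaf (nat_lit 25) (nat_lit 0) (nat_lit 0))) (.add (.leaf (nat_lit 26) (nat_lit 0) (nat_lit 0)) (.add (.leaf (nat_lit 27) (nat_lit 0) (nat_lit 0)) (.leaf (nat_lit 28) (nat_lit 0) (nat_lit 0)))))) (.add (.add (.add (.leaf (nat_lit 29) (nat_lit 0) (nat_lit 0)) (.leaf (nat_lit 30) (nat_lit 0) (nat_lit 0))) (.add (.leaf (nat_lit 31) (nat_lit 0) (nat_lit 0)) (.add (.leaf (nat_lit 32) (nat_lit 0)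 (nat_lit 0)) (.leaf (nat_lit 33) (nat_lit 0) (nat_lit 0))))) (.add (.add (.leaf (nat_lit 34) (nat_lit 0) (nat_lit 0)) (.leaf (nat_lit 35) (nat_lit 0) (nat_lit 0))) (.add (.leaf (nat_lit 36) (nat_lit 0) (nat_lit 0)) (.add (.leaf (nat_lit 37) (nat_lit 0) (nat_lit 0)) (.leaf (nat_lit 38) (nat_lit 0) (nat_lit 0)))))))) (.add (.add (.add (.add (.add (.leaf (nat_lit 39) (nat_lit 0) (nat_lit 0)) (.leaf (nat_lit 40) (nat_lit 0) (nat_lit 0))) (.add (.leaf (nat_lit 41) (nat_lit 0) (nat_lit 0)) (.leaf (nat_lit 42) (nat_lit 0) (nat_lit 0)))) (.add (.add (.leaf (nat_lit 43) (nat_lit 0) (nat_lit 0)) (.leaf (nat_lit 44) (nat_lit 0) (nat_lit 0))) (.add (.leaf (nat_lit 45) (nat_lit 0) (nat_lit 0)) (.add (.leaf (nat_lit 46) (nat_lit 0) (nat_lit 0)) (.leaf (nat_lit 47) (nat_lit 0) (nat_lit 0)))))) (.add (.add (.add (.leaf (nat_lit 48) (nat_lit 0) (nat_lit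 0)) (.leaf (nat_lit 49) (nat_lit 0) (nat_lit 0))) (.add (.leaf (nat_lit 50) (nat_lit 0) (nat_lit 0)) (.add (.leaf (nat_lit 51) (nat_lit 0) (nat_lit 0)) (.leaf (nat_lit 52) (nat_lit 0) (nat_lit 0))))) (.add (.add (.leaf (nat_lit 53) (nat_lit 0) (nat_lit 0)) (.leaf (nat_lit 54) (nat_lit 0) (nat_lit 0))) (.add (.leaf (nat_lit 55) (nat_lit 0) (nat_lit 0)) (.add (.leaf (nat_lit 56) (nat_lit 0) (nat_lit 0)) (.leaf (nat_lit 57) (nat_lit 0) (nat_lit 0))))))) (.add (.add (.add (.add (.leaf (nat_lit 58) (nat_lit 0) (nat_lit 0)) (.leaf (nat_lit 59) (nat_lit 0) (nat_lit 0))) (.add (.leaf (nat_lit 60) (nat_lit 0) (nat_lit 0)) (.add (.leaf (nat_lit 61) (nat_lit 0) (nat_lit 0)) (.leaf (nat_lit 62) (nat_lit 0) (nat_lit 0))))) (.add (.add (.leaf (nat_lit 63) (nat_lit 0) (nat_lit 0)) (.leaf (nat_lit 64) (nat_lit 0) (nat_lit 0))) (.add (.leaf (nat_lit 65)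 (nat_lit 0) (nat_lit 0)) (.add (.leaf (nat_lit 66) (nat_lit 0) (nat_lit 0)) (.leaf (nat_lit 67) (nat_lit 0) (nat_lit 0)))))) (.add (.add (.add (.leaf (nat_lit 68) (nat_lit 0) (nat_lit 0)) (.leaf (nat_lit 69) (nat_lit 0) (nat_lit 0))) (.add (.leaf (nat_lit 70) (nat_lit 0) (nat_lit 0)) (.add (.leaf (nat_lit 71) (nat_lit 0) (nat_lit 0)) (.leaf (nat_lit 72) (nat_lit 0) (nat_lit 0))))) (.add (.add (.leaf (nat_lit 73) (nat_lit 0) (nat_lit 0)) (.leaf (nat_lit 74) (nat_lit 0) (nat_lit 0))) (.add (.leaf (nat_lit 75) (nat_lit 0) (nat_lit 0)) (.add (.leaf (nat_lit 76) (nat_lit 0) (nat_lit 0)) (.leaf (nat_lit 77) (nat_lit 0) (nat_lit 0))))))))),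
  (.add (.add (.add (.add (.add (.add (.leaf (nat_lit 0) (nat_lit 0) (nat_lit 0)) (.leaf (nat_lit 1) (nat_lit 0) (nat_lit 0))) (.add (.leaf (nat_lit 2) (nat_lit 0) (nat_lit 0)) (.leaf (nat_lit 3) (nat_lit 0) (nat_lit 0)))) (.add (.add (.leaf (nat_lit 4) (nat_lit 0) (nat_lit 0)) (.leaf (nat_lit 5) (nat_lit 0) (nat_lit 0))) (.add (.leaf (nat_lit 6) (nat_lit 0) (nat_lit 0)) (.add (.leaf (nat_lit 7) (nat_lit 0) (nat_lit 0)) (.leaf (nat_lit 8) (nat_lit 0) (nat_lit 0)))))) (.add (.add (.add (.leaf (nat_lit 9) (nat_lit 0) (nat_lit 0)) (.leaf (nat_lit 10) (nat_lit 0) (nat_lit 0))) (.add (.leaf (nat_lit 11) (nat_lit 0) (nat_lit 0)) (.add (.leaf (nat_lit 12) (nat_lit 0) (nat_lit 0)) (.leaf (nat_lit 13) (nat_lit 0) (nat_lit 0))))) (.add (.add (.leaf (nat_lit 14) (nat_lit 0) (nat_lit 0)) (.leaf (nat_lit 15) (nat_lit 0) (nat_lit 0))) (.add (.leaf (nat_lit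 16) (nat_lit 0) (nat_lit 0)) (.add (.leaf (nat_lit 17) (nat_lit 0) (nat_lit 0)) (.leaf (nat_lit 18) (nat_lit 0) (nat_lit 0))))))) (.add (.add (.add (.add (.leaf (nat_lit 19) (nat_lit 0) (nat_lit 0)) (.leaf (nat_lit 20) (nat_lit 0) (nat_lit 0))) (.add (.leaf (nat_lit 21) (nat_lit 0) (nat_lit 0)) (.add (.leaf (nat_lit 22) (nat_lit 0) (nat_lit 0)) (.leaf (nat_lit 23) (nat_lit 0) (nat_lit 0))))) (.add (.add (.leaf (nat_lit 24) (nat_lit 0) (nat_lit 0)) (.leaf (nat_lit 25) (nat_lit 0) (nat_lit 0))) (.add (.leaf (nat_lit 26) (nat_lit 0) (nat_lit 0)) (.add (.leaf (nat_lit 27) (nat_lit 0) (nat_lit 0)) (.leaf (nat_lit 28) (nat_lit 0) (nat_lit 0)))))) (.add (.add (.add (.leaf (nat_lit 29) (nat_lit 0) (nat_lit 0)) (.leaf (nat_lit 30) (nat_lit 0) (nat_lit 0))) (.add (.leaf (nat_lit 31) (nat_lit 0) (nat_lit 0)) (.add (.leaf (nat_lit 32) (nat_lit 0)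 (nat_lit 0)) (.leaf (nat_lit 33) (nat_lit 0) (nat_lit 0))))) (.add (.add (.leaf (nat_lit 34) (nat_lit 0) (nat_lit 0)) (.leaf (nat_lit 35) (nat_lit 0) (nat_lit 0))) (.add (.leaf (nat_lit 36) (nat_lit 0) (nat_lit 0)) (.add (.leaf (nat_lit 37) (nat_lit 0) (nat_lit 0)) (.leaf (nat_lit 38) (nat_lit 0) (nat_lit 0)))))))) (.add (.add (.add (.add (.add (.leaf (nat_lit 39) (nat_lit 0) (nat_lit 0)) (.leaf (nat_lit 40) (nat_lit 0) (nat_lit 0))) (.add (.leaf (nat_lit 41) (nat_lit 0) (nat_lit 0)) (.add (.leaf (nat_lit 42) (nat_lit 0) (nat_lit 0)) (.leaf (nat_lit 43) (nat_lit 0) (nat_lit 0))))) (.add (.add (.leaf (nat_lit 44) (nat_lit 0) (nat_lit 0)) (.leaf (nat_lit 45) (nat_lit 0) (nat_lit 0))) (.add (.leaf (nat_lit 46) (nat_lit 0) (nat_lit 0)) (.add (.leaf (nat_lit 47) (nat_lit 0) (nat_lit 0)) (.leaf (nat_lit 48) (nat_lit 0) (nat_lit 0)))))) (.add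 (.add (.add (.leaf (nat_lit 49) (nat_lit 0) (nat_lit 0)) (.leaf (nat_lit 50) (nat_lit 0) (nat_lit 0))) (.add (.leaf (nat_lit 51) (nat_lit 0) (nat_lit 0)) (.add (.leaf (nat_lit 52) (nat_lit 0) (nat_lit 0)) (.leaf (nat_lit 53) (nat_lit 0) (nat_lit 0))))) (.add (.add (.leaf (nat_lit 54) (nat_lit 0) (nat_lit 0)) (.leaf (nat_lit 55) (nat_lit 0) (nat_lit 0))) (.add (.leaf (nat_lit 56) (nat_lit 0) (nat_lit 0)) (.add (.leaf (nat_lit 57) (nat_lit 0) (nat_lit 0)) (.leaf (nat_lit 58) (nat_lit 0) (nat_lit 0))))))) (.add (.add (.add (.add (.leaf (nat_lit 59) (nat_lit 0) (nat_lit 0)) (.leaf (nat_lit 60) (nat_lit 0) (nat_lit 0))) (.add (.leaf (nat_lit 61) (nat_lit 0) (nat_lit 0)) (.add (.leaf (nat_lit 62) (nat_lit 0) (nat_lit 0)) (.leaf (nat_lit 63) (nat_lit 0) (nat_lit 0))))) (.add (.add (.leaf (nat_lit 64) (nat_lit 0) (nat_lit 0)) (.leaf (nat_lit 65)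 (nat_lit 0) (nat_lit 0))) (.add (.leaf (nat_lit 66) (nat_lit 0) (nat_lit 0)) (.add (.leaf (nat_lit 67) (nat_lit 0) (nat_lit 0)) (.leaf (nat_lit 68) (nat_lit 0) (nat_lit 0)))))) (.add (.add (.add (.leaf (nat_lit 69) (nat_lit 0) (nat_lit 0)) (.leaf (nat_lit 70) (nat_lit 0) (nat_lit 0))) (.add (.leaf (nat_lit 71) (nat_lit 0) (nat_lit 0)) (.add (.leaf (nat_lit 72) (nat_lit 0) (nat_lit 0)) (.leaf (nat_lit 73) (nat_lit 0) (nat_lit 0))))) (.add (.add (.leaf (nat_lit 74) (nat_lit 0) (nat_lit 0)) (.leaf (nat_lit 75) (nat_lit 0) (nat_lit 0))) (.add (.leaf (nat_lit 76) (nat_lit 0) (nat_lit 0)) (.add (.leaf (nat_lit 77) (nat_lit 0) (nat_lit 0)) (.leaf (nat_lit 78) (nat_lit 0) (nat_lit 0))))))))),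
  (.add (.add (.add (.add (.add (.add (.leaf (nat_lit 0) (nat_lit 0) (nat_lit 0)) (.leaf (nat_lit 1) (nat_lit 0) (nat_lit 0))) (.add (.leaf (nat_lit 2) (nat_lit 0) (nat_lit 0)) (.add (.leaf (nat_lit 3) (nat_lit 0) (nat_lit 0)) (.leaf (nat_lit 4) (nat_lit 0) (nat_lit 0))))) (.add (.add (.leaf (nat_lit 5) (nat_lit 0) (nat_lit 0)) (.leaf (nat_lit 6) (nat_lit 0) (nat_lit 0))) (.add (.leaf (nat_lit 7) (nat_lit 0) (nat_lit 0)) (.add (.leaf (nat_lit 8) (nat_lit 0) (nat_lit 0)) (.leaf (nat_lit 9) (nat_lit 0) (nat_lit 0)))))) (.add (.add (.add (.leaf (nat_lit 10) (nat_lit 0) (nat_lit 0)) (.leaf (nat_lit 11) (nat_lit 0) (nat_lit 0))) (.add (.leaf (nat_lit 12) (nat_lit 0) (nat_lit 0)) (.add (.leaf (nat_lit 13) (nat_lit 0) (nat_lit 0)) (.leaf (nat_lit 14) (nat_lit 0) (nat_lit 0))))) (.add (.add (.leaf (nat_lit 15) (nat_lit 0) (nat_lit 0)) (.leaf (nat_lit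 16) (nat_lit 0) (nat_lit 0))) (.add (.leaf (nat_lit 17) (nat_lit 0) (nat_lit 0)) (.add (.leaf (nat_lit 18) (nat_lit 0) (nat_lit 0)) (.leaf (nat_lit 19) (nat_lit 0) (nat_lit 0))))))) (.add (.add (.add (.add (.leaf (nat_lit 20) (nat_lit 0) (nat_lit 0)) (.leaf (nat_lit 21) (nat_lit 0) (nat_lit 0))) (.add (.leaf (nat_lit 22) (nat_lit 0) (nat_lit 0)) (.add (.leaf (nat_lit 23) (nat_lit 0) (nat_lit 0)) (.leaf (nat_lit 24) (nat_lit 0) (nat_lit 0))))) (.add (.add (.leaf (nat_lit 25) (nat_lit 0) (nat_lit 0)) (.leaf (nat_lit 26) (nat_lit 0) (nat_lit 0))) (.add (.leaf (nat_lit 27) (nat_lit 0) (nat_lit 0)) (.add (.leaf (nat_lit 28) (nat_lit 0) (nat_lit 0)) (.leaf (nat_lit 29) (nat_lit 0) (nat_lit 0)))))) (.add (.add (.add (.leaf (nat_lit 30) (nat_lit 0) (nat_lit 0)) (.leaf (nat_lit 31) (nat_lit 0) (nat_lit 0))) (.add (.leaf (nat_lit 32) (nat_lit 0)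 (nat_lit 0)) (.add (.leaf (nat_lit 33) (nat_lit 0) (nat_lit 0)) (.leaf (nat_lit 34) (nat_lit 0) (nat_lit 0))))) (.add (.add (.leaf (nat_lit 35) (nat_lit 0) (nat_lit 0)) (.leaf (nat_lit 36) (nat_lit 0) (nat_lit 0))) (.add (.leaf (nat_lit 37) (nat_lit 0) (nat_lit 0)) (.add (.leaf (nat_lit 38) (nat_lit 0) (nat_lit 0)) (.leaf (nat_lit 39) (nat_lit 0) (nat_lit 0)))))))) (.add (.add (.add (.add (.add (.leaf (nat_lit 40) (nat_lit 0) (nat_lit 0)) (.leaf (nat_lit 41) (nat_lit 0) (nat_lit 0))) (.add (.leaf (nat_lit 42) (nat_lit 0) (nat_lit 0)) (.add (.leaf (nat_lit 43) (nat_lit 0) (nat_lit 0)) (.leaf (nat_lit 44) (nat_lit 0) (nat_lit 0))))) (.add (.add (.leaf (nat_lit 45) (nat_lit 0) (nat_lit 0)) (.leaf (nat_lit 46) (nat_lit 0) (nat_lit 0))) (.add (.leaf (nat_lit 47) (nat_lit 0) (nat_lit 0)) (.add (.leaf (nat_lit 48) (nat_lit 0) (nat_lit 0)) (.leaf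 (nat_lit 49) (nat_lit 0) (nat_lit 0)))))) (.add (.add (.add (.leaf (nat_lit 50) (nat_lit 0) (nat_lit 0)) (.leaf (nat_lit 51) (nat_lit 0) (nat_lit 0))) (.add (.leaf (nat_lit 52) (nat_lit 0) (nat_lit 0)) (.add (.leaf (nat_lit 53) (nat_lit 0) (nat_lit 0)) (.leaf (nat_lit 54) (nat_lit 0) (nat_lit 0))))) (.add (.add (.leaf (nat_lit 55) (nat_lit 0) (nat_lit 0)) (.leaf (nat_lit 56) (nat_lit 0) (nat_lit 0))) (.add (.leaf (nat_lit 57) (nat_lit 0) (nat_lit 0)) (.add (.leaf (nat_lit 58) (nat_lit 0) (nat_lit 0)) (.leaf (nat_lit 59) (nat_lit 0) (nat_lit 0))))))) (.add (.add (.add (.add (.leaf (nat_lit 60) (nat_lit 0) (nat_lit 0)) (.leaf (nat_lit 61) (nat_lit 0) (nat_lit 0))) (.add (.leaf (nat_lit 62) (nat_lit 0) (nat_lit 0)) (.add (.leaf (nat_lit 63) (nat_lit 0) (nat_lit 0)) (.leaf (nat_lit 64) (nat_lit 0) (nat_lit 0))))) (.add (.add (.leaf (nat_lit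 65) (nat_lit 0) (nat_lit 0)) (.leaf (nat_lit 66) (nat_lit 0) (nat_lit 0))) (.add (.leaf (nat_lit 67) (nat_lit 0) (nat_lit 0)) (.add (.leaf (nat_lit 68) (nat_lit 0) (nat_lit 0)) (.leaf (nat_lit 69) (nat_lit 0) (nat_lit 0)))))) (.add (.add (.add (.leaf (nat_lit 70) (nat_lit 0) (nat_lit 0)) (.leaf (nat_lit 71) (nat_lit 0) (nat_lit 0))) (.add (.leaf (nat_lit 72) (nat_lit 0) (nat_lit 0)) (.add (.leaf (nat_lit 73) (nat_lit 0) (nat_lit 0)) (.leaf (nat_lit 74) (nat_lit 0) (nat_lit 0))))) (.add (.add (.leaf (nat_lit 75) (nat_lit 0) (nat_lit 0)) (.leaf (nat_lit 76) (nat_lit 0) (nat_lit 0))) (.add (.leaf (nat_lit 77) (nat_lit 0) (nat_lit 0)) (.add (.leaf (nat_lit 78) (nat_lit 0) (nat_lit 0)) (.leaf (nat_lit 79) (nat_lit 0) (nat_lit 0))))))))),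
  (.add (.add (.add (.add (.add (.add (.leaf (nat_lit 0) (nat_lit 0) (nat_lit 0)) (.leaf (nat_lit 1) (nat_lit 0) (nat_lit 0))) (.add (.leaf (nat_lit 2) (nat_lit 0) (nat_lit 0)) (.add (.leaf (nat_lit 3) (nat_lit 0) (nat_lit 0)) (.leaf (nat_lit 4) (nat_lit 0) (nat_lit 0))))) (.add (.add (.leaf (nat_lit 5) (nat_lit 0) (nat_lit 0)) (.leaf (nat_lit 6) (nat_lit 0) (nat_lit 0))) (.add (.leaf (nat_lit 7) (nat_lit 0) (nat_lit 0)) (.add (.leaf (nat_lit 8) (nat_lit 0) (nat_lit 0)) (.leaf (nat_lit 9) (nat_lit 0) (nat_lit 0)))))) (.add (.add (.add (.leaf (nat_lit 10) (nat_lit 0) (nat_lit 0)) (.leaf (nat_lit 11) (nat_lit 0) (nat_lit 0))) (.add (.leaf (nat_lit 12) (nat_lit 0) (nat_lit 0)) (.add (.leaf (nat_lit 13) (nat_lit 0) (nat_lit 0)) (.leaf (nat_lit 14) (nat_lit 0) (nat_lit 0))))) (.add (.add (.leaf (nat_lit 15) (nat_lit 0) (nat_lit 0)) (.leaf (nat_lit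 16) (nat_lit 0) (nat_lit 0))) (.add (.leaf (nat_lit 17) (nat_lit 0) (nat_lit 0)) (.add (.leaf (nat_lit 18) (nat_lit 0) (nat_lit 0)) (.leaf (nat_lit 19) (nat_lit 0) (nat_lit 0))))))) (.add (.add (.add (.add (.leaf (nat_lit 20) (nat_lit 0) (nat_lit 0)) (.leaf (nat_lit 21) (nat_lit 0) (nat_lit 0))) (.add (.leaf (nat_lit 22) (nat_lit 0) (nat_lit 0)) (.add (.leaf (nat_lit 23) (nat_lit 0) (nat_lit 0)) (.leaf (nat_lit 24) (nat_lit 0) (nat_lit 0))))) (.add (.add (.leaf (nat_lit 25) (nat_lit 0) (nat_lit 0)) (.leaf (nat_lit 26) (nat_lit 0) (nat_lit 0))) (.add (.leaf (nat_lit 27) (nat_lit 0) (nat_lit 0)) (.add (.leaf (nat_lit 28) (nat_lit 0) (nat_lit 0)) (.leaf (nat_lit 29) (nat_lit 0) (nat_lit 0)))))) (.add (.add (.add (.leaf (nat_lit 30) (nat_lit 0) (nat_lit 0)) (.leaf (nat_lit 31) (nat_lit 0) (nat_lit 0))) (.add (.leaf (nat_lit 32) (nat_lit 0)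 (nat_lit 0)) (.add (.leaf (nat_lit 33) (nat_lit 0) (nat_lit 0)) (.leaf (nat_lit 34) (nat_lit 0) (nat_lit 0))))) (.add (.add (.leaf (nat_lit 35) (nat_lit 0) (nat_lit 0)) (.leaf (nat_lit 36) (nat_lit 0) (nat_lit 0))) (.add (.leaf (nat_lit 37) (nat_lit 0) (nat_lit 0)) (.add (.leaf (nat_lit 38) (nat_lit 0) (nat_lit 0)) (.leaf (nat_lit 39) (nat_lit 0) (nat_lit 0)))))))) (.add (.add (.add (.add (.add (.leaf (nat_lit 40) (nat_lit 0) (nat_lit 0)) (.leaf (nat_lit 41) (nat_lit 0) (nat_lit 0))) (.add (.leaf (nat_lit 42) (nat_lit 0) (nat_lit 0)) (.add (.leaf (nat_lit 43) (nat_lit 0) (nat_lit 0)) (.leaf (nat_lit 44) (nat_lit 0) (nat_lit 0))))) (.add (.add (.leaf (nat_lit 45) (nat_lit 0) (nat_lit 0)) (.leaf (nat_lit 46) (nat_lit 0) (nat_lit 0))) (.add (.leaf (nat_lit 47) (nat_lit 0) (nat_lit 0)) (.add (.leaf (nat_lit 48) (nat_lit 0) (nat_lit 0)) (.leaf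 (nat_lit 49) (nat_lit 0) (nat_lit 0)))))) (.add (.add (.add (.leaf (nat_lit 50) (nat_lit 0) (nat_lit 0)) (.leaf (nat_lit 51) (nat_lit 0) (nat_lit 0))) (.add (.leaf (nat_lit 52) (nat_lit 0) (nat_lit 0)) (.add (.leaf (nat_lit 53) (nat_lit 0) (nat_lit 0)) (.leaf (nat_lit 54) (nat_lit 0) (nat_lit 0))))) (.add (.add (.leaf (nat_lit 55) (nat_lit 0) (nat_lit 0)) (.leaf (nat_lit 56) (nat_lit 0) (nat_lit 0))) (.add (.leaf (nat_lit 57) (nat_lit 0) (nat_lit 0)) (.add (.leaf (nat_lit 58) (nat_lit 0) (nat_lit 0)) (.leaf (nat_lit 59) (nat_lit 0) (nat_lit 0))))))) (.add (.add (.add (.add (.leaf (nat_lit 60) (nat_lit 0) (nat_lit 0)) (.leaf (nat_lit 61) (nat_lit 0) (nat_lit 0))) (.add (.leaf (nat_lit 62) (nat_lit 0) (nat_lit 0)) (.add (.leaf (nat_lit 63) (nat_lit 0) (nat_lit 0)) (.leaf (nat_lit 64) (nat_lit 0) (nat_lit 0))))) (.add (.add (.leaf (nat_lit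 65) (nat_lit 0) (nat_lit 0)) (.leaf (nat_lit 66) (nat_lit 0) (nat_lit 0))) (.add (.leaf (nat_lit 67) (nat_lit 0) (nat_lit 0)) (.add (.leaf (nat_lit 68) (nat_lit 0) (nat_lit 0)) (.leaf (nat_lit 69) (nat_lit 0) (nat_lit 0)))))) (.add (.add (.add (.leaf (nat_lit 70) (nat_lit 0) (nat_lit 0)) (.leaf (nat_lit 71) (nat_lit 0) (nat_lit 0))) (.add (.leaf (nat_lit 72) (nat_lit 0) (nat_lit 0)) (.add (.leaf (nat_lit 73) (nat_lit 0) (nat_lit 0)) (.leaf (nat_lit 74) (nat_lit 0) (nat_lit 0))))) (.add (.add (.leaf (nat_lit 75) (nat_lit 0) (nat_lit 0)) (.add (.leaf (nat_lit 76) (nat_lit 0) (nat_lit 0)) (.leaf (nat_lit 77) (nat_lit 0) (nat_lit 0)))) (.add (.leaf (nat_lit 78) (nat_lit 0) (nat_lit 0)) (.add (.leaf (nat_lit 79) (nat_lit 0) (nat_lit 0)) (.leaf (nat_lit 80) (nat_lit 0) (nat_lit 0))))))))),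
  (.add (.add (.add (.add (.add (.add (.leaf (nat_lit 0) (nat_lit 0) (nat_lit 0)) (.leaf (nat_lit 1) (nat_lit 0) (nat_lit 0))) (.add (.leaf (nat_lit 2) (nat_lit 0) (nat_lit 0)) (.add (.leaf (nat_lit 3) (nat_lit 0) (nat_lit 0)) (.leaf (nat_lit 4) (nat_lit 0) (nat_lit 0))))) (.add (.add (.leaf (nat_lit 5) (nat_lit 0) (nat_lit 0)) (.leaf (nat_lit 6) (nat_lit 0) (nat_lit 0))) (.add (.leaf (nat_lit 7) (nat_lit 0) (nat_lit 0)) (.add (.leaf (nat_lit 8) (nat_lit 0) (nat_lit 0)) (.leaf (nat_lit 9) (nat_lit 0) (nat_lit 0)))))) (.add (.add (.add (.leaf (nat_lit 10) (nat_lit 0) (nat_lit 0)) (.leaf (nat_lit 11) (nat_lit 0) (nat_lit 0))) (.add (.leaf (nat_lit 12) (nat_lit 0) (nat_lit 0)) (.add (.leaf (nat_lit 13) (nat_lit 0) (nat_lit 0)) (.leaf (nat_lit 14) (nat_lit 0) (nat_lit 0))))) (.add (.add (.leaf (nat_lit 15) (nat_lit 0) (nat_lit 0)) (.leaf (nat_lit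 16) (nat_lit 0) (nat_lit 0))) (.add (.leaf (nat_lit 17) (nat_lit 0) (nat_lit 0)) (.add (.leaf (nat_lit 18) (nat_lit 0) (nat_lit 0)) (.leaf (nat_lit 19) (nat_lit 0) (nat_lit 0))))))) (.add (.add (.add (.add (.leaf (nat_lit 20) (nat_lit 0) (nat_lit 0)) (.leaf (nat_lit 21) (nat_lit 0) (nat_lit 0))) (.add (.leaf (nat_lit 22) (nat_lit 0) (nat_lit 0)) (.add (.leaf (nat_lit 23) (nat_lit 0) (nat_lit 0)) (.leaf (nat_lit 24) (nat_lit 0) (nat_lit 0))))) (.add (.add (.leaf (nat_lit 25) (nat_lit 0) (nat_lit 0)) (.leaf (nat_lit 26) (nat_lit 0) (nat_lit 0))) (.add (.leaf (nat_lit 27) (nat_lit 0) (nat_lit 0)) (.add (.leaf (nat_lit 28) (nat_lit 0) (nat_lit 0)) (.leaf (nat_lit 29) (nat_lit 0) (nat_lit 0)))))) (.add (.add (.add (.leaf (nat_lit 30) (nat_lit 0) (nat_lit 0)) (.leaf (nat_lit 31) (nat_lit 0) (nat_lit 0))) (.add (.leaf (nat_lit 32) (nat_lit 0)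 (nat_lit 0)) (.add (.leaf (nat_lit 33) (nat_lit 0) (nat_lit 0)) (.leaf (nat_lit 34) (nat_lit 0) (nat_lit 0))))) (.add (.add (.leaf (nat_lit 35) (nat_lit 0) (nat_lit 0)) (.add (.leaf (nat_lit 36) (nat_lit 0) (nat_lit 0)) (.leaf (nat_lit 37) (nat_lit 0) (nat_lit 0)))) (.add (.leaf (nat_lit 38) (nat_lit 0) (nat_lit 0)) (.add (.leaf (nat_lit 39) (nat_lit 0) (nat_lit 0)) (.leaf (nat_lit 40) (nat_lit 0) (nat_lit 0)))))))) (.add (.add (.add (.add (.add (.leaf (nat_lit 41) (nat_lit 0) (nat_lit 0)) (.leaf (nat_lit 42) (nat_lit 0) (nat_lit 0))) (.add (.leaf (nat_lit 43) (nat_lit 0) (nat_lit 0)) (.add (.leaf (nat_lit 44) (nat_lit 0) (nat_lit 0)) (.leaf (nat_lit 45) (nat_lit 0) (nat_lit 0))))) (.add (.add (.leaf (nat_lit 46) (nat_lit 0) (nat_lit 0)) (.leaf (nat_lit 47) (nat_lit 0) (nat_lit 0))) (.add (.leaf (nat_lit 48) (nat_lit 0) (nat_lit 0)) (.add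 (.leaf (nat_lit 49) (nat_lit 0) (nat_lit 0)) (.leaf (nat_lit 50) (nat_lit 0) (nat_lit 0)))))) (.add (.add (.add (.leaf (nat_lit 51) (nat_lit 0) (nat_lit 0)) (.leaf (nat_lit 52) (nat_lit 0) (nat_lit 0))) (.add (.leaf (nat_lit 53) (nat_lit 0) (nat_lit 0)) (.add (.leaf (nat_lit 54) (nat_lit 0) (nat_lit 0)) (.leaf (nat_lit 55) (nat_lit 0) (nat_lit 0))))) (.add (.add (.leaf (nat_lit 56) (nat_lit 0) (nat_lit 0)) (.leaf (nat_lit 57) (nat_lit 0) (nat_lit 0))) (.add (.leaf (nat_lit 58) (nat_lit 0) (nat_lit 0)) (.add (.leaf (nat_lit 59) (nat_lit 0) (nat_lit 0)) (.leaf (nat_lit 60) (nat_lit 0) (nat_lit 0))))))) (.add (.add (.add (.add (.leaf (nat_lit 61) (nat_lit 0) (nat_lit 0)) (.leaf (nat_lit 62) (nat_lit 0) (nat_lit 0))) (.add (.leaf (nat_lit 63) (nat_lit 0) (nat_lit 0)) (.add (.leaf (nat_lit 64) (nat_lit 0) (nat_lit 0)) (.leaf (nat_lit 65) (nat_lit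 0) (nat_lit 0))))) (.add (.add (.leaf (nat_lit 66) (nat_lit 0) (nat_lit 0)) (.leaf (nat_lit 67) (nat_lit 0) (nat_lit 0))) (.add (.leaf (nat_lit 68) (nat_lit 0) (nat_lit 0)) (.add (.leaf (nat_lit 69) (nat_lit 0) (nat_lit 0)) (.leaf (nat_lit 70) (nat_lit 0) (nat_lit 0)))))) (.add (.add (.add (.leaf (nat_lit 71) (nat_lit 0) (nat_lit 0)) (.leaf (nat_lit 72) (nat_lit 0) (nat_lit 0))) (.add (.leaf (nat_lit 73) (nat_lit 0) (nat_lit 0)) (.add (.leaf (nat_lit 74) (nat_lit 0) (nat_lit 0)) (.leaf (nat_lit 75) (nat_lit 0) (nat_lit 0))))) (.add (.add (.leaf (nat_lit 76) (nat_lit 0) (nat_lit 0)) (.add (.leaf (nat_lit 77) (nat_lit 0) (nat_lit 0)) (.leaf (nat_lit 78) (nat_lit 0) (nat_lit 0)))) (.add (.leaf (nat_lit 79) (nat_lit 0) (nat_lit 0)) (.add (.leaf (nat_lit 80) (nat_lit 0) (nat_lit 0)) (.leaf (nat_lit 81) (nat_lit 0) (nat_lit 0))))))))),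
  (.add (.add (.add (.add (.add (.add (.leaf (nat_lit 0) (nat_lit 0) (nat_lit 0)) (.leaf (nat_lit 1) (nat_lit 0) (nat_lit 0))) (.add (.leaf (nat_lit 2) (nat_lit 0) (nat_lit 0)) (.add (.leaf (nat_lit 3) (nat_lit 0) (nat_lit 0)) (.leaf (nat_lit 4) (nat_lit 0) (nat_lit 0))))) (.add (.add (.leaf (nat_lit 5) (nat_lit 0) (nat_lit 0)) (.leaf (nat_lit 6) (nat_lit 0) (nat_lit 0))) (.add (.leaf (nat_lit 7) (nat_lit 0) (nat_lit 0)) (.add (.leaf (nat_lit 8) (nat_lit 0) (nat_lit 0)) (.leaf (nat_lit 9) (nat_lit 0) (nat_lit 0)))))) (.add (.add (.add (.leaf (nat_lit 10) (nat_lit 0) (nat_lit 0)) (.leaf (nat_lit 11) (nat_lit 0) (nat_lit 0))) (.add (.leaf (nat_lit 12) (nat_lit 0) (nat_lit 0)) (.add (.leaf (nat_lit 13) (nat_lit 0) (nat_lit 0)) (.leaf (nat_lit 14) (nat_lit 0) (nat_lit 0))))) (.add (.add (.leaf (nat_lit 15) (nat_lit 0) (nat_lit 0)) (.leaf (nat_lit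 16) (nat_lit 0) (nat_lit 0))) (.add (.leaf (nat_lit 17) (nat_lit 0) (nat_lit 0)) (.add (.leaf (nat_lit 18) (nat_lit 0) (nat_lit 0)) (.leaf (nat_lit 19) (nat_lit 0) (nat_lit 0))))))) (.add (.add (.add (.add (.leaf (nat_lit 20) (nat_lit 0) (nat_lit 0)) (.leaf (nat_lit 21) (nat_lit 0) (nat_lit 0))) (.add (.leaf (nat_lit 22) (nat_lit 0) (nat_lit 0)) (.add (.leaf (nat_lit 23) (nat_lit 0) (nat_lit 0)) (.leaf (nat_lit 24) (nat_lit 0) (nat_lit 0))))) (.add (.add (.leaf (nat_lit 25) (nat_lit 0) (nat_lit 0)) (.leaf (nat_lit 26) (nat_lit 0) (nat_lit 0))) (.add (.leaf (nat_lit 27) (nat_lit 0) (nat_lit 0)) (.add (.leaf (nat_lit 28) (nat_lit 0) (nat_lit 0)) (.leaf (nat_lit 29) (nat_lit 0) (nat_lit 0)))))) (.add (.add (.add (.leaf (nat_lit 30) (nat_lit 0) (nat_lit 0)) (.leaf (nat_lit 31) (nat_lit 0) (nat_lit 0))) (.add (.leaf (nat_lit 32) (nat_lit 0)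 (nat_lit 0)) (.add (.leaf (nat_lit 33) (nat_lit 0) (nat_lit 0)) (.leaf (nat_lit 34) (nat_lit 0) (nat_lit 0))))) (.add (.add (.leaf (nat_lit 35) (nat_lit 0) (nat_lit 0)) (.add (.leaf (nat_lit 36) (nat_lit 0) (nat_lit 0)) (.leaf (nat_lit 37) (nat_lit 0) (nat_lit 0)))) (.add (.leaf (nat_lit 38) (nat_lit 0) (nat_lit 0)) (.add (.leaf (nat_lit 39) (nat_lit 0) (nat_lit 0)) (.leaf (nat_lit 40) (nat_lit 0) (nat_lit 0)))))))) (.add (.add (.add (.add (.add (.leaf (nat_lit 41) (nat_lit 0) (nat_lit 0)) (.leaf (nat_lit 42) (nat_lit 0) (nat_lit 0))) (.add (.leaf (nat_lit 43) (nat_lit 0) (nat_lit 0)) (.add (.leaf (nat_lit 44) (nat_lit 0) (nat_lit 0)) (.leaf (nat_lit 45) (nat_lit 0) (nat_lit 0))))) (.add (.add (.leaf (nat_lit 46) (nat_lit 0) (nat_lit 0)) (.leaf (nat_lit 47) (nat_lit 0) (nat_lit 0))) (.add (.leaf (nat_lit 48) (nat_lit 0) (nat_lit 0)) (.add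 (.leaf (nat_lit 49) (nat_lit 0) (nat_lit 0)) (.leaf (nat_lit 50) (nat_lit 0) (nat_lit 0)))))) (.add (.add (.add (.leaf (nat_lit 51) (nat_lit 0) (nat_lit 0)) (.leaf (nat_lit 52) (nat_lit 0) (nat_lit 0))) (.add (.leaf (nat_lit 53) (nat_lit 0) (nat_lit 0)) (.add (.leaf (nat_lit 54) (nat_lit 0) (nat_lit 0)) (.leaf (nat_lit 55) (nat_lit 0) (nat_lit 0))))) (.add (.add (.leaf (nat_lit 56) (nat_lit 0) (nat_lit 0)) (.add (.leaf (nat_lit 57) (nat_lit 0) (nat_lit 0)) (.leaf (nat_lit 58) (nat_lit 0) (nat_lit 0)))) (.add (.leaf (nat_lit 59) (nat_lit 0) (nat_lit 0)) (.add (.leaf (nat_lit 60) (nat_lit 0) (nat_lit 0)) (.leaf (nat_lit 61) (nat_lit 0) (nat_lit 0))))))) (.add (.add (.add (.add (.leaf (nat_lit 62) (nat_lit 0) (nat_lit 0)) (.leaf (nat_lit 63) (nat_lit 0) (nat_lit 0))) (.add (.leaf (nat_lit 64) (nat_lit 0) (nat_lit 0)) (.add (.leaf (nat_lit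 65) (nat_lit 0) (nat_lit 0)) (.leaf (nat_lit 66) (nat_lit 0) (nat_lit 0))))) (.add (.add (.leaf (nat_lit 67) (nat_lit 0) (nat_lit 0)) (.leaf (nat_lit 68) (nat_lit 0) (nat_lit 0))) (.add (.leaf (nat_lit 69) (nat_lit 0) (nat_lit 0)) (.add (.leaf (nat_lit 70) (nat_lit 0) (nat_lit 0)) (.leaf (nat_lit 71) (nat_lit 0) (nat_lit 0)))))) (.add (.add (.add (.leaf (nat_lit 72) (nat_lit 0) (nat_lit 0)) (.leaf (nat_lit 73) (nat_lit 0) (nat_lit 0))) (.add (.leaf (nat_lit 74) (nat_lit 0) (nat_lit 0)) (.add (.leaf (nat_lit 75) (nat_lit 0) (nat_lit 0)) (.leaf (nat_lit 76) (nat_lit 0) (nat_lit 0))))) (.add (.add (.leaf (nat_lit 77) (nat_lit 0) (nat_lit 0)) (.add (.leaf (nat_lit 78) (nat_lit 0) (nat_lit 0)) (.leaf (nat_lit 79) (nat_lit 0) (nat_lit 0)))) (.add (.leaf (nat_lit 80) (nat_lit 0) (nat_lit 0)) (.add (.leaf (nat_lit 81) (nat_lit 0) (nat_lit 0))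 (.leaf (nat_lit 82) (nat_lit 0) (nat_lit 0))))))))),
  (.add (.add (.add (.add (.add (.add (.leaf (nat_lit 0) (nat_lit 0) (nat_lit 0)) (.leaf (nat_lit 1) (nat_lit 0) (nat_lit 0))) (.add (.leaf (nat_lit 2) (nat_lit 0) (nat_lit 0)) (.add (.leaf (nat_lit 3) (nat_lit 0) (nat_lit 0)) (.leaf (nat_lit 4) (nat_lit 0) (nat_lit 0))))) (.add (.add (.leaf (nat_lit 5) (nat_lit 0) (nat_lit 0)) (.leaf (nat_lit 6) (nat_lit 0) (nat_lit 0))) (.add (.leaf (nat_lit 7) (nat_lit 0) (nat_lit 0)) (.add (.leaf (nat_lit 8) (nat_lit 0) (nat_lit 0)) (.leaf (nat_lit 9) (nat_lit 0) (nat_lit 0)))))) (.add (.add (.add (.leaf (nat_lit 10) (nat_lit 0) (nat_lit 0)) (.leaf (nat_lit 11) (nat_lit 0) (nat_lit 0))) (.add (.leaf (nat_lit 12) (nat_lit 0) (nat_lit 0)) (.add (.leaf (nat_lit 13) (nat_lit 0) (nat_lit 0)) (.leaf (nat_lit 14) (nat_lit 0) (nat_lit 0))))) (.add (.add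 (.leaf (nat_lit 15) (nat_lit 0) (nat_lit 0)) (.add (.leaf (nat_lit 16) (nat_lit 0) (nat_lit 0)) (.leaf (nat_lit 17) (nat_lit 0) (nat_lit 0)))) (.add (.leaf (nat_lit 18) (nat_lit 0) (nat_lit 0)) (.add (.leaf (nat_lit 19) (nat_lit 0) (nat_lit 0)) (.leaf (nat_lit 20) (nat_lit 0) (nat_lit 0))))))) (.add (.add (.add (.add (.leaf (nat_lit 21) (nat_lit 0) (nat_lit 0)) (.leaf (nat_lit 22) (nat_lit 0) (nat_lit 0))) (.add (.leaf (nat_lit 23) (nat_lit 0) (nat_lit 0)) (.add (.leaf (nat_lit 24) (nat_lit 0) (nat_lit 0)) (.leaf (nat_lit 25) (nat_lit 0) (nat_lit 0))))) (.add (.add (.leaf (nat_lit 26) (nat_lit 0) (nat_lit 0)) (.leaf (nat_lit 27) (nat_lit 0) (nat_lit 0))) (.add (.leaf (nat_lit 28) (nat_lit 0) (nat_lit 0)) (.add (.leaf (nat_lit 29) (nat_lit 0) (nat_lit 0)) (.leaf (nat_lit 30) (nat_lit 0) (nat_lit 0)))))) (.add (.add (.add (.leaf (nat_lit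 31) (nat_lit 0) (nat_lit 0)) (.leaf (nat_lit 32) (nat_lit 0) (nat_lit 0))) (.add (.leaf (nat_lit 33) (nat_lit 0) (nat_lit 0)) (.add (.leaf (nat_lit 34) (nat_lit 0) (nat_lit 0)) (.leaf (nat_lit 35) (nat_lit 0) (nat_lit 0))))) (.add (.add (.leaf (nat_lit 36) (nat_lit 0) (nat_lit 0)) (.add (.leaf (nat_lit 37) (nat_lit 0) (nat_lit 0)) (.leaf (nat_lit 38) (nat_lit 0) (nat_lit 0)))) (.add (.leaf (nat_lit 39) (nat_lit 0) (nat_lit 0)) (.add (.leaf (nat_lit 40) (nat_lit 0) (nat_lit 0)) (.leaf (nat_lit 41) (nat_lit 0) (nat_lit 0)))))))) (.add (.add (.add (.add (.add (.leaf (nat_lit 42) (nat_lit 0) (nat_lit 0)) (.leaf (nat_lit 43) (nat_lit 0) (nat_lit 0))) (.add (.leaf (nat_lit 44) (nat_lit 0) (nat_lit 0)) (.add (.leaf (nat_lit 45) (nat_lit 0) (nat_lit 0)) (.leaf (nat_lit 46) (nat_lit 0) (nat_lit 0))))) (.add (.add (.leaf (nat_lit 47) (nat_lit 0)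 (nat_lit 0)) (.leaf (nat_lit 48) (nat_lit 0) (nat_lit 0))) (.add (.leaf (nat_lit 49) (nat_lit 0) (nat_lit 0)) (.add (.leaf (nat_lit 50) (nat_lit 0) (nat_lit 0)) (.leaf (nat_lit 51) (nat_lit 0) (nat_lit 0)))))) (.add (.add (.add (.leaf (nat_lit 52) (nat_lit 0) (nat_lit 0)) (.leaf (nat_lit 53) (nat_lit 0) (nat_lit 0))) (.add (.leaf (nat_lit 54) (nat_lit 0) (nat_lit 0)) (.add (.leaf (nat_lit 55) (nat_lit 0) (nat_lit 0)) (.leaf (nat_lit 56) (nat_lit 0) (nat_lit 0))))) (.add (.add (.leaf (nat_lit 57) (nat_lit 0) (nat_lit 0)) (.add (.leaf (nat_lit 58) (nat_lit 0) (nat_lit 0)) (.leaf (nat_lit 59) (nat_lit 0) (nat_lit 0)))) (.add (.leaf (nat_lit 60) (nat_lit 0) (nat_lit 0)) (.add (.leaf (nat_lit 61) (nat_lit 0) (nat_lit 0)) (.leaf (nat_lit 62) (nat_lit 0) (nat_lit 0))))))) (.add (.add (.add (.add (.leaf (nat_lit 63) (nat_lit 0) (nat_lit 0)) (.leaf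 (nat_lit 64) (nat_lit 0) (nat_lit 0))) (.add (.leaf (nat_lit 65) (nat_lit 0) (nat_lit 0)) (.add (.leaf (nat_lit 66) (nat_lit 0) (nat_lit 0)) (.leaf (nat_lit 67) (nat_lit 0) (nat_lit 0))))) (.add (.add (.leaf (nat_lit 68) (nat_lit 0) (nat_lit 0)) (.leaf (nat_lit 69) (nat_lit 0) (nat_lit 0))) (.add (.leaf (nat_lit 70) (nat_lit 0) (nat_lit 0)) (.add (.leaf (nat_lit 71) (nat_lit 0) (nat_lit 0)) (.leaf (nat_lit 72) (nat_lit 0) (nat_lit 0)))))) (.add (.add (.add (.leaf (nat_lit 73) (nat_lit 0) (nat_lit 0)) (.leaf (nat_lit 74) (nat_lit 0) (nat_lit 0))) (.add (.leaf (nat_lit 75) (nat_lit 0) (nat_lit 0)) (.add (.leaf (nat_lit 76) (nat_lit 0) (nat_lit 0)) (.leaf (nat_lit 77) (nat_lit 0) (nat_lit 0))))) (.add (.add (.leaf (nat_lit 78) (nat_lit 0) (nat_lit 0)) (.add (.leaf (nat_lit 79) (nat_lit 0) (nat_lit 0)) (.leaf (nat_lit 80) (nat_lit 0) (nat_lit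 0)))) (.add (.leaf (nat_lit 81) (nat_lit 0) (nat_lit 0)) (.add (.leaf (nat_lit 82) (nat_lit 0) (nat_lit 0)) (.leaf (nat_lit 83) (nat_lit 0) (nat_lit 0))))))))),
  (.add (.add (.add (.add (.add (.add (.leaf (nat_lit 0) (nat_lit 0) (nat_lit 0)) (.leaf (nat_lit 1) (nat_lit 0) (nat_lit 0))) (.add (.leaf (nat_lit 2) (nat_lit 0) (nat_lit 0)) (.add (.leaf (nat_lit 3) (nat_lit 0) (nat_lit 0)) (.leaf (nat_lit 4) (nat_lit 0) (nat_lit 0))))) (.add (.add (.leaf (nat_lit 5) (nat_lit 0) (nat_lit 0)) (.leaf (nat_lit 6) (nat_lit 0) (nat_lit 0))) (.add (.leaf (nat_lit 7) (nat_lit 0) (nat_lit 0)) (.add (.leaf (nat_lit 8) (nat_lit 0) (nat_lit 0)) (.leaf (nat_lit 9) (nat_lit 0) (nat_lit 0)))))) (.add (.add (.add (.leaf (nat_lit 10) (nat_lit 0) (nat_lit 0)) (.leaf (nat_lit 11) (nat_lit 0) (nat_lit 0))) (.add (.leaf (nat_lit 12) (nat_lit 0) (nat_lit 0)) (.add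 (.leaf (nat_lit 13) (nat_lit 0) (nat_lit 0)) (.leaf (nat_lit 14) (nat_lit 0) (nat_lit 0))))) (.add (.add (.leaf (nat_lit 15) (nat_lit 0) (nat_lit 0)) (.add (.leaf (nat_lit 16) (nat_lit 0) (nat_lit 0)) (.leaf (nat_lit 17) (nat_lit 0) (nat_lit 0)))) (.add (.leaf (nat_lit 18) (nat_lit 0) (nat_lit 0)) (.add (.leaf (nat_lit 19) (nat_lit 0) (nat_lit 0)) (.leaf (nat_lit 20) (nat_lit 0) (nat_lit 0))))))) (.add (.add (.add (.add (.leaf (nat_lit 21) (nat_lit 0) (nat_lit 0)) (.leaf (nat_lit 22) (nat_lit 0) (nat_lit 0))) (.add (.leaf (nat_lit 23) (nat_lit 0) (nat_lit 0)) (.add (.leaf (nat_lit 24) (nat_lit 0) (nat_lit 0)) (.leaf (nat_lit 25) (nat_lit 0) (nat_lit 0))))) (.add (.add (.leaf (nat_lit 26) (nat_lit 0) (nat_lit 0)) (.leaf (nat_lit 27) (nat_lit 0) (nat_lit 0))) (.add (.leaf (nat_lit 28) (nat_lit 0) (nat_lit 0)) (.add (.leaf (nat_lit 29) (nat_lit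 0) (nat_lit 0)) (.leaf (nat_lit 30) (nat_lit 0) (nat_lit 0)))))) (.add (.add (.add (.leaf (nat_lit 31) (nat_lit 0) (nat_lit 0)) (.leaf (nat_lit 32) (nat_lit 0) (nat_lit 0))) (.add (.leaf (nat_lit 33) (nat_lit 0) (nat_lit 0)) (.add (.leaf (nat_lit 34) (nat_lit 0) (nat_lit 0)) (.leaf (nat_lit 35) (nat_lit 0) (nat_lit 0))))) (.add (.add (.leaf (nat_lit 36) (nat_lit 0) (nat_lit 0)) (.add (.leaf (nat_lit 37) (nat_lit 0) (nat_lit 0)) (.leaf (nat_lit 38) (nat_lit 0) (nat_lit 0)))) (.add (.leaf (nat_lit 39) (nat_lit 0) (nat_lit 0)) (.add (.leaf (nat_lit 40) (nat_lit 0) (nat_lit 0)) (.leaf (nat_lit 41) (nat_lit 0) (nat_lit 0)))))))) (.add (.add (.add (.add (.add (.leaf (nat_lit 42) (nat_lit 0) (nat_lit 0)) (.leaf (nat_lit 43) (nat_lit 0) (nat_lit 0))) (.add (.leaf (nat_lit 44) (nat_lit 0) (nat_lit 0)) (.add (.leaf (nat_lit 45) (nat_lit 0) (nat_lit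 0)) (.leaf (nat_lit 46) (nat_lit 0) (nat_lit 0))))) (.add (.add (.leaf (nat_lit 47) (nat_lit 0) (nat_lit 0)) (.leaf (nat_lit 48) (nat_lit 0) (nat_lit 0))) (.add (.leaf (nat_lit 49) (nat_lit 0) (nat_lit 0)) (.add (.leaf (nat_lit 50) (nat_lit 0) (nat_lit 0)) (.leaf (nat_lit 51) (nat_lit 0) (nat_lit 0)))))) (.add (.add (.add (.leaf (nat_lit 52) (nat_lit 0) (nat_lit 0)) (.leaf (nat_lit 53) (nat_lit 0) (nat_lit 0))) (.add (.leaf (nat_lit 54) (nat_lit 0) (nat_lit 0)) (.add (.leaf (nat_lit 55) (nat_lit 0) (nat_lit 0)) (.leaf (nat_lit 56) (nat_lit 0) (nat_lit 0))))) (.add (.add (.leaf (nat_lit 57) (nat_lit 0) (nat_lit 0)) (.add (.leaf (nat_lit 58) (nat_lit 0) (nat_lit 0)) (.leaf (nat_lit 59) (nat_lit 0) (nat_lit 0)))) (.add (.leaf (nat_lit 60) (nat_lit 0) (nat_lit 0)) (.add (.leaf (nat_lit 61) (nat_lit 0) (nat_lit 0)) (.leaf (nat_lit 62) (nat_lit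 0) (nat_lit 0))))))) (.add (.add (.add (.add (.leaf (nat_lit 63) (nat_lit 0) (nat_lit 0)) (.leaf (nat_lit 64) (nat_lit 0) (nat_lit 0))) (.add (.leaf (nat_lit 65) (nat_lit 0) (nat_lit 0)) (.add (.leaf (nat_lit 66) (nat_lit 0) (nat_lit 0)) (.leaf (nat_lit 67) (nat_lit 0) (nat_lit 0))))) (.add (.add (.leaf (nat_lit 68) (nat_lit 0) (nat_lit 0)) (.add (.leaf (nat_lit 69) (nat_lit 0) (nat_lit 0)) (.leaf (nat_lit 70) (nat_lit 0) (nat_lit 0)))) (.add (.leaf (nat_lit 71) (nat_lit 0) (nat_lit 0)) (.add (.leaf (nat_lit 72) (nat_lit 0) (nat_lit 0)) (.leaf (nat_lit 73) (nat_lit 0) (nat_lit 0)))))) (.add (.add (.add (.leaf (nat_lit 74) (nat_lit 0) (nat_lit 0)) (.leaf (nat_lit 75) (nat_lit 0) (nat_lit 0))) (.add (.leaf (nat_lit 76) (nat_lit 0) (nat_lit 0)) (.add (.leaf (nat_lit 77) (nat_lit 0) (nat_lit 0)) (.leaf (nat_lit 78) (nat_lit 0) (nat_lit 0)))))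 (.add (.add (.leaf (nat_lit 79) (nat_lit 0) (nat_lit 0)) (.add (.leaf (nat_lit 80) (nat_lit 0) (nat_lit 0)) (.leaf (nat_lit 81) (nat_lit 0) (nat_lit 0)))) (.add (.leaf (nat_lit 82) (nat_lit 0) (nat_lit 0)) (.add (.leaf (nat_lit 83) (nat_lit 0) (nat_lit 0)) (.leaf (nat_lit 84) (nat_lit 0) (nat_lit 0))))))))),
  (.add (.add (.add (.add (.add (.add (.leaf (nat_lit 0) (nat_lit 0) (nat_lit 0)) (.leaf (nat_lit 1) (nat_lit 0) (nat_lit 0))) (.add (.leaf (nat_lit 2) (nat_lit 0) (nat_lit 0)) (.add (.leaf (nat_lit 3) (nat_lit 0) (nat_lit 0)) (.leaf (nat_lit 4) (nat_lit 0) (nat_lit 0))))) (.add (.add (.leaf (nat_lit 5) (nat_lit 0) (nat_lit 0)) (.leaf (nat_lit 6) (nat_lit 0) (nat_lit 0))) (.add (.leaf (nat_lit 7) (nat_lit 0) (nat_lit 0)) (.add (.leaf (nat_lit 8) (nat_lit 0) (nat_lit 0)) (.leaf (nat_lit 9) (nat_lit 0) (nat_lit 0)))))) (.add (.add (.add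 (.leaf (nat_lit 10) (nat_lit 0) (nat_lit 0)) (.leaf (nat_lit 11) (nat_lit 0) (nat_lit 0))) (.add (.leaf (nat_lit 12) (nat_lit 0) (nat_lit 0)) (.add (.leaf (nat_lit 13) (nat_lit 0) (nat_lit 0)) (.leaf (nat_lit 14) (nat_lit 0) (nat_lit 0))))) (.add (.add (.leaf (nat_lit 15) (nat_lit 0) (nat_lit 0)) (.add (.leaf (nat_lit 16) (nat_lit 0) (nat_lit 0)) (.leaf (nat_lit 17) (nat_lit 0) (nat_lit 0)))) (.add (.leaf (nat_lit 18) (nat_lit 0) (nat_lit 0)) (.add (.leaf (nat_lit 19) (nat_lit 0) (nat_lit 0)) (.leaf (nat_lit 20) (nat_lit 0) (nat_lit 0))))))) (.add (.add (.add (.add (.leaf (nat_lit 21) (nat_lit 0) (nat_lit 0)) (.leaf (nat_lit 22) (nat_lit 0) (nat_lit 0))) (.add (.leaf (nat_lit 23) (nat_lit 0) (nat_lit 0)) (.add (.leaf (nat_lit 24) (nat_lit 0) (nat_lit 0)) (.leaf (nat_lit 25) (nat_lit 0) (nat_lit 0))))) (.add (.add (.leaf (nat_lit 26) (nat_lit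 0) (nat_lit 0)) (.add (.leaf (nat_lit 27) (nat_lit 0) (nat_lit 0)) (.leaf (nat_lit 28) (nat_lit 0) (nat_lit 0)))) (.add (.leaf (nat_lit 29) (nat_lit 0) (nat_lit 0)) (.add (.leaf (nat_lit 30) (nat_lit 0) (nat_lit 0)) (.leaf (nat_lit 31) (nat_lit 0) (nat_lit 0)))))) (.add (.add (.add (.leaf (nat_lit 32) (nat_lit 0) (nat_lit 0)) (.leaf (nat_lit 33) (nat_lit 0) (nat_lit 0))) (.add (.leaf (nat_lit 34) (nat_lit 0) (nat_lit 0)) (.add (.leaf (nat_lit 35) (nat_lit 0) (nat_lit 0)) (.leaf (nat_lit 36) (nat_lit 0) (nat_lit 0))))) (.add (.add (.leaf (nat_lit 37) (nat_lit 0) (nat_lit 0)) (.add (.leaf (nat_lit 38) (nat_lit 0) (nat_lit 0)) (.leaf (nat_lit 39) (nat_lit 0) (nat_lit 0)))) (.add (.leaf (nat_lit 40) (nat_lit 0) (nat_lit 0)) (.add (.leaf (nat_lit 41) (nat_lit 0) (nat_lit 0)) (.leaf (nat_lit 42) (nat_lit 0) (nat_lit 0)))))))) (.add (.add (.add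 (.add (.add (.leaf (nat_lit 43) (nat_lit 0) (nat_lit 0)) (.leaf (nat_lit 44) (nat_lit 0) (nat_lit 0))) (.add (.leaf (nat_lit 45) (nat_lit 0) (nat_lit 0)) (.add (.leaf (nat_lit 46) (nat_lit 0) (nat_lit 0)) (.leaf (nat_lit 47) (nat_lit 0) (nat_lit 0))))) (.add (.add (.leaf (nat_lit 48) (nat_lit 0) (nat_lit 0)) (.leaf (nat_lit 49) (nat_lit 0) (nat_lit 0))) (.add (.leaf (nat_lit 50) (nat_lit 0) (nat_lit 0)) (.add (.leaf (nat_lit 51) (nat_lit 0) (nat_lit 0)) (.leaf (nat_lit 52) (nat_lit 0) (nat_lit 0)))))) (.add (.add (.add (.leaf (nat_lit 53) (nat_lit 0) (nat_lit 0)) (.leaf (nat_lit 54) (nat_lit 0) (nat_lit 0))) (.add (.leaf (nat_lit 55) (nat_lit 0) (nat_lit 0)) (.add (.leaf (nat_lit 56) (nat_lit 0) (nat_lit 0)) (.leaf (nat_lit 57) (nat_lit 0) (nat_lit 0))))) (.add (.add (.leaf (nat_lit 58) (nat_lit 0) (nat_lit 0)) (.add (.leaf (nat_lit 59)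 (nat_lit 0) (nat_lit 0)) (.leaf (nat_lit 60) (nat_lit 0) (nat_lit 0)))) (.add (.leaf (nat_lit 61) (nat_lit 0) (nat_lit 0)) (.add (.leaf (nat_lit 62) (nat_lit 0) (nat_lit 0)) (.leaf (nat_lit 63) (nat_lit 0) (nat_lit 0))))))) (.add (.add (.add (.add (.leaf (nat_lit 64) (nat_lit 0) (nat_lit 0)) (.leaf (nat_lit 65) (nat_lit 0) (nat_lit 0))) (.add (.leaf (nat_lit 66) (nat_lit 0) (nat_lit 0)) (.add (.leaf (nat_lit 67) (nat_lit 0) (nat_lit 0)) (.leaf (nat_lit 68) (nat_lit 0) (nat_lit 0))))) (.add (.add (.leaf (nat_lit 69) (nat_lit 0) (nat_lit 0)) (.add (.leaf (nat_lit 70) (nat_lit 0) (nat_lit 0)) (.leaf (nat_lit 71) (nat_lit 0) (nat_lit 0)))) (.add (.leaf (nat_lit 72) (nat_lit 0) (nat_lit 0)) (.add (.leaf (nat_lit 73) (nat_lit 0) (nat_lit 0)) (.leaf (nat_lit 74) (nat_lit 0) (nat_lit 0)))))) (.add (.add (.add (.leaf (nat_lit 75) (nat_lit 0) (nat_lit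 0)) (.leaf (nat_lit 76) (nat_lit 0) (nat_lit 0))) (.add (.leaf (nat_lit 77) (nat_lit 0) (nat_lit 0)) (.add (.leaf (nat_lit 78) (nat_lit 0) (nat_lit 0)) (.leaf (nat_lit 79) (nat_lit 0) (nat_lit 0))))) (.add (.add (.leaf (nat_lit 80) (nat_lit 0) (nat_lit 0)) (.add (.leaf (nat_lit 81) (nat_lit 0) (nat_lit 0)) (.leaf (nat_lit 82) (nat_lit 0) (nat_lit 0)))) (.add (.leaf (nat_lit 83) (nat_lit 0) (nat_lit 0)) (.add (.leaf (nat_lit 84) (nat_lit 0) (nat_lit 0)) (.leaf (nat_lit 85) (nat_lit 0) (nat_lit 0))))))))),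
  (.add (.add (.add (.add (.add (.add (.leaf (nat_lit 0) (nat_lit 0) (nat_lit 0)) (.leaf (nat_lit 1) (nat_lit 0) (nat_lit 0))) (.add (.leaf (nat_lit 2) (nat_lit 0) (nat_lit 0)) (.add (.leaf (nat_lit 3) (nat_lit 0) (nat_lit 0)) (.leaf (nat_lit 4) (nat_lit 0) (nat_lit 0))))) (.add (.add (.leaf (nat_lit 5) (nat_lit 0) (nat_lit 0)) (.leaf (nat_lit 6) (nat_lit 0) (nat_lit 0))) (.add (.leaf (nat_lit 7) (nat_lit 0) (nat_lit 0)) (.add (.leaf (nat_lit 8) (nat_lit 0) (nat_lit 0)) (.leaf (nat_lit 9) (nat_lit 0) (nat_lit 0)))))) (.add (.add (.add (.leaf (nat_lit 10) (nat_lit 0) (nat_lit 0)) (.leaf (nat_lit 11) (nat_lit 0) (nat_lit 0))) (.add (.leaf (nat_lit 12) (nat_lit 0) (nat_lit 0)) (.add (.leaf (nat_lit 13) (nat_lit 0) (nat_lit 0)) (.leaf (nat_lit 14) (nat_lit 0) (nat_lit 0))))) (.add (.add (.leaf (nat_lit 15) (nat_lit 0) (nat_lit 0)) (.add (.leaf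 (nat_lit 16) (nat_lit 0) (nat_lit 0)) (.leaf (nat_lit 17) (nat_lit 0) (nat_lit 0)))) (.add (.leaf (nat_lit 18) (nat_lit 0) (nat_lit 0)) (.add (.leaf (nat_lit 19) (nat_lit 0) (nat_lit 0)) (.leaf (nat_lit 20) (nat_lit 0) (nat_lit 0))))))) (.add (.add (.add (.add (.leaf (nat_lit 21) (nat_lit 0) (nat_lit 0)) (.leaf (nat_lit 22) (nat_lit 0) (nat_lit 0))) (.add (.leaf (nat_lit 23) (nat_lit 0) (nat_lit 0)) (.add (.leaf (nat_lit 24) (nat_lit 0) (nat_lit 0)) (.leaf (nat_lit 25) (nat_lit 0) (nat_lit 0))))) (.add (.add (.leaf (nat_lit 26) (nat_lit 0) (nat_lit 0)) (.add (.leaf (nat_lit 27) (nat_lit 0) (nat_lit 0)) (.leaf (nat_lit 28) (nat_lit 0) (nat_lit 0)))) (.add (.leaf (nat_lit 29) (nat_lit 0) (nat_lit 0)) (.add (.leaf (nat_lit 30) (nat_lit 0) (nat_lit 0)) (.leaf (nat_lit 31) (nat_lit 0) (nat_lit 0)))))) (.add (.add (.add (.leaf (nat_lit 32) (nat_lit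 0) (nat_lit 0)) (.leaf (nat_lit 33) (nat_lit 0) (nat_lit 0))) (.add (.leaf (nat_lit 34) (nat_lit 0) (nat_lit 0)) (.add (.leaf (nat_lit 35) (nat_lit 0) (nat_lit 0)) (.leaf (nat_lit 36) (nat_lit 0) (nat_lit 0))))) (.add (.add (.leaf (nat_lit 37) (nat_lit 0) (nat_lit 0)) (.add (.leaf (nat_lit 38) (nat_lit 0) (nat_lit 0)) (.leaf (nat_lit 39) (nat_lit 0) (nat_lit 0)))) (.add (.leaf (nat_lit 40) (nat_lit 0) (nat_lit 0)) (.add (.leaf (nat_lit 41) (nat_lit 0) (nat_lit 0)) (.leaf (nat_lit 42) (nat_lit 0) (nat_lit 0)))))))) (.add (.add (.add (.add (.add (.leaf (nat_lit 43) (nat_lit 0) (nat_lit 0)) (.leaf (nat_lit 44) (nat_lit 0) (nat_lit 0))) (.add (.leaf (nat_lit 45) (nat_lit 0) (nat_lit 0)) (.add (.leaf (nat_lit 46) (nat_lit 0) (nat_lit 0)) (.leaf (nat_lit 47) (nat_lit 0) (nat_lit 0))))) (.add (.add (.leaf (nat_lit 48) (nat_lit 0) (nat_lit 0))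 (.add (.leaf (nat_lit 49) (nat_lit 0) (nat_lit 0)) (.leaf (nat_lit 50) (nat_lit 0) (nat_lit 0)))) (.add (.leaf (nat_lit 51) (nat_lit 0) (nat_lit 0)) (.add (.leaf (nat_lit 52) (nat_lit 0) (nat_lit 0)) (.leaf (nat_lit 53) (nat_lit 0) (nat_lit 0)))))) (.add (.add (.add (.leaf (nat_lit 54) (nat_lit 0) (nat_lit 0)) (.leaf (nat_lit 55) (nat_lit 0) (nat_lit 0))) (.add (.leaf (nat_lit 56) (nat_lit 0) (nat_lit 0)) (.add (.leaf (nat_lit 57) (nat_lit 0) (nat_lit 0)) (.leaf (nat_lit 58) (nat_lit 0) (nat_lit 0))))) (.add (.add (.leaf (nat_lit 59) (nat_lit 0) (nat_lit 0)) (.add (.leaf (nat_lit 60) (nat_lit 0) (nat_lit 0)) (.leaf (nat_lit 61) (nat_lit 0) (nat_lit 0)))) (.add (.leaf (nat_lit 62) (nat_lit 0) (nat_lit 0)) (.add (.leaf (nat_lit 63) (nat_lit 0) (nat_lit 0)) (.leaf (nat_lit 64) (nat_lit 0) (nat_lit 0))))))) (.add (.add (.add (.add (.leaf (nat_lit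 65) (nat_lit 0) (nat_lit 0)) (.leaf (nat_lit 66) (nat_lit 0) (nat_lit 0))) (.add (.leaf (nat_lit 67) (nat_lit 0) (nat_lit 0)) (.add (.leaf (nat_lit 68) (nat_lit 0) (nat_lit 0)) (.leaf (nat_lit 69) (nat_lit 0) (nat_lit 0))))) (.add (.add (.leaf (nat_lit 70) (nat_lit 0) (nat_lit 0)) (.add (.leaf (nat_lit 71) (nat_lit 0) (nat_lit 0)) (.leaf (nat_lit 72) (nat_lit 0) (nat_lit 0)))) (.add (.leaf (nat_lit 73) (nat_lit 0) (nat_lit 0)) (.add (.leaf (nat_lit 74) (nat_lit 0) (nat_lit 0)) (.leaf (nat_lit 75) (nat_lit 0) (nat_lit 0)))))) (.add (.add (.add (.leaf (nat_lit 76) (nat_lit 0) (nat_lit 0)) (.leaf (nat_lit 77) (nat_lit 0) (nat_lit 0))) (.add (.leaf (nat_lit 78) (nat_lit 0) (nat_lit 0)) (.add (.leaf (nat_lit 79) (nat_lit 0) (nat_lit 0)) (.leaf (nat_lit 80) (nat_lit 0) (nat_lit 0))))) (.add (.add (.leaf (nat_lit 81) (nat_lit 0) (nat_lit 0))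 (.add (.leaf (nat_lit 82) (nat_lit 0) (nat_lit 0)) (.leaf (nat_lit 83) (nat_lit 0) (nat_lit 0)))) (.add (.leaf (nat_lit 84) (nat_lit 0) (nat_lit 0)) (.add (.leaf (nat_lit 85) (nat_lit 0) (nat_lit 0)) (.leaf (nat_lit 86) (nat_lit 0) (nat_lit 0))))))))),
  (.add (.add (.add (.add (.add (.add (.leaf (nat_lit 0) (nat_lit 0) (nat_lit 0)) (.leaf (nat_lit 1) (nat_lit 0) (nat_lit 0))) (.add (.leaf (nat_lit 2) (nat_lit 0) (nat_lit 0)) (.add (.leaf (nat_lit 3) (nat_lit 0) (nat_lit 0)) (.leaf (nat_lit 4) (nat_lit 0) (nat_lit 0))))) (.add (.add (.leaf (nat_lit 5) (nat_lit 0) (nat_lit 0)) (.add (.leaf (nat_lit 6) (nat_lit 0) (nat_lit 0)) (.leaf (nat_lit 7) (nat_lit 0) (nat_lit 0)))) (.add (.leaf (nat_lit 8) (nat_lit 0) (nat_lit 0)) (.add (.leaf (nat_lit 9) (nat_lit 0) (nat_lit 0)) (.leaf (nat_lit 10) (nat_lit 0) (nat_lit 0)))))) (.add (.add (.add (.leaf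 (nat_lit 11) (nat_lit 0) (nat_lit 0)) (.leaf (nat_lit 12) (nat_lit 0) (nat_lit 0))) (.add (.leaf (nat_lit 13) (nat_lit 0) (nat_lit 0)) (.add (.leaf (nat_lit 14) (nat_lit 0) (nat_lit 0)) (.leaf (nat_lit 15) (nat_lit 0) (nat_lit 0))))) (.add (.add (.leaf (nat_lit 16) (nat_lit 0) (nat_lit 0)) (.add (.leaf (nat_lit 17) (nat_lit 0) (nat_lit 0)) (.leaf (nat_lit 18) (nat_lit 0) (nat_lit 0)))) (.add (.leaf (nat_lit 19) (nat_lit 0) (nat_lit 0)) (.add (.leaf (nat_lit 20) (nat_lit 0) (nat_lit 0)) (.leaf (nat_lit 21) (nat_lit 0) (nat_lit 0))))))) (.add (.add (.add (.add (.leaf (nat_lit 22) (nat_lit 0) (nat_lit 0)) (.leaf (nat_lit 23) (nat_lit 0) (nat_lit 0))) (.add (.leaf (nat_lit 24) (nat_lit 0) (nat_lit 0)) (.add (.leaf (nat_lit 25) (nat_lit 0) (nat_lit 0)) (.leaf (nat_lit 26) (nat_lit 0) (nat_lit 0))))) (.add (.add (.leaf (nat_lit 27) (nat_lit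 0) (nat_lit 0)) (.add (.leaf (nat_lit 28) (nat_lit 0) (nat_lit 0)) (.leaf (nat_lit 29) (nat_lit 0) (nat_lit 0)))) (.add (.leaf (nat_lit 30) (nat_lit 0) (nat_lit 0)) (.add (.leaf (nat_lit 31) (nat_lit 0) (nat_lit 0)) (.leaf (nat_lit 32) (nat_lit 0) (nat_lit 0)))))) (.add (.add (.add (.leaf (nat_lit 33) (nat_lit 0) (nat_lit 0)) (.leaf (nat_lit 34) (nat_lit 0) (nat_lit 0))) (.add (.leaf (nat_lit 35) (nat_lit 0) (nat_lit 0)) (.add (.leaf (nat_lit 36) (nat_lit 0) (nat_lit 0)) (.leaf (nat_lit 37) (nat_lit 0) (nat_lit 0))))) (.add (.add (.leaf (nat_lit 38) (nat_lit 0) (nat_lit 0)) (.add (.leaf (nat_lit 39) (nat_lit 0) (nat_lit 0)) (.leaf (nat_lit 40) (nat_lit 0) (nat_lit 0)))) (.add (.leaf (nat_lit 41) (nat_lit 0) (nat_lit 0)) (.add (.leaf (nat_lit 42) (nat_lit 0) (nat_lit 0)) (.leaf (nat_lit 43) (nat_lit 0) (nat_lit 0)))))))) (.add (.add (.add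 (.add (.add (.leaf (nat_lit 44) (nat_lit 0) (nat_lit 0)) (.leaf (nat_lit 45) (nat_lit 0) (nat_lit 0))) (.add (.leaf (nat_lit 46) (nat_lit 0) (nat_lit 0)) (.add (.leaf (nat_lit 47) (nat_lit 0) (nat_lit 0)) (.leaf (nat_lit 48) (nat_lit 0) (nat_lit 0))))) (.add (.add (.leaf (nat_lit 49) (nat_lit 0) (nat_lit 0)) (.add (.leaf (nat_lit 50) (nat_lit 0) (nat_lit 0)) (.leaf (nat_lit 51) (nat_lit 0) (nat_lit 0)))) (.add (.leaf (nat_lit 52) (nat_lit 0) (nat_lit 0)) (.add (.leaf (nat_lit 53) (nat_lit 0) (nat_lit 0)) (.leaf (nat_lit 54) (nat_lit 0) (nat_lit 0)))))) (.add (.add (.add (.leaf (nat_lit 55) (nat_lit 0) (nat_lit 0)) (.leaf (nat_lit 56) (nat_lit 0) (nat_lit 0))) (.add (.leaf (nat_lit 57) (nat_lit 0) (nat_lit 0)) (.add (.leaf (nat_lit 58) (nat_lit 0) (nat_lit 0)) (.leaf (nat_lit 59) (nat_lit 0) (nat_lit 0))))) (.add (.add (.leaf (nat_lit 60)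 (nat_lit 0) (nat_lit 0)) (.add (.leaf (nat_lit 61) (nat_lit 0) (nat_lit 0)) (.leaf (nat_lit 62) (nat_lit 0) (nat_lit 0)))) (.add (.leaf (nat_lit 63) (nat_lit 0) (nat_lit 0)) (.add (.leaf (nat_lit 64) (nat_lit 0) (nat_lit 0)) (.leaf (nat_lit 65) (nat_lit 0) (nat_lit 0))))))) (.add (.add (.add (.add (.leaf (nat_lit 66) (nat_lit 0) (nat_lit 0)) (.leaf (nat_lit 67) (nat_lit 0) (nat_lit 0))) (.add (.leaf (nat_lit 68) (nat_lit 0) (nat_lit 0)) (.add (.leaf (nat_lit 69) (nat_lit 0) (nat_lit 0)) (.leaf (nat_lit 70) (nat_lit 0) (nat_lit 0))))) (.add (.add (.leaf (nat_lit 71) (nat_lit 0) (nat_lit 0)) (.add (.leaf (nat_lit 72) (nat_lit 0) (nat_lit 0)) (.leaf (nat_lit 73) (nat_lit 0) (nat_lit 0)))) (.add (.leaf (nat_lit 74) (nat_lit 0) (nat_lit 0)) (.add (.leaf (nat_lit 75) (nat_lit 0) (nat_lit 0)) (.leaf (nat_lit 76) (nat_lit 0) (nat_lit 0)))))) (.add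 (.add (.add (.leaf (nat_lit 77) (nat_lit 0) (nat_lit 0)) (.leaf (nat_lit 78) (nat_lit 0) (nat_lit 0))) (.add (.leaf (nat_lit 79) (nat_lit 0) (nat_lit 0)) (.add (.leaf (nat_lit 80) (nat_lit 0) (nat_lit 0)) (.leaf (nat_lit 81) (nat_lit 0) (nat_lit 0))))) (.add (.add (.leaf (nat_lit 82) (nat_lit 0) (nat_lit 0)) (.add (.leaf (nat_lit 83) (nat_lit 0) (nat_lit 0)) (.leaf (nat_lit 84) (nat_lit 0) (nat_lit 0)))) (.add (.leaf (nat_lit 85) (nat_lit 0) (nat_lit 0)) (.add (.leaf (nat_lit 86) (nat_lit 0) (nat_lit 0)) (.leaf (nat_lit 87) (nat_lit 0) (nat_lit 0))))))))),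
  (.add (.add (.add (.add (.add (.add (.leaf (nat_lit 0) (nat_lit 0) (nat_lit 0)) (.leaf (nat_lit 1) (nat_lit 0) (nat_lit 0))) (.add (.leaf (nat_lit 2) (nat_lit 0) (nat_lit 0)) (.add (.leaf (nat_lit 3) (nat_lit 0) (nat_lit 0)) (.leaf (nat_lit 4) (nat_lit 0) (nat_lit 0))))) (.add (.add (.leaf (nat_lit 5) (nat_lit 0) (nat_lit 0)) (.add (.leaf (nat_lit 6) (nat_lit 0) (nat_lit 0)) (.leaf (nat_lit 7) (nat_lit 0) (nat_lit 0)))) (.add (.leaf (nat_lit 8) (nat_lit 0) (nat_lit 0)) (.add (.leaf (nat_lit 9) (nat_lit 0) (nat_lit 0)) (.leaf (nat_lit 10) (nat_lit 0) (nat_lit 0)))))) (.add (.add (.add (.leaf (nat_lit 11) (nat_lit 0) (nat_lit 0)) (.leaf (nat_lit 12) (nat_lit 0) (nat_lit 0))) (.add (.leaf (nat_lit 13) (nat_lit 0) (nat_lit 0)) (.add (.leaf (nat_lit 14) (nat_lit 0) (nat_lit 0)) (.leaf (nat_lit 15) (nat_lit 0) (nat_lit 0))))) (.add (.add (.leaf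 (nat_lit 16) (nat_lit 0) (nat_lit 0)) (.add (.leaf (nat_lit 17) (nat_lit 0) (nat_lit 0)) (.leaf (nat_lit 18) (nat_lit 0) (nat_lit 0)))) (.add (.leaf (nat_lit 19) (nat_lit 0) (nat_lit 0)) (.add (.leaf (nat_lit 20) (nat_lit 0) (nat_lit 0)) (.leaf (nat_lit 21) (nat_lit 0) (nat_lit 0))))))) (.add (.add (.add (.add (.leaf (nat_lit 22) (nat_lit 0) (nat_lit 0)) (.leaf (nat_lit 23) (nat_lit 0) (nat_lit 0))) (.add (.leaf (nat_lit 24) (nat_lit 0) (nat_lit 0)) (.add (.leaf (nat_lit 25) (nat_lit 0) (nat_lit 0)) (.leaf (nat_lit 26) (nat_lit 0) (nat_lit 0))))) (.add (.add (.leaf (nat_lit 27) (nat_lit 0) (nat_lit 0)) (.add (.leaf (nat_lit 28) (nat_lit 0) (nat_lit 0)) (.leaf (nat_lit 29) (nat_lit 0) (nat_lit 0)))) (.add (.leaf (nat_lit 30) (nat_lit 0) (nat_lit 0)) (.add (.leaf (nat_lit 31) (nat_lit 0) (nat_lit 0)) (.leaf (nat_lit 32) (nat_lit 0) (nat_lit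 0)))))) (.add (.add (.add (.leaf (nat_lit 33) (nat_lit 0) (nat_lit 0)) (.leaf (nat_lit 34) (nat_lit 0) (nat_lit 0))) (.add (.leaf (nat_lit 35) (nat_lit 0) (nat_lit 0)) (.add (.leaf (nat_lit 36) (nat_lit 0) (nat_lit 0)) (.leaf (nat_lit 37) (nat_lit 0) (nat_lit 0))))) (.add (.add (.leaf (nat_lit 38) (nat_lit 0) (nat_lit 0)) (.add (.leaf (nat_lit 39) (nat_lit 0) (nat_lit 0)) (.leaf (nat_lit 40) (nat_lit 0) (nat_lit 0)))) (.add (.leaf (nat_lit 41) (nat_lit 0) (nat_lit 0)) (.add (.leaf (nat_lit 42) (nat_lit 0) (nat_lit 0)) (.leaf (nat_lit 43) (nat_lit 0) (nat_lit 0)))))))) (.add (.add (.add (.add (.add (.leaf (nat_lit 44) (nat_lit 0) (nat_lit 0)) (.leaf (nat_lit 45) (nat_lit 0) (nat_lit 0))) (.add (.leaf (nat_lit 46) (nat_lit 0) (nat_lit 0)) (.add (.leaf (nat_lit 47) (nat_lit 0) (nat_lit 0)) (.leaf (nat_lit 48) (nat_lit 0) (nat_lit 0))))) (.add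 (.add (.leaf (nat_lit 49) (nat_lit 0) (nat_lit 0)) (.add (.leaf (nat_lit 50) (nat_lit 0) (nat_lit 0)) (.leaf (nat_lit 51) (nat_lit 0) (nat_lit 0)))) (.add (.leaf (nat_lit 52) (nat_lit 0) (nat_lit 0)) (.add (.leaf (nat_lit 53) (nat_lit 0) (nat_lit 0)) (.leaf (nat_lit 54) (nat_lit 0) (nat_lit 0)))))) (.add (.add (.add (.leaf (nat_lit 55) (nat_lit 0) (nat_lit 0)) (.leaf (nat_lit 56) (nat_lit 0) (nat_lit 0))) (.add (.leaf (nat_lit 57) (nat_lit 0) (nat_lit 0)) (.add (.leaf (nat_lit 58) (nat_lit 0) (nat_lit 0)) (.leaf (nat_lit 59) (nat_lit 0) (nat_lit 0))))) (.add (.add (.leaf (nat_lit 60) (nat_lit 0) (nat_lit 0)) (.add (.leaf (nat_lit 61) (nat_lit 0) (nat_lit 0)) (.leaf (nat_lit 62) (nat_lit 0) (nat_lit 0)))) (.add (.leaf (nat_lit 63) (nat_lit 0) (nat_lit 0)) (.add (.leaf (nat_lit 64) (nat_lit 0) (nat_lit 0)) (.leaf (nat_lit 65) (nat_lit 0)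 (nat_lit 0))))))) (.add (.add (.add (.add (.leaf (nat_lit 66) (nat_lit 0) (nat_lit 0)) (.leaf (nat_lit 67) (nat_lit 0) (nat_lit 0))) (.add (.leaf (nat_lit 68) (nat_lit 0) (nat_lit 0)) (.add (.leaf (nat_lit 69) (nat_lit 0) (nat_lit 0)) (.leaf (nat_lit 70) (nat_lit 0) (nat_lit 0))))) (.add (.add (.leaf (nat_lit 71) (nat_lit 0) (nat_lit 0)) (.add (.leaf (nat_lit 72) (nat_lit 0) (nat_lit 0)) (.leaf (nat_lit 73) (nat_lit 0) (nat_lit 0)))) (.add (.leaf (nat_lit 74) (nat_lit 0) (nat_lit 0)) (.add (.leaf (nat_lit 75) (nat_lit 0) (nat_lit 0)) (.leaf (nat_lit 76) (nat_lit 0) (nat_lit 0)))))) (.add (.add (.add (.leaf (nat_lit 77) (nat_lit 0) (nat_lit 0)) (.add (.leaf (nat_lit 78) (nat_lit 0) (nat_lit 0)) (.leaf (nat_lit 79) (nat_lit 0) (nat_lit 0)))) (.add (.leaf (nat_lit 80) (nat_lit 0) (nat_lit 0)) (.add (.leaf (nat_lit 81) (nat_lit 0) (nat_lit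 0)) (.leaf (nat_lit 82) (nat_lit 0) (nat_lit 0))))) (.add (.add (.leaf (nat_lit 83) (nat_lit 0) (nat_lit 0)) (.add (.leaf (nat_lit 84) (nat_lit 0) (nat_lit 0)) (.leaf (nat_lit 85) (nat_lit 0) (nat_lit 0)))) (.add (.leaf (nat_lit 86) (nat_lit 0) (nat_lit 0)) (.add (.leaf (nat_lit 87) (nat_lit 0) (nat_lit 0)) (.leaf (nat_lit 88) (nat_lit 0) (nat_lit 0))))))))),
  (.add (.add (.add (.add (.add (.add (.leaf (nat_lit 0) (nat_lit 0) (nat_lit 0)) (.leaf (nat_lit 1) (nat_lit 0) (nat_lit 0))) (.add (.leaf (nat_lit 2) (nat_lit 0) (nat_lit 0)) (.add (.leaf (nat_lit 3) (nat_lit 0) (nat_lit 0)) (.leaf (nat_lit 4) (nat_lit 0) (nat_lit 0))))) (.add (.add (.leaf (nat_lit 5) (nat_lit 0) (nat_lit 0)) (.add (.leaf (nat_lit 6) (nat_lit 0) (nat_lit 0)) (.leaf (nat_lit 7) (nat_lit 0) (nat_lit 0)))) (.add (.leaf (nat_lit 8) (nat_lit 0) (nat_lit 0)) (.add (.leaf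 (nat_lit 9) (nat_lit 0) (nat_lit 0)) (.leaf (nat_lit 10) (nat_lit 0) (nat_lit 0)))))) (.add (.add (.add (.leaf (nat_lit 11) (nat_lit 0) (nat_lit 0)) (.leaf (nat_lit 12) (nat_lit 0) (nat_lit 0))) (.add (.leaf (nat_lit 13) (nat_lit 0) (nat_lit 0)) (.add (.leaf (nat_lit 14) (nat_lit 0) (nat_lit 0)) (.leaf (nat_lit 15) (nat_lit 0) (nat_lit 0))))) (.add (.add (.leaf (nat_lit 16) (nat_lit 0) (nat_lit 0)) (.add (.leaf (nat_lit 17) (nat_lit 0) (nat_lit 0)) (.leaf (nat_lit 18) (nat_lit 0) (nat_lit 0)))) (.add (.leaf (nat_lit 19) (nat_lit 0) (nat_lit 0)) (.add (.leaf (nat_lit 20) (nat_lit 0) (nat_lit 0)) (.leaf (nat_lit 21) (nat_lit 0) (nat_lit 0))))))) (.add (.add (.add (.add (.leaf (nat_lit 22) (nat_lit 0) (nat_lit 0)) (.leaf (nat_lit 23) (nat_lit 0) (nat_lit 0))) (.add (.leaf (nat_lit 24) (nat_lit 0) (nat_lit 0)) (.add (.leaf (nat_lit 25) (nat_lit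 0) (nat_lit 0)) (.leaf (nat_lit 26) (nat_lit 0) (nat_lit 0))))) (.add (.add (.leaf (nat_lit 27) (nat_lit 0) (nat_lit 0)) (.add (.leaf (nat_lit 28) (nat_lit 0) (nat_lit 0)) (.leaf (nat_lit 29) (nat_lit 0) (nat_lit 0)))) (.add (.leaf (nat_lit 30) (nat_lit 0) (nat_lit 0)) (.add (.leaf (nat_lit 31) (nat_lit 0) (nat_lit 0)) (.leaf (nat_lit 32) (nat_lit 0) (nat_lit 0)))))) (.add (.add (.add (.leaf (nat_lit 33) (nat_lit 0) (nat_lit 0)) (.add (.leaf (nat_lit 34) (nat_lit 0) (nat_lit 0)) (.leaf (nat_lit 35) (nat_lit 0) (nat_lit 0)))) (.add (.leaf (nat_lit 36) (nat_lit 0) (nat_lit 0)) (.add (.leaf (nat_lit 37) (nat_lit 0) (nat_lit 0)) (.leaf (nat_lit 38) (nat_lit 0) (nat_lit 0))))) (.add (.add (.leaf (nat_lit 39) (nat_lit 0) (nat_lit 0)) (.add (.leaf (nat_lit 40) (nat_lit 0) (nat_lit 0)) (.leaf (nat_lit 41) (nat_lit 0) (nat_lit 0)))) (.add (.leaf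 (nat_lit 42) (nat_lit 0) (nat_lit 0)) (.add (.leaf (nat_lit 43) (nat_lit 0) (nat_lit 0)) (.leaf (nat_lit 44) (nat_lit 0) (nat_lit 0)))))))) (.add (.add (.add (.add (.add (.leaf (nat_lit 45) (nat_lit 0) (nat_lit 0)) (.leaf (nat_lit 46) (nat_lit 0) (nat_lit 0))) (.add (.leaf (nat_lit 47) (nat_lit 0) (nat_lit 0)) (.add (.leaf (nat_lit 48) (nat_lit 0) (nat_lit 0)) (.leaf (nat_lit 49) (nat_lit 0) (nat_lit 0))))) (.add (.add (.leaf (nat_lit 50) (nat_lit 0) (nat_lit 0)) (.add (.leaf (nat_lit 51) (nat_lit 0) (nat_lit 0)) (.leaf (nat_lit 52) (nat_lit 0) (nat_lit 0)))) (.add (.leaf (nat_lit 53) (nat_lit 0) (nat_lit 0)) (.add (.leaf (nat_lit 54) (nat_lit 0) (nat_lit 0)) (.leaf (nat_lit 55) (nat_lit 0) (nat_lit 0)))))) (.add (.add (.add (.leaf (nat_lit 56) (nat_lit 0) (nat_lit 0)) (.leaf (nat_lit 57) (nat_lit 0) (nat_lit 0))) (.add (.leaf (nat_lit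 58) (nat_lit 0) (nat_lit 0)) (.add (.leaf (nat_lit 59) (nat_lit 0) (nat_lit 0)) (.leaf (nat_lit 60) (nat_lit 0) (nat_lit 0))))) (.add (.add (.leaf (nat_lit 61) (nat_lit 0) (nat_lit 0)) (.add (.leaf (nat_lit 62) (nat_lit 0) (nat_lit 0)) (.leaf (nat_lit 63) (nat_lit 0) (nat_lit 0)))) (.add (.leaf (nat_lit 64) (nat_lit 0) (nat_lit 0)) (.add (.leaf (nat_lit 65) (nat_lit 0) (nat_lit 0)) (.leaf (nat_lit 66) (nat_lit 0) (nat_lit 0))))))) (.add (.add (.add (.add (.leaf (nat_lit 67) (nat_lit 0) (nat_lit 0)) (.leaf (nat_lit 68) (nat_lit 0) (nat_lit 0))) (.add (.leaf (nat_lit 69) (nat_lit 0) (nat_lit 0)) (.add (.leaf (nat_lit 70) (nat_lit 0) (nat_lit 0)) (.leaf (nat_lit 71) (nat_lit 0) (nat_lit 0))))) (.add (.add (.leaf (nat_lit 72) (nat_lit 0) (nat_lit 0)) (.add (.leaf (nat_lit 73) (nat_lit 0) (nat_lit 0)) (.leaf (nat_lit 74) (nat_lit 0) (nat_lit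 0)))) (.add (.leaf (nat_lit 75) (nat_lit 0) (nat_lit 0)) (.add (.leaf (nat_lit 76) (nat_lit 0) (nat_lit 0)) (.leaf (nat_lit 77) (nat_lit 0) (nat_lit 0)))))) (.add (.add (.add (.leaf (nat_lit 78) (nat_lit 0) (nat_lit 0)) (.add (.leaf (nat_lit 79) (nat_lit 0) (nat_lit 0)) (.leaf (nat_lit 80) (nat_lit 0) (nat_lit 0)))) (.add (.leaf (nat_lit 81) (nat_lit 0) (nat_lit 0)) (.add (.leaf (nat_lit 82) (nat_lit 0) (nat_lit 0)) (.leaf (nat_lit 83) (nat_lit 0) (nat_lit 0))))) (.add (.add (.leaf (nat_lit 84) (nat_lit 0) (nat_lit 0)) (.add (.leaf (nat_lit 85) (nat_lit 0) (nat_lit 0)) (.leaf (nat_lit 86) (nat_lit 0) (nat_lit 0)))) (.add (.leaf (nat_lit 87) (nat_lit 0) (nat_lit 0)) (.add (.leaf (nat_lit 88) (nat_lit 0) (nat_lit 0)) (.leaf (nat_lit 89) (nat_lit 0) (nat_lit 0))))))))),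
  (.add (.add (.add (.add (.add (.add (.leaf (nat_lit 0) (nat_lit 0) (nat_lit 0)) (.leaf (nat_lit 1) (nat_lit 0) (nat_lit 0))) (.add (.leaf (nat_lit 2) (nat_lit 0) (nat_lit 0)) (.add (.leaf (nat_lit 3) (nat_lit 0) (nat_lit 0)) (.leaf (nat_lit 4) (nat_lit 0) (nat_lit 0))))) (.add (.add (.leaf (nat_lit 5) (nat_lit 0) (nat_lit 0)) (.add (.leaf (nat_lit 6) (nat_lit 0) (nat_lit 0)) (.leaf (nat_lit 7) (nat_lit 0) (nat_lit 0)))) (.add (.leaf (nat_lit 8) (nat_lit 0) (nat_lit 0)) (.add (.leaf (nat_lit 9) (nat_lit 0) (nat_lit 0)) (.leaf (nat_lit 10) (nat_lit 0) (nat_lit 0)))))) (.add (.add (.add (.leaf (nat_lit 11) (nat_lit 0) (nat_lit 0)) (.leaf (nat_lit 12) (nat_lit 0) (nat_lit 0))) (.add (.leaf (nat_lit 13) (nat_lit 0) (nat_lit 0)) (.add (.leaf (nat_lit 14) (nat_lit 0) (nat_lit 0)) (.leaf (nat_lit 15) (nat_lit 0) (nat_lit 0))))) (.add (.add (.leaf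 (nat_lit 16) (nat_lit 0) (nat_lit 0)) (.add (.leaf (nat_lit 17) (nat_lit 0) (nat_lit 0)) (.leaf (nat_lit 18) (nat_lit 0) (nat_lit 0)))) (.add (.leaf (nat_lit 19) (nat_lit 0) (nat_lit 0)) (.add (.leaf (nat_lit 20) (nat_lit 0) (nat_lit 0)) (.leaf (nat_lit 21) (nat_lit 0) (nat_lit 0))))))) (.add (.add (.add (.add (.leaf (nat_lit 22) (nat_lit 0) (nat_lit 0)) (.leaf (nat_lit 23) (nat_lit 0) (nat_lit 0))) (.add (.leaf (nat_lit 24) (nat_lit 0) (nat_lit 0)) (.add (.leaf (nat_lit 25) (nat_lit 0) (nat_lit 0)) (.leaf (nat_lit 26) (nat_lit 0) (nat_lit 0))))) (.add (.add (.leaf (nat_lit 27) (nat_lit 0) (nat_lit 0)) (.add (.leaf (nat_lit 28) (nat_lit 0) (nat_lit 0)) (.leaf (nat_lit 29) (nat_lit 0) (nat_lit 0)))) (.add (.leaf (nat_lit 30) (nat_lit 0) (nat_lit 0)) (.add (.leaf (nat_lit 31) (nat_lit 0) (nat_lit 0)) (.leaf (nat_lit 32) (nat_lit 0) (nat_lit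 0)))))) (.add (.add (.add (.leaf (nat_lit 33) (nat_lit 0) (nat_lit 0)) (.add (.leaf (nat_lit 34) (nat_lit 0) (nat_lit 0)) (.leaf (nat_lit 35) (nat_lit 0) (nat_lit 0)))) (.add (.leaf (nat_lit 36) (nat_lit 0) (nat_lit 0)) (.add (.leaf (nat_lit 37) (nat_lit 0) (nat_lit 0)) (.leaf (nat_lit 38) (nat_lit 0) (nat_lit 0))))) (.add (.add (.leaf (nat_lit 39) (nat_lit 0) (nat_lit 0)) (.add (.leaf (nat_lit 40) (nat_lit 0) (nat_lit 0)) (.leaf (nat_lit 41) (nat_lit 0) (nat_lit 0)))) (.add (.leaf (nat_lit 42) (nat_lit 0) (nat_lit 0)) (.add (.leaf (nat_lit 43) (nat_lit 0) (nat_lit 0)) (.leaf (nat_lit 44) (nat_lit 0) (nat_lit 0)))))))) (.add (.add (.add (.add (.add (.leaf (nat_lit 45) (nat_lit 0) (nat_lit 0)) (.leaf (nat_lit 46) (nat_lit 0) (nat_lit 0))) (.add (.leaf (nat_lit 47) (nat_lit 0) (nat_lit 0)) (.add (.leaf (nat_lit 48) (nat_lit 0) (nat_lit 0))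 (.leaf (nat_lit 49) (nat_lit 0) (nat_lit 0))))) (.add (.add (.leaf (nat_lit 50) (nat_lit 0) (nat_lit 0)) (.add (.leaf (nat_lit 51) (nat_lit 0) (nat_lit 0)) (.leaf (nat_lit 52) (nat_lit 0) (nat_lit 0)))) (.add (.leaf (nat_lit 53) (nat_lit 0) (nat_lit 0)) (.add (.leaf (nat_lit 54) (nat_lit 0) (nat_lit 0)) (.leaf (nat_lit 55) (nat_lit 0) (nat_lit 0)))))) (.add (.add (.add (.leaf (nat_lit 56) (nat_lit 0) (nat_lit 0)) (.add (.leaf (nat_lit 57) (nat_lit 0) (nat_lit 0)) (.leaf (nat_lit 58) (nat_lit 0) (nat_lit 0)))) (.add (.leaf (nat_lit 59) (nat_lit 0) (nat_lit 0)) (.add (.leaf (nat_lit 60) (nat_lit 0) (nat_lit 0)) (.leaf (nat_lit 61) (nat_lit 0) (nat_lit 0))))) (.add (.add (.leaf (nat_lit 62) (nat_lit 0) (nat_lit 0)) (.add (.leaf (nat_lit 63) (nat_lit 0) (nat_lit 0)) (.leaf (nat_lit 64) (nat_lit 0) (nat_lit 0)))) (.add (.leaf (nat_lit 65) (nat_lit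 0) (nat_lit 0)) (.add (.leaf (nat_lit 66) (nat_lit 0) (nat_lit 0)) (.leaf (nat_lit 67) (nat_lit 0) (nat_lit 0))))))) (.add (.add (.add (.add (.leaf (nat_lit 68) (nat_lit 0) (nat_lit 0)) (.leaf (nat_lit 69) (nat_lit 0) (nat_lit 0))) (.add (.leaf (nat_lit 70) (nat_lit 0) (nat_lit 0)) (.add (.leaf (nat_lit 71) (nat_lit 0) (nat_lit 0)) (.leaf (nat_lit 72) (nat_lit 0) (nat_lit 0))))) (.add (.add (.leaf (nat_lit 73) (nat_lit 0) (nat_lit 0)) (.add (.leaf (nat_lit 74) (nat_lit 0) (nat_lit 0)) (.leaf (nat_lit 75) (nat_lit 0) (nat_lit 0)))) (.add (.leaf (nat_lit 76) (nat_lit 0) (nat_lit 0)) (.add (.leaf (nat_lit 77) (nat_lit 0) (nat_lit 0)) (.leaf (nat_lit 78) (nat_lit 0) (nat_lit 0)))))) (.add (.add (.add (.leaf (nat_lit 79) (nat_lit 0) (nat_lit 0)) (.add (.leaf (nat_lit 80) (nat_lit 0) (nat_lit 0)) (.leaf (nat_lit 81) (nat_lit 0) (nat_lit 0))))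 (.add (.leaf (nat_lit 82) (nat_lit 0) (nat_lit 0)) (.add (.leaf (nat_lit 83) (nat_lit 0) (nat_lit 0)) (.leaf (nat_lit 84) (nat_lit 0) (nat_lit 0))))) (.add (.add (.leaf (nat_lit 85) (nat_lit 0) (nat_lit 0)) (.add (.leaf (nat_lit 86) (nat_lit 0) (nat_lit 0)) (.leaf (nat_lit 87) (nat_lit 0) (nat_lit 0)))) (.add (.leaf (nat_lit 88) (nat_lit 0) (nat_lit 0)) (.add (.leaf (nat_lit 89) (nat_lit 0) (nat_lit 0)) (.leaf (nat_lit 90) (nat_lit 0) (nat_lit 0))))))))),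
  (.add (.add (.add (.add (.add (.add (.leaf (nat_lit 0) (nat_lit 0) (nat_lit 0)) (.leaf (nat_lit 1) (nat_lit 0) (nat_lit 0))) (.add (.leaf (nat_lit 2) (nat_lit 0) (nat_lit 0)) (.add (.leaf (nat_lit 3) (nat_lit 0) (nat_lit 0)) (.leaf (nat_lit 4) (nat_lit 0) (nat_lit 0))))) (.add (.add (.leaf (nat_lit 5) (nat_lit 0) (nat_lit 0)) (.add (.leaf (nat_lit 6) (nat_lit 0) (nat_lit 0)) (.leaf (nat_lit 7) (nat_lit 0) (nat_lit 0)))) (.add (.leaf (nat_lit 8) (nat_lit 0) (nat_lit 0)) (.add (.leaf (nat_lit 9) (nat_lit 0) (nat_lit 0)) (.leaf (nat_lit 10) (nat_lit 0) (nat_lit 0)))))) (.add (.add (.add (.leaf (nat_lit 11) (nat_lit 0) (nat_lit 0)) (.add (.leaf (nat_lit 12) (nat_lit 0) (nat_lit 0)) (.leaf (nat_lit 13) (nat_lit 0) (nat_lit 0)))) (.add (.leaf (nat_lit 14) (nat_lit 0) (nat_lit 0)) (.add (.leaf (nat_lit 15) (nat_lit 0) (nat_lit 0)) (.leaf (nat_lit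 16) (nat_lit 0) (nat_lit 0))))) (.add (.add (.leaf (nat_lit 17) (nat_lit 0) (nat_lit 0)) (.add (.leaf (nat_lit 18) (nat_lit 0) (nat_lit 0)) (.leaf (nat_lit 19) (nat_lit 0) (nat_lit 0)))) (.add (.leaf (nat_lit 20) (nat_lit 0) (nat_lit 0)) (.add (.leaf (nat_lit 21) (nat_lit 0) (nat_lit 0)) (.leaf (nat_lit 22) (nat_lit 0) (nat_lit 0))))))) (.add (.add (.add (.add (.leaf (nat_lit 23) (nat_lit 0) (nat_lit 0)) (.leaf (nat_lit 24) (nat_lit 0) (nat_lit 0))) (.add (.leaf (nat_lit 25) (nat_lit 0) (nat_lit 0)) (.add (.leaf (nat_lit 26) (nat_lit 0) (nat_lit 0)) (.leaf (nat_lit 27) (nat_lit 0) (nat_lit 0))))) (.add (.add (.leaf (nat_lit 28) (nat_lit 0) (nat_lit 0)) (.add (.leaf (nat_lit 29) (nat_lit 0) (nat_lit 0)) (.leaf (nat_lit 30) (nat_lit 0) (nat_lit 0)))) (.add (.leaf (nat_lit 31) (nat_lit 0) (nat_lit 0)) (.add (.leaf (nat_lit 32) (nat_lit 0)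 (nat_lit 0)) (.leaf (nat_lit 33) (nat_lit 0) (nat_lit 0)))))) (.add (.add (.add (.leaf (nat_lit 34) (nat_lit 0) (nat_lit 0)) (.add (.leaf (nat_lit 35) (nat_lit 0) (nat_lit 0)) (.leaf (nat_lit 36) (nat_lit 0) (nat_lit 0)))) (.add (.leaf (nat_lit 37) (nat_lit 0) (nat_lit 0)) (.add (.leaf (nat_lit 38) (nat_lit 0) (nat_lit 0)) (.leaf (nat_lit 39) (nat_lit 0) (nat_lit 0))))) (.add (.add (.leaf (nat_lit 40) (nat_lit 0) (nat_lit 0)) (.add (.leaf (nat_lit 41) (nat_lit 0) (nat_lit 0)) (.leaf (nat_lit 42) (nat_lit 0) (nat_lit 0)))) (.add (.leaf (nat_lit 43) (nat_lit 0) (nat_lit 0)) (.add (.leaf (nat_lit 44) (nat_lit 0) (nat_lit 0)) (.leaf (nat_lit 45) (nat_lit 0) (nat_lit 0)))))))) (.add (.add (.add (.add (.add (.leaf (nat_lit 46) (nat_lit 0) (nat_lit 0)) (.leaf (nat_lit 47) (nat_lit 0) (nat_lit 0))) (.add (.leaf (nat_lit 48) (nat_lit 0) (nat_lit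 0)) (.add (.leaf (nat_lit 49) (nat_lit 0) (nat_lit 0)) (.leaf (nat_lit 50) (nat_lit 0) (nat_lit 0))))) (.add (.add (.leaf (nat_lit 51) (nat_lit 0) (nat_lit 0)) (.add (.leaf (nat_lit 52) (nat_lit 0) (nat_lit 0)) (.leaf (nat_lit 53) (nat_lit 0) (nat_lit 0)))) (.add (.leaf (nat_lit 54) (nat_lit 0) (nat_lit 0)) (.add (.leaf (nat_lit 55) (nat_lit 0) (nat_lit 0)) (.leaf (nat_lit 56) (nat_lit 0) (nat_lit 0)))))) (.add (.add (.add (.leaf (nat_lit 57) (nat_lit 0) (nat_lit 0)) (.add (.leaf (nat_lit 58) (nat_lit 0) (nat_lit 0)) (.leaf (nat_lit 59) (nat_lit 0) (nat_lit 0)))) (.add (.leaf (nat_lit 60) (nat_lit 0) (nat_lit 0)) (.add (.leaf (nat_lit 61) (nat_lit 0) (nat_lit 0)) (.leaf (nat_lit 62) (nat_lit 0) (nat_lit 0))))) (.add (.add (.leaf (nat_lit 63) (nat_lit 0) (nat_lit 0)) (.add (.leaf (nat_lit 64) (nat_lit 0) (nat_lit 0)) (.leaf (nat_lit 65)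 (nat_lit 0) (nat_lit 0)))) (.add (.leaf (nat_lit 66) (nat_lit 0) (nat_lit 0)) (.add (.leaf (nat_lit 67) (nat_lit 0) (nat_lit 0)) (.leaf (nat_lit 68) (nat_lit 0) (nat_lit 0))))))) (.add (.add (.add (.add (.leaf (nat_lit 69) (nat_lit 0) (nat_lit 0)) (.leaf (nat_lit 70) (nat_lit 0) (nat_lit 0))) (.add (.leaf (nat_lit 71) (nat_lit 0) (nat_lit 0)) (.add (.leaf (nat_lit 72) (nat_lit 0) (nat_lit 0)) (.leaf (nat_lit 73) (nat_lit 0) (nat_lit 0))))) (.add (.add (.leaf (nat_lit 74) (nat_lit 0) (nat_lit 0)) (.add (.leaf (nat_lit 75) (nat_lit 0) (nat_lit 0)) (.leaf (nat_lit 76) (nat_lit 0) (nat_lit 0)))) (.add (.leaf (nat_lit 77) (nat_lit 0) (nat_lit 0)) (.add (.leaf (nat_lit 78) (nat_lit 0) (nat_lit 0)) (.leaf (nat_lit 79) (nat_lit 0) (nat_lit 0)))))) (.add (.add (.add (.leaf (nat_lit 80) (nat_lit 0) (nat_lit 0)) (.add (.leaf (nat_lit 81) (nat_lit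 0) (nat_lit 0)) (.leaf (nat_lit 82) (nat_lit 0) (nat_lit 0)))) (.add (.leaf (nat_lit 83) (nat_lit 0) (nat_lit 0)) (.add (.leaf (nat_lit 84) (nat_lit 0) (nat_lit 0)) (.leaf (nat_lit 85) (nat_lit 0) (nat_lit 0))))) (.add (.add (.leaf (nat_lit 86) (nat_lit 0) (nat_lit 0)) (.add (.leaf (nat_lit 87) (nat_lit 0) (nat_lit 0)) (.leaf (nat_lit 88) (nat_lit 0) (nat_lit 0)))) (.add (.leaf (nat_lit 89) (nat_lit 0) (nat_lit 0)) (.add (.leaf (nat_lit 90) (nat_lit 0) (nat_lit 0)) (.leaf (nat_lit 91) (nat_lit 0) (nat_lit 0))))))))),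
  (.add (.add (.add (.add (.add (.add (.leaf (nat_lit 0) (nat_lit 0) (nat_lit 0)) (.leaf (nat_lit 1) (nat_lit 0) (nat_lit 0))) (.add (.leaf (nat_lit 2) (nat_lit 0) (nat_lit 0)) (.add (.leaf (nat_lit 3) (nat_lit 0) (nat_lit 0)) (.leaf (nat_lit 4) (nat_lit 0) (nat_lit 0))))) (.add (.add (.leaf (nat_lit 5) (nat_lit 0) (nat_lit 0)) (.add (.leaf (nat_lit 6) (nat_lit 0) (nat_lit 0)) (.leaf (nat_lit 7) (nat_lit 0) (nat_lit 0)))) (.add (.leaf (nat_lit 8) (nat_lit 0) (nat_lit 0)) (.add (.leaf (nat_lit 9) (nat_lit 0) (nat_lit 0)) (.leaf (nat_lit 10) (nat_lit 0) (nat_lit 0)))))) (.add (.add (.add (.leaf (nat_lit 11) (nat_lit 0) (nat_lit 0)) (.add (.leaf (nat_lit 12) (nat_lit 0) (nat_lit 0)) (.leaf (nat_lit 13) (nat_lit 0) (nat_lit 0)))) (.add (.leaf (nat_lit 14) (nat_lit 0) (nat_lit 0)) (.add (.leaf (nat_lit 15) (nat_lit 0) (nat_lit 0)) (.leaf (nat_lit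 16) (nat_lit 0) (nat_lit 0))))) (.add (.add (.leaf (nat_lit 17) (nat_lit 0) (nat_lit 0)) (.add (.leaf (nat_lit 18) (nat_lit 0) (nat_lit 0)) (.leaf (nat_lit 19) (nat_lit 0) (nat_lit 0)))) (.add (.leaf (nat_lit 20) (nat_lit 0) (nat_lit 0)) (.add (.leaf (nat_lit 21) (nat_lit 0) (nat_lit 0)) (.leaf (nat_lit 22) (nat_lit 0) (nat_lit 0))))))) (.add (.add (.add (.add (.leaf (nat_lit 23) (nat_lit 0) (nat_lit 0)) (.leaf (nat_lit 24) (nat_lit 0) (nat_lit 0))) (.add (.leaf (nat_lit 25) (nat_lit 0) (nat_lit 0)) (.add (.leaf (nat_lit 26) (nat_lit 0) (nat_lit 0)) (.leaf (nat_lit 27) (nat_lit 0) (nat_lit 0))))) (.add (.add (.leaf (nat_lit 28) (nat_lit 0) (nat_lit 0)) (.add (.leaf (nat_lit 29) (nat_lit 0) (nat_lit 0)) (.leaf (nat_lit 30) (nat_lit 0) (nat_lit 0)))) (.add (.leaf (nat_lit 31) (nat_lit 0) (nat_lit 0)) (.add (.leaf (nat_lit 32) (nat_lit 0)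 (nat_lit 0)) (.leaf (nat_lit 33) (nat_lit 0) (nat_lit 0)))))) (.add (.add (.add (.leaf (nat_lit 34) (nat_lit 0) (nat_lit 0)) (.add (.leaf (nat_lit 35) (nat_lit 0) (nat_lit 0)) (.leaf (nat_lit 36) (nat_lit 0) (nat_lit 0)))) (.add (.leaf (nat_lit 37) (nat_lit 0) (nat_lit 0)) (.add (.leaf (nat_lit 38) (nat_lit 0) (nat_lit 0)) (.leaf (nat_lit 39) (nat_lit 0) (nat_lit 0))))) (.add (.add (.leaf (nat_lit 40) (nat_lit 0) (nat_lit 0)) (.add (.leaf (nat_lit 41) (nat_lit 0) (nat_lit 0)) (.leaf (nat_lit 42) (nat_lit 0) (nat_lit 0)))) (.add (.leaf (nat_lit 43) (nat_lit 0) (nat_lit 0)) (.add (.leaf (nat_lit 44) (nat_lit 0) (nat_lit 0)) (.leaf (nat_lit 45) (nat_lit 0) (nat_lit 0)))))))) (.add (.add (.add (.add (.add (.leaf (nat_lit 46) (nat_lit 0) (nat_lit 0)) (.leaf (nat_lit 47) (nat_lit 0) (nat_lit 0))) (.add (.leaf (nat_lit 48) (nat_lit 0) (nat_lit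 0)) (.add (.leaf (nat_lit 49) (nat_lit 0) (nat_lit 0)) (.leaf (nat_lit 50) (nat_lit 0) (nat_lit 0))))) (.add (.add (.leaf (nat_lit 51) (nat_lit 0) (nat_lit 0)) (.add (.leaf (nat_lit 52) (nat_lit 0) (nat_lit 0)) (.leaf (nat_lit 53) (nat_lit 0) (nat_lit 0)))) (.add (.leaf (nat_lit 54) (nat_lit 0) (nat_lit 0)) (.add (.leaf (nat_lit 55) (nat_lit 0) (nat_lit 0)) (.leaf (nat_lit 56) (nat_lit 0) (nat_lit 0)))))) (.add (.add (.add (.leaf (nat_lit 57) (nat_lit 0) (nat_lit 0)) (.add (.leaf (nat_lit 58) (nat_lit 0) (nat_lit 0)) (.leaf (nat_lit 59) (nat_lit 0) (nat_lit 0)))) (.add (.leaf (nat_lit 60) (nat_lit 0) (nat_lit 0)) (.add (.leaf (nat_lit 61) (nat_lit 0) (nat_lit 0)) (.leaf (nat_lit 62) (nat_lit 0) (nat_lit 0))))) (.add (.add (.leaf (nat_lit 63) (nat_lit 0) (nat_lit 0)) (.add (.leaf (nat_lit 64) (nat_lit 0) (nat_lit 0)) (.leaf (nat_lit 65)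 (nat_lit 0) (nat_lit 0)))) (.add (.leaf (nat_lit 66) (nat_lit 0) (nat_lit 0)) (.add (.leaf (nat_lit 67) (nat_lit 0) (nat_lit 0)) (.leaf (nat_lit 68) (nat_lit 0) (nat_lit 0))))))) (.add (.add (.add (.add (.leaf (nat_lit 69) (nat_lit 0) (nat_lit 0)) (.add (.leaf (nat_lit 70) (nat_lit 0) (nat_lit 0)) (.leaf (nat_lit 71) (nat_lit 0) (nat_lit 0)))) (.add (.leaf (nat_lit 72) (nat_lit 0) (nat_lit 0)) (.add (.leaf (nat_lit 73) (nat_lit 0) (nat_lit 0)) (.leaf (nat_lit 74) (nat_lit 0) (nat_lit 0))))) (.add (.add (.leaf (nat_lit 75) (nat_lit 0) (nat_lit 0)) (.add (.leaf (nat_lit 76) (nat_lit 0) (nat_lit 0)) (.leaf (nat_lit 77) (nat_lit 0) (nat_lit 0)))) (.add (.leaf (nat_lit 78) (nat_lit 0) (nat_lit 0)) (.add (.leaf (nat_lit 79) (nat_lit 0) (nat_lit 0)) (.leaf (nat_lit 80) (nat_lit 0) (nat_lit 0)))))) (.add (.add (.add (.leaf (nat_lit 81) (nat_lit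 0) (nat_lit 0)) (.add (.leaf (nat_lit 82) (nat_lit 0) (nat_lit 0)) (.leaf (nat_lit 83) (nat_lit 0) (nat_lit 0)))) (.add (.leaf (nat_lit 84) (nat_lit 0) (nat_lit 0)) (.add (.leaf (nat_lit 85) (nat_lit 0) (nat_lit 0)) (.leaf (nat_lit 86) (nat_lit 0) (nat_lit 0))))) (.add (.add (.leaf (nat_lit 87) (nat_lit 0) (nat_lit 0)) (.add (.leaf (nat_lit 88) (nat_lit 0) (nat_lit 0)) (.leaf (nat_lit 89) (nat_lit 0) (nat_lit 0)))) (.add (.leaf (nat_lit 90) (nat_lit 0) (nat_lit 0)) (.add (.leaf (nat_lit 91) (nat_lit 0) (nat_lit 0)) (.leaf (nat_lit 92) (nat_lit 0) (nat_lit 0))))))))),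
  (.add (.add (.add (.add (.add (.add (.leaf (nat_lit 0) (nat_lit 0) (nat_lit 0)) (.leaf (nat_lit 1) (nat_lit 0) (nat_lit 0))) (.add (.leaf (nat_lit 2) (nat_lit 0) (nat_lit 0)) (.add (.leaf (nat_lit 3) (nat_lit 0) (nat_lit 0)) (.leaf (nat_lit 4) (nat_lit 0) (nat_lit 0))))) (.add (.add (.leaf (nat_lit 5) (nat_lit 0) (nat_lit 0)) (.add (.leaf (nat_lit 6) (nat_lit 0) (nat_lit 0)) (.leaf (nat_lit 7) (nat_lit 0) (nat_lit 0)))) (.add (.leaf (nat_lit 8) (nat_lit 0) (nat_lit 0)) (.add (.leaf (nat_lit 9) (nat_lit 0) (nat_lit 0)) (.leaf (nat_lit 10) (nat_lit 0) (nat_lit 0)))))) (.add (.add (.add (.leaf (nat_lit 11) (nat_lit 0) (nat_lit 0)) (.add (.leaf (nat_lit 12) (nat_lit 0) (nat_lit 0)) (.leaf (nat_lit 13) (nat_lit 0) (nat_lit 0)))) (.add (.leaf (nat_lit 14) (nat_lit 0) (nat_lit 0)) (.add (.leaf (nat_lit 15) (nat_lit 0) (nat_lit 0)) (.leaf (nat_lit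 16) (nat_lit 0) (nat_lit 0))))) (.add (.add (.leaf (nat_lit 17) (nat_lit 0) (nat_lit 0)) (.add (.leaf (nat_lit 18) (nat_lit 0) (nat_lit 0)) (.leaf (nat_lit 19) (nat_lit 0) (nat_lit 0)))) (.add (.leaf (nat_lit 20) (nat_lit 0) (nat_lit 0)) (.add (.leaf (nat_lit 21) (nat_lit 0) (nat_lit 0)) (.leaf (nat_lit 22) (nat_lit 0) (nat_lit 0))))))) (.add (.add (.add (.add (.leaf (nat_lit 23) (nat_lit 0) (nat_lit 0)) (.add (.leaf (nat_lit 24) (nat_lit 0) (nat_lit 0)) (.leaf (nat_lit 25) (nat_lit 0) (nat_lit 0)))) (.add (.leaf (nat_lit 26) (nat_lit 0) (nat_lit 0)) (.add (.leaf (nat_lit 27) (nat_lit 0) (nat_lit 0)) (.leaf (nat_lit 28) (nat_lit 0) (nat_lit 0))))) (.add (.add (.leaf (nat_lit 29) (nat_lit 0) (nat_lit 0)) (.add (.leaf (nat_lit 30) (nat_lit 0) (nat_lit 0)) (.leaf (nat_lit 31) (nat_lit 0) (nat_lit 0)))) (.add (.leaf (nat_lit 32) (nat_lit 0)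 (nat_lit 0)) (.add (.leaf (nat_lit 33) (nat_lit 0) (nat_lit 0)) (.leaf (nat_lit 34) (nat_lit 0) (nat_lit 0)))))) (.add (.add (.add (.leaf (nat_lit 35) (nat_lit 0) (nat_lit 0)) (.add (.leaf (nat_lit 36) (nat_lit 0) (nat_lit 0)) (.leaf (nat_lit 37) (nat_lit 0) (nat_lit 0)))) (.add (.leaf (nat_lit 38) (nat_lit 0) (nat_lit 0)) (.add (.leaf (nat_lit 39) (nat_lit 0) (nat_lit 0)) (.leaf (nat_lit 40) (nat_lit 0) (nat_lit 0))))) (.add (.add (.leaf (nat_lit 41) (nat_lit 0) (nat_lit 0)) (.add (.leaf (nat_lit 42) (nat_lit 0) (nat_lit 0)) (.leaf (nat_lit 43) (nat_lit 0) (nat_lit 0)))) (.add (.leaf (nat_lit 44) (nat_lit 0) (nat_lit 0)) (.add (.leaf (nat_lit 45) (nat_lit 0) (nat_lit 0)) (.leaf (nat_lit 46) (nat_lit 0) (nat_lit 0)))))))) (.add (.add (.add (.add (.add (.leaf (nat_lit 47) (nat_lit 0) (nat_lit 0)) (.leaf (nat_lit 48) (nat_lit 0) (nat_lit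 0))) (.add (.leaf (nat_lit 49) (nat_lit 0) (nat_lit 0)) (.add (.leaf (nat_lit 50) (nat_lit 0) (nat_lit 0)) (.leaf (nat_lit 51) (nat_lit 0) (nat_lit 0))))) (.add (.add (.leaf (nat_lit 52) (nat_lit 0) (nat_lit 0)) (.add (.leaf (nat_lit 53) (nat_lit 0) (nat_lit 0)) (.leaf (nat_lit 54) (nat_lit 0) (nat_lit 0)))) (.add (.leaf (nat_lit 55) (nat_lit 0) (nat_lit 0)) (.add (.leaf (nat_lit 56) (nat_lit 0) (nat_lit 0)) (.leaf (nat_lit 57) (nat_lit 0) (nat_lit 0)))))) (.add (.add (.add (.leaf (nat_lit 58) (nat_lit 0) (nat_lit 0)) (.add (.leaf (nat_lit 59) (nat_lit 0) (nat_lit 0)) (.leaf (nat_lit 60) (nat_lit 0) (nat_lit 0)))) (.add (.leaf (nat_lit 61) (nat_lit 0) (nat_lit 0)) (.add (.leaf (nat_lit 62) (nat_lit 0) (nat_lit 0)) (.leaf (nat_lit 63) (nat_lit 0) (nat_lit 0))))) (.add (.add (.leaf (nat_lit 64) (nat_lit 0) (nat_lit 0)) (.add (.leaf (nat_lit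 65) (nat_lit 0) (nat_lit 0)) (.leaf (nat_lit 66) (nat_lit 0) (nat_lit 0)))) (.add (.leaf (nat_lit 67) (nat_lit 0) (nat_lit 0)) (.add (.leaf (nat_lit 68) (nat_lit 0) (nat_lit 0)) (.leaf (nat_lit 69) (nat_lit 0) (nat_lit 0))))))) (.add (.add (.add (.add (.leaf (nat_lit 70) (nat_lit 0) (nat_lit 0)) (.add (.leaf (nat_lit 71) (nat_lit 0) (nat_lit 0)) (.leaf (nat_lit 72) (nat_lit 0) (nat_lit 0)))) (.add (.leaf (nat_lit 73) (nat_lit 0) (nat_lit 0)) (.add (.leaf (nat_lit 74) (nat_lit 0) (nat_lit 0)) (.leaf (nat_lit 75) (nat_lit 0) (nat_lit 0))))) (.add (.add (.leaf (nat_lit 76) (nat_lit 0) (nat_lit 0)) (.add (.leaf (nat_lit 77) (nat_lit 0) (nat_lit 0)) (.leaf (nat_lit 78) (nat_lit 0) (nat_lit 0)))) (.add (.leaf (nat_lit 79) (nat_lit 0) (nat_lit 0)) (.add (.leaf (nat_lit 80) (nat_lit 0) (nat_lit 0)) (.leaf (nat_lit 81) (nat_lit 0) (nat_lit 0))))))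 (.add (.add (.add (.leaf (nat_lit 82) (nat_lit 0) (nat_lit 0)) (.add (.leaf (nat_lit 83) (nat_lit 0) (nat_lit 0)) (.leaf (nat_lit 84) (nat_lit 0) (nat_lit 0)))) (.add (.leaf (nat_lit 85) (nat_lit 0) (nat_lit 0)) (.add (.leaf (nat_lit 86) (nat_lit 0) (nat_lit 0)) (.leaf (nat_lit 87) (nat_lit 0) (nat_lit 0))))) (.add (.add (.leaf (nat_lit 88) (nat_lit 0) (nat_lit 0)) (.add (.leaf (nat_lit 89) (nat_lit 0) (nat_lit 0)) (.leaf (nat_lit 90) (nat_lit 0) (nat_lit 0)))) (.add (.leaf (nat_lit 91) (nat_lit 0) (nat_lit 0)) (.add (.leaf (nat_lit 92) (nat_lit 0) (nat_lit 0)) (.leaf (nat_lit 93) (nat_lit 0) (nat_lit 0))))))))),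
  (.add (.add (.add (.add (.add (.add (.leaf (nat_lit 0) (nat_lit 0) (nat_lit 0)) (.leaf (nat_lit 1) (nat_lit 0) (nat_lit 0))) (.add (.leaf (nat_lit 2) (nat_lit 0) (nat_lit 0)) (.add (.leaf (nat_lit 3) (nat_lit 0) (nat_lit 0)) (.leaf (nat_lit 4) (nat_lit 0) (nat_lit 0))))) (.add (.add (.leaf (nat_lit 5) (nat_lit 0) (nat_lit 0)) (.add (.leaf (nat_lit 6) (nat_lit 0) (nat_lit 0)) (.leaf (nat_lit 7) (nat_lit 0) (nat_lit 0)))) (.add (.leaf (nat_lit 8) (nat_lit 0) (nat_lit 0)) (.add (.leaf (nat_lit 9) (nat_lit 0) (nat_lit 0)) (.leaf (nat_lit 10) (nat_lit 0) (nat_lit 0)))))) (.add (.add (.add (.leaf (nat_lit 11) (nat_lit 0) (nat_lit 0)) (.add (.leaf (nat_lit 12) (nat_lit 0) (nat_lit 0)) (.leaf (nat_lit 13) (nat_lit 0) (nat_lit 0)))) (.add (.leaf (nat_lit 14) (nat_lit 0) (nat_lit 0)) (.add (.leaf (nat_lit 15) (nat_lit 0) (nat_lit 0)) (.leaf (nat_lit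 16) (nat_lit 0) (nat_lit 0))))) (.add (.add (.leaf (nat_lit 17) (nat_lit 0) (nat_lit 0)) (.add (.leaf (nat_lit 18) (nat_lit 0) (nat_lit 0)) (.leaf (nat_lit 19) (nat_lit 0) (nat_lit 0)))) (.add (.leaf (nat_lit 20) (nat_lit 0) (nat_lit 0)) (.add (.leaf (nat_lit 21) (nat_lit 0) (nat_lit 0)) (.leaf (nat_lit 22) (nat_lit 0) (nat_lit 0))))))) (.add (.add (.add (.add (.leaf (nat_lit 23) (nat_lit 0) (nat_lit 0)) (.add (.leaf (nat_lit 24) (nat_lit 0) (nat_lit 0)) (.leaf (nat_lit 25) (nat_lit 0) (nat_lit 0)))) (.add (.leaf (nat_lit 26) (nat_lit 0) (nat_lit 0)) (.add (.leaf (nat_lit 27) (nat_lit 0) (nat_lit 0)) (.leaf (nat_lit 28) (nat_lit 0) (nat_lit 0))))) (.add (.add (.leaf (nat_lit 29) (nat_lit 0) (nat_lit 0)) (.add (.leaf (nat_lit 30) (nat_lit 0) (nat_lit 0)) (.leaf (nat_lit 31) (nat_lit 0) (nat_lit 0)))) (.add (.leaf (nat_lit 32) (nat_lit 0)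 (nat_lit 0)) (.add (.leaf (nat_lit 33) (nat_lit 0) (nat_lit 0)) (.leaf (nat_lit 34) (nat_lit 0) (nat_lit 0)))))) (.add (.add (.add (.leaf (nat_lit 35) (nat_lit 0) (nat_lit 0)) (.add (.leaf (nat_lit 36) (nat_lit 0) (nat_lit 0)) (.leaf (nat_lit 37) (nat_lit 0) (nat_lit 0)))) (.add (.leaf (nat_lit 38) (nat_lit 0) (nat_lit 0)) (.add (.leaf (nat_lit 39) (nat_lit 0) (nat_lit 0)) (.leaf (nat_lit 40) (nat_lit 0) (nat_lit 0))))) (.add (.add (.leaf (nat_lit 41) (nat_lit 0) (nat_lit 0)) (.add (.leaf (nat_lit 42) (nat_lit 0) (nat_lit 0)) (.leaf (nat_lit 43) (nat_lit 0) (nat_lit 0)))) (.add (.leaf (nat_lit 44) (nat_lit 0) (nat_lit 0)) (.add (.leaf (nat_lit 45) (nat_lit 0) (nat_lit 0)) (.leaf (nat_lit 46) (nat_lit 0) (nat_lit 0)))))))) (.add (.add (.add (.add (.add (.leaf (nat_lit 47) (nat_lit 0) (nat_lit 0)) (.add (.leaf (nat_lit 48) (nat_lit 0) (nat_lit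 0)) (.leaf (nat_lit 49) (nat_lit 0) (nat_lit 0)))) (.add (.leaf (nat_lit 50) (nat_lit 0) (nat_lit 0)) (.add (.leaf (nat_lit 51) (nat_lit 0) (nat_lit 0)) (.leaf (nat_lit 52) (nat_lit 0) (nat_lit 0))))) (.add (.add (.leaf (nat_lit 53) (nat_lit 0) (nat_lit 0)) (.add (.leaf (nat_lit 54) (nat_lit 0) (nat_lit 0)) (.leaf (nat_lit 55) (nat_lit 0) (nat_lit 0)))) (.add (.leaf (nat_lit 56) (nat_lit 0) (nat_lit 0)) (.add (.leaf (nat_lit 57) (nat_lit 0) (nat_lit 0)) (.leaf (nat_lit 58) (nat_lit 0) (nat_lit 0)))))) (.add (.add (.add (.leaf (nat_lit 59) (nat_lit 0) (nat_lit 0)) (.add (.leaf (nat_lit 60) (nat_lit 0) (nat_lit 0)) (.leaf (nat_lit 61) (nat_lit 0) (nat_lit 0)))) (.add (.leaf (nat_lit 62) (nat_lit 0) (nat_lit 0)) (.add (.leaf (nat_lit 63) (nat_lit 0) (nat_lit 0)) (.leaf (nat_lit 64) (nat_lit 0) (nat_lit 0))))) (.add (.add (.leaf (nat_lit 65)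 (nat_lit 0) (nat_lit 0)) (.add (.leaf (nat_lit 66) (nat_lit 0) (nat_lit 0)) (.leaf (nat_lit 67) (nat_lit 0) (nat_lit 0)))) (.add (.leaf (nat_lit 68) (nat_lit 0) (nat_lit 0)) (.add (.leaf (nat_lit 69) (nat_lit 0) (nat_lit 0)) (.leaf (nat_lit 70) (nat_lit 0) (nat_lit 0))))))) (.add (.add (.add (.add (.leaf (nat_lit 71) (nat_lit 0) (nat_lit 0)) (.add (.leaf (nat_lit 72) (nat_lit 0) (nat_lit 0)) (.leaf (nat_lit 73) (nat_lit 0) (nat_lit 0)))) (.add (.leaf (nat_lit 74) (nat_lit 0) (nat_lit 0)) (.add (.leaf (nat_lit 75) (nat_lit 0) (nat_lit 0)) (.leaf (nat_lit 76) (nat_lit 0) (nat_lit 0))))) (.add (.add (.leaf (nat_lit 77) (nat_lit 0) (nat_lit 0)) (.add (.leaf (nat_lit 78) (nat_lit 0) (nat_lit 0)) (.leaf (nat_lit 79) (nat_lit 0) (nat_lit 0)))) (.add (.leaf (nat_lit 80) (nat_lit 0) (nat_lit 0)) (.add (.leaf (nat_lit 81) (nat_lit 0) (nat_lit 0))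 (.leaf (nat_lit 82) (nat_lit 0) (nat_lit 0)))))) (.add (.add (.add (.leaf (nat_lit 83) (nat_lit 0) (nat_lit 0)) (.add (.leaf (nat_lit 84) (nat_lit 0) (nat_lit 0)) (.leaf (nat_lit 85) (nat_lit 0) (nat_lit 0)))) (.add (.leaf (nat_lit 86) (nat_lit 0) (nat_lit 0)) (.add (.leaf (nat_lit 87) (nat_lit 0) (nat_lit 0)) (.leaf (nat_lit 88) (nat_lit 0) (nat_lit 0))))) (.add (.add (.leaf (nat_lit 89) (nat_lit 0) (nat_lit 0)) (.add (.leaf (nat_lit 90) (nat_lit 0) (nat_lit 0)) (.leaf (nat_lit 91) (nat_lit 0) (nat_lit 0)))) (.add (.leaf (nat_lit 92) (nat_lit 0) (nat_lit 0)) (.add (.leaf (nat_lit 93) (nat_lit 0) (nat_lit 0)) (.leaf (nat_lit 94) (nat_lit 0) (nat_lit 0))))))))),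
  (.add (.add (.add (.add (.add (.add (.leaf (nat_lit 0) (nat_lit 0) (nat_lit 0)) (.add (.leaf (nat_lit 1) (nat_lit 0) (nat_lit 0)) (.leaf (nat_lit 2) (nat_lit 0) (nat_lit 0)))) (.add (.leaf (nat_lit 3) (nat_lit 0) (nat_lit 0)) (.add (.leaf (nat_lit 4) (nat_lit 0) (nat_lit 0)) (.leaf (nat_lit 5) (nat_lit 0) (nat_lit 0))))) (.add (.add (.leaf (nat_lit 6) (nat_lit 0) (nat_lit 0)) (.add (.leaf (nat_lit 7) (nat_lit 0) (nat_lit 0)) (.leaf (nat_lit 8) (nat_lit 0) (nat_lit 0)))) (.add (.leaf (nat_lit 9) (nat_lit 0) (nat_lit 0)) (.add (.leaf (nat_lit 10) (nat_lit 0) (nat_lit 0)) (.leaf (nat_lit 11) (nat_lit 0) (nat_lit 0)))))) (.add (.add (.add (.leaf (nat_lit 12) (nat_lit 0) (nat_lit 0)) (.add (.leaf (nat_lit 13) (nat_lit 0) (nat_lit 0)) (.leaf (nat_lit 14) (nat_lit 0) (nat_lit 0)))) (.add (.leaf (nat_lit 15) (nat_lit 0) (nat_lit 0)) (.add (.leaf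 (nat_lit 16) (nat_lit 0) (nat_lit 0)) (.leaf (nat_lit 17) (nat_lit 0) (nat_lit 0))))) (.add (.add (.leaf (nat_lit 18) (nat_lit 0) (nat_lit 0)) (.add (.leaf (nat_lit 19) (nat_lit 0) (nat_lit 0)) (.leaf (nat_lit 20) (nat_lit 0) (nat_lit 0)))) (.add (.leaf (nat_lit 21) (nat_lit 0) (nat_lit 0)) (.add (.leaf (nat_lit 22) (nat_lit 0) (nat_lit 0)) (.leaf (nat_lit 23) (nat_lit 0) (nat_lit 0))))))) (.add (.add (.add (.add (.leaf (nat_lit 24) (nat_lit 0) (nat_lit 0)) (.add (.leaf (nat_lit 25) (nat_lit 0) (nat_lit 0)) (.leaf (nat_lit 26) (nat_lit 0) (nat_lit 0)))) (.add (.leaf (nat_lit 27) (nat_lit 0) (nat_lit 0)) (.add (.leaf (nat_lit 28) (nat_lit 0) (nat_lit 0)) (.leaf (nat_lit 29) (nat_lit 0) (nat_lit 0))))) (.add (.add (.leaf (nat_lit 30) (nat_lit 0) (nat_lit 0)) (.add (.leaf (nat_lit 31) (nat_lit 0) (nat_lit 0)) (.leaf (nat_lit 32) (nat_lit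 0) (nat_lit 0)))) (.add (.leaf (nat_lit 33) (nat_lit 0) (nat_lit 0)) (.add (.leaf (nat_lit 34) (nat_lit 0) (nat_lit 0)) (.leaf (nat_lit 35) (nat_lit 0) (nat_lit 0)))))) (.add (.add (.add (.leaf (nat_lit 36) (nat_lit 0) (nat_lit 0)) (.add (.leaf (nat_lit 37) (nat_lit 0) (nat_lit 0)) (.leaf (nat_lit 38) (nat_lit 0) (nat_lit 0)))) (.add (.leaf (nat_lit 39) (nat_lit 0) (nat_lit 0)) (.add (.leaf (nat_lit 40) (nat_lit 0) (nat_lit 0)) (.leaf (nat_lit 41) (nat_lit 0) (nat_lit 0))))) (.add (.add (.leaf (nat_lit 42) (nat_lit 0) (nat_lit 0)) (.add (.leaf (nat_lit 43) (nat_lit 0) (nat_lit 0)) (.leaf (nat_lit 44) (nat_lit 0) (nat_lit 0)))) (.add (.leaf (nat_lit 45) (nat_lit 0) (nat_lit 0)) (.add (.leaf (nat_lit 46) (nat_lit 0) (nat_lit 0)) (.leaf (nat_lit 47) (nat_lit 0) (nat_lit 0)))))))) (.add (.add (.add (.add (.add (.leaf (nat_lit 48) (nat_lit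 0) (nat_lit 0)) (.add (.leaf (nat_lit 49) (nat_lit 0) (nat_lit 0)) (.leaf (nat_lit 50) (nat_lit 0) (nat_lit 0)))) (.add (.leaf (nat_lit 51) (nat_lit 0) (nat_lit 0)) (.add (.leaf (nat_lit 52) (nat_lit 0) (nat_lit 0)) (.leaf (nat_lit 53) (nat_lit 0) (nat_lit 0))))) (.add (.add (.leaf (nat_lit 54) (nat_lit 0) (nat_lit 0)) (.add (.leaf (nat_lit 55) (nat_lit 0) (nat_lit 0)) (.leaf (nat_lit 56) (nat_lit 0) (nat_lit 0)))) (.add (.leaf (nat_lit 57) (nat_lit 0) (nat_lit 0)) (.add (.leaf (nat_lit 58) (nat_lit 0) (nat_lit 0)) (.leaf (nat_lit 59) (nat_lit 0) (nat_lit 0)))))) (.add (.add (.add (.leaf (nat_lit 60) (nat_lit 0) (nat_lit 0)) (.add (.leaf (nat_lit 61) (nat_lit 0) (nat_lit 0)) (.leaf (nat_lit 62) (nat_lit 0) (nat_lit 0)))) (.add (.leaf (nat_lit 63) (nat_lit 0) (nat_lit 0)) (.add (.leaf (nat_lit 64) (nat_lit 0) (nat_lit 0)) (.leaf (nat_lit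 65) (nat_lit 0) (nat_lit 0))))) (.add (.add (.leaf (nat_lit 66) (nat_lit 0) (nat_lit 0)) (.add (.leaf (nat_lit 67) (nat_lit 0) (nat_lit 0)) (.leaf (nat_lit 68) (nat_lit 0) (nat_lit 0)))) (.add (.leaf (nat_lit 69) (nat_lit 0) (nat_lit 0)) (.add (.leaf (nat_lit 70) (nat_lit 0) (nat_lit 0)) (.leaf (nat_lit 71) (nat_lit 0) (nat_lit 0))))))) (.add (.add (.add (.add (.leaf (nat_lit 72) (nat_lit 0) (nat_lit 0)) (.add (.leaf (nat_lit 73) (nat_lit 0) (nat_lit 0)) (.leaf (nat_lit 74) (nat_lit 0) (nat_lit 0)))) (.add (.leaf (nat_lit 75) (nat_lit 0) (nat_lit 0)) (.add (.leaf (nat_lit 76) (nat_lit 0) (nat_lit 0)) (.leaf (nat_lit 77) (nat_lit 0) (nat_lit 0))))) (.add (.add (.leaf (nat_lit 78) (nat_lit 0) (nat_lit 0)) (.add (.leaf (nat_lit 79) (nat_lit 0) (nat_lit 0)) (.leaf (nat_lit 80) (nat_lit 0) (nat_lit 0)))) (.add (.leaf (nat_lit 81) (nat_lit 0)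 (nat_lit 0)) (.add (.leaf (nat_lit 82) (nat_lit 0) (nat_lit 0)) (.leaf (nat_lit 83) (nat_lit 0) (nat_lit 0)))))) (.add (.add (.add (.leaf (nat_lit 84) (nat_lit 0) (nat_lit 0)) (.add (.leaf (nat_lit 85) (nat_lit 0) (nat_lit 0)) (.leaf (nat_lit 86) (nat_lit 0) (nat_lit 0)))) (.add (.leaf (nat_lit 87) (nat_lit 0) (nat_lit 0)) (.add (.leaf (nat_lit 88) (nat_lit 0) (nat_lit 0)) (.leaf (nat_lit 89) (nat_lit 0) (nat_lit 0))))) (.add (.add (.leaf (nat_lit 90) (nat_lit 0) (nat_lit 0)) (.add (.leaf (nat_lit 91) (nat_lit 0) (nat_lit 0)) (.leaf (nat_lit 92) (nat_lit 0) (nat_lit 0)))) (.add (.leaf (nat_lit 93) (nat_lit 0) (nat_lit 0)) (.add (.leaf (nat_lit 94) (nat_lit 0) (nat_lit 0)) (.leaf (nat_lit 95) (nat_lit 0) (nat_lit 0))))))))),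
  (.add (.add (.add (.add (.add (.add (.leaf (nat_lit 0) (nat_lit 0) (nat_lit 0)) (.add (.leaf (nat_lit 1) (nat_lit 0) (nat_lit 0)) (.leaf (nat_lit 2) (nat_lit 0) (nat_lit 0)))) (.add (.leaf (nat_lit 3) (nat_lit 0) (nat_lit 0)) (.add (.leaf (nat_lit 4) (nat_lit 0) (nat_lit 0)) (.leaf (nat_lit 5) (nat_lit 0) (nat_lit 0))))) (.add (.add (.leaf (nat_lit 6) (nat_lit 0) (nat_lit 0)) (.add (.leaf (nat_lit 7) (nat_lit 0) (nat_lit 0)) (.leaf (nat_lit 8) (nat_lit 0) (nat_lit 0)))) (.add (.leaf (nat_lit 9) (nat_lit 0) (nat_lit 0)) (.add (.leaf (nat_lit 10) (nat_lit 0) (nat_lit 0)) (.leaf (nat_lit 11) (nat_lit 0) (nat_lit 0)))))) (.add (.add (.add (.leaf (nat_lit 12) (nat_lit 0) (nat_lit 0)) (.add (.leaf (nat_lit 13) (nat_lit 0) (nat_lit 0)) (.leaf (nat_lit 14) (nat_lit 0) (nat_lit 0)))) (.add (.leaf (nat_lit 15) (nat_lit 0) (nat_lit 0)) (.add (.leaf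 (nat_lit 16) (nat_lit 0) (nat_lit 0)) (.leaf (nat_lit 17) (nat_lit 0) (nat_lit 0))))) (.add (.add (.leaf (nat_lit 18) (nat_lit 0) (nat_lit 0)) (.add (.leaf (nat_lit 19) (nat_lit 0) (nat_lit 0)) (.leaf (nat_lit 20) (nat_lit 0) (nat_lit 0)))) (.add (.leaf (nat_lit 21) (nat_lit 0) (nat_lit 0)) (.add (.leaf (nat_lit 22) (nat_lit 0) (nat_lit 0)) (.leaf (nat_lit 23) (nat_lit 0) (nat_lit 0))))))) (.add (.add (.add (.add (.leaf (nat_lit 24) (nat_lit 0) (nat_lit 0)) (.add (.leaf (nat_lit 25) (nat_lit 0) (nat_lit 0)) (.leaf (nat_lit 26) (nat_lit 0) (nat_lit 0)))) (.add (.leaf (nat_lit 27) (nat_lit 0) (nat_lit 0)) (.add (.leaf (nat_lit 28) (nat_lit 0) (nat_lit 0)) (.leaf (nat_lit 29) (nat_lit 0) (nat_lit 0))))) (.add (.add (.leaf (nat_lit 30) (nat_lit 0) (nat_lit 0)) (.add (.leaf (nat_lit 31) (nat_lit 0) (nat_lit 0)) (.leaf (nat_lit 32) (nat_lit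 0) (nat_lit 0)))) (.add (.leaf (nat_lit 33) (nat_lit 0) (nat_lit 0)) (.add (.leaf (nat_lit 34) (nat_lit 0) (nat_lit 0)) (.leaf (nat_lit 35) (nat_lit 0) (nat_lit 0)))))) (.add (.add (.add (.leaf (nat_lit 36) (nat_lit 0) (nat_lit 0)) (.add (.leaf (nat_lit 37) (nat_lit 0) (nat_lit 0)) (.leaf (nat_lit 38) (nat_lit 0) (nat_lit 0)))) (.add (.leaf (nat_lit 39) (nat_lit 0) (nat_lit 0)) (.add (.leaf (nat_lit 40) (nat_lit 0) (nat_lit 0)) (.leaf (nat_lit 41) (nat_lit 0) (nat_lit 0))))) (.add (.add (.leaf (nat_lit 42) (nat_lit 0) (nat_lit 0)) (.add (.leaf (nat_lit 43) (nat_lit 0) (nat_lit 0)) (.leaf (nat_lit 44) (nat_lit 0) (nat_lit 0)))) (.add (.leaf (nat_lit 45) (nat_lit 0) (nat_lit 0)) (.add (.leaf (nat_lit 46) (nat_lit 0) (nat_lit 0)) (.leaf (nat_lit 47) (nat_lit 0) (nat_lit 0)))))))) (.add (.add (.add (.add (.add (.leaf (nat_lit 48) (nat_lit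 0) (nat_lit 0)) (.add (.leaf (nat_lit 49) (nat_lit 0) (nat_lit 0)) (.leaf (nat_lit 50) (nat_lit 0) (nat_lit 0)))) (.add (.leaf (nat_lit 51) (nat_lit 0) (nat_lit 0)) (.add (.leaf (nat_lit 52) (nat_lit 0) (nat_lit 0)) (.leaf (nat_lit 53) (nat_lit 0) (nat_lit 0))))) (.add (.add (.leaf (nat_lit 54) (nat_lit 0) (nat_lit 0)) (.add (.leaf (nat_lit 55) (nat_lit 0) (nat_lit 0)) (.leaf (nat_lit 56) (nat_lit 0) (nat_lit 0)))) (.add (.leaf (nat_lit 57) (nat_lit 0) (nat_lit 0)) (.add (.leaf (nat_lit 58) (nat_lit 0) (nat_lit 0)) (.leaf (nat_lit 59) (nat_lit 0) (nat_lit 0)))))) (.add (.add (.add (.leaf (nat_lit 60) (nat_lit 0) (nat_lit 0)) (.add (.leaf (nat_lit 61) (nat_lit 0) (nat_lit 0)) (.leaf (nat_lit 62) (nat_lit 0) (nat_lit 0)))) (.add (.leaf (nat_lit 63) (nat_lit 0) (nat_lit 0)) (.add (.leaf (nat_lit 64) (nat_lit 0) (nat_lit 0)) (.leaf (nat_lit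 65) (nat_lit 0) (nat_lit 0))))) (.add (.add (.leaf (nat_lit 66) (nat_lit 0) (nat_lit 0)) (.add (.leaf (nat_lit 67) (nat_lit 0) (nat_lit 0)) (.leaf (nat_lit 68) (nat_lit 0) (nat_lit 0)))) (.add (.leaf (nat_lit 69) (nat_lit 0) (nat_lit 0)) (.add (.leaf (nat_lit 70) (nat_lit 0) (nat_lit 0)) (.leaf (nat_lit 71) (nat_lit 0) (nat_lit 0))))))) (.add (.add (.add (.add (.leaf (nat_lit 72) (nat_lit 0) (nat_lit 0)) (.add (.leaf (nat_lit 73) (nat_lit 0) (nat_lit 0)) (.leaf (nat_lit 74) (nat_lit 0) (nat_lit 0)))) (.add (.leaf (nat_lit 75) (nat_lit 0) (nat_lit 0)) (.add (.leaf (nat_lit 76) (nat_lit 0) (nat_lit 0)) (.leaf (nat_lit 77) (nat_lit 0) (nat_lit 0))))) (.add (.add (.leaf (nat_lit 78) (nat_lit 0) (nat_lit 0)) (.add (.leaf (nat_lit 79) (nat_lit 0) (nat_lit 0)) (.leaf (nat_lit 80) (nat_lit 0) (nat_lit 0)))) (.add (.leaf (nat_lit 81) (nat_lit 0)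 (nat_lit 0)) (.add (.leaf (nat_lit 82) (nat_lit 0) (nat_lit 0)) (.leaf (nat_lit 83) (nat_lit 0) (nat_lit 0)))))) (.add (.add (.add (.leaf (nat_lit 84) (nat_lit 0) (nat_lit 0)) (.add (.leaf (nat_lit 85) (nat_lit 0) (nat_lit 0)) (.leaf (nat_lit 86) (nat_lit 0) (nat_lit 0)))) (.add (.leaf (nat_lit 87) (nat_lit 0) (nat_lit 0)) (.add (.leaf (nat_lit 88) (nat_lit 0) (nat_lit 0)) (.leaf (nat_lit 89) (nat_lit 0) (nat_lit 0))))) (.add (.add (.leaf (nat_lit 90) (nat_lit 0) (nat_lit 0)) (.add (.leaf (nat_lit 91) (nat_lit 0) (nat_lit 0)) (.leaf (nat_lit 92) (nat_lit 0) (nat_lit 0)))) (.add (.add (.leaf (nat_lit 93) (nat_lit 0) (nat_lit 0)) (.leaf (nat_lit 94) (nat_lit 0) (nat_lit 0))) (.add (.leaf (nat_lit 95) (nat_lit 0) (nat_lit 0)) (.leaf (nat_lit 96) (nat_lit 0) (nat_lit 0))))))))),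
  (.add (.add (.add (.add (.add (.add (.leaf (nat_lit 0) (nat_lit 0) (nat_lit 0)) (.add (.leaf (nat_lit 1) (nat_lit 0) (nat_lit 0)) (.leaf (nat_lit 2) (nat_lit 0) (nat_lit 0)))) (.add (.leaf (nat_lit 3) (nat_lit 0) (nat_lit 0)) (.add (.leaf (nat_lit 4) (nat_lit 0) (nat_lit 0)) (.leaf (nat_lit 5) (nat_lit 0) (nat_lit 0))))) (.add (.add (.leaf (nat_lit 6) (nat_lit 0) (nat_lit 0)) (.add (.leaf (nat_lit 7) (nat_lit 0) (nat_lit 0)) (.leaf (nat_lit 8) (nat_lit 0) (nat_lit 0)))) (.add (.leaf (nat_lit 9) (nat_lit 0) (nat_lit 0)) (.add (.leaf (nat_lit 10) (nat_lit 0) (nat_lit 0)) (.leaf (nat_lit 11) (nat_lit 0) (nat_lit 0)))))) (.add (.add (.add (.leaf (nat_lit 12) (nat_lit 0) (nat_lit 0)) (.add (.leaf (nat_lit 13) (nat_lit 0) (nat_lit 0)) (.leaf (nat_lit 14) (nat_lit 0) (nat_lit 0)))) (.add (.leaf (nat_lit 15) (nat_lit 0) (nat_lit 0)) (.add (.leaf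 (nat_lit 16) (nat_lit 0) (nat_lit 0)) (.leaf (nat_lit 17) (nat_lit 0) (nat_lit 0))))) (.add (.add (.leaf (nat_lit 18) (nat_lit 0) (nat_lit 0)) (.add (.leaf (nat_lit 19) (nat_lit 0) (nat_lit 0)) (.leaf (nat_lit 20) (nat_lit 0) (nat_lit 0)))) (.add (.leaf (nat_lit 21) (nat_lit 0) (nat_lit 0)) (.add (.leaf (nat_lit 22) (nat_lit 0) (nat_lit 0)) (.leaf (nat_lit 23) (nat_lit 0) (nat_lit 0))))))) (.add (.add (.add (.add (.leaf (nat_lit 24) (nat_lit 0) (nat_lit 0)) (.add (.leaf (nat_lit 25) (nat_lit 0) (nat_lit 0)) (.leaf (nat_lit 26) (nat_lit 0) (nat_lit 0)))) (.add (.leaf (nat_lit 27) (nat_lit 0) (nat_lit 0)) (.add (.leaf (nat_lit 28) (nat_lit 0) (nat_lit 0)) (.leaf (nat_lit 29) (nat_lit 0) (nat_lit 0))))) (.add (.add (.leaf (nat_lit 30) (nat_lit 0) (nat_lit 0)) (.add (.leaf (nat_lit 31) (nat_lit 0) (nat_lit 0)) (.leaf (nat_lit 32) (nat_lit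 0) (nat_lit 0)))) (.add (.leaf (nat_lit 33) (nat_lit 0) (nat_lit 0)) (.add (.leaf (nat_lit 34) (nat_lit 0) (nat_lit 0)) (.leaf (nat_lit 35) (nat_lit 0) (nat_lit 0)))))) (.add (.add (.add (.leaf (nat_lit 36) (nat_lit 0) (nat_lit 0)) (.add (.leaf (nat_lit 37) (nat_lit 0) (nat_lit 0)) (.leaf (nat_lit 38) (nat_lit 0) (nat_lit 0)))) (.add (.leaf (nat_lit 39) (nat_lit 0) (nat_lit 0)) (.add (.leaf (nat_lit 40) (nat_lit 0) (nat_lit 0)) (.leaf (nat_lit 41) (nat_lit 0) (nat_lit 0))))) (.add (.add (.leaf (nat_lit 42) (nat_lit 0) (nat_lit 0)) (.add (.leaf (nat_lit 43) (nat_lit 0) (nat_lit 0)) (.leaf (nat_lit 44) (nat_lit 0) (nat_lit 0)))) (.add (.add (.leaf (nat_lit 45) (nat_lit 0) (nat_lit 0)) (.leaf (nat_lit 46) (nat_lit 0) (nat_lit 0))) (.add (.leaf (nat_lit 47) (nat_lit 0) (nat_lit 0)) (.leaf (nat_lit 48) (nat_lit 0) (nat_lit 0)))))))) (.add (.add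 (.add (.add (.add (.leaf (nat_lit 49) (nat_lit 0) (nat_lit 0)) (.add (.leaf (nat_lit 50) (nat_lit 0) (nat_lit 0)) (.leaf (nat_lit 51) (nat_lit 0) (nat_lit 0)))) (.add (.leaf (nat_lit 52) (nat_lit 0) (nat_lit 0)) (.add (.leaf (nat_lit 53) (nat_lit 0) (nat_lit 0)) (.leaf (nat_lit 54) (nat_lit 0) (nat_lit 0))))) (.add (.add (.leaf (nat_lit 55) (nat_lit 0) (nat_lit 0)) (.add (.leaf (nat_lit 56) (nat_lit 0) (nat_lit 0)) (.leaf (nat_lit 57) (nat_lit 0) (nat_lit 0)))) (.add (.leaf (nat_lit 58) (nat_lit 0) (nat_lit 0)) (.add (.leaf (nat_lit 59) (nat_lit 0) (nat_lit 0)) (.leaf (nat_lit 60) (nat_lit 0) (nat_lit 0)))))) (.add (.add (.add (.leaf (nat_lit 61) (nat_lit 0) (nat_lit 0)) (.add (.leaf (nat_lit 62) (nat_lit 0) (nat_lit 0)) (.leaf (nat_lit 63) (nat_lit 0) (nat_lit 0)))) (.add (.leaf (nat_lit 64) (nat_lit 0) (nat_lit 0)) (.add (.leaf (nat_lit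 65) (nat_lit 0) (nat_lit 0)) (.leaf (nat_lit 66) (nat_lit 0) (nat_lit 0))))) (.add (.add (.leaf (nat_lit 67) (nat_lit 0) (nat_lit 0)) (.add (.leaf (nat_lit 68) (nat_lit 0) (nat_lit 0)) (.leaf (nat_lit 69) (nat_lit 0) (nat_lit 0)))) (.add (.leaf (nat_lit 70) (nat_lit 0) (nat_lit 0)) (.add (.leaf (nat_lit 71) (nat_lit 0) (nat_lit 0)) (.leaf (nat_lit 72) (nat_lit 0) (nat_lit 0))))))) (.add (.add (.add (.add (.leaf (nat_lit 73) (nat_lit 0) (nat_lit 0)) (.add (.leaf (nat_lit 74) (nat_lit 0) (nat_lit 0)) (.leaf (nat_lit 75) (nat_lit 0) (nat_lit 0)))) (.add (.leaf (nat_lit 76) (nat_lit 0) (nat_lit 0)) (.add (.leaf (nat_lit 77) (nat_lit 0) (nat_lit 0)) (.leaf (nat_lit 78) (nat_lit 0) (nat_lit 0))))) (.add (.add (.leaf (nat_lit 79) (nat_lit 0) (nat_lit 0)) (.add (.leaf (nat_lit 80) (nat_lit 0) (nat_lit 0)) (.leaf (nat_lit 81) (nat_lit 0) (nat_lit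 0)))) (.add (.leaf (nat_lit 82) (nat_lit 0) (nat_lit 0)) (.add (.leaf (nat_lit 83) (nat_lit 0) (nat_lit 0)) (.leaf (nat_lit 84) (nat_lit 0) (nat_lit 0)))))) (.add (.add (.add (.leaf (nat_lit 85) (nat_lit 0) (nat_lit 0)) (.add (.leaf (nat_lit 86) (nat_lit 0) (nat_lit 0)) (.leaf (nat_lit 87) (nat_lit 0) (nat_lit 0)))) (.add (.leaf (nat_lit 88) (nat_lit 0) (nat_lit 0)) (.add (.leaf (nat_lit 89) (nat_lit 0) (nat_lit 0)) (.leaf (nat_lit 90) (nat_lit 0) (nat_lit 0))))) (.add (.add (.leaf (nat_lit 91) (nat_lit 0) (nat_lit 0)) (.add (.leaf (nat_lit 92) (nat_lit 0) (nat_lit 0)) (.leaf (nat_lit 93) (nat_lit 0) (nat_lit 0)))) (.add (.add (.leaf (nat_lit 94) (nat_lit 0) (nat_lit 0)) (.leaf (nat_lit 95) (nat_lit 0) (nat_lit 0))) (.add (.leaf (nat_lit 96) (nat_lit 0) (nat_lit 0)) (.leaf (nat_lit 97) (nat_lit 0) (nat_lit 0))))))))),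
  (.add (.add (.add (.add (.add (.add (.leaf (nat_lit 0) (nat_lit 0) (nat_lit 0)) (.add (.leaf (nat_lit 1) (nat_lit 0) (nat_lit 0)) (.leaf (nat_lit 2) (nat_lit 0) (nat_lit 0)))) (.add (.leaf (nat_lit 3) (nat_lit 0) (nat_lit 0)) (.add (.leaf (nat_lit 4) (nat_lit 0) (nat_lit 0)) (.leaf (nat_lit 5) (nat_lit 0) (nat_lit 0))))) (.add (.add (.leaf (nat_lit 6) (nat_lit 0) (nat_lit 0)) (.add (.leaf (nat_lit 7) (nat_lit 0) (nat_lit 0)) (.leaf (nat_lit 8) (nat_lit 0) (nat_lit 0)))) (.add (.leaf (nat_lit 9) (nat_lit 0) (nat_lit 0)) (.add (.leaf (nat_lit 10) (nat_lit 0) (nat_lit 0)) (.leaf (nat_lit 11) (nat_lit 0) (nat_lit 0)))))) (.add (.add (.add (.leaf (nat_lit 12) (nat_lit 0) (nat_lit 0)) (.add (.leaf (nat_lit 13) (nat_lit 0) (nat_lit 0)) (.leaf (nat_lit 14) (nat_lit 0) (nat_lit 0)))) (.add (.leaf (nat_lit 15) (nat_lit 0) (nat_lit 0)) (.add (.leaf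 (nat_lit 16) (nat_lit 0) (nat_lit 0)) (.leaf (nat_lit 17) (nat_lit 0) (nat_lit 0))))) (.add (.add (.leaf (nat_lit 18) (nat_lit 0) (nat_lit 0)) (.add (.leaf (nat_lit 19) (nat_lit 0) (nat_lit 0)) (.leaf (nat_lit 20) (nat_lit 0) (nat_lit 0)))) (.add (.leaf (nat_lit 21) (nat_lit 0) (nat_lit 0)) (.add (.leaf (nat_lit 22) (nat_lit 0) (nat_lit 0)) (.leaf (nat_lit 23) (nat_lit 0) (nat_lit 0))))))) (.add (.add (.add (.add (.leaf (nat_lit 24) (nat_lit 0) (nat_lit 0)) (.add (.leaf (nat_lit 25) (nat_lit 0) (nat_lit 0)) (.leaf (nat_lit 26) (nat_lit 0) (nat_lit 0)))) (.add (.leaf (nat_lit 27) (nat_lit 0) (nat_lit 0)) (.add (.leaf (nat_lit 28) (nat_lit 0) (nat_lit 0)) (.leaf (nat_lit 29) (nat_lit 0) (nat_lit 0))))) (.add (.add (.leaf (nat_lit 30) (nat_lit 0) (nat_lit 0)) (.add (.leaf (nat_lit 31) (nat_lit 0) (nat_lit 0)) (.leaf (nat_lit 32) (nat_lit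 0) (nat_lit 0)))) (.add (.leaf (nat_lit 33) (nat_lit 0) (nat_lit 0)) (.add (.leaf (nat_lit 34) (nat_lit 0) (nat_lit 0)) (.leaf (nat_lit 35) (nat_lit 0) (nat_lit 0)))))) (.add (.add (.add (.leaf (nat_lit 36) (nat_lit 0) (nat_lit 0)) (.add (.leaf (nat_lit 37) (nat_lit 0) (nat_lit 0)) (.leaf (nat_lit 38) (nat_lit 0) (nat_lit 0)))) (.add (.leaf (nat_lit 39) (nat_lit 0) (nat_lit 0)) (.add (.leaf (nat_lit 40) (nat_lit 0) (nat_lit 0)) (.leaf (nat_lit 41) (nat_lit 0) (nat_lit 0))))) (.add (.add (.leaf (nat_lit 42) (nat_lit 0) (nat_lit 0)) (.add (.leaf (nat_lit 43) (nat_lit 0) (nat_lit 0)) (.leaf (nat_lit 44) (nat_lit 0) (nat_lit 0)))) (.add (.add (.leaf (nat_lit 45) (nat_lit 0) (nat_lit 0)) (.leaf (nat_lit 46) (nat_lit 0) (nat_lit 0))) (.add (.leaf (nat_lit 47) (nat_lit 0) (nat_lit 0)) (.leaf (nat_lit 48) (nat_lit 0) (nat_lit 0)))))))) (.add (.add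 (.add (.add (.add (.leaf (nat_lit 49) (nat_lit 0) (nat_lit 0)) (.add (.leaf (nat_lit 50) (nat_lit 0) (nat_lit 0)) (.leaf (nat_lit 51) (nat_lit 0) (nat_lit 0)))) (.add (.leaf (nat_lit 52) (nat_lit 0) (nat_lit 0)) (.add (.leaf (nat_lit 53) (nat_lit 0) (nat_lit 0)) (.leaf (nat_lit 54) (nat_lit 0) (nat_lit 0))))) (.add (.add (.leaf (nat_lit 55) (nat_lit 0) (nat_lit 0)) (.add (.leaf (nat_lit 56) (nat_lit 0) (nat_lit 0)) (.leaf (nat_lit 57) (nat_lit 0) (nat_lit 0)))) (.add (.leaf (nat_lit 58) (nat_lit 0) (nat_lit 0)) (.add (.leaf (nat_lit 59) (nat_lit 0) (nat_lit 0)) (.leaf (nat_lit 60) (nat_lit 0) (nat_lit 0)))))) (.add (.add (.add (.leaf (nat_lit 61) (nat_lit 0) (nat_lit 0)) (.add (.leaf (nat_lit 62) (nat_lit 0) (nat_lit 0)) (.leaf (nat_lit 63) (nat_lit 0) (nat_lit 0)))) (.add (.leaf (nat_lit 64) (nat_lit 0) (nat_lit 0)) (.add (.leaf (nat_lit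 65) (nat_lit 0) (nat_lit 0)) (.leaf (nat_lit 66) (nat_lit 0) (nat_lit 0))))) (.add (.add (.leaf (nat_lit 67) (nat_lit 0) (nat_lit 0)) (.add (.leaf (nat_lit 68) (nat_lit 0) (nat_lit 0)) (.leaf (nat_lit 69) (nat_lit 0) (nat_lit 0)))) (.add (.add (.leaf (nat_lit 70) (nat_lit 0) (nat_lit 0)) (.leaf (nat_lit 71) (nat_lit 0) (nat_lit 0))) (.add (.leaf (nat_lit 72) (nat_lit 0) (nat_lit 0)) (.leaf (nat_lit 73) (nat_lit 0) (nat_lit 0))))))) (.add (.add (.add (.add (.leaf (nat_lit 74) (nat_lit 0) (nat_lit 0)) (.add (.leaf (nat_lit 75) (nat_lit 0) (nat_lit 0)) (.leaf (nat_lit 76) (nat_lit 0) (nat_lit 0)))) (.add (.leaf (nat_lit 77) (nat_lit 0) (nat_lit 0)) (.add (.leaf (nat_lit 78) (nat_lit 0) (nat_lit 0)) (.leaf (nat_lit 79) (nat_lit 0) (nat_lit 0))))) (.add (.add (.leaf (nat_lit 80) (nat_lit 0) (nat_lit 0)) (.add (.leaf (nat_lit 81) (nat_lit 0)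 (nat_lit 0)) (.leaf (nat_lit 82) (nat_lit 0) (nat_lit 0)))) (.add (.leaf (nat_lit 83) (nat_lit 0) (nat_lit 0)) (.add (.leaf (nat_lit 84) (nat_lit 0) (nat_lit 0)) (.leaf (nat_lit 85) (nat_lit 0) (nat_lit 0)))))) (.add (.add (.add (.leaf (nat_lit 86) (nat_lit 0) (nat_lit 0)) (.add (.leaf (nat_lit 87) (nat_lit 0) (nat_lit 0)) (.leaf (nat_lit 88) (nat_lit 0) (nat_lit 0)))) (.add (.leaf (nat_lit 89) (nat_lit 0) (nat_lit 0)) (.add (.leaf (nat_lit 90) (nat_lit 0) (nat_lit 0)) (.leaf (nat_lit 91) (nat_lit 0) (nat_lit 0))))) (.add (.add (.leaf (nat_lit 92) (nat_lit 0) (nat_lit 0)) (.add (.leaf (nat_lit 93) (nat_lit 0) (nat_lit 0)) (.leaf (nat_lit 94) (nat_lit 0) (nat_lit 0)))) (.add (.add (.leaf (nat_lit 95) (nat_lit 0) (nat_lit 0)) (.leaf (nat_lit 96) (nat_lit 0) (nat_lit 0))) (.add (.leaf (nat_lit 97) (nat_lit 0) (nat_lit 0)) (.leaf (nat_lit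 98) (nat_lit 0) (nat_lit 0))))))))),
  (.add (.add (.add (.add (.add (.add (.leaf (nat_lit 0) (nat_lit 0) (nat_lit 0)) (.add (.leaf (nat_lit 1) (nat_lit 0) (nat_lit 0)) (.leaf (nat_lit 2) (nat_lit 0) (nat_lit 0)))) (.add (.leaf (nat_lit 3) (nat_lit 0) (nat_lit 0)) (.add (.leaf (nat_lit 4) (nat_lit 0) (nat_lit 0)) (.leaf (nat_lit 5) (nat_lit 0) (nat_lit 0))))) (.add (.add (.leaf (nat_lit 6) (nat_lit 0) (nat_lit 0)) (.add (.leaf (nat_lit 7) (nat_lit 0) (nat_lit 0)) (.leaf (nat_lit 8) (nat_lit 0) (nat_lit 0)))) (.add (.leaf (nat_lit 9) (nat_lit 0) (nat_lit 0)) (.add (.leaf (nat_lit 10) (nat_lit 0) (nat_lit 0)) (.leaf (nat_lit 11) (nat_lit 0) (nat_lit 0)))))) (.add (.add (.add (.leaf (nat_lit 12) (nat_lit 0) (nat_lit 0)) (.add (.leaf (nat_lit 13) (nat_lit 0) (nat_lit 0)) (.leaf (nat_lit 14) (nat_lit 0) (nat_lit 0)))) (.add (.leaf (nat_lit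 15) (nat_lit 0) (nat_lit 0)) (.add (.leaf (nat_lit 16) (nat_lit 0) (nat_lit 0)) (.leaf (nat_lit 17) (nat_lit 0) (nat_lit 0))))) (.add (.add (.leaf (nat_lit 18) (nat_lit 0) (nat_lit 0)) (.add (.leaf (nat_lit 19) (nat_lit 0) (nat_lit 0)) (.leaf (nat_lit 20) (nat_lit 0) (nat_lit 0)))) (.add (.add (.leaf (nat_lit 21) (nat_lit 0) (nat_lit 0)) (.leaf (nat_lit 22) (nat_lit 0) (nat_lit 0))) (.add (.leaf (nat_lit 23) (nat_lit 0) (nat_lit 0)) (.leaf (nat_lit 24) (nat_lit 0) (nat_lit 0))))))) (.add (.add (.add (.add (.leaf (nat_lit 25) (nat_lit 0) (nat_lit 0)) (.add (.leaf (nat_lit 26) (nat_lit 0) (nat_lit 0)) (.leaf (nat_lit 27) (nat_lit 0) (nat_lit 0)))) (.add (.leaf (nat_lit 28) (nat_lit 0) (nat_lit 0)) (.add (.leaf (nat_lit 29) (nat_lit 0) (nat_lit 0)) (.leaf (nat_lit 30) (nat_lit 0) (nat_lit 0))))) (.add (.add (.leaf (nat_lit 31) (nat_lit 0)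 (nat_lit 0)) (.add (.leaf (nat_lit 32) (nat_lit 0) (nat_lit 0)) (.leaf (nat_lit 33) (nat_lit 0) (nat_lit 0)))) (.add (.leaf (nat_lit 34) (nat_lit 0) (nat_lit 0)) (.add (.leaf (nat_lit 35) (nat_lit 0) (nat_lit 0)) (.leaf (nat_lit 36) (nat_lit 0) (nat_lit 0)))))) (.add (.add (.add (.leaf (nat_lit 37) (nat_lit 0) (nat_lit 0)) (.add (.leaf (nat_lit 38) (nat_lit 0) (nat_lit 0)) (.leaf (nat_lit 39) (nat_lit 0) (nat_lit 0)))) (.add (.leaf (nat_lit 40) (nat_lit 0) (nat_lit 0)) (.add (.leaf (nat_lit 41) (nat_lit 0) (nat_lit 0)) (.leaf (nat_lit 42) (nat_lit 0) (nat_lit 0))))) (.add (.add (.leaf (nat_lit 43) (nat_lit 0) (nat_lit 0)) (.add (.leaf (nat_lit 44) (nat_lit 0) (nat_lit 0)) (.leaf (nat_lit 45) (nat_lit 0) (nat_lit 0)))) (.add (.add (.leaf (nat_lit 46) (nat_lit 0) (nat_lit 0)) (.leaf (nat_lit 47) (nat_lit 0) (nat_lit 0))) (.add (.leaf (nat_lit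 48) (nat_lit 0) (nat_lit 0)) (.leaf (nat_lit 49) (nat_lit 0) (nat_lit 0)))))))) (.add (.add (.add (.add (.add (.leaf (nat_lit 50) (nat_lit 0) (nat_lit 0)) (.add (.leaf (nat_lit 51) (nat_lit 0) (nat_lit 0)) (.leaf (nat_lit 52) (nat_lit 0) (nat_lit 0)))) (.add (.leaf (nat_lit 53) (nat_lit 0) (nat_lit 0)) (.add (.leaf (nat_lit 54) (nat_lit 0) (nat_lit 0)) (.leaf (nat_lit 55) (nat_lit 0) (nat_lit 0))))) (.add (.add (.leaf (nat_lit 56) (nat_lit 0) (nat_lit 0)) (.add (.leaf (nat_lit 57) (nat_lit 0) (nat_lit 0)) (.leaf (nat_lit 58) (nat_lit 0) (nat_lit 0)))) (.add (.leaf (nat_lit 59) (nat_lit 0) (nat_lit 0)) (.add (.leaf (nat_lit 60) (nat_lit 0) (nat_lit 0)) (.leaf (nat_lit 61) (nat_lit 0) (nat_lit 0)))))) (.add (.add (.add (.leaf (nat_lit 62) (nat_lit 0) (nat_lit 0)) (.add (.leaf (nat_lit 63) (nat_lit 0) (nat_lit 0)) (.leaf (nat_lit 64) (nat_lit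 0) (nat_lit 0)))) (.add (.leaf (nat_lit 65) (nat_lit 0) (nat_lit 0)) (.add (.leaf (nat_lit 66) (nat_lit 0) (nat_lit 0)) (.leaf (nat_lit 67) (nat_lit 0) (nat_lit 0))))) (.add (.add (.leaf (nat_lit 68) (nat_lit 0) (nat_lit 0)) (.add (.leaf (nat_lit 69) (nat_lit 0) (nat_lit 0)) (.leaf (nat_lit 70) (nat_lit 0) (nat_lit 0)))) (.add (.add (.leaf (nat_lit 71) (nat_lit 0) (nat_lit 0)) (.leaf (nat_lit 72) (nat_lit 0) (nat_lit 0))) (.add (.leaf (nat_lit 73) (nat_lit 0) (nat_lit 0)) (.leaf (nat_lit 74) (nat_lit 0) (nat_lit 0))))))) (.add (.add (.add (.add (.leaf (nat_lit 75) (nat_lit 0) (nat_lit 0)) (.add (.leaf (nat_lit 76) (nat_lit 0) (nat_lit 0)) (.leaf (nat_lit 77) (nat_lit 0) (nat_lit 0)))) (.add (.leaf (nat_lit 78) (nat_lit 0) (nat_lit 0)) (.add (.leaf (nat_lit 79) (nat_lit 0) (nat_lit 0)) (.leaf (nat_lit 80) (nat_lit 0) (nat_lit 0))))) (.add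 (.add (.leaf (nat_lit 81) (nat_lit 0) (nat_lit 0)) (.add (.leaf (nat_lit 82) (nat_lit 0) (nat_lit 0)) (.leaf (nat_lit 83) (nat_lit 0) (nat_lit 0)))) (.add (.leaf (nat_lit 84) (nat_lit 0) (nat_lit 0)) (.add (.leaf (nat_lit 85) (nat_lit 0) (nat_lit 0)) (.leaf (nat_lit 86) (nat_lit 0) (nat_lit 0)))))) (.add (.add (.add (.leaf (nat_lit 87) (nat_lit 0) (nat_lit 0)) (.add (.leaf (nat_lit 88) (nat_lit 0) (nat_lit 0)) (.leaf (nat_lit 89) (nat_lit 0) (nat_lit 0)))) (.add (.leaf (nat_lit 90) (nat_lit 0) (nat_lit 0)) (.add (.leaf (nat_lit 91) (nat_lit 0) (nat_lit 0)) (.leaf (nat_lit 92) (nat_lit 0) (nat_lit 0))))) (.add (.add (.leaf (nat_lit 93) (nat_lit 0) (nat_lit 0)) (.add (.leaf (nat_lit 94) (nat_lit 0) (nat_lit 0)) (.leaf (nat_lit 95) (nat_lit 0) (nat_lit 0)))) (.add (.add (.leaf (nat_lit 96) (nat_lit 0) (nat_lit 0)) (.leaf (nat_lit 97) (nat_lit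 0) (nat_lit 0))) (.add (.leaf (nat_lit 98) (nat_lit 0) (nat_lit 0)) (.leaf (nat_lit 99) (nat_lit 0) (nat_lit 0))))))))),
  (.add (.add (.add (.add (.add (.add (.leaf (nat_lit 0) (nat_lit 0) (nat_lit 0)) (.add (.leaf (nat_lit 1) (nat_lit 0) (nat_lit 0)) (.leaf (nat_lit 2) (nat_lit 0) (nat_lit 0)))) (.add (.leaf (nat_lit 3) (nat_lit 0) (nat_lit 0)) (.add (.leaf (nat_lit 4) (nat_lit 0) (nat_lit 0)) (.leaf (nat_lit 5) (nat_lit 0) (nat_lit 0))))) (.add (.add (.leaf (nat_lit 6) (nat_lit 0) (nat_lit 0)) (.add (.leaf (nat_lit 7) (nat_lit 0) (nat_lit 0)) (.leaf (nat_lit 8) (nat_lit 0) (nat_lit 0)))) (.add (.leaf (nat_lit 9) (nat_lit 0) (nat_lit 0)) (.add (.leaf (nat_lit 10) (nat_lit 0) (nat_lit 0)) (.leaf (nat_lit 11) (nat_lit 0) (nat_lit 0)))))) (.add (.add (.add (.leaf (nat_lit 12) (nat_lit 0) (nat_lit 0)) (.add (.leaf (nat_lit 13) (nat_lit 0)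 (nat_lit 0)) (.leaf (nat_lit 14) (nat_lit 0) (nat_lit 0)))) (.add (.leaf (nat_lit 15) (nat_lit 0) (nat_lit 0)) (.add (.leaf (nat_lit 16) (nat_lit 0) (nat_lit 0)) (.leaf (nat_lit 17) (nat_lit 0) (nat_lit 0))))) (.add (.add (.leaf (nat_lit 18) (nat_lit 0) (nat_lit 0)) (.add (.leaf (nat_lit 19) (nat_lit 0) (nat_lit 0)) (.leaf (nat_lit 20) (nat_lit 0) (nat_lit 0)))) (.add (.add (.leaf (nat_lit 21) (nat_lit 0) (nat_lit 0)) (.leaf (nat_lit 22) (nat_lit 0) (nat_lit 0))) (.add (.leaf (nat_lit 23) (nat_lit 0) (nat_lit 0)) (.leaf (nat_lit 24) (nat_lit 0) (nat_lit 0))))))) (.add (.add (.add (.add (.leaf (nat_lit 25) (nat_lit 0) (nat_lit 0)) (.add (.leaf (nat_lit 26) (nat_lit 0) (nat_lit 0)) (.leaf (nat_lit 27) (nat_lit 0) (nat_lit 0)))) (.add (.leaf (nat_lit 28) (nat_lit 0) (nat_lit 0)) (.add (.leaf (nat_lit 29) (nat_lit 0) (nat_lit 0)) (.leaf (nat_lit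 30) (nat_lit 0) (nat_lit 0))))) (.add (.add (.leaf (nat_lit 31) (nat_lit 0) (nat_lit 0)) (.add (.leaf (nat_lit 32) (nat_lit 0) (nat_lit 0)) (.leaf (nat_lit 33) (nat_lit 0) (nat_lit 0)))) (.add (.leaf (nat_lit 34) (nat_lit 0) (nat_lit 0)) (.add (.leaf (nat_lit 35) (nat_lit 0) (nat_lit 0)) (.leaf (nat_lit 36) (nat_lit 0) (nat_lit 0)))))) (.add (.add (.add (.leaf (nat_lit 37) (nat_lit 0) (nat_lit 0)) (.add (.leaf (nat_lit 38) (nat_lit 0) (nat_lit 0)) (.leaf (nat_lit 39) (nat_lit 0) (nat_lit 0)))) (.add (.leaf (nat_lit 40) (nat_lit 0) (nat_lit 0)) (.add (.leaf (nat_lit 41) (nat_lit 0) (nat_lit 0)) (.leaf (nat_lit 42) (nat_lit 0) (nat_lit 0))))) (.add (.add (.leaf (nat_lit 43) (nat_lit 0) (nat_lit 0)) (.add (.leaf (nat_lit 44) (nat_lit 0) (nat_lit 0)) (.leaf (nat_lit 45) (nat_lit 0) (nat_lit 0)))) (.add (.add (.leaf (nat_lit 46) (nat_lit 0)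 (nat_lit 0)) (.leaf (nat_lit 47) (nat_lit 0) (nat_lit 0))) (.add (.leaf (nat_lit 48) (nat_lit 0) (nat_lit 0)) (.leaf (nat_lit 49) (nat_lit 0) (nat_lit 0)))))))) (.add (.add (.add (.add (.add (.leaf (nat_lit 50) (nat_lit 0) (nat_lit 0)) (.add (.leaf (nat_lit 51) (nat_lit 0) (nat_lit 0)) (.leaf (nat_lit 52) (nat_lit 0) (nat_lit 0)))) (.add (.leaf (nat_lit 53) (nat_lit 0) (nat_lit 0)) (.add (.leaf (nat_lit 54) (nat_lit 0) (nat_lit 0)) (.leaf (nat_lit 55) (nat_lit 0) (nat_lit 0))))) (.add (.add (.leaf (nat_lit 56) (nat_lit 0) (nat_lit 0)) (.add (.leaf (nat_lit 57) (nat_lit 0) (nat_lit 0)) (.leaf (nat_lit 58) (nat_lit 0) (nat_lit 0)))) (.add (.leaf (nat_lit 59) (nat_lit 0) (nat_lit 0)) (.add (.leaf (nat_lit 60) (nat_lit 0) (nat_lit 0)) (.leaf (nat_lit 61) (nat_lit 0) (nat_lit 0)))))) (.add (.add (.add (.leaf (nat_lit 62) (nat_lit 0) (nat_lit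 0)) (.add (.leaf (nat_lit 63) (nat_lit 0) (nat_lit 0)) (.leaf (nat_lit 64) (nat_lit 0) (nat_lit 0)))) (.add (.leaf (nat_lit 65) (nat_lit 0) (nat_lit 0)) (.add (.leaf (nat_lit 66) (nat_lit 0) (nat_lit 0)) (.leaf (nat_lit 67) (nat_lit 0) (nat_lit 0))))) (.add (.add (.leaf (nat_lit 68) (nat_lit 0) (nat_lit 0)) (.add (.leaf (nat_lit 69) (nat_lit 0) (nat_lit 0)) (.leaf (nat_lit 70) (nat_lit 0) (nat_lit 0)))) (.add (.add (.leaf (nat_lit 71) (nat_lit 0) (nat_lit 0)) (.leaf (nat_lit 72) (nat_lit 0) (nat_lit 0))) (.add (.leaf (nat_lit 73) (nat_lit 0) (nat_lit 0)) (.leaf (nat_lit 74) (nat_lit 0) (nat_lit 0))))))) (.add (.add (.add (.add (.leaf (nat_lit 75) (nat_lit 0) (nat_lit 0)) (.add (.leaf (nat_lit 76) (nat_lit 0) (nat_lit 0)) (.leaf (nat_lit 77) (nat_lit 0) (nat_lit 0)))) (.add (.leaf (nat_lit 78) (nat_lit 0) (nat_lit 0)) (.add (.leaf (nat_lit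 79) (nat_lit 0) (nat_lit 0)) (.leaf (nat_lit 80) (nat_lit 0) (nat_lit 0))))) (.add (.add (.leaf (nat_lit 81) (nat_lit 0) (nat_lit 0)) (.add (.leaf (nat_lit 82) (nat_lit 0) (nat_lit 0)) (.leaf (nat_lit 83) (nat_lit 0) (nat_lit 0)))) (.add (.add (.leaf (nat_lit 84) (nat_lit 0) (nat_lit 0)) (.leaf (nat_lit 85) (nat_lit 0) (nat_lit 0))) (.add (.leaf (nat_lit 86) (nat_lit 0) (nat_lit 0)) (.leaf (nat_lit 87) (nat_lit 0) (nat_lit 0)))))) (.add (.add (.add (.leaf (nat_lit 88) (nat_lit 0) (nat_lit 0)) (.add (.leaf (nat_lit 89) (nat_lit 0) (nat_lit 0)) (.leaf (nat_lit 90) (nat_lit 0) (nat_lit 0)))) (.add (.leaf (nat_lit 91) (nat_lit 0) (nat_lit 0)) (.add (.leaf (nat_lit 92) (nat_lit 0) (nat_lit 0)) (.leaf (nat_lit 93) (nat_lit 0) (nat_lit 0))))) (.add (.add (.leaf (nat_lit 94) (nat_lit 0) (nat_lit 0)) (.add (.leaf (nat_lit 95) (nat_lit 0) (nat_lit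 0)) (.leaf (nat_lit 96) (nat_lit 0) (nat_lit 0)))) (.add (.add (.leaf (nat_lit 97) (nat_lit 0) (nat_lit 0)) (.leaf (nat_lit 98) (nat_lit 0) (nat_lit 0))) (.add (.leaf (nat_lit 99) (nat_lit 0) (nat_lit 0)) (.leaf (nat_lit 100) (nat_lit 0) (nat_lit 0))))))))),
  (.add (.add (.add (.add (.add (.add (.leaf (nat_lit 0) (nat_lit 0) (nat_lit 0)) (.add (.leaf (nat_lit 1) (nat_lit 0) (nat_lit 0)) (.leaf (nat_lit 2) (nat_lit 0) (nat_lit 0)))) (.add (.leaf (nat_lit 3) (nat_lit 0) (nat_lit 0)) (.add (.leaf (nat_lit 4) (nat_lit 0) (nat_lit 0)) (.leaf (nat_lit 5) (nat_lit 0) (nat_lit 0))))) (.add (.add (.leaf (nat_lit 6) (nat_lit 0) (nat_lit 0)) (.add (.leaf (nat_lit 7) (nat_lit 0) (nat_lit 0)) (.leaf (nat_lit 8) (nat_lit 0) (nat_lit 0)))) (.add (.leaf (nat_lit 9) (nat_lit 0) (nat_lit 0)) (.add (.leaf (nat_lit 10) (nat_lit 0) (nat_lit 0)) (.leaf (nat_lit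 11) (nat_lit 0) (nat_lit 0)))))) (.add (.add (.add (.leaf (nat_lit 12) (nat_lit 0) (nat_lit 0)) (.add (.leaf (nat_lit 13) (nat_lit 0) (nat_lit 0)) (.leaf (nat_lit 14) (nat_lit 0) (nat_lit 0)))) (.add (.leaf (nat_lit 15) (nat_lit 0) (nat_lit 0)) (.add (.leaf (nat_lit 16) (nat_lit 0) (nat_lit 0)) (.leaf (nat_lit 17) (nat_lit 0) (nat_lit 0))))) (.add (.add (.leaf (nat_lit 18) (nat_lit 0) (nat_lit 0)) (.add (.leaf (nat_lit 19) (nat_lit 0) (nat_lit 0)) (.leaf (nat_lit 20) (nat_lit 0) (nat_lit 0)))) (.add (.add (.leaf (nat_lit 21) (nat_lit 0) (nat_lit 0)) (.leaf (nat_lit 22) (nat_lit 0) (nat_lit 0))) (.add (.leaf (nat_lit 23) (nat_lit 0) (nat_lit 0)) (.leaf (nat_lit 24) (nat_lit 0) (nat_lit 0))))))) (.add (.add (.add (.add (.leaf (nat_lit 25) (nat_lit 0) (nat_lit 0)) (.add (.leaf (nat_lit 26) (nat_lit 0) (nat_lit 0)) (.leaf (nat_lit 27) (nat_lit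 0) (nat_lit 0)))) (.add (.leaf (nat_lit 28) (nat_lit 0) (nat_lit 0)) (.add (.leaf (nat_lit 29) (nat_lit 0) (nat_lit 0)) (.leaf (nat_lit 30) (nat_lit 0) (nat_lit 0))))) (.add (.add (.leaf (nat_lit 31) (nat_lit 0) (nat_lit 0)) (.add (.leaf (nat_lit 32) (nat_lit 0) (nat_lit 0)) (.leaf (nat_lit 33) (nat_lit 0) (nat_lit 0)))) (.add (.add (.leaf (nat_lit 34) (nat_lit 0) (nat_lit 0)) (.leaf (nat_lit 35) (nat_lit 0) (nat_lit 0))) (.add (.leaf (nat_lit 36) (nat_lit 0) (nat_lit 0)) (.leaf (nat_lit 37) (nat_lit 0) (nat_lit 0)))))) (.add (.add (.add (.leaf (nat_lit 38) (nat_lit 0) (nat_lit 0)) (.add (.leaf (nat_lit 39) (nat_lit 0) (nat_lit 0)) (.leaf (nat_lit 40) (nat_lit 0) (nat_lit 0)))) (.add (.leaf (nat_lit 41) (nat_lit 0) (nat_lit 0)) (.add (.leaf (nat_lit 42) (nat_lit 0) (nat_lit 0)) (.leaf (nat_lit 43) (nat_lit 0) (nat_lit 0))))) (.add (.add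 (.leaf (nat_lit 44) (nat_lit 0) (nat_lit 0)) (.add (.leaf (nat_lit 45) (nat_lit 0) (nat_lit 0)) (.leaf (nat_lit 46) (nat_lit 0) (nat_lit 0)))) (.add (.add (.leaf (nat_lit 47) (nat_lit 0) (nat_lit 0)) (.leaf (nat_lit 48) (nat_lit 0) (nat_lit 0))) (.add (.leaf (nat_lit 49) (nat_lit 0) (nat_lit 0)) (.leaf (nat_lit 50) (nat_lit 0) (nat_lit 0)))))))) (.add (.add (.add (.add (.add (.leaf (nat_lit 51) (nat_lit 0) (nat_lit 0)) (.add (.leaf (nat_lit 52) (nat_lit 0) (nat_lit 0)) (.leaf (nat_lit 53) (nat_lit 0) (nat_lit 0)))) (.add (.leaf (nat_lit 54) (nat_lit 0) (nat_lit 0)) (.add (.leaf (nat_lit 55) (nat_lit 0) (nat_lit 0)) (.leaf (nat_lit 56) (nat_lit 0) (nat_lit 0))))) (.add (.add (.leaf (nat_lit 57) (nat_lit 0) (nat_lit 0)) (.add (.leaf (nat_lit 58) (nat_lit 0) (nat_lit 0)) (.leaf (nat_lit 59) (nat_lit 0) (nat_lit 0)))) (.add (.leaf (nat_lit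 60) (nat_lit 0) (nat_lit 0)) (.add (.leaf (nat_lit 61) (nat_lit 0) (nat_lit 0)) (.leaf (nat_lit 62) (nat_lit 0) (nat_lit 0)))))) (.add (.add (.add (.leaf (nat_lit 63) (nat_lit 0) (nat_lit 0)) (.add (.leaf (nat_lit 64) (nat_lit 0) (nat_lit 0)) (.leaf (nat_lit 65) (nat_lit 0) (nat_lit 0)))) (.add (.leaf (nat_lit 66) (nat_lit 0) (nat_lit 0)) (.add (.leaf (nat_lit 67) (nat_lit 0) (nat_lit 0)) (.leaf (nat_lit 68) (nat_lit 0) (nat_lit 0))))) (.add (.add (.leaf (nat_lit 69) (nat_lit 0) (nat_lit 0)) (.add (.leaf (nat_lit 70) (nat_lit 0) (nat_lit 0)) (.leaf (nat_lit 71) (nat_lit 0) (nat_lit 0)))) (.add (.add (.leaf (nat_lit 72) (nat_lit 0) (nat_lit 0)) (.leaf (nat_lit 73) (nat_lit 0) (nat_lit 0))) (.add (.leaf (nat_lit 74) (nat_lit 0) (nat_lit 0)) (.leaf (nat_lit 75) (nat_lit 0) (nat_lit 0))))))) (.add (.add (.add (.add (.leaf (nat_lit 76) (nat_lit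 0) (nat_lit 0)) (.add (.leaf (nat_lit 77) (nat_lit 0) (nat_lit 0)) (.leaf (nat_lit 78) (nat_lit 0) (nat_lit 0)))) (.add (.leaf (nat_lit 79) (nat_lit 0) (nat_lit 0)) (.add (.leaf (nat_lit 80) (nat_lit 0) (nat_lit 0)) (.leaf (nat_lit 81) (nat_lit 0) (nat_lit 0))))) (.add (.add (.leaf (nat_lit 82) (nat_lit 0) (nat_lit 0)) (.add (.leaf (nat_lit 83) (nat_lit 0) (nat_lit 0)) (.leaf (nat_lit 84) (nat_lit 0) (nat_lit 0)))) (.add (.add (.leaf (nat_lit 85) (nat_lit 0) (nat_lit 0)) (.leaf (nat_lit 86) (nat_lit 0) (nat_lit 0))) (.add (.leaf (nat_lit 87) (nat_lit 0) (nat_lit 0)) (.leaf (nat_lit 88) (nat_lit 0) (nat_lit 0)))))) (.add (.add (.add (.leaf (nat_lit 89) (nat_lit 0) (nat_lit 0)) (.add (.leaf (nat_lit 90) (nat_lit 0) (nat_lit 0)) (.leaf (nat_lit 91) (nat_lit 0) (nat_lit 0)))) (.add (.leaf (nat_lit 92) (nat_lit 0) (nat_lit 0)) (.add (.leaf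 (nat_lit 93) (nat_lit 0) (nat_lit 0)) (.leaf (nat_lit 94) (nat_lit 0) (nat_lit 0))))) (.add (.add (.leaf (nat_lit 95) (nat_lit 0) (nat_lit 0)) (.add (.leaf (nat_lit 96) (nat_lit 0) (nat_lit 0)) (.leaf (nat_lit 97) (nat_lit 0) (nat_lit 0)))) (.add (.add (.leaf (nat_lit 98) (nat_lit 0) (nat_lit 0)) (.leaf (nat_lit 99) (nat_lit 0) (nat_lit 0))) (.add (.leaf (nat_lit 100) (nat_lit 0) (nat_lit 0)) (.leaf (nat_lit 101) (nat_lit 0) (nat_lit 0))))))))),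
  (.add (.add (.add (.add (.add (.add (.leaf (nat_lit 0) (nat_lit 0) (nat_lit 0)) (.add (.leaf (nat_lit 1) (nat_lit 0) (nat_lit 0)) (.leaf (nat_lit 2) (nat_lit 0) (nat_lit 0)))) (.add (.leaf (nat_lit 3) (nat_lit 0) (nat_lit 0)) (.add (.leaf (nat_lit 4) (nat_lit 0) (nat_lit 0)) (.leaf (nat_lit 5) (nat_lit 0) (nat_lit 0))))) (.add (.add (.leaf (nat_lit 6) (nat_lit 0) (nat_lit 0)) (.add (.leaf (nat_lit 7) (nat_lit 0) (nat_lit 0)) (.leaf (nat_lit 8) (nat_lit 0) (nat_lit 0)))) (.add (.leaf (nat_lit 9) (nat_lit 0) (nat_lit 0)) (.add (.leaf (nat_lit 10) (nat_lit 0) (nat_lit 0)) (.leaf (nat_lit 11) (nat_lit 0) (nat_lit 0)))))) (.add (.add (.add (.leaf (nat_lit 12) (nat_lit 0) (nat_lit 0)) (.add (.leaf (nat_lit 13) (nat_lit 0) (nat_lit 0)) (.leaf (nat_lit 14) (nat_lit 0) (nat_lit 0)))) (.add (.leaf (nat_lit 15) (nat_lit 0) (nat_lit 0)) (.add (.leaf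 (nat_lit 16) (nat_lit 0) (nat_lit 0)) (.leaf (nat_lit 17) (nat_lit 0) (nat_lit 0))))) (.add (.add (.leaf (nat_lit 18) (nat_lit 0) (nat_lit 0)) (.add (.leaf (nat_lit 19) (nat_lit 0) (nat_lit 0)) (.leaf (nat_lit 20) (nat_lit 0) (nat_lit 0)))) (.add (.add (.leaf (nat_lit 21) (nat_lit 0) (nat_lit 0)) (.leaf (nat_lit 22) (nat_lit 0) (nat_lit 0))) (.add (.leaf (nat_lit 23) (nat_lit 0) (nat_lit 0)) (.leaf (nat_lit 24) (nat_lit 0) (nat_lit 0))))))) (.add (.add (.add (.add (.leaf (nat_lit 25) (nat_lit 0) (nat_lit 0)) (.add (.leaf (nat_lit 26) (nat_lit 0) (nat_lit 0)) (.leaf (nat_lit 27) (nat_lit 0) (nat_lit 0)))) (.add (.leaf (nat_lit 28) (nat_lit 0) (nat_lit 0)) (.add (.leaf (nat_lit 29) (nat_lit 0) (nat_lit 0)) (.leaf (nat_lit 30) (nat_lit 0) (nat_lit 0))))) (.add (.add (.leaf (nat_lit 31) (nat_lit 0) (nat_lit 0)) (.add (.leaf (nat_lit 32) (nat_lit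 0) (nat_lit 0)) (.leaf (nat_lit 33) (nat_lit 0) (nat_lit 0)))) (.add (.add (.leaf (nat_lit 34) (nat_lit 0) (nat_lit 0)) (.leaf (nat_lit 35) (nat_lit 0) (nat_lit 0))) (.add (.leaf (nat_lit 36) (nat_lit 0) (nat_lit 0)) (.leaf (nat_lit 37) (nat_lit 0) (nat_lit 0)))))) (.add (.add (.add (.leaf (nat_lit 38) (nat_lit 0) (nat_lit 0)) (.add (.leaf (nat_lit 39) (nat_lit 0) (nat_lit 0)) (.leaf (nat_lit 40) (nat_lit 0) (nat_lit 0)))) (.add (.leaf (nat_lit 41) (nat_lit 0) (nat_lit 0)) (.add (.leaf (nat_lit 42) (nat_lit 0) (nat_lit 0)) (.leaf (nat_lit 43) (nat_lit 0) (nat_lit 0))))) (.add (.add (.leaf (nat_lit 44) (nat_lit 0) (nat_lit 0)) (.add (.leaf (nat_lit 45) (nat_lit 0) (nat_lit 0)) (.leaf (nat_lit 46) (nat_lit 0) (nat_lit 0)))) (.add (.add (.leaf (nat_lit 47) (nat_lit 0) (nat_lit 0)) (.leaf (nat_lit 48) (nat_lit 0) (nat_lit 0))) (.add (.leaf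 (nat_lit 49) (nat_lit 0) (nat_lit 0)) (.leaf (nat_lit 50) (nat_lit 0) (nat_lit 0)))))))) (.add (.add (.add (.add (.add (.leaf (nat_lit 51) (nat_lit 0) (nat_lit 0)) (.add (.leaf (nat_lit 52) (nat_lit 0) (nat_lit 0)) (.leaf (nat_lit 53) (nat_lit 0) (nat_lit 0)))) (.add (.leaf (nat_lit 54) (nat_lit 0) (nat_lit 0)) (.add (.leaf (nat_lit 55) (nat_lit 0) (nat_lit 0)) (.leaf (nat_lit 56) (nat_lit 0) (nat_lit 0))))) (.add (.add (.leaf (nat_lit 57) (nat_lit 0) (nat_lit 0)) (.add (.leaf (nat_lit 58) (nat_lit 0) (nat_lit 0)) (.leaf (nat_lit 59) (nat_lit 0) (nat_lit 0)))) (.add (.add (.leaf (nat_lit 60) (nat_lit 0) (nat_lit 0)) (.leaf (nat_lit 61) (nat_lit 0) (nat_lit 0))) (.add (.leaf (nat_lit 62) (nat_lit 0) (nat_lit 0)) (.leaf (nat_lit 63) (nat_lit 0) (nat_lit 0)))))) (.add (.add (.add (.leaf (nat_lit 64) (nat_lit 0) (nat_lit 0)) (.add (.leaf (nat_lit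 65) (nat_lit 0) (nat_lit 0)) (.leaf (nat_lit 66) (nat_lit 0) (nat_lit 0)))) (.add (.leaf (nat_lit 67) (nat_lit 0) (nat_lit 0)) (.add (.leaf (nat_lit 68) (nat_lit 0) (nat_lit 0)) (.leaf (nat_lit 69) (nat_lit 0) (nat_lit 0))))) (.add (.add (.leaf (nat_lit 70) (nat_lit 0) (nat_lit 0)) (.add (.leaf (nat_lit 71) (nat_lit 0) (nat_lit 0)) (.leaf (nat_lit 72) (nat_lit 0) (nat_lit 0)))) (.add (.add (.leaf (nat_lit 73) (nat_lit 0) (nat_lit 0)) (.leaf (nat_lit 74) (nat_lit 0) (nat_lit 0))) (.add (.leaf (nat_lit 75) (nat_lit 0) (nat_lit 0)) (.leaf (nat_lit 76) (nat_lit 0) (nat_lit 0))))))) (.add (.add (.add (.add (.leaf (nat_lit 77) (nat_lit 0) (nat_lit 0)) (.add (.leaf (nat_lit 78) (nat_lit 0) (nat_lit 0)) (.leaf (nat_lit 79) (nat_lit 0) (nat_lit 0)))) (.add (.leaf (nat_lit 80) (nat_lit 0) (nat_lit 0)) (.add (.leaf (nat_lit 81) (nat_lit 0) (nat_lit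 0)) (.leaf (nat_lit 82) (nat_lit 0) (nat_lit 0))))) (.add (.add (.leaf (nat_lit 83) (nat_lit 0) (nat_lit 0)) (.add (.leaf (nat_lit 84) (nat_lit 0) (nat_lit 0)) (.leaf (nat_lit 85) (nat_lit 0) (nat_lit 0)))) (.add (.add (.leaf (nat_lit 86) (nat_lit 0) (nat_lit 0)) (.leaf (nat_lit 87) (nat_lit 0) (nat_lit 0))) (.add (.leaf (nat_lit 88) (nat_lit 0) (nat_lit 0)) (.leaf (nat_lit 89) (nat_lit 0) (nat_lit 0)))))) (.add (.add (.add (.leaf (nat_lit 90) (nat_lit 0) (nat_lit 0)) (.add (.leaf (nat_lit 91) (nat_lit 0) (nat_lit 0)) (.leaf (nat_lit 92) (nat_lit 0) (nat_lit 0)))) (.add (.leaf (nat_lit 93) (nat_lit 0) (nat_lit 0)) (.add (.leaf (nat_lit 94) (nat_lit 0) (nat_lit 0)) (.leaf (nat_lit 95) (nat_lit 0) (nat_lit 0))))) (.add (.add (.leaf (nat_lit 96) (nat_lit 0) (nat_lit 0)) (.add (.leaf (nat_lit 97) (nat_lit 0) (nat_lit 0)) (.leaf (nat_lit 98)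 (nat_lit 0) (nat_lit 0)))) (.add (.add (.leaf (nat_lit 99) (nat_lit 0) (nat_lit 0)) (.leaf (nat_lit 100) (nat_lit 0) (nat_lit 0))) (.add (.leaf (nat_lit 101) (nat_lit 0) (nat_lit 0)) (.leaf (nat_lit 102) (nat_lit 0) (nat_lit 0))))))))),
  (.add (.add (.add (.add (.add (.add (.leaf (nat_lit 0) (nat_lit 0) (nat_lit 0)) (.add (.leaf (nat_lit 1) (nat_lit 0) (nat_lit 0)) (.leaf (nat_lit 2) (nat_lit 0) (nat_lit 0)))) (.add (.leaf (nat_lit 3) (nat_lit 0) (nat_lit 0)) (.add (.leaf (nat_lit 4) (nat_lit 0) (nat_lit 0)) (.leaf (nat_lit 5) (nat_lit 0) (nat_lit 0))))) (.add (.add (.leaf (nat_lit 6) (nat_lit 0) (nat_lit 0)) (.add (.leaf (nat_lit 7) (nat_lit 0) (nat_lit 0)) (.leaf (nat_lit 8) (nat_lit 0) (nat_lit 0)))) (.add (.add (.leaf (nat_lit 9) (nat_lit 0) (nat_lit 0)) (.leaf (nat_lit 10) (nat_lit 0) (nat_lit 0))) (.add (.leaf (nat_lit 11) (nat_lit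 0) (nat_lit 0)) (.leaf (nat_lit 12) (nat_lit 0) (nat_lit 0)))))) (.add (.add (.add (.leaf (nat_lit 13) (nat_lit 0) (nat_lit 0)) (.add (.leaf (nat_lit 14) (nat_lit 0) (nat_lit 0)) (.leaf (nat_lit 15) (nat_lit 0) (nat_lit 0)))) (.add (.leaf (nat_lit 16) (nat_lit 0) (nat_lit 0)) (.add (.leaf (nat_lit 17) (nat_lit 0) (nat_lit 0)) (.leaf (nat_lit 18) (nat_lit 0) (nat_lit 0))))) (.add (.add (.leaf (nat_lit 19) (nat_lit 0) (nat_lit 0)) (.add (.leaf (nat_lit 20) (nat_lit 0) (nat_lit 0)) (.leaf (nat_lit 21) (nat_lit 0) (nat_lit 0)))) (.add (.add (.leaf (nat_lit 22) (nat_lit 0) (nat_lit 0)) (.leaf (nat_lit 23) (nat_lit 0) (nat_lit 0))) (.add (.leaf (nat_lit 24) (nat_lit 0) (nat_lit 0)) (.leaf (nat_lit 25) (nat_lit 0) (nat_lit 0))))))) (.add (.add (.add (.add (.leaf (nat_lit 26) (nat_lit 0) (nat_lit 0)) (.add (.leaf (nat_lit 27) (nat_lit 0) (nat_lit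 0)) (.leaf (nat_lit 28) (nat_lit 0) (nat_lit 0)))) (.add (.leaf (nat_lit 29) (nat_lit 0) (nat_lit 0)) (.add (.leaf (nat_lit 30) (nat_lit 0) (nat_lit 0)) (.leaf (nat_lit 31) (nat_lit 0) (nat_lit 0))))) (.add (.add (.leaf (nat_lit 32) (nat_lit 0) (nat_lit 0)) (.add (.leaf (nat_lit 33) (nat_lit 0) (nat_lit 0)) (.leaf (nat_lit 34) (nat_lit 0) (nat_lit 0)))) (.add (.add (.leaf (nat_lit 35) (nat_lit 0) (nat_lit 0)) (.leaf (nat_lit 36) (nat_lit 0) (nat_lit 0))) (.add (.leaf (nat_lit 37) (nat_lit 0) (nat_lit 0)) (.leaf (nat_lit 38) (nat_lit 0) (nat_lit 0)))))) (.add (.add (.add (.leaf (nat_lit 39) (nat_lit 0) (nat_lit 0)) (.add (.leaf (nat_lit 40) (nat_lit 0) (nat_lit 0)) (.leaf (nat_lit 41) (nat_lit 0) (nat_lit 0)))) (.add (.leaf (nat_lit 42) (nat_lit 0) (nat_lit 0)) (.add (.leaf (nat_lit 43) (nat_lit 0) (nat_lit 0)) (.leaf (nat_lit 44) (nat_lit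 0) (nat_lit 0))))) (.add (.add (.leaf (nat_lit 45) (nat_lit 0) (nat_lit 0)) (.add (.leaf (nat_lit 46) (nat_lit 0) (nat_lit 0)) (.leaf (nat_lit 47) (nat_lit 0) (nat_lit 0)))) (.add (.add (.leaf (nat_lit 48) (nat_lit 0) (nat_lit 0)) (.leaf (nat_lit 49) (nat_lit 0) (nat_lit 0))) (.add (.leaf (nat_lit 50) (nat_lit 0) (nat_lit 0)) (.leaf (nat_lit 51) (nat_lit 0) (nat_lit 0)))))))) (.add (.add (.add (.add (.add (.leaf (nat_lit 52) (nat_lit 0) (nat_lit 0)) (.add (.leaf (nat_lit 53) (nat_lit 0) (nat_lit 0)) (.leaf (nat_lit 54) (nat_lit 0) (nat_lit 0)))) (.add (.leaf (nat_lit 55) (nat_lit 0) (nat_lit 0)) (.add (.leaf (nat_lit 56) (nat_lit 0) (nat_lit 0)) (.leaf (nat_lit 57) (nat_lit 0) (nat_lit 0))))) (.add (.add (.leaf (nat_lit 58) (nat_lit 0) (nat_lit 0)) (.add (.leaf (nat_lit 59) (nat_lit 0) (nat_lit 0)) (.leaf (nat_lit 60) (nat_lit 0) (nat_lit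 0)))) (.add (.add (.leaf (nat_lit 61) (nat_lit 0) (nat_lit 0)) (.leaf (nat_lit 62) (nat_lit 0) (nat_lit 0))) (.add (.leaf (nat_lit 63) (nat_lit 0) (nat_lit 0)) (.leaf (nat_lit 64) (nat_lit 0) (nat_lit 0)))))) (.add (.add (.add (.leaf (nat_lit 65) (nat_lit 0) (nat_lit 0)) (.add (.leaf (nat_lit 66) (nat_lit 0) (nat_lit 0)) (.leaf (nat_lit 67) (nat_lit 0) (nat_lit 0)))) (.add (.leaf (nat_lit 68) (nat_lit 0) (nat_lit 0)) (.add (.leaf (nat_lit 69) (nat_lit 0) (nat_lit 0)) (.leaf (nat_lit 70) (nat_lit 0) (nat_lit 0))))) (.add (.add (.leaf (nat_lit 71) (nat_lit 0) (nat_lit 0)) (.add (.leaf (nat_lit 72) (nat_lit 0) (nat_lit 0)) (.leaf (nat_lit 73) (nat_lit 0) (nat_lit 0)))) (.add (.add (.leaf (nat_lit 74) (nat_lit 0) (nat_lit 0)) (.leaf (nat_lit 75) (nat_lit 0) (nat_lit 0))) (.add (.leaf (nat_lit 76) (nat_lit 0) (nat_lit 0)) (.leaf (nat_lit 77)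 (nat_lit 0) (nat_lit 0))))))) (.add (.add (.add (.add (.leaf (nat_lit 78) (nat_lit 0) (nat_lit 0)) (.add (.leaf (nat_lit 79) (nat_lit 0) (nat_lit 0)) (.leaf (nat_lit 80) (nat_lit 0) (nat_lit 0)))) (.add (.leaf (nat_lit 81) (nat_lit 0) (nat_lit 0)) (.add (.leaf (nat_lit 82) (nat_lit 0) (nat_lit 0)) (.leaf (nat_lit 83) (nat_lit 0) (nat_lit 0))))) (.add (.add (.leaf (nat_lit 84) (nat_lit 0) (nat_lit 0)) (.add (.leaf (nat_lit 85) (nat_lit 0) (nat_lit 0)) (.leaf (nat_lit 86) (nat_lit 0) (nat_lit 0)))) (.add (.add (.leaf (nat_lit 87) (nat_lit 0) (nat_lit 0)) (.leaf (nat_lit 88) (nat_lit 0) (nat_lit 0))) (.add (.leaf (nat_lit 89) (nat_lit 0) (nat_lit 0)) (.leaf (nat_lit 90) (nat_lit 0) (nat_lit 0)))))) (.add (.add (.add (.leaf (nat_lit 91) (nat_lit 0) (nat_lit 0)) (.add (.leaf (nat_lit 92) (nat_lit 0) (nat_lit 0)) (.leaf (nat_lit 93) (nat_lit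 0) (nat_lit 0)))) (.add (.leaf (nat_lit 94) (nat_lit 0) (nat_lit 0)) (.add (.leaf (nat_lit 95) (nat_lit 0) (nat_lit 0)) (.leaf (nat_lit 96) (nat_lit 0) (nat_lit 0))))) (.add (.add (.leaf (nat_lit 97) (nat_lit 0) (nat_lit 0)) (.add (.leaf (nat_lit 98) (nat_lit 0) (nat_lit 0)) (.leaf (nat_lit 99) (nat_lit 0) (nat_lit 0)))) (.add (.add (.leaf (nat_lit 100) (nat_lit 0) (nat_lit 0)) (.leaf (nat_lit 101) (nat_lit 0) (nat_lit 0))) (.add (.leaf (nat_lit 102) (nat_lit 0) (nat_lit 0)) (.leaf (nat_lit 103) (nat_lit 0) (nat_lit 0))))))))),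
  (.add (.add (.add (.add (.add (.add (.leaf (nat_lit 0) (nat_lit 0) (nat_lit 0)) (.add (.leaf (nat_lit 1) (nat_lit 0) (nat_lit 0)) (.leaf (nat_lit 2) (nat_lit 0) (nat_lit 0)))) (.add (.leaf (nat_lit 3) (nat_lit 0) (nat_lit 0)) (.add (.leaf (nat_lit 4) (nat_lit 0) (nat_lit 0)) (.leaf (nat_lit 5) (nat_lit 0) (nat_lit 0))))) (.add (.add (.leaf (nat_lit 6) (nat_lit 0) (nat_lit 0)) (.add (.leaf (nat_lit 7) (nat_lit 0) (nat_lit 0)) (.leaf (nat_lit 8) (nat_lit 0) (nat_lit 0)))) (.add (.add (.leaf (nat_lit 9) (nat_lit 0) (nat_lit 0)) (.leaf (nat_lit 10) (nat_lit 0) (nat_lit 0))) (.add (.leaf (nat_lit 11) (nat_lit 0) (nat_lit 0)) (.leaf (nat_lit 12) (nat_lit 0) (nat_lit 0)))))) (.add (.add (.add (.leaf (nat_lit 13) (nat_lit 0) (nat_lit 0)) (.add (.leaf (nat_lit 14) (nat_lit 0) (nat_lit 0)) (.leaf (nat_lit 15) (nat_lit 0) (nat_lit 0)))) (.add (.leaf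 (nat_lit 16) (nat_lit 0) (nat_lit 0)) (.add (.leaf (nat_lit 17) (nat_lit 0) (nat_lit 0)) (.leaf (nat_lit 18) (nat_lit 0) (nat_lit 0))))) (.add (.add (.leaf (nat_lit 19) (nat_lit 0) (nat_lit 0)) (.add (.leaf (nat_lit 20) (nat_lit 0) (nat_lit 0)) (.leaf (nat_lit 21) (nat_lit 0) (nat_lit 0)))) (.add (.add (.leaf (nat_lit 22) (nat_lit 0) (nat_lit 0)) (.leaf (nat_lit 23) (nat_lit 0) (nat_lit 0))) (.add (.leaf (nat_lit 24) (nat_lit 0) (nat_lit 0)) (.leaf (nat_lit 25) (nat_lit 0) (nat_lit 0))))))) (.add (.add (.add (.add (.leaf (nat_lit 26) (nat_lit 0) (nat_lit 0)) (.add (.leaf (nat_lit 27) (nat_lit 0) (nat_lit 0)) (.leaf (nat_lit 28) (nat_lit 0) (nat_lit 0)))) (.add (.leaf (nat_lit 29) (nat_lit 0) (nat_lit 0)) (.add (.leaf (nat_lit 30) (nat_lit 0) (nat_lit 0)) (.leaf (nat_lit 31) (nat_lit 0) (nat_lit 0))))) (.add (.add (.leaf (nat_lit 32) (nat_lit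 0) (nat_lit 0)) (.add (.leaf (nat_lit 33) (nat_lit 0) (nat_lit 0)) (.leaf (nat_lit 34) (nat_lit 0) (nat_lit 0)))) (.add (.add (.leaf (nat_lit 35) (nat_lit 0) (nat_lit 0)) (.leaf (nat_lit 36) (nat_lit 0) (nat_lit 0))) (.add (.leaf (nat_lit 37) (nat_lit 0) (nat_lit 0)) (.leaf (nat_lit 38) (nat_lit 0) (nat_lit 0)))))) (.add (.add (.add (.leaf (nat_lit 39) (nat_lit 0) (nat_lit 0)) (.add (.leaf (nat_lit 40) (nat_lit 0) (nat_lit 0)) (.leaf (nat_lit 41) (nat_lit 0) (nat_lit 0)))) (.add (.leaf (nat_lit 42) (nat_lit 0) (nat_lit 0)) (.add (.leaf (nat_lit 43) (nat_lit 0) (nat_lit 0)) (.leaf (nat_lit 44) (nat_lit 0) (nat_lit 0))))) (.add (.add (.leaf (nat_lit 45) (nat_lit 0) (nat_lit 0)) (.add (.leaf (nat_lit 46) (nat_lit 0) (nat_lit 0)) (.leaf (nat_lit 47) (nat_lit 0) (nat_lit 0)))) (.add (.add (.leaf (nat_lit 48) (nat_lit 0) (nat_lit 0)) (.leaf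 (nat_lit 49) (nat_lit 0) (nat_lit 0))) (.add (.leaf (nat_lit 50) (nat_lit 0) (nat_lit 0)) (.leaf (nat_lit 51) (nat_lit 0) (nat_lit 0)))))))) (.add (.add (.add (.add (.add (.leaf (nat_lit 52) (nat_lit 0) (nat_lit 0)) (.add (.leaf (nat_lit 53) (nat_lit 0) (nat_lit 0)) (.leaf (nat_lit 54) (nat_lit 0) (nat_lit 0)))) (.add (.leaf (nat_lit 55) (nat_lit 0) (nat_lit 0)) (.add (.leaf (nat_lit 56) (nat_lit 0) (nat_lit 0)) (.leaf (nat_lit 57) (nat_lit 0) (nat_lit 0))))) (.add (.add (.leaf (nat_lit 58) (nat_lit 0) (nat_lit 0)) (.add (.leaf (nat_lit 59) (nat_lit 0) (nat_lit 0)) (.leaf (nat_lit 60) (nat_lit 0) (nat_lit 0)))) (.add (.add (.leaf (nat_lit 61) (nat_lit 0) (nat_lit 0)) (.leaf (nat_lit 62) (nat_lit 0) (nat_lit 0))) (.add (.leaf (nat_lit 63) (nat_lit 0) (nat_lit 0)) (.leaf (nat_lit 64) (nat_lit 0) (nat_lit 0)))))) (.add (.add (.add (.leaf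 (nat_lit 65) (nat_lit 0) (nat_lit 0)) (.add (.leaf (nat_lit 66) (nat_lit 0) (nat_lit 0)) (.leaf (nat_lit 67) (nat_lit 0) (nat_lit 0)))) (.add (.leaf (nat_lit 68) (nat_lit 0) (nat_lit 0)) (.add (.leaf (nat_lit 69) (nat_lit 0) (nat_lit 0)) (.leaf (nat_lit 70) (nat_lit 0) (nat_lit 0))))) (.add (.add (.leaf (nat_lit 71) (nat_lit 0) (nat_lit 0)) (.add (.leaf (nat_lit 72) (nat_lit 0) (nat_lit 0)) (.leaf (nat_lit 73) (nat_lit 0) (nat_lit 0)))) (.add (.add (.leaf (nat_lit 74) (nat_lit 0) (nat_lit 0)) (.leaf (nat_lit 75) (nat_lit 0) (nat_lit 0))) (.add (.leaf (nat_lit 76) (nat_lit 0) (nat_lit 0)) (.leaf (nat_lit 77) (nat_lit 0) (nat_lit 0))))))) (.add (.add (.add (.add (.leaf (nat_lit 78) (nat_lit 0) (nat_lit 0)) (.add (.leaf (nat_lit 79) (nat_lit 0) (nat_lit 0)) (.leaf (nat_lit 80) (nat_lit 0) (nat_lit 0)))) (.add (.leaf (nat_lit 81) (nat_lit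 0) (nat_lit 0)) (.add (.leaf (nat_lit 82) (nat_lit 0) (nat_lit 0)) (.leaf (nat_lit 83) (nat_lit 0) (nat_lit 0))))) (.add (.add (.leaf (nat_lit 84) (nat_lit 0) (nat_lit 0)) (.add (.leaf (nat_lit 85) (nat_lit 0) (nat_lit 0)) (.leaf (nat_lit 86) (nat_lit 0) (nat_lit 0)))) (.add (.add (.leaf (nat_lit 87) (nat_lit 0) (nat_lit 0)) (.leaf (nat_lit 88) (nat_lit 0) (nat_lit 0))) (.add (.leaf (nat_lit 89) (nat_lit 0) (nat_lit 0)) (.leaf (nat_lit 90) (nat_lit 0) (nat_lit 0)))))) (.add (.add (.add (.leaf (nat_lit 91) (nat_lit 0) (nat_lit 0)) (.add (.leaf (nat_lit 92) (nat_lit 0) (nat_lit 0)) (.leaf (nat_lit 93) (nat_lit 0) (nat_lit 0)))) (.add (.add (.leaf (nat_lit 94) (nat_lit 0) (nat_lit 0)) (.leaf (nat_lit 95) (nat_lit 0) (nat_lit 0))) (.add (.leaf (nat_lit 96) (nat_lit 0) (nat_lit 0)) (.leaf (nat_lit 97) (nat_lit 0) (nat_lit 0))))) (.add (.add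 (.leaf (nat_lit 98) (nat_lit 0) (nat_lit 0)) (.add (.leaf (nat_lit 99) (nat_lit 0) (nat_lit 0)) (.leaf (nat_lit 100) (nat_lit 0) (nat_lit 0)))) (.add (.add (.leaf (nat_lit 101) (nat_lit 0) (nat_lit 0)) (.leaf (nat_lit 102) (nat_lit 0) (nat_lit 0))) (.add (.leaf (nat_lit 103) (nat_lit 0) (nat_lit 0)) (.leaf (nat_lit 104) (nat_lit 0) (nat_lit 0))))))))),
  (.add (.add (.add (.add (.add (.add (.leaf (nat_lit 0) (nat_lit 0) (nat_lit 0)) (.add (.leaf (nat_lit 1) (nat_lit 0) (nat_lit 0)) (.leaf (nat_lit 2) (nat_lit 0) (nat_lit 0)))) (.add (.leaf (nat_lit 3) (nat_lit 0) (nat_lit 0)) (.add (.leaf (nat_lit 4) (nat_lit 0) (nat_lit 0)) (.leaf (nat_lit 5) (nat_lit 0) (nat_lit 0))))) (.add (.add (.leaf (nat_lit 6) (nat_lit 0) (nat_lit 0)) (.add (.leaf (nat_lit 7) (nat_lit 0) (nat_lit 0)) (.leaf (nat_lit 8) (nat_lit 0) (nat_lit 0)))) (.add (.add (.leaf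 (nat_lit 9) (nat_lit 0) (nat_lit 0)) (.leaf (nat_lit 10) (nat_lit 0) (nat_lit 0))) (.add (.leaf (nat_lit 11) (nat_lit 0) (nat_lit 0)) (.leaf (nat_lit 12) (nat_lit 0) (nat_lit 0)))))) (.add (.add (.add (.leaf (nat_lit 13) (nat_lit 0) (nat_lit 0)) (.add (.leaf (nat_lit 14) (nat_lit 0) (nat_lit 0)) (.leaf (nat_lit 15) (nat_lit 0) (nat_lit 0)))) (.add (.leaf (nat_lit 16) (nat_lit 0) (nat_lit 0)) (.add (.leaf (nat_lit 17) (nat_lit 0) (nat_lit 0)) (.leaf (nat_lit 18) (nat_lit 0) (nat_lit 0))))) (.add (.add (.leaf (nat_lit 19) (nat_lit 0) (nat_lit 0)) (.add (.leaf (nat_lit 20) (nat_lit 0) (nat_lit 0)) (.leaf (nat_lit 21) (nat_lit 0) (nat_lit 0)))) (.add (.add (.leaf (nat_lit 22) (nat_lit 0) (nat_lit 0)) (.leaf (nat_lit 23) (nat_lit 0) (nat_lit 0))) (.add (.leaf (nat_lit 24) (nat_lit 0) (nat_lit 0)) (.leaf (nat_lit 25) (nat_lit 0) (nat_lit 0)))))))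 (.add (.add (.add (.add (.leaf (nat_lit 26) (nat_lit 0) (nat_lit 0)) (.add (.leaf (nat_lit 27) (nat_lit 0) (nat_lit 0)) (.leaf (nat_lit 28) (nat_lit 0) (nat_lit 0)))) (.add (.leaf (nat_lit 29) (nat_lit 0) (nat_lit 0)) (.add (.leaf (nat_lit 30) (nat_lit 0) (nat_lit 0)) (.leaf (nat_lit 31) (nat_lit 0) (nat_lit 0))))) (.add (.add (.leaf (nat_lit 32) (nat_lit 0) (nat_lit 0)) (.add (.leaf (nat_lit 33) (nat_lit 0) (nat_lit 0)) (.leaf (nat_lit 34) (nat_lit 0) (nat_lit 0)))) (.add (.add (.leaf (nat_lit 35) (nat_lit 0) (nat_lit 0)) (.leaf (nat_lit 36) (nat_lit 0) (nat_lit 0))) (.add (.leaf (nat_lit 37) (nat_lit 0) (nat_lit 0)) (.leaf (nat_lit 38) (nat_lit 0) (nat_lit 0)))))) (.add (.add (.add (.leaf (nat_lit 39) (nat_lit 0) (nat_lit 0)) (.add (.leaf (nat_lit 40) (nat_lit 0) (nat_lit 0)) (.leaf (nat_lit 41) (nat_lit 0) (nat_lit 0)))) (.add (.add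 (.leaf (nat_lit 42) (nat_lit 0) (nat_lit 0)) (.leaf (nat_lit 43) (nat_lit 0) (nat_lit 0))) (.add (.leaf (nat_lit 44) (nat_lit 0) (nat_lit 0)) (.leaf (nat_lit 45) (nat_lit 0) (nat_lit 0))))) (.add (.add (.leaf (nat_lit 46) (nat_lit 0) (nat_lit 0)) (.add (.leaf (nat_lit 47) (nat_lit 0) (nat_lit 0)) (.leaf (nat_lit 48) (nat_lit 0) (nat_lit 0)))) (.add (.add (.leaf (nat_lit 49) (nat_lit 0) (nat_lit 0)) (.leaf (nat_lit 50) (nat_lit 0) (nat_lit 0))) (.add (.leaf (nat_lit 51) (nat_lit 0) (nat_lit 0)) (.leaf (nat_lit 52) (nat_lit 0) (nat_lit 0)))))))) (.add (.add (.add (.add (.add (.leaf (nat_lit 53) (nat_lit 0) (nat_lit 0)) (.add (.leaf (nat_lit 54) (nat_lit 0) (nat_lit 0)) (.leaf (nat_lit 55) (nat_lit 0) (nat_lit 0)))) (.add (.leaf (nat_lit 56) (nat_lit 0) (nat_lit 0)) (.add (.leaf (nat_lit 57) (nat_lit 0) (nat_lit 0)) (.leaf (nat_lit 58) (nat_lit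 0) (nat_lit 0))))) (.add (.add (.leaf (nat_lit 59) (nat_lit 0) (nat_lit 0)) (.add (.leaf (nat_lit 60) (nat_lit 0) (nat_lit 0)) (.leaf (nat_lit 61) (nat_lit 0) (nat_lit 0)))) (.add (.add (.leaf (nat_lit 62) (nat_lit 0) (nat_lit 0)) (.leaf (nat_lit 63) (nat_lit 0) (nat_lit 0))) (.add (.leaf (nat_lit 64) (nat_lit 0) (nat_lit 0)) (.leaf (nat_lit 65) (nat_lit 0) (nat_lit 0)))))) (.add (.add (.add (.leaf (nat_lit 66) (nat_lit 0) (nat_lit 0)) (.add (.leaf (nat_lit 67) (nat_lit 0) (nat_lit 0)) (.leaf (nat_lit 68) (nat_lit 0) (nat_lit 0)))) (.add (.leaf (nat_lit 69) (nat_lit 0) (nat_lit 0)) (.add (.leaf (nat_lit 70) (nat_lit 0) (nat_lit 0)) (.leaf (nat_lit 71) (nat_lit 0) (nat_lit 0))))) (.add (.add (.leaf (nat_lit 72) (nat_lit 0) (nat_lit 0)) (.add (.leaf (nat_lit 73) (nat_lit 0) (nat_lit 0)) (.leaf (nat_lit 74) (nat_lit 0) (nat_lit 0)))) (.add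 (.add (.leaf (nat_lit 75) (nat_lit 0) (nat_lit 0)) (.leaf (nat_lit 76) (nat_lit 0) (nat_lit 0))) (.add (.leaf (nat_lit 77) (nat_lit 0) (nat_lit 0)) (.leaf (nat_lit 78) (nat_lit 0) (nat_lit 0))))))) (.add (.add (.add (.add (.leaf (nat_lit 79) (nat_lit 0) (nat_lit 0)) (.add (.leaf (nat_lit 80) (nat_lit 0) (nat_lit 0)) (.leaf (nat_lit 81) (nat_lit 0) (nat_lit 0)))) (.add (.leaf (nat_lit 82) (nat_lit 0) (nat_lit 0)) (.add (.leaf (nat_lit 83) (nat_lit 0) (nat_lit 0)) (.leaf (nat_lit 84) (nat_lit 0) (nat_lit 0))))) (.add (.add (.leaf (nat_lit 85) (nat_lit 0) (nat_lit 0)) (.add (.leaf (nat_lit 86) (nat_lit 0) (nat_lit 0)) (.leaf (nat_lit 87) (nat_lit 0) (nat_lit 0)))) (.add (.add (.leaf (nat_lit 88) (nat_lit 0) (nat_lit 0)) (.leaf (nat_lit 89) (nat_lit 0) (nat_lit 0))) (.add (.leaf (nat_lit 90) (nat_lit 0) (nat_lit 0)) (.leaf (nat_lit 91) (nat_lit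 0) (nat_lit 0)))))) (.add (.add (.add (.leaf (nat_lit 92) (nat_lit 0) (nat_lit 0)) (.add (.leaf (nat_lit 93) (nat_lit 0) (nat_lit 0)) (.leaf (nat_lit 94) (nat_lit 0) (nat_lit 0)))) (.add (.add (.leaf (nat_lit 95) (nat_lit 0) (nat_lit 0)) (.leaf (nat_lit 96) (nat_lit 0) (nat_lit 0))) (.add (.leaf (nat_lit 97) (nat_lit 0) (nat_lit 0)) (.leaf (nat_lit 98) (nat_lit 0) (nat_lit 0))))) (.add (.add (.leaf (nat_lit 99) (nat_lit 0) (nat_lit 0)) (.add (.leaf (nat_lit 100) (nat_lit 0) (nat_lit 0)) (.leaf (nat_lit 101) (nat_lit 0) (nat_lit 0)))) (.add (.add (.leaf (nat_lit 102) (nat_lit 0) (nat_lit 0)) (.leaf (nat_lit 103) (nat_lit 0) (nat_lit 0))) (.add (.leaf (nat_lit 104) (nat_lit 0) (nat_lit 0)) (.leaf (nat_lit 105) (nat_lit 0) (nat_lit 0))))))))),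
  (.add (.add (.add (.add (.add (.add (.leaf (nat_lit 0) (nat_lit 0) (nat_lit 0)) (.add (.leaf (nat_lit 1) (nat_lit 0) (nat_lit 0)) (.leaf (nat_lit 2) (nat_lit 0) (nat_lit 0)))) (.add (.leaf (nat_lit 3) (nat_lit 0) (nat_lit 0)) (.add (.leaf (nat_lit 4) (nat_lit 0) (nat_lit 0)) (.leaf (nat_lit 5) (nat_lit 0) (nat_lit 0))))) (.add (.add (.leaf (nat_lit 6) (nat_lit 0) (nat_lit 0)) (.add (.leaf (nat_lit 7) (nat_lit 0) (nat_lit 0)) (.leaf (nat_lit 8) (nat_lit 0) (nat_lit 0)))) (.add (.add (.leaf (nat_lit 9) (nat_lit 0) (nat_lit 0)) (.leaf (nat_lit 10) (nat_lit 0) (nat_lit 0))) (.add (.leaf (nat_lit 11) (nat_lit 0) (nat_lit 0)) (.leaf (nat_lit 12) (nat_lit 0) (nat_lit 0)))))) (.add (.add (.add (.leaf (nat_lit 13) (nat_lit 0) (nat_lit 0)) (.add (.leaf (nat_lit 14) (nat_lit 0) (nat_lit 0)) (.leaf (nat_lit 15) (nat_lit 0) (nat_lit 0)))) (.add (.leaf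 (nat_lit 16) (nat_lit 0) (nat_lit 0)) (.add (.leaf (nat_lit 17) (nat_lit 0) (nat_lit 0)) (.leaf (nat_lit 18) (nat_lit 0) (nat_lit 0))))) (.add (.add (.leaf (nat_lit 19) (nat_lit 0) (nat_lit 0)) (.add (.leaf (nat_lit 20) (nat_lit 0) (nat_lit 0)) (.leaf (nat_lit 21) (nat_lit 0) (nat_lit 0)))) (.add (.add (.leaf (nat_lit 22) (nat_lit 0) (nat_lit 0)) (.leaf (nat_lit 23) (nat_lit 0) (nat_lit 0))) (.add (.leaf (nat_lit 24) (nat_lit 0) (nat_lit 0)) (.leaf (nat_lit 25) (nat_lit 0) (nat_lit 0))))))) (.add (.add (.add (.add (.leaf (nat_lit 26) (nat_lit 0) (nat_lit 0)) (.add (.leaf (nat_lit 27) (nat_lit 0) (nat_lit 0)) (.leaf (nat_lit 28) (nat_lit 0) (nat_lit 0)))) (.add (.leaf (nat_lit 29) (nat_lit 0) (nat_lit 0)) (.add (.leaf (nat_lit 30) (nat_lit 0) (nat_lit 0)) (.leaf (nat_lit 31) (nat_lit 0) (nat_lit 0))))) (.add (.add (.leaf (nat_lit 32) (nat_lit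 0) (nat_lit 0)) (.add (.leaf (nat_lit 33) (nat_lit 0) (nat_lit 0)) (.leaf (nat_lit 34) (nat_lit 0) (nat_lit 0)))) (.add (.add (.leaf (nat_lit 35) (nat_lit 0) (nat_lit 0)) (.leaf (nat_lit 36) (nat_lit 0) (nat_lit 0))) (.add (.leaf (nat_lit 37) (nat_lit 0) (nat_lit 0)) (.leaf (nat_lit 38) (nat_lit 0) (nat_lit 0)))))) (.add (.add (.add (.leaf (nat_lit 39) (nat_lit 0) (nat_lit 0)) (.add (.leaf (nat_lit 40) (nat_lit 0) (nat_lit 0)) (.leaf (nat_lit 41) (nat_lit 0) (nat_lit 0)))) (.add (.add (.leaf (nat_lit 42) (nat_lit 0) (nat_lit 0)) (.leaf (nat_lit 43) (nat_lit 0) (nat_lit 0))) (.add (.leaf (nat_lit 44) (nat_lit 0) (nat_lit 0)) (.leaf (nat_lit 45) (nat_lit 0) (nat_lit 0))))) (.add (.add (.leaf (nat_lit 46) (nat_lit 0) (nat_lit 0)) (.add (.leaf (nat_lit 47) (nat_lit 0) (nat_lit 0)) (.leaf (nat_lit 48) (nat_lit 0) (nat_lit 0)))) (.add (.add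 (.leaf (nat_lit 49) (nat_lit 0) (nat_lit 0)) (.leaf (nat_lit 50) (nat_lit 0) (nat_lit 0))) (.add (.leaf (nat_lit 51) (nat_lit 0) (nat_lit 0)) (.leaf (nat_lit 52) (nat_lit 0) (nat_lit 0)))))))) (.add (.add (.add (.add (.add (.leaf (nat_lit 53) (nat_lit 0) (nat_lit 0)) (.add (.leaf (nat_lit 54) (nat_lit 0) (nat_lit 0)) (.leaf (nat_lit 55) (nat_lit 0) (nat_lit 0)))) (.add (.leaf (nat_lit 56) (nat_lit 0) (nat_lit 0)) (.add (.leaf (nat_lit 57) (nat_lit 0) (nat_lit 0)) (.leaf (nat_lit 58) (nat_lit 0) (nat_lit 0))))) (.add (.add (.leaf (nat_lit 59) (nat_lit 0) (nat_lit 0)) (.add (.leaf (nat_lit 60) (nat_lit 0) (nat_lit 0)) (.leaf (nat_lit 61) (nat_lit 0) (nat_lit 0)))) (.add (.add (.leaf (nat_lit 62) (nat_lit 0) (nat_lit 0)) (.leaf (nat_lit 63) (nat_lit 0) (nat_lit 0))) (.add (.leaf (nat_lit 64) (nat_lit 0) (nat_lit 0)) (.leaf (nat_lit 65) (nat_lit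 0) (nat_lit 0)))))) (.add (.add (.add (.leaf (nat_lit 66) (nat_lit 0) (nat_lit 0)) (.add (.leaf (nat_lit 67) (nat_lit 0) (nat_lit 0)) (.leaf (nat_lit 68) (nat_lit 0) (nat_lit 0)))) (.add (.add (.leaf (nat_lit 69) (nat_lit 0) (nat_lit 0)) (.leaf (nat_lit 70) (nat_lit 0) (nat_lit 0))) (.add (.leaf (nat_lit 71) (nat_lit 0) (nat_lit 0)) (.leaf (nat_lit 72) (nat_lit 0) (nat_lit 0))))) (.add (.add (.leaf (nat_lit 73) (nat_lit 0) (nat_lit 0)) (.add (.leaf (nat_lit 74) (nat_lit 0) (nat_lit 0)) (.leaf (nat_lit 75) (nat_lit 0) (nat_lit 0)))) (.add (.add (.leaf (nat_lit 76) (nat_lit 0) (nat_lit 0)) (.leaf (nat_lit 77) (nat_lit 0) (nat_lit 0))) (.add (.leaf (nat_lit 78) (nat_lit 0) (nat_lit 0)) (.leaf (nat_lit 79) (nat_lit 0) (nat_lit 0))))))) (.add (.add (.add (.add (.leaf (nat_lit 80) (nat_lit 0) (nat_lit 0)) (.add (.leaf (nat_lit 81) (nat_lit 0)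 (nat_lit 0)) (.leaf (nat_lit 82) (nat_lit 0) (nat_lit 0)))) (.add (.leaf (nat_lit 83) (nat_lit 0) (nat_lit 0)) (.add (.leaf (nat_lit 84) (nat_lit 0) (nat_lit 0)) (.leaf (nat_lit 85) (nat_lit 0) (nat_lit 0))))) (.add (.add (.leaf (nat_lit 86) (nat_lit 0) (nat_lit 0)) (.add (.leaf (nat_lit 87) (nat_lit 0) (nat_lit 0)) (.leaf (nat_lit 88) (nat_lit 0) (nat_lit 0)))) (.add (.add (.leaf (nat_lit 89) (nat_lit 0) (nat_lit 0)) (.leaf (nat_lit 90) (nat_lit 0) (nat_lit 0))) (.add (.leaf (nat_lit 91) (nat_lit 0) (nat_lit 0)) (.leaf (nat_lit 92) (nat_lit 0) (nat_lit 0)))))) (.add (.add (.add (.leaf (nat_lit 93) (nat_lit 0) (nat_lit 0)) (.add (.leaf (nat_lit 94) (nat_lit 0) (nat_lit 0)) (.leaf (nat_lit 95) (nat_lit 0) (nat_lit 0)))) (.add (.add (.leaf (nat_lit 96) (nat_lit 0) (nat_lit 0)) (.leaf (nat_lit 97) (nat_lit 0) (nat_lit 0))) (.add (.leaf (nat_lit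 98) (nat_lit 0) (nat_lit 0)) (.leaf (nat_lit 99) (nat_lit 0) (nat_lit 0))))) (.add (.add (.leaf (nat_lit 100) (nat_lit 0) (nat_lit 0)) (.add (.leaf (nat_lit 101) (nat_lit 0) (nat_lit 0)) (.leaf (nat_lit 102) (nat_lit 0) (nat_lit 0)))) (.add (.add (.leaf (nat_lit 103) (nat_lit 0) (nat_lit 0)) (.leaf (nat_lit 104) (nat_lit 0) (nat_lit 0))) (.add (.leaf (nat_lit 105) (nat_lit 0) (nat_lit 0)) (.leaf (nat_lit 106) (nat_lit 0) (nat_lit 0))))))))),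
  (.add (.add (.add (.add (.add (.add (.leaf (nat_lit 0) (nat_lit 0) (nat_lit 0)) (.add (.leaf (nat_lit 1) (nat_lit 0) (nat_lit 0)) (.leaf (nat_lit 2) (nat_lit 0) (nat_lit 0)))) (.add (.leaf (nat_lit 3) (nat_lit 0) (nat_lit 0)) (.add (.leaf (nat_lit 4) (nat_lit 0) (nat_lit 0)) (.leaf (nat_lit 5) (nat_lit 0) (nat_lit 0))))) (.add (.add (.leaf (nat_lit 6) (nat_lit 0) (nat_lit 0)) (.add (.leaf (nat_lit 7) (nat_lit 0) (nat_lit 0)) (.leaf (nat_lit 8) (nat_lit 0) (nat_lit 0)))) (.add (.add (.leaf (nat_lit 9) (nat_lit 0) (nat_lit 0)) (.leaf (nat_lit 10) (nat_lit 0) (nat_lit 0))) (.add (.leaf (nat_lit 11) (nat_lit 0) (nat_lit 0)) (.leaf (nat_lit 12) (nat_lit 0) (nat_lit 0)))))) (.add (.add (.add (.leaf (nat_lit 13) (nat_lit 0) (nat_lit 0)) (.add (.leaf (nat_lit 14) (nat_lit 0) (nat_lit 0)) (.leaf (nat_lit 15) (nat_lit 0) (nat_lit 0)))) (.add (.add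 (.leaf (nat_lit 16) (nat_lit 0) (nat_lit 0)) (.leaf (nat_lit 17) (nat_lit 0) (nat_lit 0))) (.add (.leaf (nat_lit 18) (nat_lit 0) (nat_lit 0)) (.leaf (nat_lit 19) (nat_lit 0) (nat_lit 0))))) (.add (.add (.leaf (nat_lit 20) (nat_lit 0) (nat_lit 0)) (.add (.leaf (nat_lit 21) (nat_lit 0) (nat_lit 0)) (.leaf (nat_lit 22) (nat_lit 0) (nat_lit 0)))) (.add (.add (.leaf (nat_lit 23) (nat_lit 0) (nat_lit 0)) (.leaf (nat_lit 24) (nat_lit 0) (nat_lit 0))) (.add (.leaf (nat_lit 25) (nat_lit 0) (nat_lit 0)) (.leaf (nat_lit 26) (nat_lit 0) (nat_lit 0))))))) (.add (.add (.add (.add (.leaf (nat_lit 27) (nat_lit 0) (nat_lit 0)) (.add (.leaf (nat_lit 28) (nat_lit 0) (nat_lit 0)) (.leaf (nat_lit 29) (nat_lit 0) (nat_lit 0)))) (.add (.leaf (nat_lit 30) (nat_lit 0) (nat_lit 0)) (.add (.leaf (nat_lit 31) (nat_lit 0) (nat_lit 0)) (.leaf (nat_lit 32) (nat_lit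 0) (nat_lit 0))))) (.add (.add (.leaf (nat_lit 33) (nat_lit 0) (nat_lit 0)) (.add (.leaf (nat_lit 34) (nat_lit 0) (nat_lit 0)) (.leaf (nat_lit 35) (nat_lit 0) (nat_lit 0)))) (.add (.add (.leaf (nat_lit 36) (nat_lit 0) (nat_lit 0)) (.leaf (nat_lit 37) (nat_lit 0) (nat_lit 0))) (.add (.leaf (nat_lit 38) (nat_lit 0) (nat_lit 0)) (.leaf (nat_lit 39) (nat_lit 0) (nat_lit 0)))))) (.add (.add (.add (.leaf (nat_lit 40) (nat_lit 0) (nat_lit 0)) (.add (.leaf (nat_lit 41) (nat_lit 0) (nat_lit 0)) (.leaf (nat_lit 42) (nat_lit 0) (nat_lit 0)))) (.add (.add (.leaf (nat_lit 43) (nat_lit 0) (nat_lit 0)) (.leaf (nat_lit 44) (nat_lit 0) (nat_lit 0))) (.add (.leaf (nat_lit 45) (nat_lit 0) (nat_lit 0)) (.leaf (nat_lit 46) (nat_lit 0) (nat_lit 0))))) (.add (.add (.leaf (nat_lit 47) (nat_lit 0) (nat_lit 0)) (.add (.leaf (nat_lit 48) (nat_lit 0) (nat_lit 0))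 (.leaf (nat_lit 49) (nat_lit 0) (nat_lit 0)))) (.add (.add (.leaf (nat_lit 50) (nat_lit 0) (nat_lit 0)) (.leaf (nat_lit 51) (nat_lit 0) (nat_lit 0))) (.add (.leaf (nat_lit 52) (nat_lit 0) (nat_lit 0)) (.leaf (nat_lit 53) (nat_lit 0) (nat_lit 0)))))))) (.add (.add (.add (.add (.add (.leaf (nat_lit 54) (nat_lit 0) (nat_lit 0)) (.add (.leaf (nat_lit 55) (nat_lit 0) (nat_lit 0)) (.leaf (nat_lit 56) (nat_lit 0) (nat_lit 0)))) (.add (.leaf (nat_lit 57) (nat_lit 0) (nat_lit 0)) (.add (.leaf (nat_lit 58) (nat_lit 0) (nat_lit 0)) (.leaf (nat_lit 59) (nat_lit 0) (nat_lit 0))))) (.add (.add (.leaf (nat_lit 60) (nat_lit 0) (nat_lit 0)) (.add (.leaf (nat_lit 61) (nat_lit 0) (nat_lit 0)) (.leaf (nat_lit 62) (nat_lit 0) (nat_lit 0)))) (.add (.add (.leaf (nat_lit 63) (nat_lit 0) (nat_lit 0)) (.leaf (nat_lit 64) (nat_lit 0) (nat_lit 0))) (.add (.leaf (nat_lit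 65) (nat_lit 0) (nat_lit 0)) (.leaf (nat_lit 66) (nat_lit 0) (nat_lit 0)))))) (.add (.add (.add (.leaf (nat_lit 67) (nat_lit 0) (nat_lit 0)) (.add (.leaf (nat_lit 68) (nat_lit 0) (nat_lit 0)) (.leaf (nat_lit 69) (nat_lit 0) (nat_lit 0)))) (.add (.add (.leaf (nat_lit 70) (nat_lit 0) (nat_lit 0)) (.leaf (nat_lit 71) (nat_lit 0) (nat_lit 0))) (.add (.leaf (nat_lit 72) (nat_lit 0) (nat_lit 0)) (.leaf (nat_lit 73) (nat_lit 0) (nat_lit 0))))) (.add (.add (.leaf (nat_lit 74) (nat_lit 0) (nat_lit 0)) (.add (.leaf (nat_lit 75) (nat_lit 0) (nat_lit 0)) (.leaf (nat_lit 76) (nat_lit 0) (nat_lit 0)))) (.add (.add (.leaf (nat_lit 77) (nat_lit 0) (nat_lit 0)) (.leaf (nat_lit 78) (nat_lit 0) (nat_lit 0))) (.add (.leaf (nat_lit 79) (nat_lit 0) (nat_lit 0)) (.leaf (nat_lit 80) (nat_lit 0) (nat_lit 0))))))) (.add (.add (.add (.add (.leaf (nat_lit 81) (nat_lit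 0) (nat_lit 0)) (.add (.leaf (nat_lit 82) (nat_lit 0) (nat_lit 0)) (.leaf (nat_lit 83) (nat_lit 0) (nat_lit 0)))) (.add (.leaf (nat_lit 84) (nat_lit 0) (nat_lit 0)) (.add (.leaf (nat_lit 85) (nat_lit 0) (nat_lit 0)) (.leaf (nat_lit 86) (nat_lit 0) (nat_lit 0))))) (.add (.add (.leaf (nat_lit 87) (nat_lit 0) (nat_lit 0)) (.add (.leaf (nat_lit 88) (nat_lit 0) (nat_lit 0)) (.leaf (nat_lit 89) (nat_lit 0) (nat_lit 0)))) (.add (.add (.leaf (nat_lit 90) (nat_lit 0) (nat_lit 0)) (.leaf (nat_lit 91) (nat_lit 0) (nat_lit 0))) (.add (.leaf (nat_lit 92) (nat_lit 0) (nat_lit 0)) (.leaf (nat_lit 93) (nat_lit 0) (nat_lit 0)))))) (.add (.add (.add (.leaf (nat_lit 94) (nat_lit 0) (nat_lit 0)) (.add (.leaf (nat_lit 95) (nat_lit 0) (nat_lit 0)) (.leaf (nat_lit 96) (nat_lit 0) (nat_lit 0)))) (.add (.add (.leaf (nat_lit 97) (nat_lit 0) (nat_lit 0)) (.leaf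 (nat_lit 98) (nat_lit 0) (nat_lit 0))) (.add (.leaf (nat_lit 99) (nat_lit 0) (nat_lit 0)) (.leaf (nat_lit 100) (nat_lit 0) (nat_lit 0))))) (.add (.add (.leaf (nat_lit 101) (nat_lit 0) (nat_lit 0)) (.add (.leaf (nat_lit 102) (nat_lit 0) (nat_lit 0)) (.leaf (nat_lit 103) (nat_lit 0) (nat_lit 0)))) (.add (.add (.leaf (nat_lit 104) (nat_lit 0) (nat_lit 0)) (.leaf (nat_lit 105) (nat_lit 0) (nat_lit 0))) (.add (.leaf (nat_lit 106) (nat_lit 0) (nat_lit 0)) (.leaf (nat_lit 107) (nat_lit 0) (nat_lit 0))))))))),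
  (.add (.add (.add (.add (.add (.add (.leaf (nat_lit 0) (nat_lit 0) (nat_lit 0)) (.add (.leaf (nat_lit 1) (nat_lit 0) (nat_lit 0)) (.leaf (nat_lit 2) (nat_lit 0) (nat_lit 0)))) (.add (.leaf (nat_lit 3) (nat_lit 0) (nat_lit 0)) (.add (.leaf (nat_lit 4) (nat_lit 0) (nat_lit 0)) (.leaf (nat_lit 5) (nat_lit 0) (nat_lit 0))))) (.add (.add (.leaf (nat_lit 6) (nat_lit 0) (nat_lit 0)) (.add (.leaf (nat_lit 7) (nat_lit 0) (nat_lit 0)) (.leaf (nat_lit 8) (nat_lit 0) (nat_lit 0)))) (.add (.add (.leaf (nat_lit 9) (nat_lit 0) (nat_lit 0)) (.leaf (nat_lit 10) (nat_lit 0) (nat_lit 0))) (.add (.leaf (nat_lit 11) (nat_lit 0) (nat_lit 0)) (.leaf (nat_lit 12) (nat_lit 0) (nat_lit 0)))))) (.add (.add (.add (.leaf (nat_lit 13) (nat_lit 0) (nat_lit 0)) (.add (.leaf (nat_lit 14) (nat_lit 0) (nat_lit 0)) (.leaf (nat_lit 15) (nat_lit 0) (nat_lit 0)))) (.add (.add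 (.leaf (nat_lit 16) (nat_lit 0) (nat_lit 0)) (.leaf (nat_lit 17) (nat_lit 0) (nat_lit 0))) (.add (.leaf (nat_lit 18) (nat_lit 0) (nat_lit 0)) (.leaf (nat_lit 19) (nat_lit 0) (nat_lit 0))))) (.add (.add (.leaf (nat_lit 20) (nat_lit 0) (nat_lit 0)) (.add (.leaf (nat_lit 21) (nat_lit 0) (nat_lit 0)) (.leaf (nat_lit 22) (nat_lit 0) (nat_lit 0)))) (.add (.add (.leaf (nat_lit 23) (nat_lit 0) (nat_lit 0)) (.leaf (nat_lit 24) (nat_lit 0) (nat_lit 0))) (.add (.leaf (nat_lit 25) (nat_lit 0) (nat_lit 0)) (.leaf (nat_lit 26) (nat_lit 0) (nat_lit 0))))))) (.add (.add (.add (.add (.leaf (nat_lit 27) (nat_lit 0) (nat_lit 0)) (.add (.leaf (nat_lit 28) (nat_lit 0) (nat_lit 0)) (.leaf (nat_lit 29) (nat_lit 0) (nat_lit 0)))) (.add (.leaf (nat_lit 30) (nat_lit 0) (nat_lit 0)) (.add (.leaf (nat_lit 31) (nat_lit 0) (nat_lit 0)) (.leaf (nat_lit 32) (nat_lit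 0) (nat_lit 0))))) (.add (.add (.leaf (nat_lit 33) (nat_lit 0) (nat_lit 0)) (.add (.leaf (nat_lit 34) (nat_lit 0) (nat_lit 0)) (.leaf (nat_lit 35) (nat_lit 0) (nat_lit 0)))) (.add (.add (.leaf (nat_lit 36) (nat_lit 0) (nat_lit 0)) (.leaf (nat_lit 37) (nat_lit 0) (nat_lit 0))) (.add (.leaf (nat_lit 38) (nat_lit 0) (nat_lit 0)) (.leaf (nat_lit 39) (nat_lit 0) (nat_lit 0)))))) (.add (.add (.add (.leaf (nat_lit 40) (nat_lit 0) (nat_lit 0)) (.add (.leaf (nat_lit 41) (nat_lit 0) (nat_lit 0)) (.leaf (nat_lit 42) (nat_lit 0) (nat_lit 0)))) (.add (.add (.leaf (nat_lit 43) (nat_lit 0) (nat_lit 0)) (.leaf (nat_lit 44) (nat_lit 0) (nat_lit 0))) (.add (.leaf (nat_lit 45) (nat_lit 0) (nat_lit 0)) (.leaf (nat_lit 46) (nat_lit 0) (nat_lit 0))))) (.add (.add (.leaf (nat_lit 47) (nat_lit 0) (nat_lit 0)) (.add (.leaf (nat_lit 48) (nat_lit 0) (nat_lit 0))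 (.leaf (nat_lit 49) (nat_lit 0) (nat_lit 0)))) (.add (.add (.leaf (nat_lit 50) (nat_lit 0) (nat_lit 0)) (.leaf (nat_lit 51) (nat_lit 0) (nat_lit 0))) (.add (.leaf (nat_lit 52) (nat_lit 0) (nat_lit 0)) (.leaf (nat_lit 53) (nat_lit 0) (nat_lit 0)))))))) (.add (.add (.add (.add (.add (.leaf (nat_lit 54) (nat_lit 0) (nat_lit 0)) (.add (.leaf (nat_lit 55) (nat_lit 0) (nat_lit 0)) (.leaf (nat_lit 56) (nat_lit 0) (nat_lit 0)))) (.add (.leaf (nat_lit 57) (nat_lit 0) (nat_lit 0)) (.add (.leaf (nat_lit 58) (nat_lit 0) (nat_lit 0)) (.leaf (nat_lit 59) (nat_lit 0) (nat_lit 0))))) (.add (.add (.leaf (nat_lit 60) (nat_lit 0) (nat_lit 0)) (.add (.leaf (nat_lit 61) (nat_lit 0) (nat_lit 0)) (.leaf (nat_lit 62) (nat_lit 0) (nat_lit 0)))) (.add (.add (.leaf (nat_lit 63) (nat_lit 0) (nat_lit 0)) (.leaf (nat_lit 64) (nat_lit 0) (nat_lit 0))) (.add (.leaf (nat_lit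 65) (nat_lit 0) (nat_lit 0)) (.leaf (nat_lit 66) (nat_lit 0) (nat_lit 0)))))) (.add (.add (.add (.leaf (nat_lit 67) (nat_lit 0) (nat_lit 0)) (.add (.leaf (nat_lit 68) (nat_lit 0) (nat_lit 0)) (.leaf (nat_lit 69) (nat_lit 0) (nat_lit 0)))) (.add (.add (.leaf (nat_lit 70) (nat_lit 0) (nat_lit 0)) (.leaf (nat_lit 71) (nat_lit 0) (nat_lit 0))) (.add (.leaf (nat_lit 72) (nat_lit 0) (nat_lit 0)) (.leaf (nat_lit 73) (nat_lit 0) (nat_lit 0))))) (.add (.add (.leaf (nat_lit 74) (nat_lit 0) (nat_lit 0)) (.add (.leaf (nat_lit 75) (nat_lit 0) (nat_lit 0)) (.leaf (nat_lit 76) (nat_lit 0) (nat_lit 0)))) (.add (.add (.leaf (nat_lit 77) (nat_lit 0) (nat_lit 0)) (.leaf (nat_lit 78) (nat_lit 0) (nat_lit 0))) (.add (.leaf (nat_lit 79) (nat_lit 0) (nat_lit 0)) (.leaf (nat_lit 80) (nat_lit 0) (nat_lit 0))))))) (.add (.add (.add (.add (.leaf (nat_lit 81) (nat_lit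 0) (nat_lit 0)) (.add (.leaf (nat_lit 82) (nat_lit 0) (nat_lit 0)) (.leaf (nat_lit 83) (nat_lit 0) (nat_lit 0)))) (.add (.add (.leaf (nat_lit 84) (nat_lit 0) (nat_lit 0)) (.leaf (nat_lit 85) (nat_lit 0) (nat_lit 0))) (.add (.leaf (nat_lit 86) (nat_lit 0) (nat_lit 0)) (.leaf (nat_lit 87) (nat_lit 0) (nat_lit 0))))) (.add (.add (.leaf (nat_lit 88) (nat_lit 0) (nat_lit 0)) (.add (.leaf (nat_lit 89) (nat_lit 0) (nat_lit 0)) (.leaf (nat_lit 90) (nat_lit 0) (nat_lit 0)))) (.add (.add (.leaf (nat_lit 91) (nat_lit 0) (nat_lit 0)) (.leaf (nat_lit 92) (nat_lit 0) (nat_lit 0))) (.add (.leaf (nat_lit 93) (nat_lit 0) (nat_lit 0)) (.leaf (nat_lit 94) (nat_lit 0) (nat_lit 0)))))) (.add (.add (.add (.leaf (nat_lit 95) (nat_lit 0) (nat_lit 0)) (.add (.leaf (nat_lit 96) (nat_lit 0) (nat_lit 0)) (.leaf (nat_lit 97) (nat_lit 0) (nat_lit 0)))) (.add (.add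 (.leaf (nat_lit 98) (nat_lit 0) (nat_lit 0)) (.leaf (nat_lit 99) (nat_lit 0) (nat_lit 0))) (.add (.leaf (nat_lit 100) (nat_lit 0) (nat_lit 0)) (.leaf (nat_lit 101) (nat_lit 0) (nat_lit 0))))) (.add (.add (.leaf (nat_lit 102) (nat_lit 0) (nat_lit 0)) (.add (.leaf (nat_lit 103) (nat_lit 0) (nat_lit 0)) (.leaf (nat_lit 104) (nat_lit 0) (nat_lit 0)))) (.add (.add (.leaf (nat_lit 105) (nat_lit 0) (nat_lit 0)) (.leaf (nat_lit 106) (nat_lit 0) (nat_lit 0))) (.add (.leaf (nat_lit 107) (nat_lit 0) (nat_lit 0)) (.leaf (nat_lit 108) (nat_lit 0) (nat_lit 0))))))))),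
  (.add (.add (.add (.add (.add (.add (.leaf (nat_lit 0) (nat_lit 0) (nat_lit 0)) (.add (.leaf (nat_lit 1) (nat_lit 0) (nat_lit 0)) (.leaf (nat_lit 2) (nat_lit 0) (nat_lit 0)))) (.add (.leaf (nat_lit 3) (nat_lit 0) (nat_lit 0)) (.add (.leaf (nat_lit 4) (nat_lit 0) (nat_lit 0)) (.leaf (nat_lit 5) (nat_lit 0) (nat_lit 0))))) (.add (.add (.leaf (nat_lit 6) (nat_lit 0) (nat_lit 0)) (.add (.leaf (nat_lit 7) (nat_lit 0) (nat_lit 0)) (.leaf (nat_lit 8) (nat_lit 0) (nat_lit 0)))) (.add (.add (.leaf (nat_lit 9) (nat_lit 0) (nat_lit 0)) (.leaf (nat_lit 10) (nat_lit 0) (nat_lit 0))) (.add (.leaf (nat_lit 11) (nat_lit 0) (nat_lit 0)) (.leaf (nat_lit 12) (nat_lit 0) (nat_lit 0)))))) (.add (.add (.add (.leaf (nat_lit 13) (nat_lit 0) (nat_lit 0)) (.add (.leaf (nat_lit 14) (nat_lit 0) (nat_lit 0)) (.leaf (nat_lit 15) (nat_lit 0) (nat_lit 0)))) (.add (.add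 (.leaf (nat_lit 16) (nat_lit 0) (nat_lit 0)) (.leaf (nat_lit 17) (nat_lit 0) (nat_lit 0))) (.add (.leaf (nat_lit 18) (nat_lit 0) (nat_lit 0)) (.leaf (nat_lit 19) (nat_lit 0) (nat_lit 0))))) (.add (.add (.leaf (nat_lit 20) (nat_lit 0) (nat_lit 0)) (.add (.leaf (nat_lit 21) (nat_lit 0) (nat_lit 0)) (.leaf (nat_lit 22) (nat_lit 0) (nat_lit 0)))) (.add (.add (.leaf (nat_lit 23) (nat_lit 0) (nat_lit 0)) (.leaf (nat_lit 24) (nat_lit 0) (nat_lit 0))) (.add (.leaf (nat_lit 25) (nat_lit 0) (nat_lit 0)) (.leaf (nat_lit 26) (nat_lit 0) (nat_lit 0))))))) (.add (.add (.add (.add (.leaf (nat_lit 27) (nat_lit 0) (nat_lit 0)) (.add (.leaf (nat_lit 28) (nat_lit 0) (nat_lit 0)) (.leaf (nat_lit 29) (nat_lit 0) (nat_lit 0)))) (.add (.add (.leaf (nat_lit 30) (nat_lit 0) (nat_lit 0)) (.leaf (nat_lit 31) (nat_lit 0) (nat_lit 0))) (.add (.leaf (nat_lit 32) (nat_lit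 0) (nat_lit 0)) (.leaf (nat_lit 33) (nat_lit 0) (nat_lit 0))))) (.add (.add (.leaf (nat_lit 34) (nat_lit 0) (nat_lit 0)) (.add (.leaf (nat_lit 35) (nat_lit 0) (nat_lit 0)) (.leaf (nat_lit 36) (nat_lit 0) (nat_lit 0)))) (.add (.add (.leaf (nat_lit 37) (nat_lit 0) (nat_lit 0)) (.leaf (nat_lit 38) (nat_lit 0) (nat_lit 0))) (.add (.leaf (nat_lit 39) (nat_lit 0) (nat_lit 0)) (.leaf (nat_lit 40) (nat_lit 0) (nat_lit 0)))))) (.add (.add (.add (.leaf (nat_lit 41) (nat_lit 0) (nat_lit 0)) (.add (.leaf (nat_lit 42) (nat_lit 0) (nat_lit 0)) (.leaf (nat_lit 43) (nat_lit 0) (nat_lit 0)))) (.add (.add (.leaf (nat_lit 44) (nat_lit 0) (nat_lit 0)) (.leaf (nat_lit 45) (nat_lit 0) (nat_lit 0))) (.add (.leaf (nat_lit 46) (nat_lit 0) (nat_lit 0)) (.leaf (nat_lit 47) (nat_lit 0) (nat_lit 0))))) (.add (.add (.leaf (nat_lit 48) (nat_lit 0) (nat_lit 0)) (.add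 (.leaf (nat_lit 49) (nat_lit 0) (nat_lit 0)) (.leaf (nat_lit 50) (nat_lit 0) (nat_lit 0)))) (.add (.add (.leaf (nat_lit 51) (nat_lit 0) (nat_lit 0)) (.leaf (nat_lit 52) (nat_lit 0) (nat_lit 0))) (.add (.leaf (nat_lit 53) (nat_lit 0) (nat_lit 0)) (.leaf (nat_lit 54) (nat_lit 0) (nat_lit 0)))))))) (.add (.add (.add (.add (.add (.leaf (nat_lit 55) (nat_lit 0) (nat_lit 0)) (.add (.leaf (nat_lit 56) (nat_lit 0) (nat_lit 0)) (.leaf (nat_lit 57) (nat_lit 0) (nat_lit 0)))) (.add (.leaf (nat_lit 58) (nat_lit 0) (nat_lit 0)) (.add (.leaf (nat_lit 59) (nat_lit 0) (nat_lit 0)) (.leaf (nat_lit 60) (nat_lit 0) (nat_lit 0))))) (.add (.add (.leaf (nat_lit 61) (nat_lit 0) (nat_lit 0)) (.add (.leaf (nat_lit 62) (nat_lit 0) (nat_lit 0)) (.leaf (nat_lit 63) (nat_lit 0) (nat_lit 0)))) (.add (.add (.leaf (nat_lit 64) (nat_lit 0) (nat_lit 0)) (.leaf (nat_lit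 65) (nat_lit 0) (nat_lit 0))) (.add (.leaf (nat_lit 66) (nat_lit 0) (nat_lit 0)) (.leaf (nat_lit 67) (nat_lit 0) (nat_lit 0)))))) (.add (.add (.add (.leaf (nat_lit 68) (nat_lit 0) (nat_lit 0)) (.add (.leaf (nat_lit 69) (nat_lit 0) (nat_lit 0)) (.leaf (nat_lit 70) (nat_lit 0) (nat_lit 0)))) (.add (.add (.leaf (nat_lit 71) (nat_lit 0) (nat_lit 0)) (.leaf (nat_lit 72) (nat_lit 0) (nat_lit 0))) (.add (.leaf (nat_lit 73) (nat_lit 0) (nat_lit 0)) (.leaf (nat_lit 74) (nat_lit 0) (nat_lit 0))))) (.add (.add (.leaf (nat_lit 75) (nat_lit 0) (nat_lit 0)) (.add (.leaf (nat_lit 76) (nat_lit 0) (nat_lit 0)) (.leaf (nat_lit 77) (nat_lit 0) (nat_lit 0)))) (.add (.add (.leaf (nat_lit 78) (nat_lit 0) (nat_lit 0)) (.leaf (nat_lit 79) (nat_lit 0) (nat_lit 0))) (.add (.leaf (nat_lit 80) (nat_lit 0) (nat_lit 0)) (.leaf (nat_lit 81) (nat_lit 0) (nat_lit 0)))))))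 (.add (.add (.add (.add (.leaf (nat_lit 82) (nat_lit 0) (nat_lit 0)) (.add (.leaf (nat_lit 83) (nat_lit 0) (nat_lit 0)) (.leaf (nat_lit 84) (nat_lit 0) (nat_lit 0)))) (.add (.add (.leaf (nat_lit 85) (nat_lit 0) (nat_lit 0)) (.leaf (nat_lit 86) (nat_lit 0) (nat_lit 0))) (.add (.leaf (nat_lit 87) (nat_lit 0) (nat_lit 0)) (.leaf (nat_lit 88) (nat_lit 0) (nat_lit 0))))) (.add (.add (.leaf (nat_lit 89) (nat_lit 0) (nat_lit 0)) (.add (.leaf (nat_lit 90) (nat_lit 0) (nat_lit 0)) (.leaf (nat_lit 91) (nat_lit 0) (nat_lit 0)))) (.add (.add (.leaf (nat_lit 92) (nat_lit 0) (nat_lit 0)) (.leaf (nat_lit 93) (nat_lit 0) (nat_lit 0))) (.add (.leaf (nat_lit 94) (nat_lit 0) (nat_lit 0)) (.leaf (nat_lit 95) (nat_lit 0) (nat_lit 0)))))) (.add (.add (.add (.leaf (nat_lit 96) (nat_lit 0) (nat_lit 0)) (.add (.leaf (nat_lit 97) (nat_lit 0) (nat_lit 0)) (.leaf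 (nat_lit 98) (nat_lit 0) (nat_lit 0)))) (.add (.add (.leaf (nat_lit 99) (nat_lit 0) (nat_lit 0)) (.leaf (nat_lit 100) (nat_lit 0) (nat_lit 0))) (.add (.leaf (nat_lit 101) (nat_lit 0) (nat_lit 0)) (.leaf (nat_lit 102) (nat_lit 0) (nat_lit 0))))) (.add (.add (.leaf (nat_lit 103) (nat_lit 0) (nat_lit 0)) (.add (.leaf (nat_lit 104) (nat_lit 0) (nat_lit 0)) (.leaf (nat_lit 105) (nat_lit 0) (nat_lit 0)))) (.add (.add (.leaf (nat_lit 106) (nat_lit 0) (nat_lit 0)) (.leaf (nat_lit 107) (nat_lit 0) (nat_lit 0))) (.add (.leaf (nat_lit 108) (nat_lit 0) (nat_lit 0)) (.leaf (nat_lit 109) (nat_lit 0) (nat_lit 0))))))))),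
  (.add (.add (.add (.add (.add (.add (.leaf (nat_lit 0) (nat_lit 0) (nat_lit 0)) (.add (.leaf (nat_lit 1) (nat_lit 0) (nat_lit 0)) (.leaf (nat_lit 2) (nat_lit 0) (nat_lit 0)))) (.add (.leaf (nat_lit 3) (nat_lit 0) (nat_lit 0)) (.add (.leaf (nat_lit 4) (nat_lit 0) (nat_lit 0)) (.leaf (nat_lit 5) (nat_lit 0) (nat_lit 0))))) (.add (.add (.leaf (nat_lit 6) (nat_lit 0) (nat_lit 0)) (.add (.leaf (nat_lit 7) (nat_lit 0) (nat_lit 0)) (.leaf (nat_lit 8) (nat_lit 0) (nat_lit 0)))) (.add (.add (.leaf (nat_lit 9) (nat_lit 0) (nat_lit 0)) (.leaf (nat_lit 10) (nat_lit 0) (nat_lit 0))) (.add (.leaf (nat_lit 11) (nat_lit 0) (nat_lit 0)) (.leaf (nat_lit 12) (nat_lit 0) (nat_lit 0)))))) (.add (.add (.add (.leaf (nat_lit 13) (nat_lit 0) (nat_lit 0)) (.add (.leaf (nat_lit 14) (nat_lit 0) (nat_lit 0)) (.leaf (nat_lit 15) (nat_lit 0) (nat_lit 0)))) (.add (.add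 (.leaf (nat_lit 16) (nat_lit 0) (nat_lit 0)) (.leaf (nat_lit 17) (nat_lit 0) (nat_lit 0))) (.add (.leaf (nat_lit 18) (nat_lit 0) (nat_lit 0)) (.leaf (nat_lit 19) (nat_lit 0) (nat_lit 0))))) (.add (.add (.leaf (nat_lit 20) (nat_lit 0) (nat_lit 0)) (.add (.leaf (nat_lit 21) (nat_lit 0) (nat_lit 0)) (.leaf (nat_lit 22) (nat_lit 0) (nat_lit 0)))) (.add (.add (.leaf (nat_lit 23) (nat_lit 0) (nat_lit 0)) (.leaf (nat_lit 24) (nat_lit 0) (nat_lit 0))) (.add (.leaf (nat_lit 25) (nat_lit 0) (nat_lit 0)) (.leaf (nat_lit 26) (nat_lit 0) (nat_lit 0))))))) (.add (.add (.add (.add (.leaf (nat_lit 27) (nat_lit 0) (nat_lit 0)) (.add (.leaf (nat_lit 28) (nat_lit 0) (nat_lit 0)) (.leaf (nat_lit 29) (nat_lit 0) (nat_lit 0)))) (.add (.add (.leaf (nat_lit 30) (nat_lit 0) (nat_lit 0)) (.leaf (nat_lit 31) (nat_lit 0) (nat_lit 0))) (.add (.leaf (nat_lit 32) (nat_lit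 0) (nat_lit 0)) (.leaf (nat_lit 33) (nat_lit 0) (nat_lit 0))))) (.add (.add (.leaf (nat_lit 34) (nat_lit 0) (nat_lit 0)) (.add (.leaf (nat_lit 35) (nat_lit 0) (nat_lit 0)) (.leaf (nat_lit 36) (nat_lit 0) (nat_lit 0)))) (.add (.add (.leaf (nat_lit 37) (nat_lit 0) (nat_lit 0)) (.leaf (nat_lit 38) (nat_lit 0) (nat_lit 0))) (.add (.leaf (nat_lit 39) (nat_lit 0) (nat_lit 0)) (.leaf (nat_lit 40) (nat_lit 0) (nat_lit 0)))))) (.add (.add (.add (.leaf (nat_lit 41) (nat_lit 0) (nat_lit 0)) (.add (.leaf (nat_lit 42) (nat_lit 0) (nat_lit 0)) (.leaf (nat_lit 43) (nat_lit 0) (nat_lit 0)))) (.add (.add (.leaf (nat_lit 44) (nat_lit 0) (nat_lit 0)) (.leaf (nat_lit 45) (nat_lit 0) (nat_lit 0))) (.add (.leaf (nat_lit 46) (nat_lit 0) (nat_lit 0)) (.leaf (nat_lit 47) (nat_lit 0) (nat_lit 0))))) (.add (.add (.leaf (nat_lit 48) (nat_lit 0) (nat_lit 0)) (.add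 (.leaf (nat_lit 49) (nat_lit 0) (nat_lit 0)) (.leaf (nat_lit 50) (nat_lit 0) (nat_lit 0)))) (.add (.add (.leaf (nat_lit 51) (nat_lit 0) (nat_lit 0)) (.leaf (nat_lit 52) (nat_lit 0) (nat_lit 0))) (.add (.leaf (nat_lit 53) (nat_lit 0) (nat_lit 0)) (.leaf (nat_lit 54) (nat_lit 0) (nat_lit 0)))))))) (.add (.add (.add (.add (.add (.leaf (nat_lit 55) (nat_lit 0) (nat_lit 0)) (.add (.leaf (nat_lit 56) (nat_lit 0) (nat_lit 0)) (.leaf (nat_lit 57) (nat_lit 0) (nat_lit 0)))) (.add (.add (.leaf (nat_lit 58) (nat_lit 0) (nat_lit 0)) (.leaf (nat_lit 59) (nat_lit 0) (nat_lit 0))) (.add (.leaf (nat_lit 60) (nat_lit 0) (nat_lit 0)) (.leaf (nat_lit 61) (nat_lit 0) (nat_lit 0))))) (.add (.add (.leaf (nat_lit 62) (nat_lit 0) (nat_lit 0)) (.add (.leaf (nat_lit 63) (nat_lit 0) (nat_lit 0)) (.leaf (nat_lit 64) (nat_lit 0) (nat_lit 0)))) (.add (.add (.leaf (nat_lit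 65) (nat_lit 0) (nat_lit 0)) (.leaf (nat_lit 66) (nat_lit 0) (nat_lit 0))) (.add (.leaf (nat_lit 67) (nat_lit 0) (nat_lit 0)) (.leaf (nat_lit 68) (nat_lit 0) (nat_lit 0)))))) (.add (.add (.add (.leaf (nat_lit 69) (nat_lit 0) (nat_lit 0)) (.add (.leaf (nat_lit 70) (nat_lit 0) (nat_lit 0)) (.leaf (nat_lit 71) (nat_lit 0) (nat_lit 0)))) (.add (.add (.leaf (nat_lit 72) (nat_lit 0) (nat_lit 0)) (.leaf (nat_lit 73) (nat_lit 0) (nat_lit 0))) (.add (.leaf (nat_lit 74) (nat_lit 0) (nat_lit 0)) (.leaf (nat_lit 75) (nat_lit 0) (nat_lit 0))))) (.add (.add (.leaf (nat_lit 76) (nat_lit 0) (nat_lit 0)) (.add (.leaf (nat_lit 77) (nat_lit 0) (nat_lit 0)) (.leaf (nat_lit 78) (nat_lit 0) (nat_lit 0)))) (.add (.add (.leaf (nat_lit 79) (nat_lit 0) (nat_lit 0)) (.leaf (nat_lit 80) (nat_lit 0) (nat_lit 0))) (.add (.leaf (nat_lit 81) (nat_lit 0) (nat_lit 0))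 (.leaf (nat_lit 82) (nat_lit 0) (nat_lit 0))))))) (.add (.add (.add (.add (.leaf (nat_lit 83) (nat_lit 0) (nat_lit 0)) (.add (.leaf (nat_lit 84) (nat_lit 0) (nat_lit 0)) (.leaf (nat_lit 85) (nat_lit 0) (nat_lit 0)))) (.add (.add (.leaf (nat_lit 86) (nat_lit 0) (nat_lit 0)) (.leaf (nat_lit 87) (nat_lit 0) (nat_lit 0))) (.add (.leaf (nat_lit 88) (nat_lit 0) (nat_lit 0)) (.leaf (nat_lit 89) (nat_lit 0) (nat_lit 0))))) (.add (.add (.leaf (nat_lit 90) (nat_lit 0) (nat_lit 0)) (.add (.leaf (nat_lit 91) (nat_lit 0) (nat_lit 0)) (.leaf (nat_lit 92) (nat_lit 0) (nat_lit 0)))) (.add (.add (.leaf (nat_lit 93) (nat_lit 0) (nat_lit 0)) (.leaf (nat_lit 94) (nat_lit 0) (nat_lit 0))) (.add (.leaf (nat_lit 95) (nat_lit 0) (nat_lit 0)) (.leaf (nat_lit 96) (nat_lit 0) (nat_lit 0)))))) (.add (.add (.add (.leaf (nat_lit 97) (nat_lit 0) (nat_lit 0)) (.add (.leaf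 (nat_lit 98) (nat_lit 0) (nat_lit 0)) (.leaf (nat_lit 99) (nat_lit 0) (nat_lit 0)))) (.add (.add (.leaf (nat_lit 100) (nat_lit 0) (nat_lit 0)) (.leaf (nat_lit 101) (nat_lit 0) (nat_lit 0))) (.add (.leaf (nat_lit 102) (nat_lit 0) (nat_lit 0)) (.leaf (nat_lit 103) (nat_lit 0) (nat_lit 0))))) (.add (.add (.leaf (nat_lit 104) (nat_lit 0) (nat_lit 0)) (.add (.leaf (nat_lit 105) (nat_lit 0) (nat_lit 0)) (.leaf (nat_lit 106) (nat_lit 0) (nat_lit 0)))) (.add (.add (.leaf (nat_lit 107) (nat_lit 0) (nat_lit 0)) (.leaf (nat_lit 108) (nat_lit 0) (nat_lit 0))) (.add (.leaf (nat_lit 109) (nat_lit 0) (nat_lit 0)) (.leaf (nat_lit 110) (nat_lit 0) (nat_lit 0))))))))),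
  (.add (.add (.add (.add (.add (.add (.leaf (nat_lit 0) (nat_lit 0) (nat_lit 0)) (.add (.leaf (nat_lit 1) (nat_lit 0) (nat_lit 0)) (.leaf (nat_lit 2) (nat_lit 0) (nat_lit 0)))) (.add (.add (.leaf (nat_lit 3) (nat_lit 0) (nat_lit 0)) (.leaf (nat_lit 4) (nat_lit 0) (nat_lit 0))) (.add (.leaf (nat_lit 5) (nat_lit 0) (nat_lit 0)) (.leaf (nat_lit 6) (nat_lit 0) (nat_lit 0))))) (.add (.add (.leaf (nat_lit 7) (nat_lit 0) (nat_lit 0)) (.add (.leaf (nat_lit 8) (nat_lit 0) (nat_lit 0)) (.leaf (nat_lit 9) (nat_lit 0) (nat_lit 0)))) (.add (.add (.leaf (nat_lit 10) (nat_lit 0) (nat_lit 0)) (.leaf (nat_lit 11) (nat_lit 0) (nat_lit 0))) (.add (.leaf (nat_lit 12) (nat_lit 0) (nat_lit 0)) (.leaf (nat_lit 13) (nat_lit 0) (nat_lit 0)))))) (.add (.add (.add (.leaf (nat_lit 14) (nat_lit 0) (nat_lit 0)) (.add (.leaf (nat_lit 15) (nat_lit 0) (nat_lit 0)) (.leaf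 (nat_lit 16) (nat_lit 0) (nat_lit 0)))) (.add (.add (.leaf (nat_lit 17) (nat_lit 0) (nat_lit 0)) (.leaf (nat_lit 18) (nat_lit 0) (nat_lit 0))) (.add (.leaf (nat_lit 19) (nat_lit 0) (nat_lit 0)) (.leaf (nat_lit 20) (nat_lit 0) (nat_lit 0))))) (.add (.add (.leaf (nat_lit 21) (nat_lit 0) (nat_lit 0)) (.add (.leaf (nat_lit 22) (nat_lit 0) (nat_lit 0)) (.leaf (nat_lit 23) (nat_lit 0) (nat_lit 0)))) (.add (.add (.leaf (nat_lit 24) (nat_lit 0) (nat_lit 0)) (.leaf (nat_lit 25) (nat_lit 0) (nat_lit 0))) (.add (.leaf (nat_lit 26) (nat_lit 0) (nat_lit 0)) (.leaf (nat_lit 27) (nat_lit 0) (nat_lit 0))))))) (.add (.add (.add (.add (.leaf (nat_lit 28) (nat_lit 0) (nat_lit 0)) (.add (.leaf (nat_lit 29) (nat_lit 0) (nat_lit 0)) (.leaf (nat_lit 30) (nat_lit 0) (nat_lit 0)))) (.add (.add (.leaf (nat_lit 31) (nat_lit 0) (nat_lit 0)) (.leaf (nat_lit 32) (nat_lit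 0) (nat_lit 0))) (.add (.leaf (nat_lit 33) (nat_lit 0) (nat_lit 0)) (.leaf (nat_lit 34) (nat_lit 0) (nat_lit 0))))) (.add (.add (.leaf (nat_lit 35) (nat_lit 0) (nat_lit 0)) (.add (.leaf (nat_lit 36) (nat_lit 0) (nat_lit 0)) (.leaf (nat_lit 37) (nat_lit 0) (nat_lit 0)))) (.add (.add (.leaf (nat_lit 38) (nat_lit 0) (nat_lit 0)) (.leaf (nat_lit 39) (nat_lit 0) (nat_lit 0))) (.add (.leaf (nat_lit 40) (nat_lit 0) (nat_lit 0)) (.leaf (nat_lit 41) (nat_lit 0) (nat_lit 0)))))) (.add (.add (.add (.leaf (nat_lit 42) (nat_lit 0) (nat_lit 0)) (.add (.leaf (nat_lit 43) (nat_lit 0) (nat_lit 0)) (.leaf (nat_lit 44) (nat_lit 0) (nat_lit 0)))) (.add (.add (.leaf (nat_lit 45) (nat_lit 0) (nat_lit 0)) (.leaf (nat_lit 46) (nat_lit 0) (nat_lit 0))) (.add (.leaf (nat_lit 47) (nat_lit 0) (nat_lit 0)) (.leaf (nat_lit 48) (nat_lit 0) (nat_lit 0))))) (.add (.add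 (.leaf (nat_lit 49) (nat_lit 0) (nat_lit 0)) (.add (.leaf (nat_lit 50) (nat_lit 0) (nat_lit 0)) (.leaf (nat_lit 51) (nat_lit 0) (nat_lit 0)))) (.add (.add (.leaf (nat_lit 52) (nat_lit 0) (nat_lit 0)) (.leaf (nat_lit 53) (nat_lit 0) (nat_lit 0))) (.add (.leaf (nat_lit 54) (nat_lit 0) (nat_lit 0)) (.leaf (nat_lit 55) (nat_lit 0) (nat_lit 0)))))))) (.add (.add (.add (.add (.add (.leaf (nat_lit 56) (nat_lit 0) (nat_lit 0)) (.add (.leaf (nat_lit 57) (nat_lit 0) (nat_lit 0)) (.leaf (nat_lit 58) (nat_lit 0) (nat_lit 0)))) (.add (.add (.leaf (nat_lit 59) (nat_lit 0) (nat_lit 0)) (.leaf (nat_lit 60) (nat_lit 0) (nat_lit 0))) (.add (.leaf (nat_lit 61) (nat_lit 0) (nat_lit 0)) (.leaf (nat_lit 62) (nat_lit 0) (nat_lit 0))))) (.add (.add (.leaf (nat_lit 63) (nat_lit 0) (nat_lit 0)) (.add (.leaf (nat_lit 64) (nat_lit 0) (nat_lit 0)) (.leaf (nat_lit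 65) (nat_lit 0) (nat_lit 0)))) (.add (.add (.leaf (nat_lit 66) (nat_lit 0) (nat_lit 0)) (.leaf (nat_lit 67) (nat_lit 0) (nat_lit 0))) (.add (.leaf (nat_lit 68) (nat_lit 0) (nat_lit 0)) (.leaf (nat_lit 69) (nat_lit 0) (nat_lit 0)))))) (.add (.add (.add (.leaf (nat_lit 70) (nat_lit 0) (nat_lit 0)) (.add (.leaf (nat_lit 71) (nat_lit 0) (nat_lit 0)) (.leaf (nat_lit 72) (nat_lit 0) (nat_lit 0)))) (.add (.add (.leaf (nat_lit 73) (nat_lit 0) (nat_lit 0)) (.leaf (nat_lit 74) (nat_lit 0) (nat_lit 0))) (.add (.leaf (nat_lit 75) (nat_lit 0) (nat_lit 0)) (.leaf (nat_lit 76) (nat_lit 0) (nat_lit 0))))) (.add (.add (.leaf (nat_lit 77) (nat_lit 0) (nat_lit 0)) (.add (.leaf (nat_lit 78) (nat_lit 0) (nat_lit 0)) (.leaf (nat_lit 79) (nat_lit 0) (nat_lit 0)))) (.add (.add (.leaf (nat_lit 80) (nat_lit 0) (nat_lit 0)) (.leaf (nat_lit 81) (nat_lit 0) (nat_lit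 0))) (.add (.leaf (nat_lit 82) (nat_lit 0) (nat_lit 0)) (.leaf (nat_lit 83) (nat_lit 0) (nat_lit 0))))))) (.add (.add (.add (.add (.leaf (nat_lit 84) (nat_lit 0) (nat_lit 0)) (.add (.leaf (nat_lit 85) (nat_lit 0) (nat_lit 0)) (.leaf (nat_lit 86) (nat_lit 0) (nat_lit 0)))) (.add (.add (.leaf (nat_lit 87) (nat_lit 0) (nat_lit 0)) (.leaf (nat_lit 88) (nat_lit 0) (nat_lit 0))) (.add (.leaf (nat_lit 89) (nat_lit 0) (nat_lit 0)) (.leaf (nat_lit 90) (nat_lit 0) (nat_lit 0))))) (.add (.add (.leaf (nat_lit 91) (nat_lit 0) (nat_lit 0)) (.add (.leaf (nat_lit 92) (nat_lit 0) (nat_lit 0)) (.leaf (nat_lit 93) (nat_lit 0) (nat_lit 0)))) (.add (.add (.leaf (nat_lit 94) (nat_lit 0) (nat_lit 0)) (.leaf (nat_lit 95) (nat_lit 0) (nat_lit 0))) (.add (.leaf (nat_lit 96) (nat_lit 0) (nat_lit 0)) (.leaf (nat_lit 97) (nat_lit 0) (nat_lit 0)))))) (.add (.add (.add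 (.leaf (nat_lit 98) (nat_lit 0) (nat_lit 0)) (.add (.leaf (nat_lit 99) (nat_lit 0) (nat_lit 0)) (.leaf (nat_lit 100) (nat_lit 0) (nat_lit 0)))) (.add (.add (.leaf (nat_lit 101) (nat_lit 0) (nat_lit 0)) (.leaf (nat_lit 102) (nat_lit 0) (nat_lit 0))) (.add (.leaf (nat_lit 103) (nat_lit 0) (nat_lit 0)) (.leaf (nat_lit 104) (nat_lit 0) (nat_lit 0))))) (.add (.add (.leaf (nat_lit 105) (nat_lit 0) (nat_lit 0)) (.add (.leaf (nat_lit 106) (nat_lit 0) (nat_lit 0)) (.leaf (nat_lit 107) (nat_lit 0) (nat_lit 0)))) (.add (.add (.leaf (nat_lit 108) (nat_lit 0) (nat_lit 0)) (.leaf (nat_lit 109) (nat_lit 0) (nat_lit 0))) (.add (.leaf (nat_lit 110) (nat_lit 0) (nat_lit 0)) (.leaf (nat_lit 111) (nat_lit 0) (nat_lit 0))))))))),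
  (.add (.add (.add (.add (.add (.add (.leaf (nat_lit 0) (nat_lit 0) (nat_lit 0)) (.add (.leaf (nat_lit 1) (nat_lit 0) (nat_lit 0)) (.leaf (nat_lit 2) (nat_lit 0) (nat_lit 0)))) (.add (.add (.leaf (nat_lit 3) (nat_lit 0) (nat_lit 0)) (.leaf (nat_lit 4) (nat_lit 0) (nat_lit 0))) (.add (.leaf (nat_lit 5) (nat_lit 0) (nat_lit 0)) (.leaf (nat_lit 6) (nat_lit 0) (nat_lit 0))))) (.add (.add (.leaf (nat_lit 7) (nat_lit 0) (nat_lit 0)) (.add (.leaf (nat_lit 8) (nat_lit 0) (nat_lit 0)) (.leaf (nat_lit 9) (nat_lit 0) (nat_lit 0)))) (.add (.add (.leaf (nat_lit 10) (nat_lit 0) (nat_lit 0)) (.leaf (nat_lit 11) (nat_lit 0) (nat_lit 0))) (.add (.leaf (nat_lit 12) (nat_lit 0) (nat_lit 0)) (.leaf (nat_lit 13) (nat_lit 0) (nat_lit 0)))))) (.add (.add (.add (.leaf (nat_lit 14) (nat_lit 0) (nat_lit 0)) (.add (.leaf (nat_lit 15) (nat_lit 0) (nat_lit 0)) (.leaf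 (nat_lit 16) (nat_lit 0) (nat_lit 0)))) (.add (.add (.leaf (nat_lit 17) (nat_lit 0) (nat_lit 0)) (.leaf (nat_lit 18) (nat_lit 0) (nat_lit 0))) (.add (.leaf (nat_lit 19) (nat_lit 0) (nat_lit 0)) (.leaf (nat_lit 20) (nat_lit 0) (nat_lit 0))))) (.add (.add (.leaf (nat_lit 21) (nat_lit 0) (nat_lit 0)) (.add (.leaf (nat_lit 22) (nat_lit 0) (nat_lit 0)) (.leaf (nat_lit 23) (nat_lit 0) (nat_lit 0)))) (.add (.add (.leaf (nat_lit 24) (nat_lit 0) (nat_lit 0)) (.leaf (nat_lit 25) (nat_lit 0) (nat_lit 0))) (.add (.leaf (nat_lit 26) (nat_lit 0) (nat_lit 0)) (.leaf (nat_lit 27) (nat_lit 0) (nat_lit 0))))))) (.add (.add (.add (.add (.leaf (nat_lit 28) (nat_lit 0) (nat_lit 0)) (.add (.leaf (nat_lit 29) (nat_lit 0) (nat_lit 0)) (.leaf (nat_lit 30) (nat_lit 0) (nat_lit 0)))) (.add (.add (.leaf (nat_lit 31) (nat_lit 0) (nat_lit 0)) (.leaf (nat_lit 32) (nat_lit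 0) (nat_lit 0))) (.add (.leaf (nat_lit 33) (nat_lit 0) (nat_lit 0)) (.leaf (nat_lit 34) (nat_lit 0) (nat_lit 0))))) (.add (.add (.leaf (nat_lit 35) (nat_lit 0) (nat_lit 0)) (.add (.leaf (nat_lit 36) (nat_lit 0) (nat_lit 0)) (.leaf (nat_lit 37) (nat_lit 0) (nat_lit 0)))) (.add (.add (.leaf (nat_lit 38) (nat_lit 0) (nat_lit 0)) (.leaf (nat_lit 39) (nat_lit 0) (nat_lit 0))) (.add (.leaf (nat_lit 40) (nat_lit 0) (nat_lit 0)) (.leaf (nat_lit 41) (nat_lit 0) (nat_lit 0)))))) (.add (.add (.add (.leaf (nat_lit 42) (nat_lit 0) (nat_lit 0)) (.add (.leaf (nat_lit 43) (nat_lit 0) (nat_lit 0)) (.leaf (nat_lit 44) (nat_lit 0) (nat_lit 0)))) (.add (.add (.leaf (nat_lit 45) (nat_lit 0) (nat_lit 0)) (.leaf (nat_lit 46) (nat_lit 0) (nat_lit 0))) (.add (.leaf (nat_lit 47) (nat_lit 0) (nat_lit 0)) (.leaf (nat_lit 48) (nat_lit 0) (nat_lit 0))))) (.add (.add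 (.leaf (nat_lit 49) (nat_lit 0) (nat_lit 0)) (.add (.leaf (nat_lit 50) (nat_lit 0) (nat_lit 0)) (.leaf (nat_lit 51) (nat_lit 0) (nat_lit 0)))) (.add (.add (.leaf (nat_lit 52) (nat_lit 0) (nat_lit 0)) (.leaf (nat_lit 53) (nat_lit 0) (nat_lit 0))) (.add (.leaf (nat_lit 54) (nat_lit 0) (nat_lit 0)) (.leaf (nat_lit 55) (nat_lit 0) (nat_lit 0)))))))) (.add (.add (.add (.add (.add (.leaf (nat_lit 56) (nat_lit 0) (nat_lit 0)) (.add (.leaf (nat_lit 57) (nat_lit 0) (nat_lit 0)) (.leaf (nat_lit 58) (nat_lit 0) (nat_lit 0)))) (.add (.add (.leaf (nat_lit 59) (nat_lit 0) (nat_lit 0)) (.leaf (nat_lit 60) (nat_lit 0) (nat_lit 0))) (.add (.leaf (nat_lit 61) (nat_lit 0) (nat_lit 0)) (.leaf (nat_lit 62) (nat_lit 0) (nat_lit 0))))) (.add (.add (.leaf (nat_lit 63) (nat_lit 0) (nat_lit 0)) (.add (.leaf (nat_lit 64) (nat_lit 0) (nat_lit 0)) (.leaf (nat_lit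 65) (nat_lit 0) (nat_lit 0)))) (.add (.add (.leaf (nat_lit 66) (nat_lit 0) (nat_lit 0)) (.leaf (nat_lit 67) (nat_lit 0) (nat_lit 0))) (.add (.leaf (nat_lit 68) (nat_lit 0) (nat_lit 0)) (.leaf (nat_lit 69) (nat_lit 0) (nat_lit 0)))))) (.add (.add (.add (.leaf (nat_lit 70) (nat_lit 0) (nat_lit 0)) (.add (.leaf (nat_lit 71) (nat_lit 0) (nat_lit 0)) (.leaf (nat_lit 72) (nat_lit 0) (nat_lit 0)))) (.add (.add (.leaf (nat_lit 73) (nat_lit 0) (nat_lit 0)) (.leaf (nat_lit 74) (nat_lit 0) (nat_lit 0))) (.add (.leaf (nat_lit 75) (nat_lit 0) (nat_lit 0)) (.leaf (nat_lit 76) (nat_lit 0) (nat_lit 0))))) (.add (.add (.leaf (nat_lit 77) (nat_lit 0) (nat_lit 0)) (.add (.leaf (nat_lit 78) (nat_lit 0) (nat_lit 0)) (.leaf (nat_lit 79) (nat_lit 0) (nat_lit 0)))) (.add (.add (.leaf (nat_lit 80) (nat_lit 0) (nat_lit 0)) (.leaf (nat_lit 81) (nat_lit 0) (nat_lit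 0))) (.add (.leaf (nat_lit 82) (nat_lit 0) (nat_lit 0)) (.leaf (nat_lit 83) (nat_lit 0) (nat_lit 0))))))) (.add (.add (.add (.add (.leaf (nat_lit 84) (nat_lit 0) (nat_lit 0)) (.add (.leaf (nat_lit 85) (nat_lit 0) (nat_lit 0)) (.leaf (nat_lit 86) (nat_lit 0) (nat_lit 0)))) (.add (.add (.leaf (nat_lit 87) (nat_lit 0) (nat_lit 0)) (.leaf (nat_lit 88) (nat_lit 0) (nat_lit 0))) (.add (.leaf (nat_lit 89) (nat_lit 0) (nat_lit 0)) (.leaf (nat_lit 90) (nat_lit 0) (nat_lit 0))))) (.add (.add (.leaf (nat_lit 91) (nat_lit 0) (nat_lit 0)) (.add (.leaf (nat_lit 92) (nat_lit 0) (nat_lit 0)) (.leaf (nat_lit 93) (nat_lit 0) (nat_lit 0)))) (.add (.add (.leaf (nat_lit 94) (nat_lit 0) (nat_lit 0)) (.leaf (nat_lit 95) (nat_lit 0) (nat_lit 0))) (.add (.leaf (nat_lit 96) (nat_lit 0) (nat_lit 0)) (.leaf (nat_lit 97) (nat_lit 0) (nat_lit 0)))))) (.add (.add (.add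 (.leaf (nat_lit 98) (nat_lit 0) (nat_lit 0)) (.add (.leaf (nat_lit 99) (nat_lit 0) (nat_lit 0)) (.leaf (nat_lit 100) (nat_lit 0) (nat_lit 0)))) (.add (.add (.leaf (nat_lit 101) (nat_lit 0) (nat_lit 0)) (.leaf (nat_lit 102) (nat_lit 0) (nat_lit 0))) (.add (.leaf (nat_lit 103) (nat_lit 0) (nat_lit 0)) (.leaf (nat_lit 104) (nat_lit 0) (nat_lit 0))))) (.add (.add (.add (.leaf (nat_lit 105) (nat_lit 0) (nat_lit 0)) (.leaf (nat_lit 106) (nat_lit 0) (nat_lit 0))) (.add (.leaf (nat_lit 107) (nat_lit 0) (nat_lit 0)) (.leaf (nat_lit 108) (nat_lit 0) (nat_lit 0)))) (.add (.add (.leaf (nat_lit 109) (nat_lit 0) (nat_lit 0)) (.leaf (nat_lit 110) (nat_lit 0) (nat_lit 0))) (.add (.leaf (nat_lit 111) (nat_lit 0) (nat_lit 0)) (.leaf (nat_lit 112) (nat_lit 0) (nat_lit 0))))))))),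
  (.add (.add (.add (.add (.add (.add (.leaf (nat_lit 0) (nat_lit 0) (nat_lit 0)) (.add (.leaf (nat_lit 1) (nat_lit 0) (nat_lit 0)) (.leaf (nat_lit 2) (nat_lit 0) (nat_lit 0)))) (.add (.add (.leaf (nat_lit 3) (nat_lit 0) (nat_lit 0)) (.leaf (nat_lit 4) (nat_lit 0) (nat_lit 0))) (.add (.leaf (nat_lit 5) (nat_lit 0) (nat_lit 0)) (.leaf (nat_lit 6) (nat_lit 0) (nat_lit 0))))) (.add (.add (.leaf (nat_lit 7) (nat_lit 0) (nat_lit 0)) (.add (.leaf (nat_lit 8) (nat_lit 0) (nat_lit 0)) (.leaf (nat_lit 9) (nat_lit 0) (nat_lit 0)))) (.add (.add (.leaf (nat_lit 10) (nat_lit 0) (nat_lit 0)) (.leaf (nat_lit 11) (nat_lit 0) (nat_lit 0))) (.add (.leaf (nat_lit 12) (nat_lit 0) (nat_lit 0)) (.leaf (nat_lit 13) (nat_lit 0) (nat_lit 0)))))) (.add (.add (.add (.leaf (nat_lit 14) (nat_lit 0) (nat_lit 0)) (.add (.leaf (nat_lit 15) (nat_lit 0) (nat_lit 0)) (.leaf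 (nat_lit 16) (nat_lit 0) (nat_lit 0)))) (.add (.add (.leaf (nat_lit 17) (nat_lit 0) (nat_lit 0)) (.leaf (nat_lit 18) (nat_lit 0) (nat_lit 0))) (.add (.leaf (nat_lit 19) (nat_lit 0) (nat_lit 0)) (.leaf (nat_lit 20) (nat_lit 0) (nat_lit 0))))) (.add (.add (.leaf (nat_lit 21) (nat_lit 0) (nat_lit 0)) (.add (.leaf (nat_lit 22) (nat_lit 0) (nat_lit 0)) (.leaf (nat_lit 23) (nat_lit 0) (nat_lit 0)))) (.add (.add (.leaf (nat_lit 24) (nat_lit 0) (nat_lit 0)) (.leaf (nat_lit 25) (nat_lit 0) (nat_lit 0))) (.add (.leaf (nat_lit 26) (nat_lit 0) (nat_lit 0)) (.leaf (nat_lit 27) (nat_lit 0) (nat_lit 0))))))) (.add (.add (.add (.add (.leaf (nat_lit 28) (nat_lit 0) (nat_lit 0)) (.add (.leaf (nat_lit 29) (nat_lit 0) (nat_lit 0)) (.leaf (nat_lit 30) (nat_lit 0) (nat_lit 0)))) (.add (.add (.leaf (nat_lit 31) (nat_lit 0) (nat_lit 0)) (.leaf (nat_lit 32) (nat_lit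 0) (nat_lit 0))) (.add (.leaf (nat_lit 33) (nat_lit 0) (nat_lit 0)) (.leaf (nat_lit 34) (nat_lit 0) (nat_lit 0))))) (.add (.add (.leaf (nat_lit 35) (nat_lit 0) (nat_lit 0)) (.add (.leaf (nat_lit 36) (nat_lit 0) (nat_lit 0)) (.leaf (nat_lit 37) (nat_lit 0) (nat_lit 0)))) (.add (.add (.leaf (nat_lit 38) (nat_lit 0) (nat_lit 0)) (.leaf (nat_lit 39) (nat_lit 0) (nat_lit 0))) (.add (.leaf (nat_lit 40) (nat_lit 0) (nat_lit 0)) (.leaf (nat_lit 41) (nat_lit 0) (nat_lit 0)))))) (.add (.add (.add (.leaf (nat_lit 42) (nat_lit 0) (nat_lit 0)) (.add (.leaf (nat_lit 43) (nat_lit 0) (nat_lit 0)) (.leaf (nat_lit 44) (nat_lit 0) (nat_lit 0)))) (.add (.add (.leaf (nat_lit 45) (nat_lit 0) (nat_lit 0)) (.leaf (nat_lit 46) (nat_lit 0) (nat_lit 0))) (.add (.leaf (nat_lit 47) (nat_lit 0) (nat_lit 0)) (.leaf (nat_lit 48) (nat_lit 0) (nat_lit 0))))) (.add (.add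 (.add (.leaf (nat_lit 49) (nat_lit 0) (nat_lit 0)) (.leaf (nat_lit 50) (nat_lit 0) (nat_lit 0))) (.add (.leaf (nat_lit 51) (nat_lit 0) (nat_lit 0)) (.leaf (nat_lit 52) (nat_lit 0) (nat_lit 0)))) (.add (.add (.leaf (nat_lit 53) (nat_lit 0) (nat_lit 0)) (.leaf (nat_lit 54) (nat_lit 0) (nat_lit 0))) (.add (.leaf (nat_lit 55) (nat_lit 0) (nat_lit 0)) (.leaf (nat_lit 56) (nat_lit 0) (nat_lit 0)))))))) (.add (.add (.add (.add (.add (.leaf (nat_lit 57) (nat_lit 0) (nat_lit 0)) (.add (.leaf (nat_lit 58) (nat_lit 0) (nat_lit 0)) (.leaf (nat_lit 59) (nat_lit 0) (nat_lit 0)))) (.add (.add (.leaf (nat_lit 60) (nat_lit 0) (nat_lit 0)) (.leaf (nat_lit 61) (nat_lit 0) (nat_lit 0))) (.add (.leaf (nat_lit 62) (nat_lit 0) (nat_lit 0)) (.leaf (nat_lit 63) (nat_lit 0) (nat_lit 0))))) (.add (.add (.leaf (nat_lit 64) (nat_lit 0) (nat_lit 0)) (.add (.leaf (nat_lit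 65) (nat_lit 0) (nat_lit 0)) (.leaf (nat_lit 66) (nat_lit 0) (nat_lit 0)))) (.add (.add (.leaf (nat_lit 67) (nat_lit 0) (nat_lit 0)) (.leaf (nat_lit 68) (nat_lit 0) (nat_lit 0))) (.add (.leaf (nat_lit 69) (nat_lit 0) (nat_lit 0)) (.leaf (nat_lit 70) (nat_lit 0) (nat_lit 0)))))) (.add (.add (.add (.leaf (nat_lit 71) (nat_lit 0) (nat_lit 0)) (.add (.leaf (nat_lit 72) (nat_lit 0) (nat_lit 0)) (.leaf (nat_lit 73) (nat_lit 0) (nat_lit 0)))) (.add (.add (.leaf (nat_lit 74) (nat_lit 0) (nat_lit 0)) (.leaf (nat_lit 75) (nat_lit 0) (nat_lit 0))) (.add (.leaf (nat_lit 76) (nat_lit 0) (nat_lit 0)) (.leaf (nat_lit 77) (nat_lit 0) (nat_lit 0))))) (.add (.add (.leaf (nat_lit 78) (nat_lit 0) (nat_lit 0)) (.add (.leaf (nat_lit 79) (nat_lit 0) (nat_lit 0)) (.leaf (nat_lit 80) (nat_lit 0) (nat_lit 0)))) (.add (.add (.leaf (nat_lit 81) (nat_lit 0) (nat_lit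 0)) (.leaf (nat_lit 82) (nat_lit 0) (nat_lit 0))) (.add (.leaf (nat_lit 83) (nat_lit 0) (nat_lit 0)) (.leaf (nat_lit 84) (nat_lit 0) (nat_lit 0))))))) (.add (.add (.add (.add (.leaf (nat_lit 85) (nat_lit 0) (nat_lit 0)) (.add (.leaf (nat_lit 86) (nat_lit 0) (nat_lit 0)) (.leaf (nat_lit 87) (nat_lit 0) (nat_lit 0)))) (.add (.add (.leaf (nat_lit 88) (nat_lit 0) (nat_lit 0)) (.leaf (nat_lit 89) (nat_lit 0) (nat_lit 0))) (.add (.leaf (nat_lit 90) (nat_lit 0) (nat_lit 0)) (.leaf (nat_lit 91) (nat_lit 0) (nat_lit 0))))) (.add (.add (.leaf (nat_lit 92) (nat_lit 0) (nat_lit 0)) (.add (.leaf (nat_lit 93) (nat_lit 0) (nat_lit 0)) (.leaf (nat_lit 94) (nat_lit 0) (nat_lit 0)))) (.add (.add (.leaf (nat_lit 95) (nat_lit 0) (nat_lit 0)) (.leaf (nat_lit 96) (nat_lit 0) (nat_lit 0))) (.add (.leaf (nat_lit 97) (nat_lit 0) (nat_lit 0)) (.leaf (nat_lit 98)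 (nat_lit 0) (nat_lit 0)))))) (.add (.add (.add (.leaf (nat_lit 99) (nat_lit 0) (nat_lit 0)) (.add (.leaf (nat_lit 100) (nat_lit 0) (nat_lit 0)) (.leaf (nat_lit 101) (nat_lit 0) (nat_lit 0)))) (.add (.add (.leaf (nat_lit 102) (nat_lit 0) (nat_lit 0)) (.leaf (nat_lit 103) (nat_lit 0) (nat_lit 0))) (.add (.leaf (nat_lit 104) (nat_lit 0) (nat_lit 0)) (.leaf (nat_lit 105) (nat_lit 0) (nat_lit 0))))) (.add (.add (.add (.leaf (nat_lit 106) (nat_lit 0) (nat_lit 0)) (.leaf (nat_lit 107) (nat_lit 0) (nat_lit 0))) (.add (.leaf (nat_lit 108) (nat_lit 0) (nat_lit 0)) (.leaf (nat_lit 109) (nat_lit 0) (nat_lit 0)))) (.add (.add (.leaf (nat_lit 110) (nat_lit 0) (nat_lit 0)) (.leaf (nat_lit 111) (nat_lit 0) (nat_lit 0))) (.add (.leaf (nat_lit 112) (nat_lit 0) (nat_lit 0)) (.leaf (nat_lit 113) (nat_lit 0) (nat_lit 0))))))))),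
  (.add (.add (.add (.add (.add (.add (.leaf (nat_lit 0) (nat_lit 0) (nat_lit 0)) (.add (.leaf (nat_lit 1) (nat_lit 0) (nat_lit 0)) (.leaf (nat_lit 2) (nat_lit 0) (nat_lit 0)))) (.add (.add (.leaf (nat_lit 3) (nat_lit 0) (nat_lit 0)) (.leaf (nat_lit 4) (nat_lit 0) (nat_lit 0))) (.add (.leaf (nat_lit 5) (nat_lit 0) (nat_lit 0)) (.leaf (nat_lit 6) (nat_lit 0) (nat_lit 0))))) (.add (.add (.leaf (nat_lit 7) (nat_lit 0) (nat_lit 0)) (.add (.leaf (nat_lit 8) (nat_lit 0) (nat_lit 0)) (.leaf (nat_lit 9) (nat_lit 0) (nat_lit 0)))) (.add (.add (.leaf (nat_lit 10) (nat_lit 0) (nat_lit 0)) (.leaf (nat_lit 11) (nat_lit 0) (nat_lit 0))) (.add (.leaf (nat_lit 12) (nat_lit 0) (nat_lit 0)) (.leaf (nat_lit 13) (nat_lit 0) (nat_lit 0)))))) (.add (.add (.add (.leaf (nat_lit 14) (nat_lit 0) (nat_lit 0)) (.add (.leaf (nat_lit 15) (nat_lit 0) (nat_lit 0)) (.leaf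 (nat_lit 16) (nat_lit 0) (nat_lit 0)))) (.add (.add (.leaf (nat_lit 17) (nat_lit 0) (nat_lit 0)) (.leaf (nat_lit 18) (nat_lit 0) (nat_lit 0))) (.add (.leaf (nat_lit 19) (nat_lit 0) (nat_lit 0)) (.leaf (nat_lit 20) (nat_lit 0) (nat_lit 0))))) (.add (.add (.leaf (nat_lit 21) (nat_lit 0) (nat_lit 0)) (.add (.leaf (nat_lit 22) (nat_lit 0) (nat_lit 0)) (.leaf (nat_lit 23) (nat_lit 0) (nat_lit 0)))) (.add (.add (.leaf (nat_lit 24) (nat_lit 0) (nat_lit 0)) (.leaf (nat_lit 25) (nat_lit 0) (nat_lit 0))) (.add (.leaf (nat_lit 26) (nat_lit 0) (nat_lit 0)) (.leaf (nat_lit 27) (nat_lit 0) (nat_lit 0))))))) (.add (.add (.add (.add (.leaf (nat_lit 28) (nat_lit 0) (nat_lit 0)) (.add (.leaf (nat_lit 29) (nat_lit 0) (nat_lit 0)) (.leaf (nat_lit 30) (nat_lit 0) (nat_lit 0)))) (.add (.add (.leaf (nat_lit 31) (nat_lit 0) (nat_lit 0)) (.leaf (nat_lit 32) (nat_lit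 0) (nat_lit 0))) (.add (.leaf (nat_lit 33) (nat_lit 0) (nat_lit 0)) (.leaf (nat_lit 34) (nat_lit 0) (nat_lit 0))))) (.add (.add (.leaf (nat_lit 35) (nat_lit 0) (nat_lit 0)) (.add (.leaf (nat_lit 36) (nat_lit 0) (nat_lit 0)) (.leaf (nat_lit 37) (nat_lit 0) (nat_lit 0)))) (.add (.add (.leaf (nat_lit 38) (nat_lit 0) (nat_lit 0)) (.leaf (nat_lit 39) (nat_lit 0) (nat_lit 0))) (.add (.leaf (nat_lit 40) (nat_lit 0) (nat_lit 0)) (.leaf (nat_lit 41) (nat_lit 0) (nat_lit 0)))))) (.add (.add (.add (.leaf (nat_lit 42) (nat_lit 0) (nat_lit 0)) (.add (.leaf (nat_lit 43) (nat_lit 0) (nat_lit 0)) (.leaf (nat_lit 44) (nat_lit 0) (nat_lit 0)))) (.add (.add (.leaf (nat_lit 45) (nat_lit 0) (nat_lit 0)) (.leaf (nat_lit 46) (nat_lit 0) (nat_lit 0))) (.add (.leaf (nat_lit 47) (nat_lit 0) (nat_lit 0)) (.leaf (nat_lit 48) (nat_lit 0) (nat_lit 0))))) (.add (.add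 (.add (.leaf (nat_lit 49) (nat_lit 0) (nat_lit 0)) (.leaf (nat_lit 50) (nat_lit 0) (nat_lit 0))) (.add (.leaf (nat_lit 51) (nat_lit 0) (nat_lit 0)) (.leaf (nat_lit 52) (nat_lit 0) (nat_lit 0)))) (.add (.add (.leaf (nat_lit 53) (nat_lit 0) (nat_lit 0)) (.leaf (nat_lit 54) (nat_lit 0) (nat_lit 0))) (.add (.leaf (nat_lit 55) (nat_lit 0) (nat_lit 0)) (.leaf (nat_lit 56) (nat_lit 0) (nat_lit 0)))))))) (.add (.add (.add (.add (.add (.leaf (nat_lit 57) (nat_lit 0) (nat_lit 0)) (.add (.leaf (nat_lit 58) (nat_lit 0) (nat_lit 0)) (.leaf (nat_lit 59) (nat_lit 0) (nat_lit 0)))) (.add (.add (.leaf (nat_lit 60) (nat_lit 0) (nat_lit 0)) (.leaf (nat_lit 61) (nat_lit 0) (nat_lit 0))) (.add (.leaf (nat_lit 62) (nat_lit 0) (nat_lit 0)) (.leaf (nat_lit 63) (nat_lit 0) (nat_lit 0))))) (.add (.add (.leaf (nat_lit 64) (nat_lit 0) (nat_lit 0)) (.add (.leaf (nat_lit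 65) (nat_lit 0) (nat_lit 0)) (.leaf (nat_lit 66) (nat_lit 0) (nat_lit 0)))) (.add (.add (.leaf (nat_lit 67) (nat_lit 0) (nat_lit 0)) (.leaf (nat_lit 68) (nat_lit 0) (nat_lit 0))) (.add (.leaf (nat_lit 69) (nat_lit 0) (nat_lit 0)) (.leaf (nat_lit 70) (nat_lit 0) (nat_lit 0)))))) (.add (.add (.add (.leaf (nat_lit 71) (nat_lit 0) (nat_lit 0)) (.add (.leaf (nat_lit 72) (nat_lit 0) (nat_lit 0)) (.leaf (nat_lit 73) (nat_lit 0) (nat_lit 0)))) (.add (.add (.leaf (nat_lit 74) (nat_lit 0) (nat_lit 0)) (.leaf (nat_lit 75) (nat_lit 0) (nat_lit 0))) (.add (.leaf (nat_lit 76) (nat_lit 0) (nat_lit 0)) (.leaf (nat_lit 77) (nat_lit 0) (nat_lit 0))))) (.add (.add (.add (.leaf (nat_lit 78) (nat_lit 0) (nat_lit 0)) (.leaf (nat_lit 79) (nat_lit 0) (nat_lit 0))) (.add (.leaf (nat_lit 80) (nat_lit 0) (nat_lit 0)) (.leaf (nat_lit 81) (nat_lit 0) (nat_lit 0))))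 (.add (.add (.leaf (nat_lit 82) (nat_lit 0) (nat_lit 0)) (.leaf (nat_lit 83) (nat_lit 0) (nat_lit 0))) (.add (.leaf (nat_lit 84) (nat_lit 0) (nat_lit 0)) (.leaf (nat_lit 85) (nat_lit 0) (nat_lit 0))))))) (.add (.add (.add (.add (.leaf (nat_lit 86) (nat_lit 0) (nat_lit 0)) (.add (.leaf (nat_lit 87) (nat_lit 0) (nat_lit 0)) (.leaf (nat_lit 88) (nat_lit 0) (nat_lit 0)))) (.add (.add (.leaf (nat_lit 89) (nat_lit 0) (nat_lit 0)) (.leaf (nat_lit 90) (nat_lit 0) (nat_lit 0))) (.add (.leaf (nat_lit 91) (nat_lit 0) (nat_lit 0)) (.leaf (nat_lit 92) (nat_lit 0) (nat_lit 0))))) (.add (.add (.leaf (nat_lit 93) (nat_lit 0) (nat_lit 0)) (.add (.leaf (nat_lit 94) (nat_lit 0) (nat_lit 0)) (.leaf (nat_lit 95) (nat_lit 0) (nat_lit 0)))) (.add (.add (.leaf (nat_lit 96) (nat_lit 0) (nat_lit 0)) (.leaf (nat_lit 97) (nat_lit 0) (nat_lit 0))) (.add (.leaf (nat_lit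 98) (nat_lit 0) (nat_lit 0)) (.leaf (nat_lit 99) (nat_lit 0) (nat_lit 0)))))) (.add (.add (.add (.leaf (nat_lit 100) (nat_lit 0) (nat_lit 0)) (.add (.leaf (nat_lit 101) (nat_lit 0) (nat_lit 0)) (.leaf (nat_lit 102) (nat_lit 0) (nat_lit 0)))) (.add (.add (.leaf (nat_lit 103) (nat_lit 0) (nat_lit 0)) (.leaf (nat_lit 104) (nat_lit 0) (nat_lit 0))) (.add (.leaf (nat_lit 105) (nat_lit 0) (nat_lit 0)) (.leaf (nat_lit 106) (nat_lit 0) (nat_lit 0))))) (.add (.add (.add (.leaf (nat_lit 107) (nat_lit 0) (nat_lit 0)) (.leaf (nat_lit 108) (nat_lit 0) (nat_lit 0))) (.add (.leaf (nat_lit 109) (nat_lit 0) (nat_lit 0)) (.leaf (nat_lit 110) (nat_lit 0) (nat_lit 0)))) (.add (.add (.leaf (nat_lit 111) (nat_lit 0) (nat_lit 0)) (.leaf (nat_lit 112) (nat_lit 0) (nat_lit 0))) (.add (.leaf (nat_lit 113) (nat_lit 0) (nat_lit 0)) (.leaf (nat_lit 114) (nat_lit 0)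 (nat_lit 0))))))))),
  (.add (.add (.add (.add (.add (.add (.leaf (nat_lit 0) (nat_lit 0) (nat_lit 0)) (.add (.leaf (nat_lit 1) (nat_lit 0) (nat_lit 0)) (.leaf (nat_lit 2) (nat_lit 0) (nat_lit 0)))) (.add (.add (.leaf (nat_lit 3) (nat_lit 0) (nat_lit 0)) (.leaf (nat_lit 4) (nat_lit 0) (nat_lit 0))) (.add (.leaf (nat_lit 5) (nat_lit 0) (nat_lit 0)) (.leaf (nat_lit 6) (nat_lit 0) (nat_lit 0))))) (.add (.add (.leaf (nat_lit 7) (nat_lit 0) (nat_lit 0)) (.add (.leaf (nat_lit 8) (nat_lit 0) (nat_lit 0)) (.leaf (nat_lit 9) (nat_lit 0) (nat_lit 0)))) (.add (.add (.leaf (nat_lit 10) (nat_lit 0) (nat_lit 0)) (.leaf (nat_lit 11) (nat_lit 0) (nat_lit 0))) (.add (.leaf (nat_lit 12) (nat_lit 0) (nat_lit 0)) (.leaf (nat_lit 13) (nat_lit 0) (nat_lit 0)))))) (.add (.add (.add (.leaf (nat_lit 14) (nat_lit 0) (nat_lit 0)) (.add (.leaf (nat_lit 15) (nat_lit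 0) (nat_lit 0)) (.leaf (nat_lit 16) (nat_lit 0) (nat_lit 0)))) (.add (.add (.leaf (nat_lit 17) (nat_lit 0) (nat_lit 0)) (.leaf (nat_lit 18) (nat_lit 0) (nat_lit 0))) (.add (.leaf (nat_lit 19) (nat_lit 0) (nat_lit 0)) (.leaf (nat_lit 20) (nat_lit 0) (nat_lit 0))))) (.add (.add (.add (.leaf (nat_lit 21) (nat_lit 0) (nat_lit 0)) (.leaf (nat_lit 22) (nat_lit 0) (nat_lit 0))) (.add (.leaf (nat_lit 23) (nat_lit 0) (nat_lit 0)) (.leaf (nat_lit 24) (nat_lit 0) (nat_lit 0)))) (.add (.add (.leaf (nat_lit 25) (nat_lit 0) (nat_lit 0)) (.leaf (nat_lit 26) (nat_lit 0) (nat_lit 0))) (.add (.leaf (nat_lit 27) (nat_lit 0) (nat_lit 0)) (.leaf (nat_lit 28) (nat_lit 0) (nat_lit 0))))))) (.add (.add (.add (.add (.leaf (nat_lit 29) (nat_lit 0) (nat_lit 0)) (.add (.leaf (nat_lit 30) (nat_lit 0) (nat_lit 0)) (.leaf (nat_lit 31) (nat_lit 0) (nat_lit 0)))) (.add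 (.add (.leaf (nat_lit 32) (nat_lit 0) (nat_lit 0)) (.leaf (nat_lit 33) (nat_lit 0) (nat_lit 0))) (.add (.leaf (nat_lit 34) (nat_lit 0) (nat_lit 0)) (.leaf (nat_lit 35) (nat_lit 0) (nat_lit 0))))) (.add (.add (.leaf (nat_lit 36) (nat_lit 0) (nat_lit 0)) (.add (.leaf (nat_lit 37) (nat_lit 0) (nat_lit 0)) (.leaf (nat_lit 38) (nat_lit 0) (nat_lit 0)))) (.add (.add (.leaf (nat_lit 39) (nat_lit 0) (nat_lit 0)) (.leaf (nat_lit 40) (nat_lit 0) (nat_lit 0))) (.add (.leaf (nat_lit 41) (nat_lit 0) (nat_lit 0)) (.leaf (nat_lit 42) (nat_lit 0) (nat_lit 0)))))) (.add (.add (.add (.leaf (nat_lit 43) (nat_lit 0) (nat_lit 0)) (.add (.leaf (nat_lit 44) (nat_lit 0) (nat_lit 0)) (.leaf (nat_lit 45) (nat_lit 0) (nat_lit 0)))) (.add (.add (.leaf (nat_lit 46) (nat_lit 0) (nat_lit 0)) (.leaf (nat_lit 47) (nat_lit 0) (nat_lit 0))) (.add (.leaf (nat_lit 48) (nat_lit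 0) (nat_lit 0)) (.leaf (nat_lit 49) (nat_lit 0) (nat_lit 0))))) (.add (.add (.add (.leaf (nat_lit 50) (nat_lit 0) (nat_lit 0)) (.leaf (nat_lit 51) (nat_lit 0) (nat_lit 0))) (.add (.leaf (nat_lit 52) (nat_lit 0) (nat_lit 0)) (.leaf (nat_lit 53) (nat_lit 0) (nat_lit 0)))) (.add (.add (.leaf (nat_lit 54) (nat_lit 0) (nat_lit 0)) (.leaf (nat_lit 55) (nat_lit 0) (nat_lit 0))) (.add (.leaf (nat_lit 56) (nat_lit 0) (nat_lit 0)) (.leaf (nat_lit 57) (nat_lit 0) (nat_lit 0)))))))) (.add (.add (.add (.add (.add (.leaf (nat_lit 58) (nat_lit 0) (nat_lit 0)) (.add (.leaf (nat_lit 59) (nat_lit 0) (nat_lit 0)) (.leaf (nat_lit 60) (nat_lit 0) (nat_lit 0)))) (.add (.add (.leaf (nat_lit 61) (nat_lit 0) (nat_lit 0)) (.leaf (nat_lit 62) (nat_lit 0) (nat_lit 0))) (.add (.leaf (nat_lit 63) (nat_lit 0) (nat_lit 0)) (.leaf (nat_lit 64) (nat_lit 0) (nat_lit 0)))))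 (.add (.add (.leaf (nat_lit 65) (nat_lit 0) (nat_lit 0)) (.add (.leaf (nat_lit 66) (nat_lit 0) (nat_lit 0)) (.leaf (nat_lit 67) (nat_lit 0) (nat_lit 0)))) (.add (.add (.leaf (nat_lit 68) (nat_lit 0) (nat_lit 0)) (.leaf (nat_lit 69) (nat_lit 0) (nat_lit 0))) (.add (.leaf (nat_lit 70) (nat_lit 0) (nat_lit 0)) (.leaf (nat_lit 71) (nat_lit 0) (nat_lit 0)))))) (.add (.add (.add (.leaf (nat_lit 72) (nat_lit 0) (nat_lit 0)) (.add (.leaf (nat_lit 73) (nat_lit 0) (nat_lit 0)) (.leaf (nat_lit 74) (nat_lit 0) (nat_lit 0)))) (.add (.add (.leaf (nat_lit 75) (nat_lit 0) (nat_lit 0)) (.leaf (nat_lit 76) (nat_lit 0) (nat_lit 0))) (.add (.leaf (nat_lit 77) (nat_lit 0) (nat_lit 0)) (.leaf (nat_lit 78) (nat_lit 0) (nat_lit 0))))) (.add (.add (.add (.leaf (nat_lit 79) (nat_lit 0) (nat_lit 0)) (.leaf (nat_lit 80) (nat_lit 0) (nat_lit 0))) (.add (.leaf (nat_lit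 81) (nat_lit 0) (nat_lit 0)) (.leaf (nat_lit 82) (nat_lit 0) (nat_lit 0)))) (.add (.add (.leaf (nat_lit 83) (nat_lit 0) (nat_lit 0)) (.leaf (nat_lit 84) (nat_lit 0) (nat_lit 0))) (.add (.leaf (nat_lit 85) (nat_lit 0) (nat_lit 0)) (.leaf (nat_lit 86) (nat_lit 0) (nat_lit 0))))))) (.add (.add (.add (.add (.leaf (nat_lit 87) (nat_lit 0) (nat_lit 0)) (.add (.leaf (nat_lit 88) (nat_lit 0) (nat_lit 0)) (.leaf (nat_lit 89) (nat_lit 0) (nat_lit 0)))) (.add (.add (.leaf (nat_lit 90) (nat_lit 0) (nat_lit 0)) (.leaf (nat_lit 91) (nat_lit 0) (nat_lit 0))) (.add (.leaf (nat_lit 92) (nat_lit 0) (nat_lit 0)) (.leaf (nat_lit 93) (nat_lit 0) (nat_lit 0))))) (.add (.add (.leaf (nat_lit 94) (nat_lit 0) (nat_lit 0)) (.add (.leaf (nat_lit 95) (nat_lit 0) (nat_lit 0)) (.leaf (nat_lit 96) (nat_lit 0) (nat_lit 0)))) (.add (.add (.leaf (nat_lit 97) (nat_lit 0)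 (nat_lit 0)) (.leaf (nat_lit 98) (nat_lit 0) (nat_lit 0))) (.add (.leaf (nat_lit 99) (nat_lit 0) (nat_lit 0)) (.leaf (nat_lit 100) (nat_lit 0) (nat_lit 0)))))) (.add (.add (.add (.leaf (nat_lit 101) (nat_lit 0) (nat_lit 0)) (.add (.leaf (nat_lit 102) (nat_lit 0) (nat_lit 0)) (.leaf (nat_lit 103) (nat_lit 0) (nat_lit 0)))) (.add (.add (.leaf (nat_lit 104) (nat_lit 0) (nat_lit 0)) (.leaf (nat_lit 105) (nat_lit 0) (nat_lit 0))) (.add (.leaf (nat_lit 106) (nat_lit 0) (nat_lit 0)) (.leaf (nat_lit 107) (nat_lit 0) (nat_lit 0))))) (.add (.add (.add (.leaf (nat_lit 108) (nat_lit 0) (nat_lit 0)) (.leaf (nat_lit 109) (nat_lit 0) (nat_lit 0))) (.add (.leaf (nat_lit 110) (nat_lit 0) (nat_lit 0)) (.leaf (nat_lit 111) (nat_lit 0) (nat_lit 0)))) (.add (.add (.leaf (nat_lit 112) (nat_lit 0) (nat_lit 0)) (.leaf (nat_lit 113) (nat_lit 0) (nat_lit 0))) (.add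 (.leaf (nat_lit 114) (nat_lit 0) (nat_lit 0)) (.leaf (nat_lit 115) (nat_lit 0) (nat_lit 0))))))))),
  (.add (.add (.add (.add (.add (.add (.leaf (nat_lit 0) (nat_lit 0) (nat_lit 0)) (.add (.leaf (nat_lit 1) (nat_lit 0) (nat_lit 0)) (.leaf (nat_lit 2) (nat_lit 0) (nat_lit 0)))) (.add (.add (.leaf (nat_lit 3) (nat_lit 0) (nat_lit 0)) (.leaf (nat_lit 4) (nat_lit 0) (nat_lit 0))) (.add (.leaf (nat_lit 5) (nat_lit 0) (nat_lit 0)) (.leaf (nat_lit 6) (nat_lit 0) (nat_lit 0))))) (.add (.add (.leaf (nat_lit 7) (nat_lit 0) (nat_lit 0)) (.add (.leaf (nat_lit 8) (nat_lit 0) (nat_lit 0)) (.leaf (nat_lit 9) (nat_lit 0) (nat_lit 0)))) (.add (.add (.leaf (nat_lit 10) (nat_lit 0) (nat_lit 0)) (.leaf (nat_lit 11) (nat_lit 0) (nat_lit 0))) (.add (.leaf (nat_lit 12) (nat_lit 0) (nat_lit 0)) (.leaf (nat_lit 13) (nat_lit 0) (nat_lit 0)))))) (.add (.add (.add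 (.leaf (nat_lit 14) (nat_lit 0) (nat_lit 0)) (.add (.leaf (nat_lit 15) (nat_lit 0) (nat_lit 0)) (.leaf (nat_lit 16) (nat_lit 0) (nat_lit 0)))) (.add (.add (.leaf (nat_lit 17) (nat_lit 0) (nat_lit 0)) (.leaf (nat_lit 18) (nat_lit 0) (nat_lit 0))) (.add (.leaf (nat_lit 19) (nat_lit 0) (nat_lit 0)) (.leaf (nat_lit 20) (nat_lit 0) (nat_lit 0))))) (.add (.add (.add (.leaf (nat_lit 21) (nat_lit 0) (nat_lit 0)) (.leaf (nat_lit 22) (nat_lit 0) (nat_lit 0))) (.add (.leaf (nat_lit 23) (nat_lit 0) (nat_lit 0)) (.leaf (nat_lit 24) (nat_lit 0) (nat_lit 0)))) (.add (.add (.leaf (nat_lit 25) (nat_lit 0) (nat_lit 0)) (.leaf (nat_lit 26) (nat_lit 0) (nat_lit 0))) (.add (.leaf (nat_lit 27) (nat_lit 0) (nat_lit 0)) (.leaf (nat_lit 28) (nat_lit 0) (nat_lit 0))))))) (.add (.add (.add (.add (.leaf (nat_lit 29) (nat_lit 0) (nat_lit 0)) (.add (.leaf (nat_lit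 30) (nat_lit 0) (nat_lit 0)) (.leaf (nat_lit 31) (nat_lit 0) (nat_lit 0)))) (.add (.add (.leaf (nat_lit 32) (nat_lit 0) (nat_lit 0)) (.leaf (nat_lit 33) (nat_lit 0) (nat_lit 0))) (.add (.leaf (nat_lit 34) (nat_lit 0) (nat_lit 0)) (.leaf (nat_lit 35) (nat_lit 0) (nat_lit 0))))) (.add (.add (.leaf (nat_lit 36) (nat_lit 0) (nat_lit 0)) (.add (.leaf (nat_lit 37) (nat_lit 0) (nat_lit 0)) (.leaf (nat_lit 38) (nat_lit 0) (nat_lit 0)))) (.add (.add (.leaf (nat_lit 39) (nat_lit 0) (nat_lit 0)) (.leaf (nat_lit 40) (nat_lit 0) (nat_lit 0))) (.add (.leaf (nat_lit 41) (nat_lit 0) (nat_lit 0)) (.leaf (nat_lit 42) (nat_lit 0) (nat_lit 0)))))) (.add (.add (.add (.leaf (nat_lit 43) (nat_lit 0) (nat_lit 0)) (.add (.leaf (nat_lit 44) (nat_lit 0) (nat_lit 0)) (.leaf (nat_lit 45) (nat_lit 0) (nat_lit 0)))) (.add (.add (.leaf (nat_lit 46) (nat_lit 0) (nat_lit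 0)) (.leaf (nat_lit 47) (nat_lit 0) (nat_lit 0))) (.add (.leaf (nat_lit 48) (nat_lit 0) (nat_lit 0)) (.leaf (nat_lit 49) (nat_lit 0) (nat_lit 0))))) (.add (.add (.add (.leaf (nat_lit 50) (nat_lit 0) (nat_lit 0)) (.leaf (nat_lit 51) (nat_lit 0) (nat_lit 0))) (.add (.leaf (nat_lit 52) (nat_lit 0) (nat_lit 0)) (.leaf (nat_lit 53) (nat_lit 0) (nat_lit 0)))) (.add (.add (.leaf (nat_lit 54) (nat_lit 0) (nat_lit 0)) (.leaf (nat_lit 55) (nat_lit 0) (nat_lit 0))) (.add (.leaf (nat_lit 56) (nat_lit 0) (nat_lit 0)) (.leaf (nat_lit 57) (nat_lit 0) (nat_lit 0)))))))) (.add (.add (.add (.add (.add (.leaf (nat_lit 58) (nat_lit 0) (nat_lit 0)) (.add (.leaf (nat_lit 59) (nat_lit 0) (nat_lit 0)) (.leaf (nat_lit 60) (nat_lit 0) (nat_lit 0)))) (.add (.add (.leaf (nat_lit 61) (nat_lit 0) (nat_lit 0)) (.leaf (nat_lit 62) (nat_lit 0) (nat_lit 0))) (.add (.leaf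 (nat_lit 63) (nat_lit 0) (nat_lit 0)) (.leaf (nat_lit 64) (nat_lit 0) (nat_lit 0))))) (.add (.add (.leaf (nat_lit 65) (nat_lit 0) (nat_lit 0)) (.add (.leaf (nat_lit 66) (nat_lit 0) (nat_lit 0)) (.leaf (nat_lit 67) (nat_lit 0) (nat_lit 0)))) (.add (.add (.leaf (nat_lit 68) (nat_lit 0) (nat_lit 0)) (.leaf (nat_lit 69) (nat_lit 0) (nat_lit 0))) (.add (.leaf (nat_lit 70) (nat_lit 0) (nat_lit 0)) (.leaf (nat_lit 71) (nat_lit 0) (nat_lit 0)))))) (.add (.add (.add (.leaf (nat_lit 72) (nat_lit 0) (nat_lit 0)) (.add (.leaf (nat_lit 73) (nat_lit 0) (nat_lit 0)) (.leaf (nat_lit 74) (nat_lit 0) (nat_lit 0)))) (.add (.add (.leaf (nat_lit 75) (nat_lit 0) (nat_lit 0)) (.leaf (nat_lit 76) (nat_lit 0) (nat_lit 0))) (.add (.leaf (nat_lit 77) (nat_lit 0) (nat_lit 0)) (.leaf (nat_lit 78) (nat_lit 0) (nat_lit 0))))) (.add (.add (.add (.leaf (nat_lit 79) (nat_lit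 0) (nat_lit 0)) (.leaf (nat_lit 80) (nat_lit 0) (nat_lit 0))) (.add (.leaf (nat_lit 81) (nat_lit 0) (nat_lit 0)) (.leaf (nat_lit 82) (nat_lit 0) (nat_lit 0)))) (.add (.add (.leaf (nat_lit 83) (nat_lit 0) (nat_lit 0)) (.leaf (nat_lit 84) (nat_lit 0) (nat_lit 0))) (.add (.leaf (nat_lit 85) (nat_lit 0) (nat_lit 0)) (.leaf (nat_lit 86) (nat_lit 0) (nat_lit 0))))))) (.add (.add (.add (.add (.leaf (nat_lit 87) (nat_lit 0) (nat_lit 0)) (.add (.leaf (nat_lit 88) (nat_lit 0) (nat_lit 0)) (.leaf (nat_lit 89) (nat_lit 0) (nat_lit 0)))) (.add (.add (.leaf (nat_lit 90) (nat_lit 0) (nat_lit 0)) (.leaf (nat_lit 91) (nat_lit 0) (nat_lit 0))) (.add (.leaf (nat_lit 92) (nat_lit 0) (nat_lit 0)) (.leaf (nat_lit 93) (nat_lit 0) (nat_lit 0))))) (.add (.add (.add (.leaf (nat_lit 94) (nat_lit 0) (nat_lit 0)) (.leaf (nat_lit 95) (nat_lit 0) (nat_lit 0))) (.add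 (.leaf (nat_lit 96) (nat_lit 0) (nat_lit 0)) (.leaf (nat_lit 97) (nat_lit 0) (nat_lit 0)))) (.add (.add (.leaf (nat_lit 98) (nat_lit 0) (nat_lit 0)) (.leaf (nat_lit 99) (nat_lit 0) (nat_lit 0))) (.add (.leaf (nat_lit 100) (nat_lit 0) (nat_lit 0)) (.leaf (nat_lit 101) (nat_lit 0) (nat_lit 0)))))) (.add (.add (.add (.leaf (nat_lit 102) (nat_lit 0) (nat_lit 0)) (.add (.leaf (nat_lit 103) (nat_lit 0) (nat_lit 0)) (.leaf (nat_lit 104) (nat_lit 0) (nat_lit 0)))) (.add (.add (.leaf (nat_lit 105) (nat_lit 0) (nat_lit 0)) (.leaf (nat_lit 106) (nat_lit 0) (nat_lit 0))) (.add (.leaf (nat_lit 107) (nat_lit 0) (nat_lit 0)) (.leaf (nat_lit 108) (nat_lit 0) (nat_lit 0))))) (.add (.add (.add (.leaf (nat_lit 109) (nat_lit 0) (nat_lit 0)) (.leaf (nat_lit 110) (nat_lit 0) (nat_lit 0))) (.add (.leaf (nat_lit 111) (nat_lit 0) (nat_lit 0)) (.leaf (nat_lit 112)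 (nat_lit 0) (nat_lit 0)))) (.add (.add (.leaf (nat_lit 113) (nat_lit 0) (nat_lit 0)) (.leaf (nat_lit 114) (nat_lit 0) (nat_lit 0))) (.add (.leaf (nat_lit 115) (nat_lit 0) (nat_lit 0)) (.leaf (nat_lit 116) (nat_lit 0) (nat_lit 0))))))))),
  (.add (.add (.add (.add (.add (.add (.leaf (nat_lit 0) (nat_lit 0) (nat_lit 0)) (.add (.leaf (nat_lit 1) (nat_lit 0) (nat_lit 0)) (.leaf (nat_lit 2) (nat_lit 0) (nat_lit 0)))) (.add (.add (.leaf (nat_lit 3) (nat_lit 0) (nat_lit 0)) (.leaf (nat_lit 4) (nat_lit 0) (nat_lit 0))) (.add (.leaf (nat_lit 5) (nat_lit 0) (nat_lit 0)) (.leaf (nat_lit 6) (nat_lit 0) (nat_lit 0))))) (.add (.add (.leaf (nat_lit 7) (nat_lit 0) (nat_lit 0)) (.add (.leaf (nat_lit 8) (nat_lit 0) (nat_lit 0)) (.leaf (nat_lit 9) (nat_lit 0) (nat_lit 0)))) (.add (.add (.leaf (nat_lit 10) (nat_lit 0) (nat_lit 0)) (.leaf (nat_lit 11) (nat_lit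 0) (nat_lit 0))) (.add (.leaf (nat_lit 12) (nat_lit 0) (nat_lit 0)) (.leaf (nat_lit 13) (nat_lit 0) (nat_lit 0)))))) (.add (.add (.add (.leaf (nat_lit 14) (nat_lit 0) (nat_lit 0)) (.add (.leaf (nat_lit 15) (nat_lit 0) (nat_lit 0)) (.leaf (nat_lit 16) (nat_lit 0) (nat_lit 0)))) (.add (.add (.leaf (nat_lit 17) (nat_lit 0) (nat_lit 0)) (.leaf (nat_lit 18) (nat_lit 0) (nat_lit 0))) (.add (.leaf (nat_lit 19) (nat_lit 0) (nat_lit 0)) (.leaf (nat_lit 20) (nat_lit 0) (nat_lit 0))))) (.add (.add (.add (.leaf (nat_lit 21) (nat_lit 0) (nat_lit 0)) (.leaf (nat_lit 22) (nat_lit 0) (nat_lit 0))) (.add (.leaf (nat_lit 23) (nat_lit 0) (nat_lit 0)) (.leaf (nat_lit 24) (nat_lit 0) (nat_lit 0)))) (.add (.add (.leaf (nat_lit 25) (nat_lit 0) (nat_lit 0)) (.leaf (nat_lit 26) (nat_lit 0) (nat_lit 0))) (.add (.leaf (nat_lit 27) (nat_lit 0) (nat_lit 0)) (.leaf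 (nat_lit 28) (nat_lit 0) (nat_lit 0))))))) (.add (.add (.add (.add (.leaf (nat_lit 29) (nat_lit 0) (nat_lit 0)) (.add (.leaf (nat_lit 30) (nat_lit 0) (nat_lit 0)) (.leaf (nat_lit 31) (nat_lit 0) (nat_lit 0)))) (.add (.add (.leaf (nat_lit 32) (nat_lit 0) (nat_lit 0)) (.leaf (nat_lit 33) (nat_lit 0) (nat_lit 0))) (.add (.leaf (nat_lit 34) (nat_lit 0) (nat_lit 0)) (.leaf (nat_lit 35) (nat_lit 0) (nat_lit 0))))) (.add (.add (.add (.leaf (nat_lit 36) (nat_lit 0) (nat_lit 0)) (.leaf (nat_lit 37) (nat_lit 0) (nat_lit 0))) (.add (.leaf (nat_lit 38) (nat_lit 0) (nat_lit 0)) (.leaf (nat_lit 39) (nat_lit 0) (nat_lit 0)))) (.add (.add (.leaf (nat_lit 40) (nat_lit 0) (nat_lit 0)) (.leaf (nat_lit 41) (nat_lit 0) (nat_lit 0))) (.add (.leaf (nat_lit 42) (nat_lit 0) (nat_lit 0)) (.leaf (nat_lit 43) (nat_lit 0) (nat_lit 0)))))) (.add (.add (.add (.leaf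 (nat_lit 44) (nat_lit 0) (nat_lit 0)) (.add (.leaf (nat_lit 45) (nat_lit 0) (nat_lit 0)) (.leaf (nat_lit 46) (nat_lit 0) (nat_lit 0)))) (.add (.add (.leaf (nat_lit 47) (nat_lit 0) (nat_lit 0)) (.leaf (nat_lit 48) (nat_lit 0) (nat_lit 0))) (.add (.leaf (nat_lit 49) (nat_lit 0) (nat_lit 0)) (.leaf (nat_lit 50) (nat_lit 0) (nat_lit 0))))) (.add (.add (.add (.leaf (nat_lit 51) (nat_lit 0) (nat_lit 0)) (.leaf (nat_lit 52) (nat_lit 0) (nat_lit 0))) (.add (.leaf (nat_lit 53) (nat_lit 0) (nat_lit 0)) (.leaf (nat_lit 54) (nat_lit 0) (nat_lit 0)))) (.add (.add (.leaf (nat_lit 55) (nat_lit 0) (nat_lit 0)) (.leaf (nat_lit 56) (nat_lit 0) (nat_lit 0))) (.add (.leaf (nat_lit 57) (nat_lit 0) (nat_lit 0)) (.leaf (nat_lit 58) (nat_lit 0) (nat_lit 0)))))))) (.add (.add (.add (.add (.add (.leaf (nat_lit 59) (nat_lit 0) (nat_lit 0)) (.add (.leaf (nat_lit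 60) (nat_lit 0) (nat_lit 0)) (.leaf (nat_lit 61) (nat_lit 0) (nat_lit 0)))) (.add (.add (.leaf (nat_lit 62) (nat_lit 0) (nat_lit 0)) (.leaf (nat_lit 63) (nat_lit 0) (nat_lit 0))) (.add (.leaf (nat_lit 64) (nat_lit 0) (nat_lit 0)) (.leaf (nat_lit 65) (nat_lit 0) (nat_lit 0))))) (.add (.add (.leaf (nat_lit 66) (nat_lit 0) (nat_lit 0)) (.add (.leaf (nat_lit 67) (nat_lit 0) (nat_lit 0)) (.leaf (nat_lit 68) (nat_lit 0) (nat_lit 0)))) (.add (.add (.leaf (nat_lit 69) (nat_lit 0) (nat_lit 0)) (.leaf (nat_lit 70) (nat_lit 0) (nat_lit 0))) (.add (.leaf (nat_lit 71) (nat_lit 0) (nat_lit 0)) (.leaf (nat_lit 72) (nat_lit 0) (nat_lit 0)))))) (.add (.add (.add (.leaf (nat_lit 73) (nat_lit 0) (nat_lit 0)) (.add (.leaf (nat_lit 74) (nat_lit 0) (nat_lit 0)) (.leaf (nat_lit 75) (nat_lit 0) (nat_lit 0)))) (.add (.add (.leaf (nat_lit 76) (nat_lit 0) (nat_lit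 0)) (.leaf (nat_lit 77) (nat_lit 0) (nat_lit 0))) (.add (.leaf (nat_lit 78) (nat_lit 0) (nat_lit 0)) (.leaf (nat_lit 79) (nat_lit 0) (nat_lit 0))))) (.add (.add (.add (.leaf (nat_lit 80) (nat_lit 0) (nat_lit 0)) (.leaf (nat_lit 81) (nat_lit 0) (nat_lit 0))) (.add (.leaf (nat_lit 82) (nat_lit 0) (nat_lit 0)) (.leaf (nat_lit 83) (nat_lit 0) (nat_lit 0)))) (.add (.add (.leaf (nat_lit 84) (nat_lit 0) (nat_lit 0)) (.leaf (nat_lit 85) (nat_lit 0) (nat_lit 0))) (.add (.leaf (nat_lit 86) (nat_lit 0) (nat_lit 0)) (.leaf (nat_lit 87) (nat_lit 0) (nat_lit 0))))))) (.add (.add (.add (.add (.leaf (nat_lit 88) (nat_lit 0) (nat_lit 0)) (.add (.leaf (nat_lit 89) (nat_lit 0) (nat_lit 0)) (.leaf (nat_lit 90) (nat_lit 0) (nat_lit 0)))) (.add (.add (.leaf (nat_lit 91) (nat_lit 0) (nat_lit 0)) (.leaf (nat_lit 92) (nat_lit 0) (nat_lit 0))) (.add (.leaf (nat_lit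 93) (nat_lit 0) (nat_lit 0)) (.leaf (nat_lit 94) (nat_lit 0) (nat_lit 0))))) (.add (.add (.add (.leaf (nat_lit 95) (nat_lit 0) (nat_lit 0)) (.leaf (nat_lit 96) (nat_lit 0) (nat_lit 0))) (.add (.leaf (nat_lit 97) (nat_lit 0) (nat_lit 0)) (.leaf (nat_lit 98) (nat_lit 0) (nat_lit 0)))) (.add (.add (.leaf (nat_lit 99) (nat_lit 0) (nat_lit 0)) (.leaf (nat_lit 100) (nat_lit 0) (nat_lit 0))) (.add (.leaf (nat_lit 101) (nat_lit 0) (nat_lit 0)) (.leaf (nat_lit 102) (nat_lit 0) (nat_lit 0)))))) (.add (.add (.add (.leaf (nat_lit 103) (nat_lit 0) (nat_lit 0)) (.add (.leaf (nat_lit 104) (nat_lit 0) (nat_lit 0)) (.leaf (nat_lit 105) (nat_lit 0) (nat_lit 0)))) (.add (.add (.leaf (nat_lit 106) (nat_lit 0) (nat_lit 0)) (.leaf (nat_lit 107) (nat_lit 0) (nat_lit 0))) (.add (.leaf (nat_lit 108) (nat_lit 0) (nat_lit 0)) (.leaf (nat_lit 109) (nat_lit 0) (nat_lit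 0))))) (.add (.add (.add (.leaf (nat_lit 110) (nat_lit 0) (nat_lit 0)) (.leaf (nat_lit 111) (nat_lit 0) (nat_lit 0))) (.add (.leaf (nat_lit 112) (nat_lit 0) (nat_lit 0)) (.leaf (nat_lit 113) (nat_lit 0) (nat_lit 0)))) (.add (.add (.leaf (nat_lit 114) (nat_lit 0) (nat_lit 0)) (.leaf (nat_lit 115) (nat_lit 0) (nat_lit 0))) (.add (.leaf (nat_lit 116) (nat_lit 0) (nat_lit 0)) (.leaf (nat_lit 117) (nat_lit 0) (nat_lit 0))))))))),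
  (.add (.add (.add (.add (.add (.add (.leaf (nat_lit 0) (nat_lit 0) (nat_lit 0)) (.add (.leaf (nat_lit 1) (nat_lit 0) (nat_lit 0)) (.leaf (nat_lit 2) (nat_lit 0) (nat_lit 0)))) (.add (.add (.leaf (nat_lit 3) (nat_lit 0) (nat_lit 0)) (.leaf (nat_lit 4) (nat_lit 0) (nat_lit 0))) (.add (.leaf (nat_lit 5) (nat_lit 0) (nat_lit 0)) (.leaf (nat_lit 6) (nat_lit 0) (nat_lit 0))))) (.add (.add (.leaf (nat_lit 7) (nat_lit 0) (nat_lit 0)) (.add (.leaf (nat_lit 8) (nat_lit 0) (nat_lit 0)) (.leaf (nat_lit 9) (nat_lit 0) (nat_lit 0)))) (.add (.add (.leaf (nat_lit 10) (nat_lit 0) (nat_lit 0)) (.leaf (nat_lit 11) (nat_lit 0) (nat_lit 0))) (.add (.leaf (nat_lit 12) (nat_lit 0) (nat_lit 0)) (.leaf (nat_lit 13) (nat_lit 0) (nat_lit 0)))))) (.add (.add (.add (.leaf (nat_lit 14) (nat_lit 0) (nat_lit 0)) (.add (.leaf (nat_lit 15) (nat_lit 0) (nat_lit 0)) (.leaf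 (nat_lit 16) (nat_lit 0) (nat_lit 0)))) (.add (.add (.leaf (nat_lit 17) (nat_lit 0) (nat_lit 0)) (.leaf (nat_lit 18) (nat_lit 0) (nat_lit 0))) (.add (.leaf (nat_lit 19) (nat_lit 0) (nat_lit 0)) (.leaf (nat_lit 20) (nat_lit 0) (nat_lit 0))))) (.add (.add (.add (.leaf (nat_lit 21) (nat_lit 0) (nat_lit 0)) (.leaf (nat_lit 22) (nat_lit 0) (nat_lit 0))) (.add (.leaf (nat_lit 23) (nat_lit 0) (nat_lit 0)) (.leaf (nat_lit 24) (nat_lit 0) (nat_lit 0)))) (.add (.add (.leaf (nat_lit 25) (nat_lit 0) (nat_lit 0)) (.leaf (nat_lit 26) (nat_lit 0) (nat_lit 0))) (.add (.leaf (nat_lit 27) (nat_lit 0) (nat_lit 0)) (.leaf (nat_lit 28) (nat_lit 0) (nat_lit 0))))))) (.add (.add (.add (.add (.leaf (nat_lit 29) (nat_lit 0) (nat_lit 0)) (.add (.leaf (nat_lit 30) (nat_lit 0) (nat_lit 0)) (.leaf (nat_lit 31) (nat_lit 0) (nat_lit 0)))) (.add (.add (.leaf (nat_lit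 32) (nat_lit 0) (nat_lit 0)) (.leaf (nat_lit 33) (nat_lit 0) (nat_lit 0))) (.add (.leaf (nat_lit 34) (nat_lit 0) (nat_lit 0)) (.leaf (nat_lit 35) (nat_lit 0) (nat_lit 0))))) (.add (.add (.add (.leaf (nat_lit 36) (nat_lit 0) (nat_lit 0)) (.leaf (nat_lit 37) (nat_lit 0) (nat_lit 0))) (.add (.leaf (nat_lit 38) (nat_lit 0) (nat_lit 0)) (.leaf (nat_lit 39) (nat_lit 0) (nat_lit 0)))) (.add (.add (.leaf (nat_lit 40) (nat_lit 0) (nat_lit 0)) (.leaf (nat_lit 41) (nat_lit 0) (nat_lit 0))) (.add (.leaf (nat_lit 42) (nat_lit 0) (nat_lit 0)) (.leaf (nat_lit 43) (nat_lit 0) (nat_lit 0)))))) (.add (.add (.add (.leaf (nat_lit 44) (nat_lit 0) (nat_lit 0)) (.add (.leaf (nat_lit 45) (nat_lit 0) (nat_lit 0)) (.leaf (nat_lit 46) (nat_lit 0) (nat_lit 0)))) (.add (.add (.leaf (nat_lit 47) (nat_lit 0) (nat_lit 0)) (.leaf (nat_lit 48) (nat_lit 0) (nat_lit 0)))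 (.add (.leaf (nat_lit 49) (nat_lit 0) (nat_lit 0)) (.leaf (nat_lit 50) (nat_lit 0) (nat_lit 0))))) (.add (.add (.add (.leaf (nat_lit 51) (nat_lit 0) (nat_lit 0)) (.leaf (nat_lit 52) (nat_lit 0) (nat_lit 0))) (.add (.leaf (nat_lit 53) (nat_lit 0) (nat_lit 0)) (.leaf (nat_lit 54) (nat_lit 0) (nat_lit 0)))) (.add (.add (.leaf (nat_lit 55) (nat_lit 0) (nat_lit 0)) (.leaf (nat_lit 56) (nat_lit 0) (nat_lit 0))) (.add (.leaf (nat_lit 57) (nat_lit 0) (nat_lit 0)) (.leaf (nat_lit 58) (nat_lit 0) (nat_lit 0)))))))) (.add (.add (.add (.add (.add (.leaf (nat_lit 59) (nat_lit 0) (nat_lit 0)) (.add (.leaf (nat_lit 60) (nat_lit 0) (nat_lit 0)) (.leaf (nat_lit 61) (nat_lit 0) (nat_lit 0)))) (.add (.add (.leaf (nat_lit 62) (nat_lit 0) (nat_lit 0)) (.leaf (nat_lit 63) (nat_lit 0) (nat_lit 0))) (.add (.leaf (nat_lit 64) (nat_lit 0) (nat_lit 0)) (.leaf (nat_lit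 65) (nat_lit 0) (nat_lit 0))))) (.add (.add (.add (.leaf (nat_lit 66) (nat_lit 0) (nat_lit 0)) (.leaf (nat_lit 67) (nat_lit 0) (nat_lit 0))) (.add (.leaf (nat_lit 68) (nat_lit 0) (nat_lit 0)) (.leaf (nat_lit 69) (nat_lit 0) (nat_lit 0)))) (.add (.add (.leaf (nat_lit 70) (nat_lit 0) (nat_lit 0)) (.leaf (nat_lit 71) (nat_lit 0) (nat_lit 0))) (.add (.leaf (nat_lit 72) (nat_lit 0) (nat_lit 0)) (.leaf (nat_lit 73) (nat_lit 0) (nat_lit 0)))))) (.add (.add (.add (.leaf (nat_lit 74) (nat_lit 0) (nat_lit 0)) (.add (.leaf (nat_lit 75) (nat_lit 0) (nat_lit 0)) (.leaf (nat_lit 76) (nat_lit 0) (nat_lit 0)))) (.add (.add (.leaf (nat_lit 77) (nat_lit 0) (nat_lit 0)) (.leaf (nat_lit 78) (nat_lit 0) (nat_lit 0))) (.add (.leaf (nat_lit 79) (nat_lit 0) (nat_lit 0)) (.leaf (nat_lit 80) (nat_lit 0) (nat_lit 0))))) (.add (.add (.add (.leaf (nat_lit 81) (nat_lit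 0) (nat_lit 0)) (.leaf (nat_lit 82) (nat_lit 0) (nat_lit 0))) (.add (.leaf (nat_lit 83) (nat_lit 0) (nat_lit 0)) (.leaf (nat_lit 84) (nat_lit 0) (nat_lit 0)))) (.add (.add (.leaf (nat_lit 85) (nat_lit 0) (nat_lit 0)) (.leaf (nat_lit 86) (nat_lit 0) (nat_lit 0))) (.add (.leaf (nat_lit 87) (nat_lit 0) (nat_lit 0)) (.leaf (nat_lit 88) (nat_lit 0) (nat_lit 0))))))) (.add (.add (.add (.add (.leaf (nat_lit 89) (nat_lit 0) (nat_lit 0)) (.add (.leaf (nat_lit 90) (nat_lit 0) (nat_lit 0)) (.leaf (nat_lit 91) (nat_lit 0) (nat_lit 0)))) (.add (.add (.leaf (nat_lit 92) (nat_lit 0) (nat_lit 0)) (.leaf (nat_lit 93) (nat_lit 0) (nat_lit 0))) (.add (.leaf (nat_lit 94) (nat_lit 0) (nat_lit 0)) (.leaf (nat_lit 95) (nat_lit 0) (nat_lit 0))))) (.add (.add (.add (.leaf (nat_lit 96) (nat_lit 0) (nat_lit 0)) (.leaf (nat_lit 97) (nat_lit 0) (nat_lit 0))) (.add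 (.leaf (nat_lit 98) (nat_lit 0) (nat_lit 0)) (.leaf (nat_lit 99) (nat_lit 0) (nat_lit 0)))) (.add (.add (.leaf (nat_lit 100) (nat_lit 0) (nat_lit 0)) (.leaf (nat_lit 101) (nat_lit 0) (nat_lit 0))) (.add (.leaf (nat_lit 102) (nat_lit 0) (nat_lit 0)) (.leaf (nat_lit 103) (nat_lit 0) (nat_lit 0)))))) (.add (.add (.add (.leaf (nat_lit 104) (nat_lit 0) (nat_lit 0)) (.add (.leaf (nat_lit 105) (nat_lit 0) (nat_lit 0)) (.leaf (nat_lit 106) (nat_lit 0) (nat_lit 0)))) (.add (.add (.leaf (nat_lit 107) (nat_lit 0) (nat_lit 0)) (.leaf (nat_lit 108) (nat_lit 0) (nat_lit 0))) (.add (.leaf (nat_lit 109) (nat_lit 0) (nat_lit 0)) (.leaf (nat_lit 110) (nat_lit 0) (nat_lit 0))))) (.add (.add (.add (.leaf (nat_lit 111) (nat_lit 0) (nat_lit 0)) (.leaf (nat_lit 112) (nat_lit 0) (nat_lit 0))) (.add (.leaf (nat_lit 113) (nat_lit 0) (nat_lit 0)) (.leaf (nat_lit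 114) (nat_lit 0) (nat_lit 0)))) (.add (.add (.leaf (nat_lit 115) (nat_lit 0) (nat_lit 0)) (.leaf (nat_lit 116) (nat_lit 0) (nat_lit 0))) (.add (.leaf (nat_lit 117) (nat_lit 0) (nat_lit 0)) (.leaf (nat_lit 118) (nat_lit 0) (nat_lit 0))))))))),
  (.add (.add (.add (.add (.add (.add (.leaf (nat_lit 0) (nat_lit 0) (nat_lit 0)) (.add (.leaf (nat_lit 1) (nat_lit 0) (nat_lit 0)) (.leaf (nat_lit 2) (nat_lit 0) (nat_lit 0)))) (.add (.add (.leaf (nat_lit 3) (nat_lit 0) (nat_lit 0)) (.leaf (nat_lit 4) (nat_lit 0) (nat_lit 0))) (.add (.leaf (nat_lit 5) (nat_lit 0) (nat_lit 0)) (.leaf (nat_lit 6) (nat_lit 0) (nat_lit 0))))) (.add (.add (.add (.leaf (nat_lit 7) (nat_lit 0) (nat_lit 0)) (.leaf (nat_lit 8) (nat_lit 0) (nat_lit 0))) (.add (.leaf (nat_lit 9) (nat_lit 0) (nat_lit 0)) (.leaf (nat_lit 10) (nat_lit 0) (nat_lit 0)))) (.add (.add (.leaf (nat_lit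 11) (nat_lit 0) (nat_lit 0)) (.leaf (nat_lit 12) (nat_lit 0) (nat_lit 0))) (.add (.leaf (nat_lit 13) (nat_lit 0) (nat_lit 0)) (.leaf (nat_lit 14) (nat_lit 0) (nat_lit 0)))))) (.add (.add (.add (.leaf (nat_lit 15) (nat_lit 0) (nat_lit 0)) (.add (.leaf (nat_lit 16) (nat_lit 0) (nat_lit 0)) (.leaf (nat_lit 17) (nat_lit 0) (nat_lit 0)))) (.add (.add (.leaf (nat_lit 18) (nat_lit 0) (nat_lit 0)) (.leaf (nat_lit 19) (nat_lit 0) (nat_lit 0))) (.add (.leaf (nat_lit 20) (nat_lit 0) (nat_lit 0)) (.leaf (nat_lit 21) (nat_lit 0) (nat_lit 0))))) (.add (.add (.add (.leaf (nat_lit 22) (nat_lit 0) (nat_lit 0)) (.leaf (nat_lit 23) (nat_lit 0) (nat_lit 0))) (.add (.leaf (nat_lit 24) (nat_lit 0) (nat_lit 0)) (.leaf (nat_lit 25) (nat_lit 0) (nat_lit 0)))) (.add (.add (.leaf (nat_lit 26) (nat_lit 0) (nat_lit 0)) (.leaf (nat_lit 27) (nat_lit 0) (nat_lit 0)))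 (.add (.leaf (nat_lit 28) (nat_lit 0) (nat_lit 0)) (.leaf (nat_lit 29) (nat_lit 0) (nat_lit 0))))))) (.add (.add (.add (.add (.leaf (nat_lit 30) (nat_lit 0) (nat_lit 0)) (.add (.leaf (nat_lit 31) (nat_lit 0) (nat_lit 0)) (.leaf (nat_lit 32) (nat_lit 0) (nat_lit 0)))) (.add (.add (.leaf (nat_lit 33) (nat_lit 0) (nat_lit 0)) (.leaf (nat_lit 34) (nat_lit 0) (nat_lit 0))) (.add (.leaf (nat_lit 35) (nat_lit 0) (nat_lit 0)) (.leaf (nat_lit 36) (nat_lit 0) (nat_lit 0))))) (.add (.add (.add (.leaf (nat_lit 37) (nat_lit 0) (nat_lit 0)) (.leaf (nat_lit 38) (nat_lit 0) (nat_lit 0))) (.add (.leaf (nat_lit 39) (nat_lit 0) (nat_lit 0)) (.leaf (nat_lit 40) (nat_lit 0) (nat_lit 0)))) (.add (.add (.leaf (nat_lit 41) (nat_lit 0) (nat_lit 0)) (.leaf (nat_lit 42) (nat_lit 0) (nat_lit 0))) (.add (.leaf (nat_lit 43) (nat_lit 0) (nat_lit 0)) (.leaf (nat_lit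 44) (nat_lit 0) (nat_lit 0)))))) (.add (.add (.add (.leaf (nat_lit 45) (nat_lit 0) (nat_lit 0)) (.add (.leaf (nat_lit 46) (nat_lit 0) (nat_lit 0)) (.leaf (nat_lit 47) (nat_lit 0) (nat_lit 0)))) (.add (.add (.leaf (nat_lit 48) (nat_lit 0) (nat_lit 0)) (.leaf (nat_lit 49) (nat_lit 0) (nat_lit 0))) (.add (.leaf (nat_lit 50) (nat_lit 0) (nat_lit 0)) (.leaf (nat_lit 51) (nat_lit 0) (nat_lit 0))))) (.add (.add (.add (.leaf (nat_lit 52) (nat_lit 0) (nat_lit 0)) (.leaf (nat_lit 53) (nat_lit 0) (nat_lit 0))) (.add (.leaf (nat_lit 54) (nat_lit 0) (nat_lit 0)) (.leaf (nat_lit 55) (nat_lit 0) (nat_lit 0)))) (.add (.add (.leaf (nat_lit 56) (nat_lit 0) (nat_lit 0)) (.leaf (nat_lit 57) (nat_lit 0) (nat_lit 0))) (.add (.leaf (nat_lit 58) (nat_lit 0) (nat_lit 0)) (.leaf (nat_lit 59) (nat_lit 0) (nat_lit 0)))))))) (.add (.add (.add (.add (.add (.leaf (nat_lit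 60) (nat_lit 0) (nat_lit 0)) (.add (.leaf (nat_lit 61) (nat_lit 0) (nat_lit 0)) (.leaf (nat_lit 62) (nat_lit 0) (nat_lit 0)))) (.add (.add (.leaf (nat_lit 63) (nat_lit 0) (nat_lit 0)) (.leaf (nat_lit 64) (nat_lit 0) (nat_lit 0))) (.add (.leaf (nat_lit 65) (nat_lit 0) (nat_lit 0)) (.leaf (nat_lit 66) (nat_lit 0) (nat_lit 0))))) (.add (.add (.add (.leaf (nat_lit 67) (nat_lit 0) (nat_lit 0)) (.leaf (nat_lit 68) (nat_lit 0) (nat_lit 0))) (.add (.leaf (nat_lit 69) (nat_lit 0) (nat_lit 0)) (.leaf (nat_lit 70) (nat_lit 0) (nat_lit 0)))) (.add (.add (.leaf (nat_lit 71) (nat_lit 0) (nat_lit 0)) (.leaf (nat_lit 72) (nat_lit 0) (nat_lit 0))) (.add (.leaf (nat_lit 73) (nat_lit 0) (nat_lit 0)) (.leaf (nat_lit 74) (nat_lit 0) (nat_lit 0)))))) (.add (.add (.add (.leaf (nat_lit 75) (nat_lit 0) (nat_lit 0)) (.add (.leaf (nat_lit 76) (nat_lit 0) (nat_lit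 0)) (.leaf (nat_lit 77) (nat_lit 0) (nat_lit 0)))) (.add (.add (.leaf (nat_lit 78) (nat_lit 0) (nat_lit 0)) (.leaf (nat_lit 79) (nat_lit 0) (nat_lit 0))) (.add (.leaf (nat_lit 80) (nat_lit 0) (nat_lit 0)) (.leaf (nat_lit 81) (nat_lit 0) (nat_lit 0))))) (.add (.add (.add (.leaf (nat_lit 82) (nat_lit 0) (nat_lit 0)) (.leaf (nat_lit 83) (nat_lit 0) (nat_lit 0))) (.add (.leaf (nat_lit 84) (nat_lit 0) (nat_lit 0)) (.leaf (nat_lit 85) (nat_lit 0) (nat_lit 0)))) (.add (.add (.leaf (nat_lit 86) (nat_lit 0) (nat_lit 0)) (.leaf (nat_lit 87) (nat_lit 0) (nat_lit 0))) (.add (.leaf (nat_lit 88) (nat_lit 0) (nat_lit 0)) (.leaf (nat_lit 89) (nat_lit 0) (nat_lit 0))))))) (.add (.add (.add (.add (.leaf (nat_lit 90) (nat_lit 0) (nat_lit 0)) (.add (.leaf (nat_lit 91) (nat_lit 0) (nat_lit 0)) (.leaf (nat_lit 92) (nat_lit 0) (nat_lit 0)))) (.add (.add (.leaf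 (nat_lit 93) (nat_lit 0) (nat_lit 0)) (.leaf (nat_lit 94) (nat_lit 0) (nat_lit 0))) (.add (.leaf (nat_lit 95) (nat_lit 0) (nat_lit 0)) (.leaf (nat_lit 96) (nat_lit 0) (nat_lit 0))))) (.add (.add (.add (.leaf (nat_lit 97) (nat_lit 0) (nat_lit 0)) (.leaf (nat_lit 98) (nat_lit 0) (nat_lit 0))) (.add (.leaf (nat_lit 99) (nat_lit 0) (nat_lit 0)) (.leaf (nat_lit 100) (nat_lit 0) (nat_lit 0)))) (.add (.add (.leaf (nat_lit 101) (nat_lit 0) (nat_lit 0)) (.leaf (nat_lit 102) (nat_lit 0) (nat_lit 0))) (.add (.leaf (nat_lit 103) (nat_lit 0) (nat_lit 0)) (.leaf (nat_lit 104) (nat_lit 0) (nat_lit 0)))))) (.add (.add (.add (.leaf (nat_lit 105) (nat_lit 0) (nat_lit 0)) (.add (.leaf (nat_lit 106) (nat_lit 0) (nat_lit 0)) (.leaf (nat_lit 107) (nat_lit 0) (nat_lit 0)))) (.add (.add (.leaf (nat_lit 108) (nat_lit 0) (nat_lit 0)) (.leaf (nat_lit 109) (nat_lit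 0) (nat_lit 0))) (.add (.leaf (nat_lit 110) (nat_lit 0) (nat_lit 0)) (.leaf (nat_lit 111) (nat_lit 0) (nat_lit 0))))) (.add (.add (.add (.leaf (nat_lit 112) (nat_lit 0) (nat_lit 0)) (.leaf (nat_lit 113) (nat_lit 0) (nat_lit 0))) (.add (.leaf (nat_lit 114) (nat_lit 0) (nat_lit 0)) (.leaf (nat_lit 115) (nat_lit 0) (nat_lit 0)))) (.add (.add (.leaf (nat_lit 116) (nat_lit 0) (nat_lit 0)) (.leaf (nat_lit 117) (nat_lit 0) (nat_lit 0))) (.add (.leaf (nat_lit 118) (nat_lit 0) (nat_lit 0)) (.leaf (nat_lit 119) (nat_lit 0) (nat_lit 0)))))))))]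

theorem cf_rng_eq : cf_rng = ofL cf_rng_t := rfl

/-- the configuration -/
noncomputable def cf3 : Cf := ⟨cf_t2, cf_t3, cf_t4, cf_eta, cf_nodes, cf_rng, (nat_lit 416462215151328389493387516977611008), (nat_lit 15637976420999010269456579521218825)⟩

end Vale.Agent.P236KE
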