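import Vale.Agent.P236KE.Tab
import Vale.Agent.P236KE.Cfg

/-!
# P236KE / CfgT : the tables of the configuration are correct
-/

namespace Vale.Agent.P236KE

theorem cf3_l2 : levOk cf3 cf_t2_t dl2 4 32 = true := by decide +kernel
theorem cf3_l3 : levOk cf3 cf_t3_t dl3 13 516 = true := by decide +kernel
theorem cf3_l4 : levOk cf3 cf_t4_t dl4 40 516 = true := by decide +kernel
theorem cf3_nod : nodOk cf_nodes_t = true := by decide +kernel
theorem cf3_rn : rngOk cf_rng_t = true := by decide +kernel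
theorem cf3_eta : etaOk cf_eta_t = true := by decide +kernel

theorem cf3_dv : ∀ V < 15, byte cf3.dv V = wt4 (vm V) ∧ byte cf3.md V = mdv V := by
  decide +kernel

theorem cf3_cfT : CfT cf3 15 (fun V => pick V dl2) (fun V => pick V dl3) fun V => pick V dl4 :=
  ⟨levT_of cf_t2_eq cf3_l2, levT_of cf_t3_eq cf3_l3, levT_of cf_t4_eq cf3_l4,
    nodT_of cf_nodes_eq cf3_nod⟩

theorem cf3_rngT : RngT cf3 := rngT_of cf_rng_eq cf3_rn

theorem vm_idx {e : Q4} (h : len4 e < 3) : idx e < 15 ∧ vm (idx e) = e := by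
  obtain ⟨a, b, c, d⟩ := e
  simp only [len4] at h
  have ha : a < 3 := by omega
  have hb : b < 3 := by omega
  have hc : c < 3 := by omega
  have hd : d < 3 := by omega
  interval_cases a <;> interval_cases b <;> interval_cases c <;> interval_cases d <;>
    first | omega | decide

theorem vm_len : ∀ V < 15, len4 (vm V) < 3 ∧ idx (vm V) = V := by decide +kernel

theorem etT_wt : ∀ U < 15, ∀ V < 15, ∀ τ ∈ etT U V,
    τ.s < 15 ∧ wt4 (vm U) + wt4 (vm τ.s) = wt4 (vm V) + wt4 τ.x ∧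
      wt4 (vm τ.s) ≤ wt4 (vm V) := by decide +kernel

theorem pick_one : ∀ V < 15, pick V dl1 =
    [⟨1, V, (0, 0, 0, 0), (1, 0, 0, 0)⟩, ⟨1, V, (1, 0, 0, 0), (0, 0, 0, 0)⟩] := by
  intro V hV
  interval_cases V <;> rfl

end Vale.Agent.P236KE
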