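import Vale.Agent.P236KE.Acc

/-!
# P236KE / Chk : what the checks say
-/

namespace Vale.Agent.P236KE

variable {p : Pm}

/-- the table of ranges -/
def RngT (cf : Cf) : Prop :=
  ∀ n ≤ 120, ∀ x, (TL.get cf.rng n).f x = ∑ i ∈ Finset.range n, x i 0 0

theorem wf_of_pre (hr : RngT p.cf) (h : pre p = 0) : WF p := by
  change (1 - p.bb + (1 - p.nw) + (p.nb * p.bb - p.sf + (p.nw * p.bb + 1 - p.sf))) +
    (p.bb - 30 + (p.lm - 128) + (p.nw - 120 + (p.nb - 120))) = 0 at h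
  exact ⟨by omega, by omega, by omega, by omega, by omega, by omega, hr _ (by omega),
    hr _ (by omega)⟩

theorem of_side {V w b : ℕ} (h : side p V w b = 0) (hw : w < p.nw) (hb : b < p.nb)
    (ht : byte p.cf.dv V + byte p.dup (p.b0 + b) ≤ p.tt) :
    Sd p w b (byte p.dlo (p.w0 + w)) (byte p.dup (p.b0 + b)) ∧
      Fit p (byte p.dlo (p.w0 + w)) (byte p.dup (p.b0 + b)) V := by
  change (p.c1 - byte p.dlo (p.w0 + w) + (byte p.dup (p.b0 + b) - p.d2)) +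
    (byte p.cf.dv V + byte p.dup (p.b0 + b) + 1 - (byte p.dlo (p.w0 + w) + 4 * p.bb) +
      (byte p.cf.dv V + p.d2 + 1 - (byte p.dlo (p.w0 + w) + p.lm))) = 0 at h
  exact ⟨⟨hw, hb, by omega, by omega⟩, by omega, by omega, ht⟩

theorem grd_zero {n k x : ℕ} (h : grd n k x = 0) (hk : k < n) : x = 0 := by
  rwa [grd_eq, if_neg (Nat.not_le.2 hk)] at h

theorem of_sum2 (h : WF p) {f : ℕ → ℕ → ℕ}
    (h0 : ((TL.get p.cf.rng p.nw).f fun w _ _ => (TL.get p.cf.rng p.nb).f fun b _ _ => f w b) = 0)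
    {w b : ℕ} (hw : w < p.nw) (hb : b < p.nb) : f w b = 0 := by
  rw [h.rw, Finset.sum_eq_zero_iff] at h0
  have h1 := h0 w (Finset.mem_range.2 hw)
  rw [h.rb, Finset.sum_eq_zero_iff] at h1
  exact h1 b (Finset.mem_range.2 hb)

theorem of_chk (hr : RngT p.cf) {mask : ℕ} (h : chk p mask = 0) {V w b : ℕ} (hV : V < 15)
    (hm : 0 < (mask >>> V) &&& 1) (hw : w < p.nw) (hb : b < p.nb) (hd : byte p.cf.md V ≤ 16)
    (ht : byte p.cf.dv V + byte p.dup (p.b0 + b) ≤ p.tt)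
    (hl : byte p.dlo (p.w0 + w) ≤ byte p.cf.dv V + byte p.dup (p.b0 + b)) :
    WF p ∧ side p V w b = 0 ∧ ∀ i, byte p.cf.md V ∣ dig (blk p V w b) i := by
  obtain ⟨h1, h2⟩ := Nat.add_eq_zero_iff.1 h
  have hp := wf_of_pre hr h1
  rw [hr _ (by decide), Finset.sum_eq_zero_iff] at h2
  have h4 := of_sum2 hp (grd_zero (h2 V (Finset.mem_range.2 hV)) hm) hw hb
  obtain ⟨h5, h6⟩ := Nat.add_eq_zero_iff.1
    (grd_zero (grd_zero h4 (Nat.lt_succ_of_le ht)) (Nat.lt_succ_of_le hl))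
  exact ⟨hp, h5, dvd_dig (top := topM p) (n := p.bb * p.sf) hd
    (dig_crep1 (by norm_num) _) (blk_zero hp V w b) h6⟩

theorem lsum_ind {f : ℕ → ℕ → ℕ → ℕ} {a b c : ℕ} : ∀ l : List Q4,
    lsum l (fun x y z => if x = a ∧ y = b ∧ z = c then 1 else 0) * f a b c ≤ lsum l f
  | [] => by simp [lsum]
  | t :: l => by
    have h := lsum_ind (f := f) (a := a) (b := b) (c := c) l
    simp only [lsum, List.map_cons, List.sum_cons, add_mul] at h ⊢
    refine Nat.add_le_add ?_ h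
    split_ifs with h1
    · rw [h1.1, h1.2.1, h1.2.2, mul_one]
    · simp

theorem res_eq (x g4 g3 g2 : ℕ) :
    res p x g4 g3 g2 = dig x (p.sf * (3 * g3 + 10 * g4) + g2) % 3 := by
  change ((x >>> slot p g4 g3 g2) &&& 65535) % 3 = _
  rw [slot_eq, show 65535 = 2 ^ 16 - 1 by norm_num, and_ones, Nat.shiftRight_eq_div_pow]
  rfl

theorem dist_eq {a b : ℕ} : dist a b = 0 ↔ a = b := by
  change a - b + (b - a) = 0 ↔ _
  omega

theorem of_chkG (hr : RngT p.cf) (hn : NodT p.cf) {z : Gb} (h : chkG p z = 0) {w b : ℕ}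
    (hw : w < p.nw) (hb : b < p.nb) (hl : byte p.dlo (p.w0 + w) ≤ byte p.dup (p.b0 + b)) :
    WF p ∧ side p 0 w b = 0 ∧ (p.w0 + w = z.lt (p.b0 + b) 0 → ¬ 3 ∣ dig (blk p 0 w b)
      (p.sf * (3 * z.lt (p.b0 + b) 2 + 10 * z.lt (p.b0 + b) 3) + z.lt (p.b0 + b) 1)) ∧
    ∀ g1 g2 g3 g4, byte p.dup (p.b0 + b) = byte p.dlo (p.w0 + w) + wt4 (g1, g2, g3, g4) →
      3 ∣ dig (blk p 0 w b) (p.sf * (3 * g3 + 10 * g4) + g2) ∨
      z.key (p.w0 + w) g1 g2 g3 g4 < z.th p.dlo p.dup (p.b0 + b) ∨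
      (p.w0 + w = z.lt (p.b0 + b) 0 ∧ g2 = z.lt (p.b0 + b) 1 ∧ g3 = z.lt (p.b0 + b) 2 ∧
        g4 = z.lt (p.b0 + b) 3) := by
  obtain ⟨h1, h2⟩ := Nat.add_eq_zero_iff.1 h
  have hp := wf_of_pre hr h1
  obtain ⟨h5, h6⟩ := Nat.add_eq_zero_iff.1 (grd_zero (of_sum2 hp h2 hw hb) (Nat.lt_succ_of_le hl))
  rw [force_eq, force_eq, force_eq] at h6
  obtain ⟨h7, h8⟩ := Nat.add_eq_zero_iff.1 h6
  refine ⟨hp, h5, fun e => ?_, fun g1 g2 g3 g4 e => ?_⟩
  · have h9 : 1 - res p (blk p 0 w b) (z.lt (p.b0 + b) 3) (z.lt (p.b0 + b) 2)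
        (z.lt (p.b0 + b) 1) = 0 := grd_zero h7 ((dist_eq.2 e).trans_lt Nat.one_pos)
    rw [res_eq] at h9
    omega
  · have hbb := hp.bb'
    change (p.c1 - byte p.dlo (p.w0 + w) + (byte p.dup (p.b0 + b) - p.d2)) +
      (byte p.cf.dv 0 + byte p.dup (p.b0 + b) + 1 - (byte p.dlo (p.w0 + w) + 4 * p.bb) +
        (byte p.cf.dv 0 + p.d2 + 1 - (byte p.dlo (p.w0 + w) + p.lm))) = 0 at h5
    simp only [wt4] at e
    change (TL.get p.cf.rng (byte p.dup (p.b0 + b) - byte p.dlo (p.w0 + w) + 1)).f _ = 0 at h8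
    rw [hr _ (by omega), Finset.sum_eq_zero_iff] at h8
    have h9 := h8 (40 * g4 + 13 * g3 + 4 * g2) (Finset.mem_range.2 (by omega))
    obtain ⟨nd, n1, -, -, n2⟩ := hn (40 * g4 + 13 * g3 + 4 * g2) (by omega)
    rw [force_eq, n1] at h9
    have h10 := (lsum_ind (a := g4) (b := g3) (c := g2) nd).trans h9.le
    rw [n2 g4 g3 g2 rfl, one_mul, Nat.le_zero,
      show Nat.sub (Nat.sub (byte p.dup (Nat.add p.b0 b)) (byte p.dlo (Nat.add p.w0 w)))
        (40 * g4 + 13 * g3 + 4 * g2) = g1 by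
        change byte p.dup (p.b0 + b) - byte p.dlo (p.w0 + w) - _ = _
        omega] at h10
    rcases Nat.eq_zero_or_pos (res p (blk p 0 w b) g4 g3 g2) with c1 | c1
    · rw [res_eq] at c1
      exact Or.inl (Nat.dvd_of_mod_eq_zero c1)
    rcases Nat.lt_or_ge (z.key (p.w0 + w) g1 g2 g3 g4) (z.th p.dlo p.dup (p.b0 + b)) with c2 | c2
    · exact Or.inr (Or.inl c2)
    · obtain ⟨e1, e2⟩ := Nat.add_eq_zero_iff.1 (grd_zero (grd_zero h10 c1) (Nat.lt_succ_of_le c2))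
      obtain ⟨e3, e4⟩ := Nat.add_eq_zero_iff.1 e1
      obtain ⟨e5, e6⟩ := Nat.add_eq_zero_iff.1 e2
      exact Or.inr (Or.inr ⟨dist_eq.1 e3, dist_eq.1 e4, dist_eq.1 e5, dist_eq.1 e6⟩)

theorem AllB.mem {f : Gp → Bool} : ∀ {l : List Gp}, AllB f l → ∀ g ∈ l, f g = true
  | [], _, _, hg => absurd hg List.not_mem_nil
  | _ :: _, h, g, hg => (List.mem_cons.1 hg).elim (fun e => e ▸ h.1) (AllB.mem h.2 g)

theorem AllB.append {f : Gp → Bool} : ∀ {l l' : List Gp}, AllB f l → AllB f l' → AllB f (l ++ l')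
  | [], _, _, h => h
  | _ :: _, _, h, h' => ⟨h.1, AllB.append h.2 h'⟩

/-- the groups `gs` cover all triples of weight at most `T` -/
def cov (gs : List Gp) (nv n n' dv dlo dup T : ℕ) : Bool :=
  (List.range nv).all fun V => (List.range n).all fun w =>
    (List.range n').all fun b => Nat.blt T (byte dv V + byte dup b) ||
      Nat.blt (byte dv V + byte dup b) (byte dlo w) ||
      (gs.filter fun g => Nat.blt 0 ((g.mask >>> V) &&& 1) && Nat.ble g.w0 w &&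
        Nat.blt w (g.w0 + g.nw)).any fun g => Nat.ble g.b0 b && Nat.blt b (g.b0 + g.nb)

theorem of_cov {gs : List Gp} {nv n n' dv dlo dup T : ℕ} (h : cov gs nv n n' dv dlo dup T = true)
    {V w b : ℕ} (hV : V < nv) (hw : w < n) (hb : b < n') (h1 : byte dv V + byte dup b ≤ T)
    (h2 : byte dlo w ≤ byte dv V + byte dup b) : ∃ g ∈ gs, 0 < (g.mask >>> V) &&& 1 ∧
      ∃ w' < g.nw, ∃ b' < g.nb, w = g.w0 + w' ∧ b = g.b0 + b' := by
  simp only [cov, List.all_eq_true, List.mem_range, Bool.or_eq_true, Nat.blt_eq, List.any_eq_true,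
    List.mem_filter, Bool.and_eq_true, Nat.ble_eq] at h
  rcases h V hV w hw b hb with (h3 | h3) | ⟨g, ⟨g1, ⟨g2, g3⟩, g4⟩, g5, g6⟩
  · omega
  · omega
  · exact ⟨g, g1, g2, w - g.w0, by omega, b - g.b0, by omega, by omega, by omega⟩

end Vale.Agent.P236KE
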