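import Vale.Agent.P236KE.Y

/-!
# P236KE / Ini : positions, codes, and the initial arrays
-/

namespace Vale.Agent.P236KE

theorem wt4_add (a b : Q4) : wt4 (a + b) = wt4 a + wt4 b := by
  simp only [wt4, Prod.fst_add, Prod.snd_add]; ring

/-- the code of the third and fourth exponents -/
def lowc (E F : Q4) : ℕ := (13 * (E.2.2.1 + F.2.2.1) + 40 * (E.2.2.2 + F.2.2.2)) * 4096 +
  F.2.2.2 * 1024 + E.2.2.2 * 256 + F.2.2.1 * 16 + E.2.2.1

theorem lowc_add (E F x y : Q4) : lowc (E + x) (F + y) = lowc E F + lowc x y := by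
  simp only [lowc, Prod.fst_add, Prod.snd_add]; ring

/-- the place of a coefficient in the data -/
def plc (p : Pm) (E : Q4) : ℕ := E.2.1 + (p.s3 * E.2.2.1 + p.s4 * E.2.2.2)

/-- the place of a digit in an array -/
def pos (p : Pm) (k w f b e : ℕ) : ℕ := sk p * k + (p.sf * (w * p.bb + f) + (b * p.bb + e))

/-- a term: coefficient, source, and two vectors of exponents -/
structure Tm : Type where
  c : ℕ
  s : ℕ
  x : Q4
  y : Q4

/-- the leaf of a term of a diagonal -/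
def Tm.code (τ : Tm) : Q4 :=
  (τ.c, τ.s, lowc τ.x τ.y, (τ.x.1 + 4 * τ.x.2.1) * 4096 + τ.y.2.1 * 64 + τ.x.2.1)

/-- the leaf of a term of a right unit -/
def Tm.codeE (τ : Tm) : Q4 := (τ.c, τ.s, lowc τ.x 0, 16 * τ.x.2.1)

theorem land_15 (x : ℕ) : x &&& 15 = x % 16 := and_ones x 4
theorem land_3 (x : ℕ) : x &&& 3 = x % 4 := and_ones x 2
theorem land_63 (x : ℕ) : x &&& 63 = x % 64 := and_ones x 6

theorem lowc_dec {E F : Q4} (h1 : E.2.2.1 < 16) (h2 : F.2.2.1 < 16) (h3 : E.2.2.2 < 4)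
    (h4 : F.2.2.2 < 4) : lowc E F &&& 15 = E.2.2.1 ∧ (lowc E F >>> 4) &&& 15 = F.2.2.1 ∧
    (lowc E F >>> 8) &&& 3 = E.2.2.2 ∧ (lowc E F >>> 10) &&& 3 = F.2.2.2 ∧
    lowc E F >>> 12 = 13 * (E.2.2.1 + F.2.2.1) + 40 * (E.2.2.2 + F.2.2.2) := by
  simp only [land_15, land_3, Nat.shiftRight_eq_div_pow, lowc, Nat.reducePow]
  generalize 13 * (E.2.2.1 + F.2.2.1) + 40 * (E.2.2.2 + F.2.2.2) = g
  refine ⟨by omega, by omega, by omega, by omega, by omega⟩

variable {p : Pm}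

theorem inner_lt (h : WF p) {w f b e : ℕ} (hw : w < p.nw) (hf : f < p.bb) (hb : b < p.nb)
    (he : e < p.bb) : b * p.bb + e < p.sf ∧ w * p.bb + f < p.nw * p.bb ∧
    p.sf * (w * p.bb + f) + (b * p.bb + e) < sk p := by
  have h1 : b * p.bb + e < p.sf := by have := h.nb; nlinarith
  have h2 : w * p.bb + f < p.nw * p.bb := by nlinarith
  refine ⟨h1, h2, ?_⟩
  rw [sk, ← mul_assoc]
  nlinarith

theorem pos_lt {k n w f b e : ℕ} (h : p.sf * (w * p.bb + f) + (b * p.bb + e) < sk p)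
    (hk : k < n) : pos p k w f b e < sk p * n := by
  rw [pos]
  nlinarith

theorem lenV_eq (V : ℕ) : lenV p V = min p.lm (p.d2 + byte p.cf.dv V + 1 - p.c1) := by
  change Bool.rec (motive := fun _ => ℕ) p.lm (p.d2 + byte p.cf.dv V + 1 - p.c1)
    (Nat.ble (p.d2 + byte p.cf.dv V + 1 - p.c1) p.lm) = _
  rcases h : Nat.ble (p.d2 + byte p.cf.dv V + 1 - p.c1) p.lm with _ | _
  · have : ¬ p.d2 + byte p.cf.dv V + 1 - p.c1 ≤ p.lm := fun h' => by
      rw [Nat.ble_eq_true_of_le h'] at h; exact absurd h (by simp)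
    change p.lm = _
    omega
  · have := Nat.le_of_ble_eq_true h
    change p.d2 + byte p.cf.dv V + 1 - p.c1 = _
    omega

/-- the tables of the right unit and of the middle generators -/
structure IniT (p : Pm) (NV : ℕ) (et : ℕ → ℕ → List Tm) (ml : ℕ → List (ℕ × ℕ)) : Prop where
  eta : ∀ U < NV, ∀ V < NV, Lin (TL.get (TLL.get p.cf.eta U) V) ((et U V).map Tm.codeE) ∧
    lwt ((et U V).map Tm.codeE) ≤ 6 ∧ ∀ τ ∈ et U V, τ.x.2.2.1 ≤ 6 ∧ τ.x.2.2.2 ≤ 1
  mid : ∀ j, Lin (TL.get p.mid j) ((ml j).map fun a => (1, a.1, a.2, 0)) ∧ (ml j).length ≤ 48 ∧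
    ∀ a ∈ ml j, a.2 < NV

variable {NV : ℕ} {et : ℕ → ℕ → List Tm} {ml : ℕ → List (ℕ × ℕ)}

theorem dig_blkT (h : WF p) (hT : IniT p NV et ml) (w' : ℕ) {U V : ℕ} (hU : U < NV) (hV : V < NV)
    (low i : ℕ) : dig (blkT p w' U V low) i = ((et U V).map fun τ =>
      τ.c * dig (blkB p w' (16 * τ.x.2.1) τ.s (low + lowc τ.x 0)) i).sum ∧
    dig (blkT p w' U V low) i ≤ 90 := by
  obtain ⟨h1, h2, -⟩ := hT.eta U hU V hV
  have h3 := dig_lsum (β := 15) (x := fun s d h => pw (blkB p w' h) s low d)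
    (l := (et U V).map Tm.codeE) (fun t ht j => by
      obtain ⟨τ, -, rfl⟩ := List.mem_map.1 ht
      exact blkB_le h _ _ _ _ _) (by omega) i
  rw [blkT, h1]
  refine ⟨?_, by omega⟩
  rw [h3.1, lsum, List.map_map]
  rfl

theorem blkT_zero (h : WF p) (hT : IniT p NV et ml) (w' : ℕ) {U V : ℕ} (hU : U < NV) (hV : V < NV)
    (low i : ℕ) (hi : p.sf ≤ i) : dig (blkT p w' U V low) i = 0 := by
  rw [(dig_blkT h hT w' hU hV low i).1]
  refine List.sum_eq_zero fun y hy => ?_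
  obtain ⟨τ, -, rfl⟩ := List.mem_map.1 hy
  rw [blkB_zero h _ _ _ _ _ hi, mul_zero]

theorem blkA_le (h : WF p) (w' U o i : ℕ) : dig (blkA p w' U (16 * o)) i ≤ 15 := by
  rw [dig_blkA h]
  split_ifs
  · exact ycB_le _ _ _ _
  · exact Nat.zero_le _

theorem dig_prod (h : WF p) (hT : IniT p NV et ml) (w' : ℕ) {U V : ℕ} (hU : U < NV) (hV : V < NV)
    (o low i : ℕ) : dig (blkA p w' U (16 * o) * blkT p w' U V low) i =
      dig (blkA p w' U (16 * o)) (p.sf * (i / p.sf)) * dig (blkT p w' U V low) (i % p.sf) :=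
  dig_outer' (α := 15) (β := 90) (by have := h.sf; omega) (blkT_zero h hT w' hU hV low)
    (fun k => (dig_blkT h hT w' hU hV low k).2) (by norm_num)
    (fun k hk => by rw [dig_blkA h, if_neg fun h => hk h.1]) (blkA_le h _ _ _) i

theorem dig_slab (h : WF p) (hT : IniT p NV et ml) {V : ℕ} (hV : V < NV) (low o j i : ℕ) :
    dig (slab p V low (16 * o) j) i = ((ml j).map fun a => dig (blkA p a.1 a.2 (16 * o))
      (p.sf * (i / p.sf)) * dig (blkT p a.1 a.2 V low) (i % p.sf)).sum := by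
  obtain ⟨h1, h2, h3⟩ := hT.mid j
  have hw : lwt ((ml j).map fun a => ((1, a.1, a.2, 0) : Q4)) = (ml j).length := by
    simp [lwt, List.map_map, Function.comp_def]
  have h4 := dig_lsum (β := 15 * 90)
    (x := fun w' U _ => blkA p w' U (16 * o) * blkT p w' U V low)
    (l := (ml j).map fun a => ((1, a.1, a.2, 0) : Q4)) (fun t ht k => by
      obtain ⟨a, ha, rfl⟩ := List.mem_map.1 ht
      rw [dig_prod h hT _ (h3 a ha) hV]
      exact Nat.mul_le_mul (blkA_le h _ _ _ _) (dig_blkT h hT _ (h3 a ha) hV _ _).2)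
    (by omega) i
  rw [slab, h1]
  refine h4.1.trans ?_
  rw [lsum, List.map_map]
  refine congrArg List.sum (List.map_congr_left fun a ha => ?_)
  simp only [Function.comp_apply, one_mul]
  exact dig_prod h hT _ (h3 a ha) hV _ _ _

theorem slab_zero (h : WF p) (hT : IniT p NV et ml) {V : ℕ} (hV : V < NV) (low o j i : ℕ)
    (hi : sk p ≤ i) : dig (slab p V low (16 * o) j) i = 0 := by
  rw [dig_slab h hT hV]
  refine List.sum_eq_zero fun y hy => ?_
  obtain ⟨a, -, rfl⟩ := List.mem_map.1 hy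
  rw [dig_blkA h, if_neg, zero_mul]
  rintro ⟨-, h2⟩
  have h3 := Nat.lt_of_mul_lt_mul_left h2
  rw [Nat.div_lt_iff_lt_mul (by have := h.sf; omega), mul_assoc] at h3
  exact absurd hi (Nat.not_le.2 h3)

/-- the value of the initial functional -/
noncomputable def val0 (p : Pm) (et : ℕ → ℕ → List Tm) (ml : ℕ → List (ℕ × ℕ)) (w b j V : ℕ)
    (E F : Q4) : ℕ :=
  ((ml j).map fun a => yb p.lo w a.2 a.1 (plc p F) *
    ((et a.2 V).map fun τ => τ.c * yb p.up a.1 τ.s b (plc p (E + τ.x))).sum).sum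

theorem slab_val (h : WF p) (hT : IniT p NV et ml) {V : ℕ} (hV : V < NV) (j : ℕ) {w b : ℕ}
    {E F : Q4} (hw : w < p.nw) (hb : b < p.nb) (hF : F.2.1 < p.bb) (hE : E.2.1 < p.bb)
    (h3 : E.2.2.1 ≤ 9) (h4 : E.2.2.2 ≤ 2) :
    dig (slab p V (lowc E 0) (16 * (p.s3 * F.2.2.1 + p.s4 * F.2.2.2)) j)
      (p.sf * (w * p.bb + F.2.1) + (b * p.bb + E.2.1)) =
      val0 p et ml (p.w0 + w) (p.b0 + b) j V E F := by
  obtain ⟨i1, i2, -⟩ := inner_lt h hw hF hb hE
  have hs : 0 < p.sf := by omega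
  rw [dig_slab h hT hV, Nat.mul_add_div hs, Nat.mul_add_mod, Nat.div_eq_of_lt i1,
    Nat.mod_eq_of_lt i1, add_zero, val0]
  refine congrArg List.sum (List.map_congr_left fun a ha => ?_)
  have hU := (hT.mid j).2.2 a ha
  rw [dig_blkA h, if_pos ⟨dvd_mul_right _ _, Nat.mul_lt_mul_of_pos_left i2 hs⟩,
    Nat.mul_div_cancel_left _ hs, mul_comm w, Nat.mul_add_div h.bb, Nat.mul_add_mod,
    Nat.div_eq_of_lt hF, Nat.mod_eq_of_lt hF, add_zero, (dig_blkT h hT _ hU hV _ _).1]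
  congr 2
  refine List.map_congr_left fun τ hτ => ?_
  obtain ⟨t1, t2⟩ := (hT.eta _ hU V hV).2.2 τ hτ
  have hd := lowc_dec (E := E + τ.x) (F := 0 + 0) (by simp; omega) (by simp) (by simp; omega)
    (by simp)
  rw [blkB_val h _ _ _ _ hb hE, ← lowc_add, hd.1, hd.2.2.1, plc]
  simp only [Prod.fst_add, Prod.snd_add, add_assoc]

theorem init_eq {V low m : ℕ} (h : lenV p V - low >>> 12 = m + 1) :
    init p V low = init2 p V m ((low >>> 4) &&& 15) ((low >>> 10) &&& 3) low := by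
  unfold init
  rw [show Nat.sub (lenV p V) (Nat.shiftRight low (nat_lit 12)) = m + 1 from h]
  rfl

theorem init2_eq (V m f3 f4 low : ℕ) : init2 p V m f3 f4 low =
    red2 p m (cat (fun k => slab p V (low - (53264 * f3 + 164864 * f4))
      (16 * (p.s3 * f3 + p.s4 * f4))
      (p.d2 + byte p.cf.dv V - (low - (53264 * f3 + 164864 * f4)) >>> 12 - k))
      (sk16 p) (m + 1)) := by
  simp only [init2, force_eq]
  rfl

theorem init_le (V low i : ℕ) : dig (init p V low) i ≤ 127 := by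
  unfold init
  have h1 := lenV_eq (p := p) V
  rcases h : Nat.sub (lenV p V) (Nat.shiftRight low 12) with _ | m
  · simp
  · exact red2_le (by change lenV p V - low >>> 12 = _ at h; omega) _ _

theorem init_val {L : Type*} [CommRing L] (h9 : (9 : L) = 0) (h : WF p) (hT : IniT p NV et ml)
    {V : ℕ} (hV : V < NV) {w b dw db : ℕ} {E F : Q4} (hw : w < p.nw) (hb : b < p.nb)
    (hc : p.c1 ≤ dw) (hd : db ≤ p.d2) (h1 : byte p.cf.dv V + db < dw + 4 * p.bb)
    (h2 : byte p.cf.dv V + p.d2 < dw + p.lm) (he : byte p.cf.dv V + db = dw + wt4 E + wt4 F) :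
    (dig (init p V (lowc E F)) (pos p (p.d2 - db + E.1 + 4 * E.2.1) w F.2.1 b E.2.1) : L) =
      val0 p et ml (p.w0 + w) (p.b0 + b) (dw + wt4 F) V E F := by
  have hbb := h.bb'
  have hlm := h.lm
  have hl := lenV_eq (p := p) V
  unfold wt4 at he
  obtain ⟨-, d2, -, d4, d5⟩ := lowc_dec (E := E) (F := F) (by omega) (by omega) (by omega)
    (by omega)
  obtain ⟨-, -, -, -, d6⟩ := lowc_dec (E := E) (F := 0) (by omega) (by simp) (by omega) (by simp)
  simp only [Prod.snd_zero, Prod.fst_zero, add_zero] at d6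
  obtain ⟨m, hm⟩ : ∃ m, lenV p V - lowc E F >>> 12 = m + 1 :=
    ⟨lenV p V - lowc E F >>> 12 - 1, by rw [d5]; omega⟩
  have e2 : lowc E F - (53264 * F.2.2.1 + 164864 * F.2.2.2) = lowc E 0 := by
    simp only [lowc, Prod.snd_zero, Prod.fst_zero]; omega
  rw [init_eq hm, d2, d4, init2_eq, e2, sk16_eq, d6]
  rw [d5] at hm
  clear d2 d4 d5 d6 e2
  obtain ⟨-, -, i3⟩ := inner_lt h hw (show F.2.1 < p.bb by omega) hb (show E.2.1 < p.bb by omega)
  have hk : p.d2 - db + E.1 + 4 * E.2.1 < m + 1 := by omega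
  have e4 : p.d2 + byte p.cf.dv V - (13 * E.2.2.1 + 40 * E.2.2.2) -
      (p.d2 - db + E.1 + 4 * E.2.1) = dw + wt4 F := by
    unfold wt4
    omega
  rw [red2_cast h9 (by omega) _ (pos_lt i3 hk), pos,
    (isCat_cat (fun k i hi => slab_zero h hT hV _ _ _ i hi) _).2 _ (by omega) hk _ i3, e4,
    slab_val h hT hV _ hw hb (by omega) (by omega) (by omega) (by omega)]

end Vale.Agent.P236KE
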