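import Vale.Agent.P236KE.Ini

/-!
# P236KE / Lev : arrays represent functionals; transposed multiplication
-/

namespace Vale.Agent.P236KE

variable {L : Type*} [CommRing L] {p : Pm} {NV w b dw db : ℕ}

/-- the monomial `V` fits into the arrays -/
structure Fit (p : Pm) (dw db V : ℕ) : Prop where
  bb : byte p.cf.dv V + db < dw + 4 * p.bb
  lm : byte p.cf.dv V + p.d2 < dw + p.lm
  tt : byte p.cf.dv V + db ≤ p.tt

/-- the position of a pair of generators in the group -/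
structure Sd (p : Pm) (w b dw db : ℕ) : Prop where
  hw : w < p.nw
  hb : b < p.nb
  hc : p.c1 ≤ dw
  hd : db ≤ p.d2

/-- the arrays `X` represent the values `val` -/
structure Rep (p : Pm) (NV w b dw db : ℕ) (X : ℕ → ℕ → ℕ) (u : ℕ) (val : ℕ → Q4 → Q4 → L) :
    Prop where
  le : ∀ V < NV, ∀ low i, dig (X V low) i ≤ 127
  dvd : ∀ V < NV, Fit p dw db V → ∀ E F, byte p.cf.dv V + db = dw + u + wt4 E + wt4 F →
    ((byte p.cf.md V : ℕ) : L) ∣ (dig (X V (lowc E F))
      (pos p (p.d2 - db + E.1 + 4 * E.2.1) w F.2.1 b E.2.1) : L) - val V E F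

/-- the table of a diagonal -/
def LevT (cf : Cf) (NV : ℕ) (t : TL) (tm : ℕ → List Tm) (n β : ℕ) : Prop :=
  ∀ V < NV, Lin (TL.get t V) ((tm V).map Tm.code) ∧ lwt ((tm V).map Tm.code) ≤ β ∧
    ∀ τ ∈ tm V, τ.s < NV ∧ byte cf.dv V + wt4 τ.x + wt4 τ.y = byte cf.dv τ.s + n ∧
      byte cf.dv τ.s ≤ byte cf.dv V ∧ byte cf.md V ∣ byte cf.md τ.s ∧ τ.x.2.1 < 64 ∧ τ.y.2.1 < 64

/-- a recurrence between two systems of values -/
def Stp (cf : Cf) (NV : ℕ) (tm : ℕ → List Tm) (val val' : ℕ → Q4 → Q4 → L) : Prop :=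
  ∀ V < NV, ∀ E F, ((byte cf.md V : ℕ) : L) ∣
    val' V E F - ((tm V).map fun τ => (τ.c : L) * val τ.s (E + τ.x) (F + τ.y)).sum

/-- a reduction of digits -/
structure Red (L : Type*) [CommRing L] (p : Pm) (red : ℕ → ℕ → ℕ) (β : ℕ) : Prop where
  lt : β * 127 < 65536
  le : ∀ m < p.lm, ∀ x, (∀ i, dig x i ≤ β * 127) → ∀ i, dig (red m x) i ≤ 127
  eq : ∀ m < p.lm, ∀ x, ∀ i < sk p * (m + 1), (dig (red m x) i : L) = dig x i

theorem red_one (h9 : (9 : L) = 0) : Red L p (red1 p) 32 :=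
  ⟨by norm_num, fun _ hm _ hx => red1_le hm fun i => (hx i).trans (by norm_num),
    fun _ hm x _ hi => red1_cast h9 hm x hi⟩

theorem red_two (h9 : (9 : L) = 0) : Red L p (red2 p) 516 :=
  ⟨by norm_num, fun _ hm x _ => red2_le hm x, fun _ hm x _ hi => red2_cast h9 hm x hi⟩

theorem dvd_list {α : Type*} {d : L} {f g : α → L} : ∀ {l : List α},
    (∀ a ∈ l, d ∣ f a - g a) → d ∣ (l.map f).sum - (l.map g).sum
  | [], _ => by simp
  | a :: l, h => by
    have h1 := dvd_list (l := l) fun x hx => h x (List.mem_cons_of_mem _ hx)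
    have h2 := dvd_add (h a List.mem_cons_self) h1
    rw [List.map_cons, List.map_cons, List.sum_cons, List.sum_cons]
    convert h2 using 1
    ring

theorem shf_eq {a c d : ℕ} (hc : c < 64) (hd : d < 64) :
    shf p (a * 4096 + c * 64 + d) = 16 * (sk p * a + (p.sf * c + d)) := by
  change sk16 p * ((a * 4096 + c * 64 + d) >>> 12) +
    sf16 p * (((a * 4096 + c * 64 + d) >>> 6) &&& 63) + 16 * ((a * 4096 + c * 64 + d) &&& 63) = _
  simp only [land_63, Nat.shiftRight_eq_div_pow, Nat.reducePow]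
  rw [show (a * 4096 + c * 64 + d) / 4096 = a by omega,
    show (a * 4096 + c * 64 + d) / 64 % 64 = c by omega,
    show (a * 4096 + c * 64 + d) % 64 = d by omega, sk16_eq, sf16_eq]
  ring

theorem lev_eq {red : ℕ → ℕ → ℕ} {t : TL} {X : ℕ → ℕ → ℕ} {u V low m : ℕ}
    (h : lenV p V - (u + low >>> 12) = m + 1) : lev p red t X u V low =
      red m ((TL.get t V).f fun s d h => X s (low + d) >>> shf p h) := by
  unfold lev
  rw [show Nat.sub (lenV p V) (Nat.add u (Nat.shiftRight low (nat_lit 12))) = m + 1 from h]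
  rfl

theorem lev_zero {red : ℕ → ℕ → ℕ} {t : TL} {X : ℕ → ℕ → ℕ} {u V low : ℕ}
    (h : lenV p V - (u + low >>> 12) = 0) : lev p red t X u V low = 0 := by
  unfold lev
  rw [show Nat.sub (lenV p V) (Nat.add u (Nat.shiftRight low (nat_lit 12))) = 0 from h]
  rfl

theorem Rep.lev (h : WF p) (hs : Sd p w b dw db) {red : ℕ → ℕ → ℕ} {β : ℕ} (hr : Red L p red β)
    {t : TL} {tm : ℕ → List Tm} {n : ℕ} (ht : LevT p.cf NV t tm n β) {X : ℕ → ℕ → ℕ} {u : ℕ}
    {val val' : ℕ → Q4 → Q4 → L} (hX : Rep p NV w b dw db X u val)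
    (hv : Stp p.cf NV tm val val') :
    Rep p NV w b dw db (Vale.Agent.P236KE.lev p red t X (u + n)) (u + n) val' := by
  have key : ∀ V < NV, ∀ low i, dig ((TL.get t V).f fun s d h => X s (low + d) >>> shf p h) i =
      ((tm V).map fun τ => τ.c * dig (X τ.s (low + lowc τ.x τ.y))
        (i + (sk p * (τ.x.1 + 4 * τ.x.2.1) + (p.sf * τ.y.2.1 + τ.x.2.1)))).sum ∧
      dig ((TL.get t V).f fun s d h => X s (low + d) >>> shf p h) i ≤ β * 127 := by
    intro V hV low i
    obtain ⟨h1, h2, h3⟩ := ht V hV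
    have h4 : ∀ τ ∈ tm V, ∀ i, dig (X τ.s (low + lowc τ.x τ.y) >>> shf p τ.code.2.2.2) i =
        dig (X τ.s (low + lowc τ.x τ.y))
          (i + (sk p * (τ.x.1 + 4 * τ.x.2.1) + (p.sf * τ.y.2.1 + τ.x.2.1))) := fun τ hτ i => by
      obtain ⟨-, -, -, -, h5, h6⟩ := h3 τ hτ
      rw [show τ.code.2.2.2 = (τ.x.1 + 4 * τ.x.2.1) * 4096 + τ.y.2.1 * 64 + τ.x.2.1 from rfl,
        shf_eq h6 h5, dig_shr]
    have h5 := Nat.mul_le_mul_right 127 h2
    have h6 := dig_lsum (β := 127) (x := fun s d h => X s (low + d) >>> shf p h)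
      (l := (tm V).map Tm.code) (fun a ha j => by
        obtain ⟨τ, hτ, rfl⟩ := List.mem_map.1 ha
        exact (h4 τ hτ j).trans_le (hX.le _ (h3 τ hτ).1 _ _)) (h5.trans_lt hr.lt) i
    rw [h1]
    refine ⟨?_, h6.2.trans h5⟩
    rw [h6.1, lsum, List.map_map]
    exact congrArg List.sum (List.map_congr_left fun τ hτ => congrArg (τ.c * ·) (h4 τ hτ i))
  refine ⟨fun V hV low i => ?_, fun V hV hf E F he => ?_⟩
  · have hl := lenV_eq (p := p) V
    rcases hm : lenV p V - (u + n + low >>> 12) with _ | m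
    · rw [lev_zero hm]; simp
    · rw [lev_eq hm]
      exact hr.le m (by omega) _ (fun j => (key V hV low j).2) i
  · have hbb := h.bb'
    have hl := lenV_eq (p := p) V
    obtain ⟨f1, f2, f3⟩ := hf
    obtain ⟨s1, s2, s3, s4⟩ := hs
    have he' := he
    unfold wt4 at he'
    obtain ⟨-, -, -, -, d5⟩ := lowc_dec (E := E) (F := F) (by omega) (by omega) (by omega)
      (by omega)
    obtain ⟨m, hm⟩ : ∃ m, lenV p V - (u + n + lowc E F >>> 12) = m + 1 :=
      ⟨lenV p V - (u + n + lowc E F >>> 12) - 1, by rw [d5]; omega⟩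
    rw [lev_eq hm]
    rw [d5] at hm
    clear d5
    obtain ⟨-, -, i3⟩ := inner_lt h s1 (show F.2.1 < p.bb by omega) s2
      (show E.2.1 < p.bb by omega)
    rw [hr.eq m (by omega) _ _ (pos_lt i3 (by omega)), (key V hV _ _).1, Nat.cast_list_sum,
      List.map_map]
    have h1 := dvd_list (d := ((byte p.cf.md V : ℕ) : L)) (l := tm V)
      (f := Nat.cast ∘ fun τ => τ.c * dig (X τ.s (lowc E F + lowc τ.x τ.y))
        (pos p (p.d2 - db + E.1 + 4 * E.2.1) w F.2.1 b E.2.1 +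
          (sk p * (τ.x.1 + 4 * τ.x.2.1) + (p.sf * τ.y.2.1 + τ.x.2.1))))
      (g := fun τ => (τ.c : L) * val τ.s (E + τ.x) (F + τ.y)) fun τ hτ => by
        obtain ⟨t1, t2, t3, t4, -⟩ := (ht V hV).2.2 τ hτ
        have h2 := hX.dvd τ.s t1 ⟨by omega, by omega, by omega⟩ (E + τ.x) (F + τ.y)
          (by rw [wt4_add, wt4_add]; omega)
        rw [Function.comp_apply, Nat.cast_mul, ← mul_sub, ← lowc_add]
        refine ((Nat.cast_dvd_cast t4).trans ?_).mul_left _
        convert h2 using 4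
        simp only [pos, Prod.fst_add, Prod.snd_add]
        ring
    have h2 := dvd_sub h1 (hv V hV E F)
    convert h2 using 1
    ring

theorem Rep.iter (h : WF p) (hs : Sd p w b dw db) {red : ℕ → ℕ → ℕ} {β : ℕ} (hr : Red L p red β)
    {t : TL} {tm : ℕ → List Tm} {n : ℕ} (ht : LevT p.cf NV t tm n β) {X : ℕ → ℕ → ℕ} {u : ℕ}
    {val : ℕ → ℕ → Q4 → Q4 → L} (hX : Rep p NV w b dw db X u (val 0))
    (hv : ∀ g, Stp p.cf NV tm (val g) (val (g + 1))) (g : ℕ) :
    Rep p NV w b dw db (Vale.Agent.P236KE.iter p red t X u n g) (u + n * g) (val g) := by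
  induction g with
  | zero => exact hX
  | succ g ih =>
    have h1 := ih.lev h hs hr ht (hv g)
    rw [add_assoc, ← Nat.mul_succ] at h1
    exact h1

end Vale.Agent.P236KE
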