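import Vale.Agent.P236KE.Alg
import Vale.Agent.P236EL.Form
import Vale.Agent.P236K2.Br

/-!
# P236KE / Main : the checks give the curvature condition and the leading terms
-/

noncomputable section

namespace Vale.Agent.P236KE

open MvPolynomial Vale.Agent.P236EL Vale.Agent.P236K2

variable [Fact (Nat.Prime 3)] {L : Type} [CommRing L]

/-- the tables of the data are correct -/
structure BsOk (a : Bs) (dm n : ℕ) : Prop where
  cf : a.cf = cf3
  mid : ∃ m, a.mid = ofL m ∧ midOk m dm n a.tt = true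
  tt : a.tt < 117
  s3 : a.s3 ≤ 32
  s4 : a.s4 ≤ 300

/-- the composite of the two matrices -/
def cv (L : Type) [CommRing L] (a : Bs) (dm n w b : ℕ) (E : ℕ →₀ ℕ) : AA L :=
  ∑ w' : Fin n, conv 3 (yOf L a.up dm a.dup a.s3 a.s4 w' b) (yOf L a.lo a.dlo dm a.s3 a.s4 w w') E

theorem cv_wt {a : Bs} {dm n w b : ℕ} {E m : ℕ →₀ ℕ} (h : coeff m (cv L a dm n w b E) ≠ 0) :
    Finsupp.weight (wt 3) m + byte a.dup b = Finsupp.weight (wt 3) E + byte a.dlo w := by
  have h1 : cv L a dm n w b E ∈ WA 3 L (Finsupp.weight (wz 3) E + byte a.dlo w - byte a.dup b) :=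
    AddSubgroup.sum_mem _ fun w' _ => by
      have h2 := grPt_id.rAp (homR_yOf a.up dm a.dup a.s3 a.s4 w' b)
        (grPt_id.Dop (homR_yOf (L := L) a.lo a.dlo dm a.s3 a.s4 w w') (monomial_one_mem E))
      rwa [show Finsupp.weight (wz 3) E + ((byte a.dlo w : ℤ) - byte dm w') +
        ((byte dm w' : ℤ) - byte a.dup b) =
          Finsupp.weight (wz 3) E + byte a.dlo w - byte a.dup b by ring] at h2
  have h2 := h1 h
  rw [show wz 3 = fun i => (wt 3 i : ℤ) from rfl, weight_cast, weight_cast] at h2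
  omega

theorem blk_cv (h9 : (9 : L) = 0) {a : Bs} {dm n : ℕ} (ha : BsOk a dm n) {g : Gp}
    (h : WF (mkP a g)) {V w b : ℕ} (hV : V < 15) (hw : w < g.nw) (hb : b < g.nb)
    (hs : side (mkP a g) V w b = 0) (G : Q4)
    (hG : wt4 (vm V) + byte a.dup (g.b0 + b) = byte a.dlo (g.w0 + w) + wt4 G)
    (ht : wt4 (vm V) + byte a.dup (g.b0 + b) ≤ a.tt) :
    (mdv V : L) ∣ (dig (blk (mkP a g) V w b) (g.sf * (3 * G.2.2.1 + 10 * G.2.2.2) + G.2.1) : L) -
      coeff (m4 (vm V)) (cv L a dm n (g.w0 + w) (g.b0 + b) (m4 G)) := by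
  obtain ⟨m, m1, m2⟩ := ha.mid
  have hc : (mkP a g).cf = cf3 := ha.cf
  have hd : ∀ V < 15, byte (mkP a g).cf.dv V = wt4 (vm V) ∧ byte (mkP a g).cf.md V = mdv V :=
    hc ▸ cf3_dv
  obtain ⟨s1, s2⟩ := of_side hs hw hb (by rw [(hd V hV).1]; exact ht)
  have h1 := blk_val (L := L) h9 h (hc ▸ cf3_cfT)
    (iniT_of (p := mkP a g) (hc ▸ cf_eta_eq) cf3_eta m1 m2) rfl rfl s1
    (hc ▸ val_valT (fun w' : Fin n => yOf L a.up dm a.dup a.s3 a.s4 w' (g.b0 + b))
      (fun w' : Fin n => yOf L a.lo a.dlo dm a.s3 a.s4 (g.w0 + w) w') (form L))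
    (fun V hV h1 E F h2 => by
      rw [(hd V hV).1] at h1 h2
      rw [(hd V hV).2]
      exact val0_dvd (form L) (mkP a g) dm _ _ hV h1 ha.tt ha.s3 ha.s4 h2) hV s2 G
    (by rw [(hd V hV).1]; exact hG)
  rw [(hd V hV).2, valT, show mon2 L 0 0 = 1 by rw [mon2, m4_zero]; rfl, mul_one, Zf_apply] at h1
  exact h1

/-- **The curvature condition.** -/
theorem cv_mem (h9 : (9 : L) = 0) {a : Bs} {dm n n' n'' : ℕ} (ha : BsOk a dm n') {gs : List Gp}
    (h : AllB (okK a) gs) (hc : cov gs 15 n n'' cf3.dv a.dlo a.dup a.tt = true) {w b : ℕ}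
    (hw : w < n) (hb : b < n'') (E : ℕ →₀ ℕ)
    (hE : Finsupp.weight (wt 3) E + byte a.dlo w ≤ a.tt) : cv L a dm n' w b E ∈ II 3 L ^ 3 := by
  have ht := ha.tt
  obtain ⟨G, rfl⟩ : ∃ G, E = m4 G := ⟨(E 0, E 1, E 2, E 3), eq_mk4 (by omega)⟩
  rw [wt_m4] at hE
  by_cases h0 : cv L a dm n' w b (m4 G) = 0
  · rw [h0]
    exact zero_mem _
  obtain ⟨m, hm⟩ := ne_zero_iff.1 h0
  have h1 := cv_wt hm
  rw [wt_m4] at h1
  refine mem_cube h9 (n := wt4 G + byte a.dlo w - byte a.dup b) (by omega) (fun m hm => ?_)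
    fun V hV e => ?_
  · have h2 := cv_wt hm
    rw [wt_m4] at h2
    omega
  · obtain ⟨d1, d2⟩ := cf3_dv V hV
    obtain ⟨g, hg, g1, w', g2, b', g3, rfl, rfl⟩ := of_cov hc hV hw hb (by omega) (by omega)
    have hc' : (mkP a g).cf = cf3 := ha.cf
    obtain ⟨k1, k2, k3⟩ := of_chk (p := mkP a g) (hc' ▸ cf3_rngT)
      (Nat.eq_of_beq_eq_true (h.mem g hg)) hV g1 g2 g3
      (by
        rw [hc', d2]
        exact (Nat.pow_le_pow_right (by omega) (min_le_left _ _)).trans (by omega))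
      (by rw [hc', d1]; change _ + byte a.dup (g.b0 + b') ≤ a.tt; omega)
      (by rw [hc', d1]; change byte a.dlo (g.w0 + w') ≤ _ + byte a.dup (g.b0 + b'); omega)
    have k4 := blk_cv h9 ha k1 hV g2 g3 k2 G (by omega) (by omega)
    rw [hc', d2] at k3
    exact (dvd_sub_right (Nat.cast_dvd_cast (k3 _))).1 k4

/-- a digit in front of a list without trailing zeros -/
def consT (a : ℕ) : List ℕ → List ℕ
  | [] => bif Nat.beq a 0 then [] else [a]
  | b :: l => a :: b :: l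

/-- remove trailing zeros -/
def trim : List ℕ → List ℕ
  | [] => []
  | a :: l => consT a (trim l)

omit [Fact (Nat.Prime 3)] in
theorem val_trim (l : List ℕ) : ∀ k j, val (((trim l).drop k).take j) = val ((l.drop k).take j) ∧
    val ((trim l).drop k) = val (l.drop k) := by
  induction l with
  | nil => exact fun _ _ => ⟨rfl, rfl⟩
  | cons a l ih =>
    intro k j
    have h0 : consT a (trim l) = a :: trim l ∨ (consT a (trim l) = [] ∧ a = 0 ∧ trim l = []) := by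
      rcases trim l with _ | ⟨b, m⟩
      · rcases a with _ | a
        · exact Or.inr ⟨rfl, rfl, rfl⟩
        · exact Or.inl rfl
      · exact Or.inl rfl
    have h1 : val (((a :: trim l).drop k).take j) = val (((a :: l).drop k).take j) ∧
        val ((a :: trim l).drop k) = val ((a :: l).drop k) := by
      rcases k with _ | k
      · refine ⟨?_, congrArg (a + 3 * ·) (ih 0 0).2⟩
        rcases j with _ | j
        · rfl
        · exact congrArg (a + 3 * ·) (ih 0 j).1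
      · exact ih k j
    rw [trim]
    rcases h0 with h0 | ⟨h0, rfl, h2⟩
    · rw [h0]
      exact h1
    · rw [h0, ← h1.1, ← h1.2, h2]
      rcases k with _ | k
      · rcases j with _ | j <;> simp [val]
      · simp

omit [Fact (Nat.Prime 3)] in
theorem toG_trim (l : List ℕ) : toG (trim l) = toG l := by
  have h := (val_trim l 0 5).1
  rw [List.drop_zero, List.drop_zero] at h
  simp only [toG, List.drop_drop, h, (val_trim l _ _).1, (val_trim l _ 0).2]

/-- the leading terms belonging to the generator `w` -/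
def ltsOf (z : Gb) (dlo dup nG w : ℕ) : List (List ℕ) :=
  ((List.range nG).filter fun b => Nat.beq (z.lt b 0) w).map fun b =>
    trim (dig4 (byte dup b - z.u0 dlo b) (z.lt b 1) (z.lt b 2) (z.lt b 3))

/-- the weights of the variables -/
def lamF (i : ℕ) : ℕ := 2 ^ 35 + if i < 4 then 2 ^ (28 - 7 * i) else 0

omit [Fact (Nat.Prime 3)] in
theorem lamF_lt (i j : ℕ) : lamF (i + j + 1) < lamF i + 3 ^ (i + 1) * lamF j := by
  have h1 : ∀ k, 2 ^ 35 ≤ lamF k := fun k => Nat.le_add_right _ _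
  have h2 : lamF (i + j + 1) ≤ 2 ^ 35 + 2 ^ 28 := by
    rw [lamF]
    split_ifs
    · exact Nat.add_le_add_left (Nat.pow_le_pow_right (by omega) (by omega)) _
    · omega
  have h3 : 1 * 2 ^ 35 ≤ 3 ^ (i + 1) * lamF j :=
    Nat.mul_le_mul (Nat.one_le_pow _ _ (by omega)) (h1 j)
  have h4 := h1 i
  omega

/-- the conditions on the leading terms -/
def gbOk (z : Gb) (dlo dup nG T : ℕ) : Bool :=
  Nat.beq z.l1 (lamF 0) && Nat.beq z.l2 (lamF 1) && Nat.beq z.l3 (lamF 2) &&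
    Nat.beq z.l4 (lamF 3) &&
    (List.range nG).all fun b => Nat.ble (z.u0 dlo b) (byte dup b) && Nat.ble (byte dup b) T

/-- **The leading terms.** -/
theorem gb_of (h9 : (9 : L) = 0) {F : Type} [Field F] [CharP F 3] (π : L →+* F) {a : Bs}
    {dm n n' nG : ℕ} (ha : BsOk a dm n') {z : Gb} {gs : List Gp} (h : AllB (okG a z) gs)
    (hc : cov gs 1 n nG cf3.dv a.dlo a.dup a.tt = true)
    (hz : gbOk z a.dlo a.dup nG a.tt = true) (w : Fin n) :
    ∀ l ∈ ltsOf z a.dlo a.dup nG w, GB 3 (red π) (fun w : Fin n => byte a.dlo w)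
      (fun w => z.kap w) lamF (fun (w : Fin n) (w' : Fin n') =>
        yOf L a.lo a.dlo dm a.s3 a.s4 w w') w (toG l) := by
  simp only [gbOk, Bool.and_eq_true, Nat.beq_eq, List.all_eq_true, List.mem_range,
    Nat.ble_eq] at hz
  obtain ⟨⟨⟨⟨z1, z2⟩, z3⟩, z4⟩, z5⟩ := hz
  intro l hl
  simp only [ltsOf, List.mem_map, List.mem_filter, List.mem_range, Nat.beq_eq] at hl
  obtain ⟨b, ⟨hb, hw⟩, rfl⟩ := hl
  obtain ⟨z6, z7⟩ := z5 b hb
  have ht := ha.tt
  have hu : z.u0 a.dlo b = byte a.dlo w + 4 * z.lt b 1 + (13 * z.lt b 2 + 40 * z.lt b 3) := by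
    rw [← hw]
    rfl
  have key : ∀ w : Fin n, ∀ G : Q4, byte a.dup b = byte a.dlo w + wt4 G →
      ((w = z.lt b 0 ∧ G.2.1 = z.lt b 1 ∧ G.2.2.1 = z.lt b 2 ∧ G.2.2.2 = z.lt b 3) →
        red π (cv L a dm n' w b (m4 G)) ≠ 0) ∧
      (red π (cv L a dm n' w b (m4 G)) = 0 ∨
        z.key w G.1 G.2.1 G.2.2.1 G.2.2.2 < z.th a.dlo a.dup b ∨
        (w = z.lt b 0 ∧ G.2.1 = z.lt b 1 ∧ G.2.2.1 = z.lt b 2 ∧ G.2.2.2 = z.lt b 3)) := by
    intro w G e
    have d0 : byte cf3.dv 0 = 0 := (cf3_dv 0 (by omega)).1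
    obtain ⟨g, hg, -, w', g2, b', g3, e1, rfl⟩ :=
      of_cov hc Nat.one_pos w.2 hb (by omega) (by omega)
    have hc' : (mkP a g).cf = cf3 := ha.cf
    rw [e1] at e ⊢
    obtain ⟨k1, k2, k3, k4⟩ := of_chkG (p := mkP a g) (hc' ▸ cf3_rngT) (hc' ▸ cf3_cfT.nd)
      (Nat.eq_of_beq_eq_true (h.mem g hg)) g2 g3
      (by change byte a.dlo (g.w0 + w') ≤ byte a.dup (g.b0 + b'); omega)
    have k5 := blk_cv h9 ha k1 (V := 0) (by omega) g2 g3 k2 G
      ((zero_add _).trans e) ((zero_add _).trans_le z7)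
    rw [show ((mdv 0 : ℕ) : L) = 9 from Nat.cast_ofNat (n := 9), h9, zero_dvd_iff, sub_eq_zero,
      show m4 (vm 0) = 0 from m4_zero] at k5
    have k6 : red π (cv L a dm n' (g.w0 + w') (g.b0 + b') (m4 G)) = 0 ↔ 3 ∣
        dig (blk (mkP a g) 0 w' b') (g.sf * (3 * G.2.2.1 + 10 * G.2.2.2) + G.2.1) := by
      rw [red, eval₂Hom_zero'_apply, constantCoeff_eq, ← k5, map_natCast,
        CharP.cast_eq_zero_iff F 3]
    rw [Ne, k6]
    refine ⟨fun e2 => ?_, k4 G.1 G.2.1 G.2.2.1 G.2.2.2 e⟩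
    rw [e2.2.1, e2.2.2.1, e2.2.2.2]
    exact k3 e2.1
  have hk : ∀ (w : ℕ) (G : Q4), z.kap w + Finsupp.weight lamF (m4 G) =
      z.key w G.1 G.2.1 G.2.2.1 G.2.2.2 := fun w G => by
    rw [m4, weight_mk4, ← z1, ← z2, ← z3, ← z4]
    change _ = z.kap w + G.1 * z.l1 + (G.2.1 * z.l2 + G.2.2.1 * z.l3 + G.2.2.2 * z.l4)
    ring
  set G0 : Q4 := (byte a.dup b - z.u0 a.dlo b, z.lt b 1, z.lt b 2, z.lt b 3) with hG0
  have e0 : byte a.dup b = byte a.dlo w + wt4 G0 := by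
    simp only [hG0, wt4]
    omega
  rw [toG_trim, toG_dig4 (by omega), show mk4 _ _ _ _ = m4 G0 from rfl]
  refine ⟨fun w' => yOf L a.up dm a.dup a.s3 a.s4 w' b, (key w G0 e0).1 ⟨hw.symm, rfl, rfl, rfl⟩,
    fun w₁ E h1 h2 h3 => ?_⟩
  beta_reduce at h1 h2
  rw [wt_m4] at h1
  obtain ⟨G, rfl⟩ : ∃ G, E = m4 G := ⟨(E 0, E 1, E 2, E 3), eq_mk4 (by omega)⟩
  rw [wt_m4] at h1
  rw [hk, hk, ← hw] at h2
  rcases (key w₁ G (by omega)).2 with h4 | h4 | ⟨h4, h5, h6, h7⟩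
  · exact h4
  · exact absurd h4 (Nat.not_lt.2 h2)
  · have h8 : w₁ = w := Fin.ext (h4.trans hw)
    subst h8
    refine absurd (congrArg (fun G => (w₁, m4 G)) (Prod.ext ?_ (Prod.ext h5 (Prod.ext h6 h7)))) h3
    simp only [wt4, hG0] at h1 ⊢
    omega

end Vale.Agent.P236KE

end
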